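import Crest.Agent.R187.C.Inst
import Crest.Agent.R187.C.Cert0
import Crest.Agent.R187.C.Cert1
import Crest.Agent.R187.C.Cert2
import Crest.Agent.R187.C.Cert3

/-! Generated data for row 187 (unverified input of the kernel checks). -/

set_option autoImplicit false
set_option maxRecDepth 100000

namespace Crest.Agent.R187

noncomputable def jt0_0 : BT := (.nd (nat_lit 15253414338) (.nd (nat_lit 15253410180) (.nd (nat_lit 15236637185) (.nd (nat_lit 15236637122) (.nd (nat_lit 15236637120) (.nd (nat_lit 15236637060) (.lf (nat_lit 0x38c2ca184)) (.lf (nat_lit 0x38c2ca1c0))) (.nd (nat_lit 15236637121) (.lf (nat_lit 0x38c2ca1c1)) (.lf (nat_lit 0x38c2ca1c2)))) (.nd (nat_lit 15236637124) (.nd (nat_lit 15236637123) (.lf (nat_lit 0x38c2ca1c3)) (.lf (nat_lit 0x38c2ca1c4))) (.nd (nat_lit 15236637184) (.lf (nat_lit 0x38c2ca200)) (.lf (nat_lit 0x38c2ca201))))) (.nd (nat_lit 15236637249) (.nd (nat_lit 15236637187) (.nd (nat_lit 15236637186) (.lf (nat_lit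 0x38c2ca202)) (.lf (nat_lit 0x38c2ca203))) (.nd (nat_lit 15236637248) (.lf (nat_lit 0x38c2ca240)) (.lf (nat_lit 0x38c2ca241)))) (.nd (nat_lit 15252881862) (.nd (nat_lit 15236637250) (.lf (nat_lit 0x38c2ca242)) (.lf (nat_lit 0x38d2481c6))) (.nd (nat_lit 15253406148) (.lf (nat_lit 0x38d2c81c4)) (.lf (nat_lit 0x38d2c9184)))))) (.nd (nat_lit 15253414211) (.nd (nat_lit 15253410304) (.nd (nat_lit 15253410242) (.nd (nat_lit 15253410240) (.lf (nat_lit 0x38d2c91c0)) (.lf (nat_lit 0x38d2c91c2))) (.nd (nat_lit 15253410243) (.lf (nat_lit 0x38d2c91c3)) (.lf (nat_lit 0x38d2c9200)))) (.nd (nat_lit 15253410306) (.nd (nat_lit 15253410305) (.lf (nat_lit 0x38d2c9201)) (.lf (nat_lit 0x38d2c9202))) (.nd (nat_lit 15253414208) (.lf (nat_lit 0x38d2ca140)) (.lf (nat_lit 0x38d2ca143))))) (.nd (nat_lit 15253414274) (.nd (nat_lit 15253414272) (.nd (nat_lit 15253414212) (.lf (nat_lit 0x38d2ca144)) (.lf (nat_lit 0x38d2ca180))) (.nd (nat_lit 15253414273) (.lf (nat_lit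 0x38d2ca181)) (.lf (nat_lit 0x38d2ca182)))) (.nd (nat_lit 15253414336) (.nd (nat_lit 15253414275) (.lf (nat_lit 0x38d2ca183)) (.lf (nat_lit 0x38d2ca1c0))) (.nd (nat_lit 15253414337) (.lf (nat_lit 0x38d2ca1c1)) (.lf (nat_lit 0x38d2ca1c2))))))) (.nd (nat_lit 15253672385) (.nd (nat_lit 15253668291) (.nd (nat_lit 15253668228) (.nd (nat_lit 15253414401) (.nd (nat_lit 15253414400) (.lf (nat_lit 0x38d2ca200)) (.lf (nat_lit 0x38d2ca201))) (.nd (nat_lit 15253414464) (.lf (nat_lit 0x38d2ca240)) (.lf (nat_lit 0x38d308184)))) (.nd (nat_lit 15253668289) (.nd (nat_lit 15253668288) (.lf (nat_lit 0x38d3081c0)) (.lf (nat_lit 0x38d3081c1))) (.nd (nat_lit 15253668290) (.lf (nat_lit 0x38d3081c2)) (.lf (nat_lit 0x38d3081c3))))) (.nd (nat_lit 15253672321) (.nd (nat_lit 15253672260) (.nd (nat_lit 15253672259) (.lf (nat_lit 0x38d309143)) (.lf (nat_lit 0x38d309144))) (.nd (nat_lit 15253672320) (.lf (nat_lit 0x38d309180)) (.lf (nat_lit 0x38d309181)))) (.nd (nat_lit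 15253672323) (.nd (nat_lit 15253672322) (.lf (nat_lit 0x38d309182)) (.lf (nat_lit 0x38d309183))) (.nd (nat_lit 15253672384) (.lf (nat_lit 0x38d3091c0)) (.lf (nat_lit 0x38d3091c1)))))) (.nd (nat_lit 15253676353) (.nd (nat_lit 15253676288) (.nd (nat_lit 15253672448) (.nd (nat_lit 15253672386) (.lf (nat_lit 0x38d3091c2)) (.lf (nat_lit 0x38d309200))) (.nd (nat_lit 15253672449) (.lf (nat_lit 0x38d309201)) (.lf (nat_lit 0x38d30a100)))) (.nd (nat_lit 15253676291) (.nd (nat_lit 15253676290) (.lf (nat_lit 0x38d30a102)) (.lf (nat_lit 0x38d30a103))) (.nd (nat_lit 15253676352) (.lf (nat_lit 0x38d30a140)) (.lf (nat_lit 0x38d30a141))))) (.nd (nat_lit 15253676417) (.nd (nat_lit 15253676355) (.nd (nat_lit 15253676354) (.lf (nat_lit 0x38d30a142)) (.lf (nat_lit 0x38d30a143))) (.nd (nat_lit 15253676416) (.lf (nat_lit 0x38d30a180)) (.lf (nat_lit 0x38d30a181)))) (.nd (nat_lit 15253676480) (.nd (nat_lit 15253676418) (.lf (nat_lit 0x38d30a182)) (.lf (nat_lit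 0x38d30a1c0))) (.nd (nat_lit 15253676481) (.lf (nat_lit 0x38d30a1c1)) (.lf (nat_lit 0x38d30a200))))))))
noncomputable def jt0_1 : BT := (.nd (nat_lit 15270187457) (.nd (nat_lit 15269925313) (.nd (nat_lit 15253680449) (.nd (nat_lit 15253680385) (.nd (nat_lit 15253680321) (.nd (nat_lit 15253680320) (.lf (nat_lit 0x38d30b0c0)) (.lf (nat_lit 0x38d30b0c1))) (.nd (nat_lit 15253680384) (.lf (nat_lit 0x38d30b100)) (.lf (nat_lit 0x38d30b101)))) (.nd (nat_lit 15253680387) (.nd (nat_lit 15253680386) (.lf (nat_lit 0x38d30b102)) (.lf (nat_lit 0x38d30b103))) (.nd (nat_lit 15253680448) (.lf (nat_lit 0x38d30b140)) (.lf (nat_lit 0x38d30b141))))) (.nd (nat_lit 15253680576) (.nd (nat_lit 15253680512) (.nd (nat_lit 15253680450) (.lf (nat_lit 0x38d30b142)) (.lf (nat_lit 0x38d30b180))) (.nd (nat_lit 15253680513) (.lf (nat_lit 0x38d30b181)) (.lf (nat_lit 0x38d30b1c0)))) (.nd (nat_lit 15269925251) (.nd (nat_lit 15269921219) (.lf (nat_lit 0x38e2881c3)) (.lf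 (nat_lit 0x38e289183))) (.nd (nat_lit 15269925312) (.lf (nat_lit 0x38e2891c0)) (.lf (nat_lit 0x38e2891c1)))))) (.nd (nat_lit 15270183362) (.nd (nat_lit 15270183296) (.nd (nat_lit 15269925376) (.nd (nat_lit 15269925314) (.lf (nat_lit 0x38e2891c2)) (.lf (nat_lit 0x38e289200))) (.nd (nat_lit 15269925377) (.lf (nat_lit 0x38e289201)) (.lf (nat_lit 0x38e2c8180)))) (.nd (nat_lit 15270183360) (.nd (nat_lit 15270183299) (.lf (nat_lit 0x38e2c8183)) (.lf (nat_lit 0x38e2c81c0))) (.nd (nat_lit 15270183361) (.lf (nat_lit 0x38e2c81c1)) (.lf (nat_lit 0x38e2c81c2))))) (.nd (nat_lit 15270187392) (.nd (nat_lit 15270187330) (.nd (nat_lit 15270187328) (.lf (nat_lit 0x38e2c9140)) (.lf (nat_lit 0x38e2c9142))) (.nd (nat_lit 15270187331) (.lf (nat_lit 0x38e2c9143)) (.lf (nat_lit 0x38e2c9180)))) (.nd (nat_lit 15270187394) (.nd (nat_lit 15270187393) (.lf (nat_lit 0x38e2c9181)) (.lf (nat_lit 0x38e2c9182))) (.nd (nat_lit 15270187456) (.lf (nat_lit 0x38e2c91c0))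 (.lf (nat_lit 0x38e2c91c1))))))) (.nd (nat_lit 15270445378) (.nd (nat_lit 15270191488) (.nd (nat_lit 15270191362) (.nd (nat_lit 15270191360) (.nd (nat_lit 15270187520) (.lf (nat_lit 0x38e2c9200)) (.lf (nat_lit 0x38e2ca100))) (.nd (nat_lit 15270191361) (.lf (nat_lit 0x38e2ca101)) (.lf (nat_lit 0x38e2ca102)))) (.nd (nat_lit 15270191425) (.nd (nat_lit 15270191424) (.lf (nat_lit 0x38e2ca140)) (.lf (nat_lit 0x38e2ca141))) (.nd (nat_lit 15270191426) (.lf (nat_lit 0x38e2ca142)) (.lf (nat_lit 0x38e2ca180))))) (.nd (nat_lit 15270441346) (.nd (nat_lit 15270191552) (.nd (nat_lit 15270191489) (.lf (nat_lit 0x38e2ca181)) (.lf (nat_lit 0x38e2ca1c0))) (.nd (nat_lit 15270441344) (.lf (nat_lit 0x38e307180)) (.lf (nat_lit 0x38e307182)))) (.nd (nat_lit 15270445376) (.nd (nat_lit 15270441347) (.lf (nat_lit 0x38e307183)) (.lf (nat_lit 0x38e308140))) (.nd (nat_lit 15270445377) (.lf (nat_lit 0x38e308141)) (.lf (nat_lit 0x38e308142)))))) (.nd (nat_lit 15270449409)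 (.nd (nat_lit 15270445442) (.nd (nat_lit 15270445440) (.nd (nat_lit 15270445379) (.lf (nat_lit 0x38e308143)) (.lf (nat_lit 0x38e308180))) (.nd (nat_lit 15270445441) (.lf (nat_lit 0x38e308181)) (.lf (nat_lit 0x38e308182)))) (.nd (nat_lit 15270445505) (.nd (nat_lit 15270445504) (.lf (nat_lit 0x38e3081c0)) (.lf (nat_lit 0x38e3081c1))) (.nd (nat_lit 15270449408) (.lf (nat_lit 0x38e309100)) (.lf (nat_lit 0x38e309101))))) (.nd (nat_lit 15270449474) (.nd (nat_lit 15270449472) (.nd (nat_lit 15270449410) (.lf (nat_lit 0x38e309102)) (.lf (nat_lit 0x38e309140))) (.nd (nat_lit 15270449473) (.lf (nat_lit 0x38e309141)) (.lf (nat_lit 0x38e309142)))) (.nd (nat_lit 15270449537) (.nd (nat_lit 15270449536) (.lf (nat_lit 0x38e309180)) (.lf (nat_lit 0x38e309181))) (.nd (nat_lit 15270449600) (.lf (nat_lit 0x38e3091c0)) (.lf (nat_lit 0x38e30a100))))))))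
noncomputable def jt0_2 : BT := (.nd (nat_lit 15286436289) (.nd (nat_lit 15270703490) (.nd (nat_lit 15270457600) (.nd (nat_lit 15270453569) (.nd (nat_lit 15270453506) (.nd (nat_lit 15270453505) (.lf (nat_lit 0x38e30a101)) (.lf (nat_lit 0x38e30a102))) (.nd (nat_lit 15270453568) (.lf (nat_lit 0x38e30a140)) (.lf (nat_lit 0x38e30a141)))) (.nd (nat_lit 15270457536) (.nd (nat_lit 15270453632) (.lf (nat_lit 0x38e30a180)) (.lf (nat_lit 0x38e30b0c0))) (.nd (nat_lit 15270457537) (.lf (nat_lit 0x38e30b0c1)) (.lf (nat_lit 0x38e30b100))))) (.nd (nat_lit 15270703425) (.nd (nat_lit 15270457664) (.nd (nat_lit 15270457601) (.lf (nat_lit 0x38e30b101)) (.lf (nat_lit 0x38e30b140))) (.nd (nat_lit 15270703424) (.lf (nat_lit 0x38e347140)) (.lf (nat_lit 0x38e347141)))) (.nd (nat_lit 15270703488) (.nd (nat_lit 15270703426) (.lf (nat_lit 0x38e347142)) (.lf (nat_lit 0x38e347180))) (.nd (nat_lit 15270703489) (.lf (nat_lit 0x38e347181)) (.lf (nat_lit 0x38e347182))))))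 (.nd (nat_lit 15270711553) (.nd (nat_lit 15270707584) (.nd (nat_lit 15270707521) (.nd (nat_lit 15270707520) (.lf (nat_lit 0x38e348140)) (.lf (nat_lit 0x38e348141))) (.nd (nat_lit 15270707522) (.lf (nat_lit 0x38e348142)) (.lf (nat_lit 0x38e348180)))) (.nd (nat_lit 15270707648) (.nd (nat_lit 15270707585) (.lf (nat_lit 0x38e348181)) (.lf (nat_lit 0x38e3481c0))) (.nd (nat_lit 15270711552) (.lf (nat_lit 0x38e349100)) (.lf (nat_lit 0x38e349101))))) (.nd (nat_lit 15270715648) (.nd (nat_lit 15270711617) (.nd (nat_lit 15270711616) (.lf (nat_lit 0x38e349140)) (.lf (nat_lit 0x38e349141))) (.nd (nat_lit 15270711680) (.lf (nat_lit 0x38e349180)) (.lf (nat_lit 0x38e34a100)))) (.nd (nat_lit 15270719744) (.nd (nat_lit 15270715712) (.lf (nat_lit 0x38e34a140)) (.lf (nat_lit 0x38e34b100))) (.nd (nat_lit 15286436288) (.lf (nat_lit 0x38f2481c0)) (.lf (nat_lit 0x38f2481c1))))))) (.nd (nat_lit 15286956418) (.nd (nat_lit 15286702400) (.nd (nat_lit 15286698369)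 (.nd (nat_lit 15286698307) (.nd (nat_lit 15286436290) (.lf (nat_lit 0x38f2481c2)) (.lf (nat_lit 0x38f288143))) (.nd (nat_lit 15286698368) (.lf (nat_lit 0x38f288180)) (.lf (nat_lit 0x38f288181)))) (.nd (nat_lit 15286698432) (.nd (nat_lit 15286698370) (.lf (nat_lit 0x38f288182)) (.lf (nat_lit 0x38f2881c0))) (.nd (nat_lit 15286698433) (.lf (nat_lit 0x38f2881c1)) (.lf (nat_lit 0x38f289140))))) (.nd (nat_lit 15286702465) (.nd (nat_lit 15286702402) (.nd (nat_lit 15286702401) (.lf (nat_lit 0x38f289141)) (.lf (nat_lit 0x38f289142))) (.nd (nat_lit 15286702464) (.lf (nat_lit 0x38f289180)) (.lf (nat_lit 0x38f289181)))) (.nd (nat_lit 15286956416) (.nd (nat_lit 15286702528) (.lf (nat_lit 0x38f2891c0)) (.lf (nat_lit 0x38f2c7180))) (.nd (nat_lit 15286956417) (.lf (nat_lit 0x38f2c7181)) (.lf (nat_lit 0x38f2c7182)))))) (.nd (nat_lit 15286964481) (.nd (nat_lit 15286960512) (.nd (nat_lit 15286960449) (.nd (nat_lit 15286960448) (.lf (nat_lit 0x38f2c8140))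 (.lf (nat_lit 0x38f2c8141))) (.nd (nat_lit 15286960450) (.lf (nat_lit 0x38f2c8142)) (.lf (nat_lit 0x38f2c8180)))) (.nd (nat_lit 15286960576) (.nd (nat_lit 15286960513) (.lf (nat_lit 0x38f2c8181)) (.lf (nat_lit 0x38f2c81c0))) (.nd (nat_lit 15286964480) (.lf (nat_lit 0x38f2c9100)) (.lf (nat_lit 0x38f2c9101))))) (.nd (nat_lit 15286964608) (.nd (nat_lit 15286964544) (.nd (nat_lit 15286964482) (.lf (nat_lit 0x38f2c9102)) (.lf (nat_lit 0x38f2c9140))) (.nd (nat_lit 15286964545) (.lf (nat_lit 0x38f2c9141)) (.lf (nat_lit 0x38f2c9180)))) (.nd (nat_lit 15286968577) (.nd (nat_lit 15286968576) (.lf (nat_lit 0x38f2ca100)) (.lf (nat_lit 0x38f2ca101))) (.nd (nat_lit 15286968640) (.lf (nat_lit 0x38f2ca140)) (.lf (nat_lit 0x38f306141))))))))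
noncomputable def jt0_3 : BT := (.nd (nat_lit 15287742784) (.nd (nat_lit 15287230720) (.nd (nat_lit 15287222530) (.nd (nat_lit 15287218498) (.nd (nat_lit 15287218496) (.nd (nat_lit 15287214402) (.lf (nat_lit 0x38f306142)) (.lf (nat_lit 0x38f307140))) (.nd (nat_lit 15287218497) (.lf (nat_lit 0x38f307141)) (.lf (nat_lit 0x38f307142)))) (.nd (nat_lit 15287218561) (.nd (nat_lit 15287218560) (.lf (nat_lit 0x38f307180)) (.lf (nat_lit 0x38f307181))) (.nd (nat_lit 15287222529) (.lf (nat_lit 0x38f308101)) (.lf (nat_lit 0x38f308102))))) (.nd (nat_lit 15287226624) (.nd (nat_lit 15287222593) (.nd (nat_lit 15287222592) (.lf (nat_lit 0x38f308140)) (.lf (nat_lit 0x38f308141))) (.nd (nat_lit 15287222656) (.lf (nat_lit 0x38f308180)) (.lf (nat_lit 0x38f309100)))) (.nd (nat_lit 15287226688) (.nd (nat_lit 15287226625) (.lf (nat_lit 0x38f309101)) (.lf (nat_lit 0x38f309140))) (.nd (nat_lit 15287230657) (.lf (nat_lit 0x38f30a0c1)) (.lf (nat_lit 0x38f30a100))))))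 (.nd (nat_lit 15287484673) (.nd (nat_lit 15287480640) (.nd (nat_lit 15287476545) (.nd (nat_lit 15287234752) (.lf (nat_lit 0x38f30b0c0)) (.lf (nat_lit 0x38f346141))) (.nd (nat_lit 15287476546) (.lf (nat_lit 0x38f346142)) (.lf (nat_lit 0x38f347140)))) (.nd (nat_lit 15287480704) (.nd (nat_lit 15287480641) (.lf (nat_lit 0x38f347141)) (.lf (nat_lit 0x38f347180))) (.nd (nat_lit 15287484672) (.lf (nat_lit 0x38f348100)) (.lf (nat_lit 0x38f348101))))) (.nd (nat_lit 15287738688) (.nd (nat_lit 15287488705) (.nd (nat_lit 15287484736) (.lf (nat_lit 0x38f348140)) (.lf (nat_lit 0x38f3490c1))) (.nd (nat_lit 15287488768) (.lf (nat_lit 0x38f349100)) (.lf (nat_lit 0x38f386140)))) (.nd (nat_lit 15287742720) (.nd (nat_lit 15287738689) (.lf (nat_lit 0x38f386141)) (.lf (nat_lit 0x38f387100))) (.nd (nat_lit 15287742721) (.lf (nat_lit 0x38f387101)) (.lf (nat_lit 0x38f387140))))))) (.nd (nat_lit 15303475521) (.nd (nat_lit 15303213440) (.nd (nat_lit 15303209344)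 (.nd (nat_lit 15287746816) (.nd (nat_lit 15287746753) (.lf (nat_lit 0x38f3880c1)) (.lf (nat_lit 0x38f388100))) (.nd (nat_lit 15287750848) (.lf (nat_lit 0x38f3890c0)) (.lf (nat_lit 0x390247180)))) (.nd (nat_lit 15303213377) (.nd (nat_lit 15303209346) (.lf (nat_lit 0x390247182)) (.lf (nat_lit 0x390248141))) (.nd (nat_lit 15303213378) (.lf (nat_lit 0x390248142)) (.lf (nat_lit 0x390248180))))) (.nd (nat_lit 15303471426) (.nd (nat_lit 15303213504) (.nd (nat_lit 15303213441) (.lf (nat_lit 0x390248181)) (.lf (nat_lit 0x3902481c0))) (.nd (nat_lit 15303471425) (.lf (nat_lit 0x390287141)) (.lf (nat_lit 0x390287142)))) (.nd (nat_lit 15303471489) (.nd (nat_lit 15303471488) (.lf (nat_lit 0x390287180)) (.lf (nat_lit 0x390287181))) (.nd (nat_lit 15303475520) (.lf (nat_lit 0x390288140)) (.lf (nat_lit 0x390288141)))))) (.nd (nat_lit 15303741696) (.nd (nat_lit 15303733568) (.nd (nat_lit 15303479553) (.nd (nat_lit 15303475584) (.lf (nat_lit 0x390288180))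 (.lf (nat_lit 0x390289101))) (.nd (nat_lit 15303479616) (.lf (nat_lit 0x390289140)) (.lf (nat_lit 0x3902c7140)))) (.nd (nat_lit 15303733632) (.nd (nat_lit 15303733569) (.lf (nat_lit 0x3902c7141)) (.lf (nat_lit 0x3902c7180))) (.nd (nat_lit 15303737664) (.lf (nat_lit 0x3902c8140)) (.lf (nat_lit 0x3902c9100))))) (.nd (nat_lit 17400898118) (.nd (nat_lit 15303995712) (.nd (nat_lit 15303991617) (.lf (nat_lit 0x390306141)) (.lf (nat_lit 0x390307140))) (.nd (nat_lit 15319986560) (.lf (nat_lit 0x391247180)) (.lf (nat_lit 0x40d2ca246)))) (.nd (nat_lit 17418203650) (.nd (nat_lit 17418199618) (.lf (nat_lit 0x40e34a242)) (.lf (nat_lit 0x40e34b202))) (.nd (nat_lit 17418203712) (.lf (nat_lit 0x40e34b240)) (.lf (nat_lit 0x40e34b241))))))))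
noncomputable def jt0_4 : BT := (.nd (nat_lit 17435250816) (.nd (nat_lit 17434984832) (.nd (nat_lit 17418207808) (.nd (nat_lit 17418207681) (.nd (nat_lit 17418207619) (.nd (nat_lit 17418203776) (.lf (nat_lit 0x40e34b280)) (.lf (nat_lit 0x40e34c183))) (.nd (nat_lit 17418207680) (.lf (nat_lit 0x40e34c1c0)) (.lf (nat_lit 0x40e34c1c1)))) (.nd (nat_lit 17418207744) (.nd (nat_lit 17418207682) (.lf (nat_lit 0x40e34c1c2)) (.lf (nat_lit 0x40e34c200))) (.nd (nat_lit 17418207745) (.lf (nat_lit 0x40e34c201)) (.lf (nat_lit 0x40e34c240))))) (.nd (nat_lit 17434980800) (.nd (nat_lit 17434976769) (.nd (nat_lit 17434718784) (.lf (nat_lit 0x40f30b240)) (.lf (nat_lit 0x40f34a201))) (.nd (nat_lit 17434976832) (.lf (nat_lit 0x40f34a240)) (.lf (nat_lit 0x40f34b1c0)))) (.nd (nat_lit 17434980864) (.nd (nat_lit 17434980801) (.lf (nat_lit 0x40f34b1c1)) (.lf (nat_lit 0x40f34b200))) (.nd (nat_lit 17434984770) (.lf (nat_lit 0x40f34c142)) (.lf (nat_lit 0x40f34c180))))))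 (.nd (nat_lit 17435242880) (.nd (nat_lit 17435238848) (.nd (nat_lit 17434984896) (.nd (nat_lit 17434984833) (.lf (nat_lit 0x40f34c181)) (.lf (nat_lit 0x40f34c1c0))) (.nd (nat_lit 17435234817) (.lf (nat_lit 0x40f389201)) (.lf (nat_lit 0x40f38a1c0)))) (.nd (nat_lit 17435238912) (.nd (nat_lit 17435238849) (.lf (nat_lit 0x40f38a1c1)) (.lf (nat_lit 0x40f38a200))) (.nd (nat_lit 17435242818) (.lf (nat_lit 0x40f38b142)) (.lf (nat_lit 0x40f38b180))))) (.nd (nat_lit 17435246850) (.nd (nat_lit 17435242944) (.nd (nat_lit 17435242881) (.lf (nat_lit 0x40f38b181)) (.lf (nat_lit 0x40f38b1c0))) (.nd (nat_lit 17435246848) (.lf (nat_lit 0x40f38c100)) (.lf (nat_lit 0x40f38c102)))) (.nd (nat_lit 17435246913) (.nd (nat_lit 17435246912) (.lf (nat_lit 0x40f38c140)) (.lf (nat_lit 0x40f38c141))) (.nd (nat_lit 17435246976) (.lf (nat_lit 0x40f38c180)) (.lf (nat_lit 0x40f38d080))))))) (.nd (nat_lit 17451761792) (.nd (nat_lit 17451229760) (.nd (nat_lit 17435250882)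 (.nd (nat_lit 17435250880) (.nd (nat_lit 17435250817) (.lf (nat_lit 0x40f38d081)) (.lf (nat_lit 0x40f38d0c0))) (.nd (nat_lit 17435250881) (.lf (nat_lit 0x40f38d0c1)) (.lf (nat_lit 0x40f38d0c2)))) (.nd (nat_lit 17435250945) (.nd (nat_lit 17435250944) (.lf (nat_lit 0x40f38d100)) (.lf (nat_lit 0x40f38d101))) (.nd (nat_lit 17435251008) (.lf (nat_lit 0x40f38d140)) (.lf (nat_lit 0x4102ca240))))) (.nd (nat_lit 17451753920) (.nd (nat_lit 17451495872) (.nd (nat_lit 17451491840) (.lf (nat_lit 0x41030a200)) (.lf (nat_lit 0x41030b1c0))) (.nd (nat_lit 17451749888) (.lf (nat_lit 0x410349200)) (.lf (nat_lit 0x41034a1c0)))) (.nd (nat_lit 17451757889) (.nd (nat_lit 17451757888) (.lf (nat_lit 0x41034b140)) (.lf (nat_lit 0x41034b141))) (.nd (nat_lit 17451757952) (.lf (nat_lit 0x41034b180)) (.lf (nat_lit 0x41034c080)))))) (.nd (nat_lit 17452015937) (.nd (nat_lit 17451761921) (.nd (nat_lit 17451761858) (.nd (nat_lit 17451761856) (.lf (nat_lit 0x41034c0c0))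 (.lf (nat_lit 0x41034c0c2))) (.nd (nat_lit 17451761920) (.lf (nat_lit 0x41034c100)) (.lf (nat_lit 0x41034c101)))) (.nd (nat_lit 17452011968) (.nd (nat_lit 17451761984) (.lf (nat_lit 0x41034c140)) (.lf (nat_lit 0x4103891c0))) (.nd (nat_lit 17452015936) (.lf (nat_lit 0x41038a140)) (.lf (nat_lit 0x41038a141))))) (.nd (nat_lit 17452019906) (.nd (nat_lit 17452019840) (.nd (nat_lit 17452016000) (.lf (nat_lit 0x41038a180)) (.lf (nat_lit 0x41038b080))) (.nd (nat_lit 17452019904) (.lf (nat_lit 0x41038b0c0)) (.lf (nat_lit 0x41038b0c2)))) (.nd (nat_lit 17452019969) (.nd (nat_lit 17452019968) (.lf (nat_lit 0x41038b100)) (.lf (nat_lit 0x41038b101))) (.nd (nat_lit 17452020032) (.lf (nat_lit 0x41038b140)) (.lf (nat_lit 0x41038c080))))))))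
noncomputable def jt0_5 : BT := (.nd (nat_lit 17468268928) (.nd (nat_lit 17452274048) (.nd (nat_lit 17452269890) (.nd (nat_lit 17452024064) (.nd (nat_lit 17452024000) (.nd (nat_lit 17452023937) (.lf (nat_lit 0x41038c081)) (.lf (nat_lit 0x41038c0c0))) (.nd (nat_lit 17452024001) (.lf (nat_lit 0x41038c0c1)) (.lf (nat_lit 0x41038c100)))) (.nd (nat_lit 17452028033) (.nd (nat_lit 17452028032) (.lf (nat_lit 0x41038d080)) (.lf (nat_lit 0x41038d081))) (.nd (nat_lit 17452028096) (.lf (nat_lit 0x41038d0c0)) (.lf (nat_lit 0x4103c8142))))) (.nd (nat_lit 17452273920) (.nd (nat_lit 17452269953) (.nd (nat_lit 17452269952) (.lf (nat_lit 0x4103c8180)) (.lf (nat_lit 0x4103c8181))) (.nd (nat_lit 17452270016) (.lf (nat_lit 0x4103c81c0)) (.lf (nat_lit 0x4103c9100)))) (.nd (nat_lit 17452273984) (.nd (nat_lit 17452273922) (.lf (nat_lit 0x4103c9102)) (.lf (nat_lit 0x4103c9140))) (.nd (nat_lit 17452273985) (.lf (nat_lit 0x4103c9141)) (.lf (nat_lit 0x4103c9180))))))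 (.nd (nat_lit 17452281985) (.nd (nat_lit 17452278016) (.nd (nat_lit 17452277953) (.nd (nat_lit 17452277952) (.lf (nat_lit 0x4103ca0c0)) (.lf (nat_lit 0x4103ca0c1))) (.nd (nat_lit 17452277954) (.lf (nat_lit 0x4103ca0c2)) (.lf (nat_lit 0x4103ca100)))) (.nd (nat_lit 17452278080) (.nd (nat_lit 17452278017) (.lf (nat_lit 0x4103ca101)) (.lf (nat_lit 0x4103ca140))) (.nd (nat_lit 17452281984) (.lf (nat_lit 0x4103cb080)) (.lf (nat_lit 0x4103cb081))))) (.nd (nat_lit 17452286080) (.nd (nat_lit 17452282049) (.nd (nat_lit 17452282048) (.lf (nat_lit 0x4103cb0c0)) (.lf (nat_lit 0x4103cb0c1))) (.nd (nat_lit 17452282112) (.lf (nat_lit 0x4103cb100)) (.lf (nat_lit 0x4103cc080)))) (.nd (nat_lit 17468006848) (.nd (nat_lit 17452286144) (.lf (nat_lit 0x4103cc0c0)) (.lf (nat_lit 0x4112ca1c0))) (.nd (nat_lit 17468264896) (.lf (nat_lit 0x4113091c0)) (.lf (nat_lit 0x41130a180))))))) (.nd (nat_lit 17468788993) (.nd (nat_lit 17468534977) (.nd (nat_lit 17468530944)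 (.nd (nat_lit 17468522944) (.nd (nat_lit 17468272960) (.lf (nat_lit 0x41130b140)) (.lf (nat_lit 0x4113481c0))) (.nd (nat_lit 17468526976) (.lf (nat_lit 0x411349180)) (.lf (nat_lit 0x41134a100)))) (.nd (nat_lit 17468534912) (.nd (nat_lit 17468531008) (.lf (nat_lit 0x41134a140)) (.lf (nat_lit 0x41134b080))) (.nd (nat_lit 17468534976) (.lf (nat_lit 0x41134b0c0)) (.lf (nat_lit 0x41134b0c1))))) (.nd (nat_lit 17468539072) (.nd (nat_lit 17468539008) (.nd (nat_lit 17468535040) (.lf (nat_lit 0x41134b100)) (.lf (nat_lit 0x41134c080))) (.nd (nat_lit 17468539009) (.lf (nat_lit 0x41134c081)) (.lf (nat_lit 0x41134c0c0)))) (.nd (nat_lit 17468785024) (.nd (nat_lit 17468784960) (.lf (nat_lit 0x411388140)) (.lf (nat_lit 0x411388180))) (.nd (nat_lit 17468788992) (.lf (nat_lit 0x411389100)) (.lf (nat_lit 0x411389101)))))) (.nd (nat_lit 17468797120) (.nd (nat_lit 17468793025) (.nd (nat_lit 17468792960) (.nd (nat_lit 17468789056) (.lf (nat_lit 0x411389140))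 (.lf (nat_lit 0x41138a080))) (.nd (nat_lit 17468793024) (.lf (nat_lit 0x41138a0c0)) (.lf (nat_lit 0x41138a0c1)))) (.nd (nat_lit 17468797056) (.nd (nat_lit 17468793088) (.lf (nat_lit 0x41138a100)) (.lf (nat_lit 0x41138b080))) (.nd (nat_lit 17468797057) (.lf (nat_lit 0x41138b081)) (.lf (nat_lit 0x41138b0c0))))) (.nd (nat_lit 17469043072) (.nd (nat_lit 17469043008) (.nd (nat_lit 17468801152) (.lf (nat_lit 0x41138c080)) (.lf (nat_lit 0x4113c7140))) (.nd (nat_lit 17469043009) (.lf (nat_lit 0x4113c7141)) (.lf (nat_lit 0x4113c7180)))) (.nd (nat_lit 17469046978) (.nd (nat_lit 17469046976) (.lf (nat_lit 0x4113c80c0)) (.lf (nat_lit 0x4113c80c2))) (.nd (nat_lit 17469047040) (.lf (nat_lit 0x4113c8100)) (.lf (nat_lit 0x4113c8101))))))))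
noncomputable def jt0_6 : BT := (.nd (nat_lit 17485041984) (.nd (nat_lit 17469305025) (.nd (nat_lit 17469055168) (.nd (nat_lit 17469051073) (.nd (nat_lit 17469051009) (.nd (nat_lit 17469047104) (.lf (nat_lit 0x4113c8140)) (.lf (nat_lit 0x4113c9081))) (.nd (nat_lit 17469051072) (.lf (nat_lit 0x4113c90c0)) (.lf (nat_lit 0x4113c90c1)))) (.nd (nat_lit 17469055104) (.nd (nat_lit 17469051136) (.lf (nat_lit 0x4113c9100)) (.lf (nat_lit 0x4113ca080))) (.nd (nat_lit 17469055105) (.lf (nat_lit 0x4113ca081)) (.lf (nat_lit 0x4113ca0c0))))) (.nd (nat_lit 17469300994) (.nd (nat_lit 17469300992) (.nd (nat_lit 17469059200) (.lf (nat_lit 0x4113cb080)) (.lf (nat_lit 0x411406100))) (.nd (nat_lit 17469300993) (.lf (nat_lit 0x411406101)) (.lf (nat_lit 0x411406102)))) (.nd (nat_lit 17469301057) (.nd (nat_lit 17469301056) (.lf (nat_lit 0x411406140)) (.lf (nat_lit 0x411406141))) (.nd (nat_lit 17469305024) (.lf (nat_lit 0x4114070c0)) (.lf (nat_lit 0x4114070c1))))))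 (.nd (nat_lit 17469313152) (.nd (nat_lit 17469305152) (.nd (nat_lit 17469305088) (.nd (nat_lit 17469305026) (.lf (nat_lit 0x4114070c2)) (.lf (nat_lit 0x411407100))) (.nd (nat_lit 17469305089) (.lf (nat_lit 0x411407101)) (.lf (nat_lit 0x411407140)))) (.nd (nat_lit 17469309121) (.nd (nat_lit 17469309120) (.lf (nat_lit 0x4114080c0)) (.lf (nat_lit 0x4114080c1))) (.nd (nat_lit 17469309184) (.lf (nat_lit 0x411408100)) (.lf (nat_lit 0x411409080))))) (.nd (nat_lit 17484775872) (.nd (nat_lit 17469313216) (.nd (nat_lit 17469313153) (.lf (nat_lit 0x411409081)) (.lf (nat_lit 0x4114090c0))) (.nd (nat_lit 17469317248) (.lf (nat_lit 0x41140a080)) (.lf (nat_lit 0x4122c81c0)))) (.nd (nat_lit 17484783936) (.nd (nat_lit 17484779904) (.lf (nat_lit 0x4122c9180)) (.lf (nat_lit 0x4122ca140))) (.nd (nat_lit 17485037952) (.lf (nat_lit 0x412308180)) (.lf (nat_lit 0x412309140))))))) (.nd (nat_lit 17485562048) (.nd (nat_lit 17485304001) (.nd (nat_lit 17485050048)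 (.nd (nat_lit 17485046016) (.nd (nat_lit 17485045952) (.lf (nat_lit 0x41230a0c0)) (.lf (nat_lit 0x41230a100))) (.nd (nat_lit 17485049985) (.lf (nat_lit 0x41230b081)) (.lf (nat_lit 0x41230b0c0)))) (.nd (nat_lit 17485300032) (.nd (nat_lit 17485296000) (.lf (nat_lit 0x412347180)) (.lf (nat_lit 0x412348140))) (.nd (nat_lit 17485304000) (.lf (nat_lit 0x4123490c0)) (.lf (nat_lit 0x4123490c1))))) (.nd (nat_lit 17485553984) (.nd (nat_lit 17485308096) (.nd (nat_lit 17485304064) (.lf (nat_lit 0x412349100)) (.lf (nat_lit 0x41234a0c0))) (.nd (nat_lit 17485312128) (.lf (nat_lit 0x41234b080)) (.lf (nat_lit 0x412386140)))) (.nd (nat_lit 17485558017) (.nd (nat_lit 17485558016) (.lf (nat_lit 0x412387100)) (.lf (nat_lit 0x412387101))) (.nd (nat_lit 17485558080) (.lf (nat_lit 0x412387140)) (.lf (nat_lit 0x4123880c0)))))) (.nd (nat_lit 17485820097) (.nd (nat_lit 17485816064) (.nd (nat_lit 17485562112) (.nd (nat_lit 17485562049) (.lf (nat_lit 0x4123880c1))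 (.lf (nat_lit 0x412388100))) (.nd (nat_lit 17485566144) (.lf (nat_lit 0x4123890c0)) (.lf (nat_lit 0x4123c6100)))) (.nd (nat_lit 17485816128) (.nd (nat_lit 17485816065) (.lf (nat_lit 0x4123c6101)) (.lf (nat_lit 0x4123c6140))) (.nd (nat_lit 17485820096) (.lf (nat_lit 0x4123c70c0)) (.lf (nat_lit 0x4123c70c1))))) (.nd (nat_lit 17486074113) (.nd (nat_lit 17485824192) (.nd (nat_lit 17485820160) (.lf (nat_lit 0x4123c7100)) (.lf (nat_lit 0x4123c80c0))) (.nd (nat_lit 17486074112) (.lf (nat_lit 0x412405100)) (.lf (nat_lit 0x412405101)))) (.nd (nat_lit 17486078208) (.nd (nat_lit 17486078145) (.lf (nat_lit 0x4124060c1)) (.lf (nat_lit 0x412406100))) (.nd (nat_lit 17486082240) (.lf (nat_lit 0x4124070c0)) (.lf (nat_lit 0x4132481c0))))))))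
noncomputable def jt0_7 : BT := (.nd (nat_lit 19599778240) (.nd (nat_lit 17502077120) (.nd (nat_lit 17501811008) (.nd (nat_lit 17501552960) (.nd (nat_lit 17501294912) (.nd (nat_lit 17501290880) (.lf (nat_lit 0x413288180)) (.lf (nat_lit 0x413289140))) (.nd (nat_lit 17501548928) (.lf (nat_lit 0x4132c7180)) (.lf (nat_lit 0x4132c8140)))) (.nd (nat_lit 17501556992) (.nd (nat_lit 17501556928) (.lf (nat_lit 0x4132c90c0)) (.lf (nat_lit 0x4132c9100))) (.nd (nat_lit 17501561024) (.lf (nat_lit 0x4132ca0c0)) (.lf (nat_lit 0x413307140))))) (.nd (nat_lit 17502068992) (.nd (nat_lit 17501815040) (.nd (nat_lit 17501814976) (.lf (nat_lit 0x4133080c0)) (.lf (nat_lit 0x413308100))) (.nd (nat_lit 17501819072) (.lf (nat_lit 0x4133090c0)) (.lf (nat_lit 0x413346100)))) (.nd (nat_lit 17502073025) (.nd (nat_lit 17502069056) (.lf (nat_lit 0x413346140)) (.lf (nat_lit 0x4133470c1))) (.nd (nat_lit 17502073088) (.lf (nat_lit 0x413347100)) (.lf (nat_lit 0x4133480c0))))))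 (.nd (nat_lit 17518067968) (.nd (nat_lit 17502335168) (.nd (nat_lit 17502331073) (.nd (nat_lit 17502327041) (.lf (nat_lit 0x413385101)) (.lf (nat_lit 0x4133860c1))) (.nd (nat_lit 17502331136) (.lf (nat_lit 0x413386100)) (.lf (nat_lit 0x4133870c0)))) (.nd (nat_lit 17517805888) (.nd (nat_lit 17517801856) (.lf (nat_lit 0x414247180)) (.lf (nat_lit 0x414248140))) (.nd (nat_lit 17518063936) (.lf (nat_lit 0x414287140)) (.lf (nat_lit 0x414288100))))) (.nd (nat_lit 17518584064) (.nd (nat_lit 17518321984) (.nd (nat_lit 17518072000) (.lf (nat_lit 0x4142890c0)) (.lf (nat_lit 0x4142c6140))) (.nd (nat_lit 17518326016) (.lf (nat_lit 0x4142c7100)) (.lf (nat_lit 0x414306100)))) (.nd (nat_lit 19599770176) (.nd (nat_lit 17534316864) (.lf (nat_lit 0x415207140)) (.lf (nat_lit 0x4903cc240))) (.nd (nat_lit 19599774208) (.lf (nat_lit 0x4903cd200)) (.lf (nat_lit 0x4903ce1c0))))))) (.nd (nat_lit 19633332416) (.nd (nat_lit 19616817408) (.nd (nat_lit 19616817216)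 (.nd (nat_lit 19616809344) (.nd (nat_lit 19616555328) (.lf (nat_lit 0x4913ce140)) (.lf (nat_lit 0x49140c180))) (.nd (nat_lit 19616813376) (.lf (nat_lit 0x49140d140)) (.lf (nat_lit 0x49140e040)))) (.nd (nat_lit 19616817344) (.nd (nat_lit 19616817280) (.lf (nat_lit 0x49140e080)) (.lf (nat_lit 0x49140e0c0))) (.nd (nat_lit 19616817345) (.lf (nat_lit 0x49140e0c1)) (.lf (nat_lit 0x49140e100))))) (.nd (nat_lit 19616821440) (.nd (nat_lit 19616821376) (.nd (nat_lit 19616821312) (.lf (nat_lit 0x49140f040)) (.lf (nat_lit 0x49140f080))) (.nd (nat_lit 19616821377) (.lf (nat_lit 0x49140f081)) (.lf (nat_lit 0x49140f0c0)))) (.nd (nat_lit 19633332352) (.nd (nat_lit 19633328384) (.lf (nat_lit 0x4923cd100)) (.lf (nat_lit 0x4923ce080))) (.nd (nat_lit 19633332353) (.lf (nat_lit 0x4923ce081)) (.lf (nat_lit 0x4923ce0c0)))))) (.nd (nat_lit 19633832384) (.nd (nat_lit 19633590464) (.nd (nat_lit 19633590400) (.nd (nat_lit 19633586432) (.lf (nat_lit 0x49240c100))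 (.lf (nat_lit 0x49240d080))) (.nd (nat_lit 19633590401) (.lf (nat_lit 0x49240d081)) (.lf (nat_lit 0x49240d0c0)))) (.nd (nat_lit 19633594496) (.nd (nat_lit 19633594432) (.lf (nat_lit 0x49240e040)) (.lf (nat_lit 0x49240e080))) (.nd (nat_lit 19633598528) (.lf (nat_lit 0x49240f040)) (.lf (nat_lit 0x4924481c0))))) (.nd (nat_lit 19633844480) (.nd (nat_lit 19633840448) (.nd (nat_lit 19633836416) (.lf (nat_lit 0x492449180)) (.lf (nat_lit 0x49244a140))) (.nd (nat_lit 19633844416) (.lf (nat_lit 0x49244b0c0)) (.lf (nat_lit 0x49244b100)))) (.nd (nat_lit 19633848449) (.nd (nat_lit 19633848448) (.lf (nat_lit 0x49244c080)) (.lf (nat_lit 0x49244c081))) (.nd (nat_lit 19633848512) (.lf (nat_lit 0x49244c0c0)) (.lf (nat_lit 0x49244d080))))))))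
noncomputable def jt0_8 : BT := (.nd (nat_lit 19667386560) (.nd (nat_lit 19650871488) (.nd (nat_lit 19650609472) (.nd (nat_lit 19650359424) (.nd (nat_lit 19650101440) (.nd (nat_lit 19649843392) (.lf (nat_lit 0x49338d0c0)) (.lf (nat_lit 0x4933cc0c0))) (.nd (nat_lit 19650105472) (.lf (nat_lit 0x4933cd080)) (.lf (nat_lit 0x49340b080)))) (.nd (nat_lit 19650363520) (.nd (nat_lit 19650359488) (.lf (nat_lit 0x49340b0c0)) (.lf (nat_lit 0x49340c080))) (.nd (nat_lit 19650367552) (.lf (nat_lit 0x49340d040)) (.lf (nat_lit 0x493448140))))) (.nd (nat_lit 19650617536) (.nd (nat_lit 19650617472) (.nd (nat_lit 19650613504) (.lf (nat_lit 0x493449100)) (.lf (nat_lit 0x49344a080))) (.nd (nat_lit 19650617473) (.lf (nat_lit 0x49344a081)) (.lf (nat_lit 0x49344a0c0)))) (.nd (nat_lit 19650867520) (.nd (nat_lit 19650621568) (.lf (nat_lit 0x49344b080)) (.lf (nat_lit 0x493487140))) (.nd (nat_lit 19650871424) (.lf (nat_lit 0x493488080)) (.lf (nat_lit 0x4934880c0))))))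 (.nd (nat_lit 19666616448) (.nd (nat_lit 19650875521) (.nd (nat_lit 19650871552) (.nd (nat_lit 19650871489) (.lf (nat_lit 0x4934880c1)) (.lf (nat_lit 0x493488100))) (.nd (nat_lit 19650875520) (.lf (nat_lit 0x493489080)) (.lf (nat_lit 0x493489081)))) (.nd (nat_lit 19650879616) (.nd (nat_lit 19650875584) (.lf (nat_lit 0x4934890c0)) (.lf (nat_lit 0x49348a080))) (.nd (nat_lit 19650883648) (.lf (nat_lit 0x49348b040)) (.lf (nat_lit 0x49438c080))))) (.nd (nat_lit 19667132544) (.nd (nat_lit 19666874496) (.nd (nat_lit 19666870464) (.lf (nat_lit 0x4943ca0c0)) (.lf (nat_lit 0x4943cb080))) (.nd (nat_lit 19667128512) (.lf (nat_lit 0x4944090c0)) (.lf (nat_lit 0x49440a080)))) (.nd (nat_lit 19667382528) (.nd (nat_lit 19667378496) (.lf (nat_lit 0x494446140)) (.lf (nat_lit 0x494447100))) (.nd (nat_lit 19667386496) (.lf (nat_lit 0x494448080)) (.lf (nat_lit 0x4944480c0))))))) (.nd (nat_lit 19683639488) (.nd (nat_lit 19667644608) (.nd (nat_lit 19667640513)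 (.nd (nat_lit 19667636480) (.nd (nat_lit 19667390592) (.lf (nat_lit 0x494449080)) (.lf (nat_lit 0x494485100))) (.nd (nat_lit 19667640512) (.lf (nat_lit 0x4944860c0)) (.lf (nat_lit 0x4944860c1)))) (.nd (nat_lit 19667644544) (.nd (nat_lit 19667640576) (.lf (nat_lit 0x494486100)) (.lf (nat_lit 0x494487080))) (.nd (nat_lit 19667644545) (.lf (nat_lit 0x494487081)) (.lf (nat_lit 0x4944870c0))))) (.nd (nat_lit 19667898624) (.nd (nat_lit 19667898560) (.nd (nat_lit 19667648640) (.lf (nat_lit 0x494488080)) (.lf (nat_lit 0x4944c50c0))) (.nd (nat_lit 19667898561) (.lf (nat_lit 0x4944c50c1)) (.lf (nat_lit 0x4944c5100)))) (.nd (nat_lit 19683127424) (.nd (nat_lit 19667902656) (.lf (nat_lit 0x4944c60c0)) (.lf (nat_lit 0x49534b080))) (.nd (nat_lit 19683385472) (.lf (nat_lit 0x49538a080)) (.lf (nat_lit 0x4953c80c0)))))) (.nd (nat_lit 19684159616) (.nd (nat_lit 19683901568) (.nd (nat_lit 19683893504) (.nd (nat_lit 19683643520) (.lf (nat_lit 0x4953c9080))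 (.lf (nat_lit 0x495406100))) (.nd (nat_lit 19683897536) (.lf (nat_lit 0x4954070c0)) (.lf (nat_lit 0x495408080)))) (.nd (nat_lit 19684151552) (.nd (nat_lit 19684151488) (.lf (nat_lit 0x4954450c0)) (.lf (nat_lit 0x495445100))) (.nd (nat_lit 19684155584) (.lf (nat_lit 0x4954460c0)) (.lf (nat_lit 0x495447080))))) (.nd (nat_lit 19699896448) (.nd (nat_lit 19684413632) (.nd (nat_lit 19684409537) (.lf (nat_lit 0x4954840c1)) (.lf (nat_lit 0x4954850c0))) (.nd (nat_lit 19699638400) (.lf (nat_lit 0x49630a080)) (.lf (nat_lit 0x496349080)))) (.nd (nat_lit 19700154496) (.nd (nat_lit 19700150464) (.lf (nat_lit 0x4963870c0)) (.lf (nat_lit 0x496388080))) (.nd (nat_lit 19700404480) (.lf (nat_lit 0x4963c5100)) (.lf (nat_lit 0x4963c60c0))))))))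
noncomputable def jt0_9 : BT := (.nd (nat_lit 21848952960) (.nd (nat_lit 21815414912) (.nd (nat_lit 21814898752) (.nd (nat_lit 21798383808) (.nd (nat_lit 19716661440) (.nd (nat_lit 19716657408) (.lf (nat_lit 0x497345100)) (.lf (nat_lit 0x4973460c0))) (.nd (nat_lit 21798125760) (.lf (nat_lit 0x5134500c0)) (.lf (nat_lit 0x51348f0c0)))) (.nd (nat_lit 21798387840) (.nd (nat_lit 21798387776) (.lf (nat_lit 0x513490040)) (.lf (nat_lit 0x513490080))) (.nd (nat_lit 21798391872) (.lf (nat_lit 0x513491040)) (.lf (nat_lit 0x51444f040))))) (.nd (nat_lit 21815156864) (.nd (nat_lit 21814902848) (.nd (nat_lit 21814898816) (.lf (nat_lit 0x51444f080)) (.lf (nat_lit 0x514450040))) (.nd (nat_lit 21815156800) (.lf (nat_lit 0x51448e040)) (.lf (nat_lit 0x51448e080)))) (.nd (nat_lit 21815410880) (.nd (nat_lit 21815160896) (.lf (nat_lit 0x51448f040)) (.lf (nat_lit 0x5144cc0c0))) (.nd (nat_lit 21815414848) (.lf (nat_lit 0x5144cd040)) (.lf (nat_lit 0x5144cd080))))))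 (.nd (nat_lit 21832437952) (.nd (nat_lit 21831929920) (.nd (nat_lit 21831413824) (.nd (nat_lit 21815418944) (.lf (nat_lit 0x5144ce040)) (.lf (nat_lit 0x51540f040))) (.nd (nat_lit 21831671872) (.lf (nat_lit 0x51544e040)) (.lf (nat_lit 0x51548d040)))) (.nd (nat_lit 21832183936) (.nd (nat_lit 21832183872) (.lf (nat_lit 0x5154cb040)) (.lf (nat_lit 0x5154cb080))) (.nd (nat_lit 21832187968) (.lf (nat_lit 0x5154cc040)) (.lf (nat_lit 0x5155090c0))))) (.nd (nat_lit 21847924800) (.nd (nat_lit 21832441984) (.nd (nat_lit 21832441920) (.lf (nat_lit 0x51550a040)) (.lf (nat_lit 0x51550a080))) (.nd (nat_lit 21832446016) (.lf (nat_lit 0x51550b040)) (.lf (nat_lit 0x5163ce040)))) (.nd (nat_lit 21848440896) (.nd (nat_lit 21848182848) (.lf (nat_lit 0x51640d040)) (.lf (nat_lit 0x51644c040))) (.nd (nat_lit 21848698944) (.lf (nat_lit 0x51648b040)) (.lf (nat_lit 0x5164c9080))))))) (.nd (nat_lit 21865721984) (.nd (nat_lit 21849465024) (.nd (nat_lit 21849460928)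 (.nd (nat_lit 21849206976) (.nd (nat_lit 21848956992) (.lf (nat_lit 0x5164ca040)) (.lf (nat_lit 0x5165070c0))) (.nd (nat_lit 21849211008) (.lf (nat_lit 0x516508080)) (.lf (nat_lit 0x5165450c0)))) (.nd (nat_lit 21849464960) (.nd (nat_lit 21849460992) (.lf (nat_lit 0x516545100)) (.lf (nat_lit 0x516546080))) (.nd (nat_lit 21849464961) (.lf (nat_lit 0x516546081)) (.lf (nat_lit 0x5165460c0))))) (.nd (nat_lit 21864951872) (.nd (nat_lit 21864435776) (.nd (nat_lit 21849469056) (.lf (nat_lit 0x516547080)) (.lf (nat_lit 0x51738d040))) (.nd (nat_lit 21864693824) (.lf (nat_lit 0x5173cc040)) (.lf (nat_lit 0x51740b040)))) (.nd (nat_lit 21865463936) (.nd (nat_lit 21865209920) (.lf (nat_lit 0x51744a040)) (.lf (nat_lit 0x517488080))) (.nd (nat_lit 21865717952) (.lf (nat_lit 0x5174c60c0)) (.lf (nat_lit 0x5174c7080)))))) (.nd (nat_lit 23979696192) (.nd (nat_lit 21866234048) (.nd (nat_lit 21865976000) (.nd (nat_lit 21865971904) (.lf (nat_lit 0x5175040c0))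 (.lf (nat_lit 0x5175050c0))) (.nd (nat_lit 21865980032) (.lf (nat_lit 0x517506080)) (.lf (nat_lit 0x5175440c0)))) (.nd (nat_lit 21882228928) (.nd (nat_lit 21881974912) (.lf (nat_lit 0x518447080)) (.lf (nat_lit 0x5184850c0))) (.nd (nat_lit 21882232960) (.lf (nat_lit 0x518486080)) (.lf (nat_lit 0x5954d2040))))) (.nd (nat_lit 23996981312) (.nd (nat_lit 23996465216) (.nd (nat_lit 23979954240) (.lf (nat_lit 0x595511040)) (.lf (nat_lit 0x5964d0040))) (.nd (nat_lit 23996723264) (.lf (nat_lit 0x59650f040)) (.lf (nat_lit 0x59654e040)))) (.nd (nat_lit 24014008384) (.nd (nat_lit 24013750336) (.lf (nat_lit 0x59754c040)) (.lf (nat_lit 0x59758b040))) (.nd (nat_lit 24030519360) (.lf (nat_lit 0x59854a040)) (.lf (nat_lit 0x598589040))))))))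
noncomputable def jt0_10 : BT := (.nd (nat_lit 30422414337) (.nd (nat_lit 26212593792) (.nd (nat_lit 24047796416) (.nd (nat_lit 24031035456) (.nd (nat_lit 24031027392) (.nd (nat_lit 24031023360) (.lf (nat_lit 0x5985c5100)) (.lf (nat_lit 0x5985c60c0))) (.nd (nat_lit 24031031424) (.lf (nat_lit 0x5985c7080)) (.lf (nat_lit 0x5985c8040)))) (.nd (nat_lit 24047288384) (.nd (nat_lit 24047030336) (.lf (nat_lit 0x599509040)) (.lf (nat_lit 0x599548040))) (.nd (nat_lit 24047542400) (.lf (nat_lit 0x599586080)) (.lf (nat_lit 0x5995c40c0))))) (.nd (nat_lit 26144489536) (.nd (nat_lit 24064049344) (.nd (nat_lit 24047800448) (.lf (nat_lit 0x5995c5080)) (.lf (nat_lit 0x59a5440c0))) (.nd (nat_lit 24064053376) (.lf (nat_lit 0x59a545080)) (.lf (nat_lit 0x616554040)))) (.nd (nat_lit 26212339776) (.nd (nat_lit 26195570752) (.lf (nat_lit 0x61960b040)) (.lf (nat_lit 0x61a609040))) (.nd (nat_lit 26212593728) (.lf (nat_lit 0x61a647040)) (.lf (nat_lit 0x61a647080))))))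 (.nd (nat_lit 28411183232) (.nd (nat_lit 26229362816) (.nd (nat_lit 26229108800) (.nd (nat_lit 26212597824) (.lf (nat_lit 0x61a648040)) (.lf (nat_lit 0x61b607040))) (.nd (nat_lit 26229358784) (.lf (nat_lit 0x61b6440c0)) (.lf (nat_lit 0x61b645080)))) (.nd (nat_lit 28410925184) (.nd (nat_lit 28394160192) (.lf (nat_lit 0x69c6c8040)) (.lf (nat_lit 0x69d6c5080))) (.nd (nat_lit 28410929216) (.lf (nat_lit 0x69d6c6040)) (.lf (nat_lit 0x69d704080))))) (.nd (nat_lit 30422148162) (.nd (nat_lit 30405370885) (.nd (nat_lit 28427436160) (.lf (nat_lit 0x69e684080)) (.lf (nat_lit 0x7144d2405))) (.nd (nat_lit 30405370948) (.lf (nat_lit 0x30c30628007144d2444)) (.lf (nat_lit 0x7154d2442)))) (.nd (nat_lit 30422410305) (.nd (nat_lit 30422410304) (.lf (nat_lit 0x715512440)) (.lf (nat_lit 0x715512441))) (.nd (nat_lit 30422414085) (.lf (nat_lit 0x715513305)) (.lf (nat_lit 0x715513401))))))) (.nd (nat_lit 30439449410) (.nd (nat_lit 30439436997) (.nd (nat_lit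 30439187456) (.nd (nat_lit 30438925376) (.nd (nat_lit 30422414400) (.lf (nat_lit 0x715513440)) (.lf (nat_lit 0x30c30628007164d2440))) (.nd (nat_lit 30439183045) (.lf (nat_lit 0x21040830007165112c5)) (.lf (nat_lit 0x716512400)))) (.nd (nat_lit 30439191425) (.nd (nat_lit 30439191424) (.lf (nat_lit 0x30c3062800716513380)) (.lf (nat_lit 0x716513381))) (.nd (nat_lit 30439191488) (.lf (nat_lit 0x7165133c0)) (.lf (nat_lit 0x20c306280071654f2c5))))) (.nd (nat_lit 30439445440) (.nd (nat_lit 30439441157) (.nd (nat_lit 30439441093) (.lf (nat_lit 0x220c40830007165502c5)) (.lf (nat_lit 0x30c3062800716550305))) (.nd (nat_lit 30439445189) (.lf (nat_lit 0x220c40830007165512c5)) (.lf (nat_lit 0x30c30628007165513c0)))) (.nd (nat_lit 30439445504) (.nd (nat_lit 30439445441) (.lf (nat_lit 0x30c30628007165513c1)) (.lf (nat_lit 0x716551400))) (.nd (nat_lit 30439449347) (.lf (nat_lit 0x30c3062800716552303)) (.lf (nat_lit 0x30c3062800716552342)))))) (.nd (nat_lit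 30439453568) (.nd (nat_lit 30439453440) (.nd (nat_lit 30439449473) (.nd (nat_lit 30439449472) (.lf (nat_lit 0x30c3062800716552380)) (.lf (nat_lit 0x30c3062800716552381))) (.nd (nat_lit 30439449536) (.lf (nat_lit 0x30c30628007165523c0)) (.lf (nat_lit 0x30c3062800716553300)))) (.nd (nat_lit 30439453504) (.nd (nat_lit 30439453442) (.lf (nat_lit 0x30c3062800716553302)) (.lf (nat_lit 0x30c3062800716553340))) (.nd (nat_lit 30439453505) (.lf (nat_lit 0x30c3062800716553341)) (.lf (nat_lit 0x30c3062800716553380))))) (.nd (nat_lit 30439457537) (.nd (nat_lit 30439457474) (.nd (nat_lit 30439457472) (.lf (nat_lit 0xc30620007165542c0)) (.lf (nat_lit 0xc30620007165542c2))) (.nd (nat_lit 30439457536) (.lf (nat_lit 0x30c3062800716554300)) (.lf (nat_lit 0x30c3062800716554301)))) (.nd (nat_lit 30455435973) (.nd (nat_lit 30439457600) (.lf (nat_lit 0x30c3062800716554340)) (.lf (nat_lit 0x10c30828007174912c5))) (.nd (nat_lit 30455694021) (.lf (nat_lit 0x10c30828007174d02c5))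 (.lf (nat_lit 0x10c30828007174d12c5))))))))
noncomputable def jt0_11 : BT := (.nd (nat_lit 30456476545) (.nd (nat_lit 30456218560) (.nd (nat_lit 30455968512) (.nd (nat_lit 30455956101) (.nd (nat_lit 30455702464) (.nd (nat_lit 30455698432) (.lf (nat_lit 0x30c30628007174d1400)) (.lf (nat_lit 0x30c30628007174d23c0))) (.nd (nat_lit 30455952069) (.lf (nat_lit 0x208308280071750f2c5)) (.lf (nat_lit 0x10c3082800717510285)))) (.nd (nat_lit 30455960512) (.nd (nat_lit 30455956165) (.lf (nat_lit 0x20830828007175102c5)) (.lf (nat_lit 0x30c30628007175113c0))) (.nd (nat_lit 30455964544) (.lf (nat_lit 0x30c3062800717512380)) (.lf (nat_lit 0x30c3062800717513300))))) (.nd (nat_lit 30456214213) (.nd (nat_lit 30455968576) (.nd (nat_lit 30455968513) (.lf (nat_lit 0x30c3062800717513301)) (.lf (nat_lit 0x30c3062800717513340))) (.nd (nat_lit 30456214149) (.lf (nat_lit 0x108408280071754f285)) (.lf (nat_lit 0x108408280071754f2c5)))) (.nd (nat_lit 30456218245)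 (.nd (nat_lit 30456218244) (.lf (nat_lit 0x1084082800717550284)) (.lf (nat_lit 0x1084082800717550285))) (.nd (nat_lit 30456218308) (.lf (nat_lit 0x30c30628007175502c4)) (.lf (nat_lit 0x30c30628007175503c0)))))) (.nd (nat_lit 30456226624) (.nd (nat_lit 30456226496) (.nd (nat_lit 30456222529) (.nd (nat_lit 30456222528) (.lf (nat_lit 0x30c3062800717551340)) (.lf (nat_lit 0x30c3062800717551341))) (.nd (nat_lit 30456222592) (.lf (nat_lit 0x30c3062800717551380)) (.lf (nat_lit 0x30c30628007175522c0)))) (.nd (nat_lit 30456226560) (.nd (nat_lit 30456226498) (.lf (nat_lit 0xc30620007175522c2)) (.lf (nat_lit 0x30c3062800717552300))) (.nd (nat_lit 30456226561) (.lf (nat_lit 0x30c3062800717552301)) (.lf (nat_lit 0x30c3062800717552340))))) (.nd (nat_lit 30456234624) (.nd (nat_lit 30456230593) (.nd (nat_lit 30456230592) (.lf (nat_lit 0xc30620007175532c0)) (.lf (nat_lit 0xc30620007175532c1))) (.nd (nat_lit 30456230656) (.lf (nat_lit 0x30c3062800717553300))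 (.lf (nat_lit 0xc3062000717554280)))) (.nd (nat_lit 30456234688) (.nd (nat_lit 30456234625) (.lf (nat_lit 0xc3062000717554281)) (.lf (nat_lit 0xc30620007175542c0))) (.nd (nat_lit 30456476544) (.lf (nat_lit 0x30c306280071758f380)) (.lf (nat_lit 0x30c306280071758f381))))))) (.nd (nat_lit 30456492673) (.nd (nat_lit 30456484546) (.nd (nat_lit 30456480576) (.nd (nat_lit 30456480451) (.nd (nat_lit 30456480388) (.lf (nat_lit 0x1084082800717590284)) (.lf (nat_lit 0x30c30628007175902c3))) (.nd (nat_lit 30456480514) (.lf (nat_lit 0x30c3062800717590302)) (.lf (nat_lit 0x30c3062800717590340)))) (.nd (nat_lit 30456480640) (.nd (nat_lit 30456480577) (.lf (nat_lit 0x30c3062800717590341)) (.lf (nat_lit 0x30c3062800717590380))) (.nd (nat_lit 30456484544) (.lf (nat_lit 0x30c30628007175912c0)) (.lf (nat_lit 0x30c30628007175912c2))))) (.nd (nat_lit 30456488640) (.nd (nat_lit 30456484609) (.nd (nat_lit 30456484608) (.lf (nat_lit 0x30c3062800717591300))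 (.lf (nat_lit 0x30c3062800717591301))) (.nd (nat_lit 30456484672) (.lf (nat_lit 0x30c3062800717591340)) (.lf (nat_lit 0x30c30628007175922c0)))) (.nd (nat_lit 30456488704) (.nd (nat_lit 30456488641) (.lf (nat_lit 0x30c30628007175922c1)) (.lf (nat_lit 0x30c3062800717592300))) (.nd (nat_lit 30456492672) (.lf (nat_lit 0xc3062000717593280)) (.lf (nat_lit 0xc3062000717593281)))))) (.nd (nat_lit 30472209093) (.nd (nat_lit 30456496768) (.nd (nat_lit 30456496704) (.nd (nat_lit 30456492736) (.lf (nat_lit 0xc30620007175932c0)) (.lf (nat_lit 0xc3062000717594240))) (.nd (nat_lit 30456496705) (.lf (nat_lit 0xc3062000717594241)) (.lf (nat_lit 0xc3062000717594280)))) (.nd (nat_lit 30456500737) (.nd (nat_lit 30456500736) (.lf (nat_lit 0xc3062000717595200)) (.lf (nat_lit 0x717595201))) (.nd (nat_lit 30456500800) (.lf (nat_lit 0x717595240)) (.lf (nat_lit 0x820820007184902c5))))) (.nd (nat_lit 30472475520) (.nd (nat_lit 30472471173) (.nd (nat_lit 30472467141)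 (.lf (nat_lit 0x20830828007184cf2c5)) (.lf (nat_lit 0x820820007184d0285))) (.nd (nat_lit 30472471488) (.lf (nat_lit 0x30c30628007184d03c0)) (.lf (nat_lit 0x30c30628007184d1380)))) (.nd (nat_lit 30472725189) (.nd (nat_lit 30472479552) (.lf (nat_lit 0x30c30628007184d2340)) (.lf (nat_lit 0x208308280071850e2c5))) (.nd (nat_lit 30472729221) (.lf (nat_lit 0x4308200071850f285)) (.lf (nat_lit 0x10c3082800718510284))))))))
noncomputable def jt0_12 : BT := (.nd (nat_lit 30473265792) (.nd (nat_lit 30473003648) (.nd (nat_lit 30472991364) (.nd (nat_lit 30472741569) (.nd (nat_lit 30472737600) (.nd (nat_lit 30472733568) (.lf (nat_lit 0x30c3062800718510380)) (.lf (nat_lit 0x30c3062800718511340))) (.nd (nat_lit 30472741568) (.lf (nat_lit 0x30c30628007185122c0)) (.lf (nat_lit 0x30c30628007185122c1)))) (.nd (nat_lit 30472745664) (.nd (nat_lit 30472741632) (.lf (nat_lit 0x30c3062800718512300)) (.lf (nat_lit 0xc30620007185132c0))) (.nd (nat_lit 30472991301)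 (.lf (nat_lit 0x4308200071854f245)) (.lf (nat_lit 0x4308200071854f284))))) (.nd (nat_lit 30472995648) (.nd (nat_lit 30472995459) (.nd (nat_lit 30472991616) (.lf (nat_lit 0x30c306280071854f380)) (.lf (nat_lit 0x30c3062800718550283))) (.nd (nat_lit 30472995584) (.lf (nat_lit 0x30c3062800718550300)) (.lf (nat_lit 0x30c3062800718550340)))) (.nd (nat_lit 30472999617) (.nd (nat_lit 30472999616) (.lf (nat_lit 0x30c30628007185512c0)) (.lf (nat_lit 0x30c30628007185512c1))) (.nd (nat_lit 30472999680) (.lf (nat_lit 0x30c3062800718551300)) (.lf (nat_lit 0xc3062000718552280)))))) (.nd (nat_lit 30473257601) (.nd (nat_lit 30473253632) (.nd (nat_lit 30473007744) (.nd (nat_lit 30473003712) (.lf (nat_lit 0x30c30628007185522c0)) (.lf (nat_lit 0xc3062000718553280))) (.nd (nat_lit 30473011776) (.lf (nat_lit 0xc3062000718554240)) (.lf (nat_lit 0x306180071858f300)))) (.nd (nat_lit 30473253696) (.nd (nat_lit 30473253633) (.lf (nat_lit 0x306180071858f301))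 (.lf (nat_lit 0x30c306280071858f340))) (.nd (nat_lit 30473257600) (.lf (nat_lit 0x30c3062800718590280)) (.lf (nat_lit 0x30c3062800718590281))))) (.nd (nat_lit 30473257728) (.nd (nat_lit 30473257664) (.nd (nat_lit 30473257602) (.lf (nat_lit 0x30c3062800718590282)) (.lf (nat_lit 0x30c30628007185902c0))) (.nd (nat_lit 30473257665) (.lf (nat_lit 0x30c30628007185902c1)) (.lf (nat_lit 0x30c3062800718590300)))) (.nd (nat_lit 30473261697) (.nd (nat_lit 30473261696) (.lf (nat_lit 0xc3062000718591280)) (.lf (nat_lit 0xc3062000718591281))) (.nd (nat_lit 30473261760) (.lf (nat_lit 0x30c30628007185912c0)) (.lf (nat_lit 0xc3062000718592280))))))) (.nd (nat_lit 30473539904) (.nd (nat_lit 30473519808) (.nd (nat_lit 30473511744) (.nd (nat_lit 30473273856) (.nd (nat_lit 30473269824) (.lf (nat_lit 0xc3062000718593240)) (.lf (nat_lit 0xc3062000718594200))) (.nd (nat_lit 30473277888) (.lf (nat_lit 0xc30620007185951c0)) (.lf (nat_lit 0x30618007185ce340))))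 (.nd (nat_lit 30473519744) (.nd (nat_lit 30473515776) (.lf (nat_lit 0x30618007185cf300)) (.lf (nat_lit 0x30618007185d0280))) (.nd (nat_lit 30473519745) (.lf (nat_lit 0x30618007185d0281)) (.lf (nat_lit 0x30c30628007185d02c0))))) (.nd (nat_lit 30473527872) (.nd (nat_lit 30473523777) (.nd (nat_lit 30473523776) (.lf (nat_lit 0xc30620007185d1240)) (.lf (nat_lit 0xc30620007185d1241))) (.nd (nat_lit 30473523840) (.lf (nat_lit 0xc30620007185d1280)) (.lf (nat_lit 0xc30620007185d2240)))) (.nd (nat_lit 30473535872) (.nd (nat_lit 30473531904) (.lf (nat_lit 0xc30620007185d3200)) (.lf (nat_lit 0xc30620007185d4180))) (.nd (nat_lit 30473535936) (.lf (nat_lit 0xc30620007185d41c0)) (.lf (nat_lit 0xc30620007185d5140)))))) (.nd (nat_lit 30489244544) (.nd (nat_lit 30473543874) (.nd (nat_lit 30473539968) (.nd (nat_lit 30473539905) (.lf (nat_lit 0xc30620007185d5141)) (.lf (nat_lit 0xc30620007185d5180))) (.nd (nat_lit 30473543872) (.lf (nat_lit 0xc30620007185d60c0))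 (.lf (nat_lit 0xc30620007185d60c2)))) (.nd (nat_lit 30473543937) (.nd (nat_lit 30473543936) (.lf (nat_lit 0xc30620007185d6100)) (.lf (nat_lit 0xc30620007185d6101))) (.nd (nat_lit 30473544000) (.lf (nat_lit 0xc30620007185d6140)) (.lf (nat_lit 0x30c30628007194cf380))))) (.nd (nat_lit 30489506435) (.nd (nat_lit 30489252608) (.nd (nat_lit 30489248576) (.lf (nat_lit 0x30c30628007194d0340)) (.lf (nat_lit 0x30c30628007194d1300))) (.nd (nat_lit 30489256640) (.lf (nat_lit 0x30c30628007194d22c0)) (.lf (nat_lit 0x30c306280071950f283)))) (.nd (nat_lit 30489510528) (.nd (nat_lit 30489506624) (.lf (nat_lit 0x30c306280071950f340)) (.lf (nat_lit 0x30c3062800719510280))) (.nd (nat_lit 30489510530) (.lf (nat_lit 0x30c3062800719510282)) (.lf (nat_lit 0x30c30628007195102c0))))))))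
noncomputable def jt0_13 : BT := (.nd (nat_lit 30490296896) (.nd (nat_lit 30489776768) (.nd (nat_lit 30489768576) (.nd (nat_lit 30489518720) (.nd (nat_lit 30489514624) (.nd (nat_lit 30489510656) (.lf (nat_lit 0x30c3062800719510300)) (.lf (nat_lit 0xc3062000719511280))) (.nd (nat_lit 30489514688) (.lf (nat_lit 0x30c30628007195112c0)) (.lf (nat_lit 0xc3062000719512280)))) (.nd (nat_lit 30489764672) (.nd (nat_lit 30489522752) (.lf (nat_lit 0xc3062000719513240)) (.lf (nat_lit 0x30c306280071954e340))) (.nd (nat_lit 30489768515) (.lf (nat_lit 0x4308200071954f243)) (.lf (nat_lit 0x30c306280071954f280))))) (.nd (nat_lit 30489768704) (.nd (nat_lit 30489768640) (.nd (nat_lit 30489768578) (.lf (nat_lit 0x30c306280071954f282)) (.lf (nat_lit 0x30c306280071954f2c0))) (.nd (nat_lit 30489768641) (.lf (nat_lit 0x30c306280071954f2c1)) (.lf (nat_lit 0x30c306280071954f300)))) (.nd (nat_lit 30489772673) (.nd (nat_lit 30489772672) (.lf (nat_lit 0x30c3062800719550280))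 (.lf (nat_lit 0x30c3062800719550281))) (.nd (nat_lit 30489772736) (.lf (nat_lit 0x30c30628007195502c0)) (.lf (nat_lit 0xc3062000719551280)))))) (.nd (nat_lit 30490034816) (.nd (nat_lit 30490026752) (.nd (nat_lit 30489784832) (.nd (nat_lit 30489780800) (.lf (nat_lit 0xc3062000719552240)) (.lf (nat_lit 0xc3062000719553200))) (.nd (nat_lit 30489788864) (.lf (nat_lit 0xc30620007195541c0)) (.lf (nat_lit 0x306180071958e300)))) (.nd (nat_lit 30490034752) (.nd (nat_lit 30490030784) (.lf (nat_lit 0x306180071958f2c0)) (.lf (nat_lit 0xc3062000719590240))) (.nd (nat_lit 30490034753) (.lf (nat_lit 0xc3062000719590241)) (.lf (nat_lit 0x30c3062800719590280))))) (.nd (nat_lit 30490050944) (.nd (nat_lit 30490042880) (.nd (nat_lit 30490038848) (.lf (nat_lit 0xc3062000719591240)) (.lf (nat_lit 0xc3062000719592200))) (.nd (nat_lit 30490046912) (.lf (nat_lit 0xc30620007195931c0)) (.lf (nat_lit 0xc3062000719594180)))) (.nd (nat_lit 30490292864) (.nd (nat_lit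 30490054976) (.lf (nat_lit 0xc3062000719595140)) (.lf (nat_lit 0x30618007195cf280))) (.nd (nat_lit 30490296832) (.lf (nat_lit 0xc30620007195d0200)) (.lf (nat_lit 0x30618007195d0240))))))) (.nd (nat_lit 30490567040) (.nd (nat_lit 30490317056) (.nd (nat_lit 30490312960) (.nd (nat_lit 30490304960) (.nd (nat_lit 30490300928) (.lf (nat_lit 0xc30620007195d1200)) (.lf (nat_lit 0xc30620007195d21c0))) (.nd (nat_lit 30490308992) (.lf (nat_lit 0xc30620007195d3180)) (.lf (nat_lit 0xc30620007195d4100)))) (.nd (nat_lit 30490316992) (.nd (nat_lit 30490313024) (.lf (nat_lit 0xc30620007195d4140)) (.lf (nat_lit 0xc30620007195d50c0))) (.nd (nat_lit 30490316993) (.lf (nat_lit 0xc30620007195d50c1)) (.lf (nat_lit 0xc30620007195d5100))))) (.nd (nat_lit 30490558976) (.nd (nat_lit 30490321088) (.nd (nat_lit 30490321025) (.lf (nat_lit 0xc30620007195d6081)) (.lf (nat_lit 0xc30620007195d60c0))) (.nd (nat_lit 30490554944) (.lf (nat_lit 0x306180071960f240)) (.lf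 (nat_lit 0x3061800719610200)))) (.nd (nat_lit 30490563008) (.nd (nat_lit 30490562944) (.lf (nat_lit 0xc3062000719611180)) (.lf (nat_lit 0xc30620007196111c0))) (.nd (nat_lit 30490566976) (.lf (nat_lit 0xc3062000719612140)) (.lf (nat_lit 0xc3062000719612180)))))) (.nd (nat_lit 30490575104) (.nd (nat_lit 30490571072) (.nd (nat_lit 30490571008) (.nd (nat_lit 30490570944) (.lf (nat_lit 0xc30620007196130c0)) (.lf (nat_lit 0xc3062000719613100))) (.nd (nat_lit 30490571009) (.lf (nat_lit 0xc3062000719613101)) (.lf (nat_lit 0xc3062000719613140)))) (.nd (nat_lit 30490575040) (.nd (nat_lit 30490574977) (.lf (nat_lit 0xc3062000719614081)) (.lf (nat_lit 0xc30620007196140c0))) (.nd (nat_lit 30490575041) (.lf (nat_lit 0xc30620007196140c1)) (.lf (nat_lit 0xc3062000719614100))))) (.nd (nat_lit 30506279616) (.nd (nat_lit 30490579136) (.nd (nat_lit 30490579073) (.lf (nat_lit 0xc3062000719615081)) (.lf (nat_lit 0xc30620007196150c0))) (.nd (nat_lit 30506279554)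 (.lf (nat_lit 0x4308200071a50e282)) (.lf (nat_lit 0x30c306280071a50e2c0)))) (.nd (nat_lit 30506279680) (.nd (nat_lit 30506279617) (.lf (nat_lit 0x30c306280071a50e2c1)) (.lf (nat_lit 0x30c306280071a50e300))) (.nd (nat_lit 30506283648) (.lf (nat_lit 0x30c306280071a50f280)) (.lf (nat_lit 0x30c306280071a50f281))))))))
noncomputable def jt0_14 : BT := (.nd (nat_lit 30507344128) (.nd (nat_lit 30506827968) (.nd (nat_lit 30506549824) (.nd (nat_lit 30506291776) (.nd (nat_lit 30506287680) (.nd (nat_lit 30506283712) (.lf (nat_lit 0x30c306280071a50f2c0)) (.lf (nat_lit 0xc306200071a510240))) (.nd (nat_lit 30506287744) (.lf (nat_lit 0x30c306280071a510280)) (.lf (nat_lit 0xc306200071a511240)))) (.nd (nat_lit 30506545729) (.nd (nat_lit 30506545728) (.lf (nat_lit 0x30c306280071a54f240)) (.lf (nat_lit 0x4308200071a54f241))) (.nd (nat_lit 30506545792) (.lf (nat_lit 0x30c306280071a54f280)) (.lf (nat_lit 0xc306200071a550240))))) (.nd (nat_lit 30506811904)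 (.nd (nat_lit 30506565952) (.nd (nat_lit 30506553856) (.lf (nat_lit 0xc306200071a551200)) (.lf (nat_lit 0xc306200071a554140))) (.nd (nat_lit 30506807872) (.lf (nat_lit 0x306180071a58f240)) (.lf (nat_lit 0xc306200071a590200)))) (.nd (nat_lit 30506819968) (.nd (nat_lit 30506815936) (.lf (nat_lit 0xc306200071a5911c0)) (.lf (nat_lit 0xc306200071a592180))) (.nd (nat_lit 30506824000) (.lf (nat_lit 0xc306200071a593140)) (.lf (nat_lit 0xc306200071a5940c0)))))) (.nd (nat_lit 30507086080) (.nd (nat_lit 30507073984) (.nd (nat_lit 30506832001) (.nd (nat_lit 30506828032) (.lf (nat_lit 0xc306200071a594100)) (.lf (nat_lit 0xc306200071a595081))) (.nd (nat_lit 30506832064) (.lf (nat_lit 0xc306200071a5950c0)) (.lf (nat_lit 0xc306200071a5d01c0)))) (.nd (nat_lit 30507082048) (.nd (nat_lit 30507078016) (.lf (nat_lit 0xc306200071a5d1180)) (.lf (nat_lit 0xc306200071a5d2140))) (.nd (nat_lit 30507086016) (.lf (nat_lit 0xc306200071a5d30c0)) (.lf (nat_lit 0xc306200071a5d3100)))))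 (.nd (nat_lit 30507340032) (.nd (nat_lit 30507090112) (.nd (nat_lit 30507090049) (.lf (nat_lit 0xc306200071a5d4081)) (.lf (nat_lit 0xc306200071a5d40c0))) (.nd (nat_lit 30507336064) (.lf (nat_lit 0x306180071a610180)) (.lf (nat_lit 0xc306200071a611100)))) (.nd (nat_lit 30507344064) (.nd (nat_lit 30507340096) (.lf (nat_lit 0xc306200071a611140)) (.lf (nat_lit 0xc306200071a6120c0))) (.nd (nat_lit 30507344065) (.lf (nat_lit 0xc306200071a6120c1)) (.lf (nat_lit 0xc306200071a612100))))))) (.nd (nat_lit 30523334976) (.nd (nat_lit 30507602049) (.nd (nat_lit 30507598016) (.nd (nat_lit 30507348160) (.nd (nat_lit 30507348097) (.lf (nat_lit 0xc306200071a613081)) (.lf (nat_lit 0xc306200071a6130c0))) (.nd (nat_lit 30507594112) (.lf (nat_lit 0x306180071a64f180)) (.lf (nat_lit 0x306180071a6500c0)))) (.nd (nat_lit 30507598081) (.nd (nat_lit 30507598080) (.lf (nat_lit 0x306180071a650100)) (.lf (nat_lit 0x306180071a650101))) (.nd (nat_lit 30507598144) (.lf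 (nat_lit 0x306180071a650140)) (.lf (nat_lit 0xc306200071a651081))))) (.nd (nat_lit 30507606145) (.nd (nat_lit 30507602113) (.nd (nat_lit 30507602112) (.lf (nat_lit 0xc306200071a6510c0)) (.lf (nat_lit 0xc306200071a6510c1))) (.nd (nat_lit 30507602176) (.lf (nat_lit 0xc306200071a651100)) (.lf (nat_lit 0xc306200071a652081)))) (.nd (nat_lit 30523322880) (.nd (nat_lit 30507606208) (.lf (nat_lit 0xc306200071a6520c0)) (.lf (nat_lit 0xc306200071b54f200))) (.nd (nat_lit 30523326912) (.lf (nat_lit 0xc306200071b5501c0)) (.lf (nat_lit 0xc306200071b552140)))))) (.nd (nat_lit 30523601025) (.nd (nat_lit 30523588992) (.nd (nat_lit 30523342977) (.nd (nat_lit 30523339008) (.lf (nat_lit 0xc306200071b553100)) (.lf (nat_lit 0xc306200071b554081))) (.nd (nat_lit 30523343040) (.lf (nat_lit 0xc306200071b5540c0)) (.lf (nat_lit 0xc306200071b590180)))) (.nd (nat_lit 30523596992) (.nd (nat_lit 30523593024) (.lf (nat_lit 0xc306200071b591140)) (.lf (nat_lit 0xc306200071b5920c0)))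 (.nd (nat_lit 30523597056) (.lf (nat_lit 0xc306200071b592100)) (.lf (nat_lit 0xc306200071b593081))))) (.nd (nat_lit 30523855104) (.nd (nat_lit 30523851072) (.nd (nat_lit 30523601088) (.lf (nat_lit 0xc306200071b5930c0)) (.lf (nat_lit 0xc306200071b5d0140))) (.nd (nat_lit 30523855040) (.lf (nat_lit 0xc306200071b5d10c0)) (.lf (nat_lit 0xc306200071b5d1100)))) (.nd (nat_lit 30523859136) (.nd (nat_lit 30523859073) (.lf (nat_lit 0xc306200071b5d2081)) (.lf (nat_lit 0xc306200071b5d20c0))) (.nd (nat_lit 30524109120) (.lf (nat_lit 0x306180071b60f140)) (.lf (nat_lit 0x306180071b6100c0))))))))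
noncomputable def jt0_15 : BT := (.nd (nat_lit 30557397184) (.nd (nat_lit 30540112064) (.nd (nat_lit 30524375232) (.nd (nat_lit 30524117184) (.nd (nat_lit 30524113152) (.nd (nat_lit 30524113089) (.lf (nat_lit 0x306180071b6100c1)) (.lf (nat_lit 0x306180071b610100))) (.nd (nat_lit 30524117121) (.lf (nat_lit 0xc306200071b611081)) (.lf (nat_lit 0xc306200071b6110c0)))) (.nd (nat_lit 30524371200) (.nd (nat_lit 30524371136) (.lf (nat_lit 0x306180071b64f0c0)) (.lf (nat_lit 0x306180071b64f100))) (.nd (nat_lit 30524375169) (.lf (nat_lit 0x306180071b650081)) (.lf (nat_lit 0x306180071b6500c0))))) (.nd (nat_lit 30524633217) (.nd (nat_lit 30524629184) (.nd (nat_lit 30524625216) (.lf (nat_lit 0x306180071b68d140)) (.lf (nat_lit 0x306180071b68e0c0))) (.nd (nat_lit 30524629248) (.lf (nat_lit 0x306180071b68e100)) (.lf (nat_lit 0x306180071b68f081)))) (.nd (nat_lit 30539854016) (.nd (nat_lit 30524633280) (.lf (nat_lit 0x306180071b68f0c0)) (.lf (nat_lit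 0xc306200071c5130c0))) (.nd (nat_lit 30540108032) (.lf (nat_lit 0xc306200071c551100)) (.lf (nat_lit 0xc306200071c5520c0)))))) (.nd (nat_lit 30540628160) (.nd (nat_lit 30540370049) (.nd (nat_lit 30540366016) (.nd (nat_lit 30540362048) (.lf (nat_lit 0x306180071c58f140)) (.lf (nat_lit 0xc306200071c5900c0))) (.nd (nat_lit 30540366080) (.lf (nat_lit 0xc306200071c590100)) (.lf (nat_lit 0xc306200071c591081)))) (.nd (nat_lit 30540624128) (.nd (nat_lit 30540370112) (.lf (nat_lit 0xc306200071c5910c0)) (.lf (nat_lit 0x306180071c5cf100))) (.nd (nat_lit 30540628097) (.lf (nat_lit 0xc306200071c5d0081)) (.lf (nat_lit 0xc306200071c5d00c0))))) (.nd (nat_lit 30541656320) (.nd (nat_lit 30541144256) (.nd (nat_lit 30540886208) (.lf (nat_lit 0x306180071c60f0c0)) (.lf (nat_lit 0x306180071c64e0c0))) (.nd (nat_lit 30541402304) (.lf (nat_lit 0x306180071c68d0c0)) (.lf (nat_lit 0x306180071c6cb100)))) (.nd (nat_lit 30541660352) (.nd (nat_lit 30541660289) (.lf (nat_lit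 0x306180071c6cc081)) (.lf (nat_lit 0x306180071c6cc0c0))) (.nd (nat_lit 30557139136) (.lf (nat_lit 0x6100071d58f0c0)) (.lf (nat_lit 0x306180071d5ce0c0))))))) (.nd (nat_lit 30592745600) (.nd (nat_lit 30558683392) (.nd (nat_lit 30558425344) (.nd (nat_lit 30557913280) (.nd (nat_lit 30557655232) (.lf (nat_lit 0x306180071d60d0c0)) (.lf (nat_lit 0x306180071d64c0c0))) (.nd (nat_lit 30558171328) (.lf (nat_lit 0x306180071d68b0c0)) (.lf (nat_lit 0x306180071d6c9100)))) (.nd (nat_lit 30558679360) (.nd (nat_lit 30558429376) (.lf (nat_lit 0x306180071d6ca0c0)) (.lf (nat_lit 0x306180071d707140))) (.nd (nat_lit 30558683328) (.lf (nat_lit 0x306180071d7080c0)) (.lf (nat_lit 0x306180071d708100))))) (.nd (nat_lit 30575194368) (.nd (nat_lit 30558687424) (.nd (nat_lit 30558687361) (.lf (nat_lit 0x306180071d709081)) (.lf (nat_lit 0x306180071d7090c0))) (.nd (nat_lit 30574940352) (.lf (nat_lit 0x306180071e6890c0)) (.lf (nat_lit 0x306180071e6c7100)))) (.nd (nat_lit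 30591451328) (.nd (nat_lit 30575198400) (.lf (nat_lit 0x306180071e6c80c0)) (.lf (nat_lit 0x306180071f6480c0))) (.nd (nat_lit 30592491584) (.lf (nat_lit 0x71f746040)) (.lf (nat_lit 0x20071f784080)))))) (.nd (nat_lit 32638051072) (.nd (nat_lit 32621019968) (.nd (nat_lit 32603984832) (.nd (nat_lit 32586941632) (.lf (nat_lit 0x30c30628007965544c0)) (.lf (nat_lit 0x7975953c0))) (.nd (nat_lit 32621007557) (.lf (nat_lit 0x10840828007985d12c5)) (.lf (nat_lit 0x30c30628007985d4340)))) (.nd (nat_lit 32621028032) (.nd (nat_lit 32621024000) (.lf (nat_lit 0xc30620007985d5300)) (.lf (nat_lit 0xc30620007985d62c0))) (.nd (nat_lit 32638047040) (.lf (nat_lit 0x30c3062800799611340)) (.lf (nat_lit 0x30c3062800799612300))))) (.nd (nat_lit 32671625408) (.nd (nat_lit 32655114369) (.nd (nat_lit 32655110400) (.lf (nat_lit 0xc306200079a657100)) (.lf (nat_lit 0xc306200079a658081))) (.nd (nat_lit 32655114432) (.lf (nat_lit 0xc306200079a6580c0)) (.lf (nat_lit 0xc306200079b6170c0))))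 (.nd (nat_lit 32672137472) (.nd (nat_lit 32671883456) (.lf (nat_lit 0xc306200079b6560c0)) (.lf (nat_lit 0xc306200079b694100))) (.nd (nat_lit 32672141504) (.lf (nat_lit 0xc306200079b6950c0)) (.lf (nat_lit 0x4308200079c590280))))))))
noncomputable def jt0_16 : BT := (.nd (nat_lit 34903244864) (.nd (nat_lit 34853707840) (.nd (nat_lit 32774307968) (.nd (nat_lit 32740249792) (.nd (nat_lit 32689168513) (.nd (nat_lit 32688910528) (.lf (nat_lit 0xc306200079c6930c0)) (.lf (nat_lit 0xc306200079c6d2081))) (.nd (nat_lit 32689168576) (.lf (nat_lit 0xc306200079c6d20c0)) (.lf (nat_lit 0x306180079f7890c0)))) (.nd (nat_lit 32740253824) (.nd (nat_lit 32740253760) (.lf (nat_lit 0x306180079f78a040)) (.lf (nat_lit 0x306180079f78a080))) (.nd (nat_lit 32740257856) (.lf (nat_lit 0x306180079f78b040)) (.lf (nat_lit 0x2007a1804080))))) (.nd (nat_lit 34836680832) (.nd (nat_lit 32790818944) (.nd (nat_lit 32774312000) (.lf (nat_lit 0x2007a1805040)) (.lf (nat_lit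 0x2007a27c3080))) (.nd (nat_lit 34836680768) (.lf (nat_lit 0xc306200081c6d9040)) (.lf (nat_lit 0xc306200081c6d9080)))) (.nd (nat_lit 34853195840) (.nd (nat_lit 34836684864) (.lf (nat_lit 0xc306200081c6da040)) (.lf (nat_lit 0xc306200081d699040))) (.nd (nat_lit 34853453888) (.lf (nat_lit 0xc306200081d6d8040)) (.lf (nat_lit 0xc306200081d716040)))))) (.nd (nat_lit 34870734976) (.nd (nat_lit 34869964864) (.nd (nat_lit 34853711936) (.nd (nat_lit 34853707904) (.lf (nat_lit 0xc306200081d716080)) (.lf (nat_lit 0xc306200081d717040))) (.nd (nat_lit 34869706816) (.lf (nat_lit 0xc306200081e658040)) (.lf (nat_lit 0xc306200081e697040)))) (.nd (nat_lit 34870480960) (.nd (nat_lit 34870222912) (.lf (nat_lit 0xc306200081e6d6040)) (.lf (nat_lit 0xc306200081e715040))) (.nd (nat_lit 34870734912) (.lf (nat_lit 0xc306200081e753040)) (.lf (nat_lit 0x306180081e753080))))) (.nd (nat_lit 34886991936) (.nd (nat_lit 34886475840) (.nd (nat_lit 34870739008) (.lf (nat_lit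 0xc306200081e754040)) (.lf (nat_lit 0xc306200081f656040))) (.nd (nat_lit 34886733888) (.lf (nat_lit 0xc306200081f695040)) (.lf (nat_lit 0xc306200081f6d4040)))) (.nd (nat_lit 34887508032) (.nd (nat_lit 34887249984) (.lf (nat_lit 0xc306200081f713040)) (.lf (nat_lit 0x306180081f752040))) (.nd (nat_lit 34887766080) (.lf (nat_lit 0x306180081f791040)) (.lf (nat_lit 0xc3062000820654040))))))) (.nd (nat_lit 39165735104) (.nd (nat_lit 34955874368) (.nd (nat_lit 34904793152) (.nd (nat_lit 34903760960) (.nd (nat_lit 34903502912) (.lf (nat_lit 0xc3062000820693040)) (.lf (nat_lit 0x30618008206d2040))) (.nd (nat_lit 34904535104) (.lf (nat_lit 0x306180082078f040)) (.lf (nat_lit 0x30618008207ce040)))) (.nd (nat_lit 34921820224) (.nd (nat_lit 34921562176) (.lf (nat_lit 0x30618008217cc040)) (.lf (nat_lit 0x306180082180b040))) (.nd (nat_lit 34938331200) (.lf (nat_lit 0x30618008227ca040)) (.lf (nat_lit 0x200823885040))))) (.nd (nat_lit 37052301376) (.nd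 (nat_lit 37018247232) (.nd (nat_lit 37017989184) (.lf (nat_lit 0xc306200089e71b040)) (.lf (nat_lit 0xc306200089e75a040))) (.nd (nat_lit 37035274304) (.lf (nat_lit 0xc306200089f797040)) (.lf (nat_lit 0x30618008a07d4040)))) (.nd (nat_lit 39165473152) (.nd (nat_lit 37103382592) (.lf (nat_lit 0x30618008a388b040)) (.lf (nat_lit 0x11450a380091e71b180))) (.nd (nat_lit 39165473216) (.lf (nat_lit 0x210408300091e71b1c0)) (.lf (nat_lit 0x1450a380091e75b0c0)))))) (.nd (nat_lit 39165735296) (.nd (nat_lit 39165735169) (.nd (nat_lit 39165735106) (.nd (nat_lit 39165735105) (.lf (nat_lit 0x1860c400091e75b0c1)) (.lf (nat_lit 0x1860c400091e75b0c2))) (.nd (nat_lit 39165735168) (.lf (nat_lit 0x9450a380091e75b100)) (.lf (nat_lit 0x1860c400091e75b101)))) (.nd (nat_lit 39165735232) (.nd (nat_lit 39165735170) (.lf (nat_lit 0x2110408300091e75b102)) (.lf (nat_lit 0x11450a380091e75b140))) (.nd (nat_lit 39165735233) (.lf (nat_lit 0x11450a380091e75b141)) (.lf (nat_lit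 0x11450a380091e75b180))))) (.nd (nat_lit 39165739202) (.nd (nat_lit 39165739200) (.nd (nat_lit 39165739137) (.lf (nat_lit 0x1860c400091e75c081)) (.lf (nat_lit 0x1860c400091e75c0c0))) (.nd (nat_lit 39165739201) (.lf (nat_lit 0x1860c400091e75c0c1)) (.lf (nat_lit 0x1860c400091e75c0c2)))) (.nd (nat_lit 39165739265) (.nd (nat_lit 39165739264) (.lf (nat_lit 0x11450a380091e75c100)) (.lf (nat_lit 0x1860c400091e75c101))) (.nd (nat_lit 39165739328) (.lf (nat_lit 0x11450a380091e75c140)) (.lf (nat_lit 0x1040a300091f71b0c0))))))))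
noncomputable def jt0_17 : BT := (.nd (nat_lit 41347305664) (.nd (nat_lit 39284944960) (.nd (nat_lit 39182516353) (.nd (nat_lit 39182512257) (.nd (nat_lit 39182250241) (.nd (nat_lit 39182250240) (.lf (nat_lit 0x1040a300091f71b100)) (.lf (nat_lit 0x1040a300091f71b101))) (.nd (nat_lit 39182250304) (.lf (nat_lit 0x10c308280091f71b140)) (.lf (nat_lit 0x1860c400091f75b081)))) (.nd (nat_lit 39182512321) (.nd (nat_lit 39182512320) (.lf (nat_lit 0x1860c400091f75b0c0)) (.lf (nat_lit 0x1860c400091f75b0c1))) (.nd (nat_lit 39182512384) (.lf (nat_lit 0x11450a380091f75b100)) (.lf (nat_lit 0x1860c400091f75c081))))) (.nd (nat_lit 39199023360) (.nd (nat_lit 39182774401) (.nd (nat_lit 39182516416) (.lf (nat_lit 0x1860c400091f75c0c0)) (.lf (nat_lit 0xc408280091f79b081))) (.nd (nat_lit 39182774464) (.lf (nat_lit 0xc408280091f79b0c0)) (.lf (nat_lit 0x1040a300092071a100)))) (.nd (nat_lit 39199027392) (.nd (nat_lit 39199027329) (.lf (nat_lit 0x1040a300092071b081))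 (.lf (nat_lit 0x1040a300092071b0c0))) (.nd (nat_lit 39215538368) (.lf (nat_lit 0x1040a30009216da0c0)) (.lf (nat_lit 0x408200092590b040)))))) (.nd (nat_lit 41347043584) (.nd (nat_lit 41278604736) (.nd (nat_lit 41262089665) (.nd (nat_lit 41262089664) (.lf (nat_lit 0x99b6985c0)) (.lf (nat_lit 0x99b6985c1))) (.nd (nat_lit 41262093760) (.lf (nat_lit 0x99b6995c0)) (.lf (nat_lit 0x61860c500099c6585c0)))) (.nd (nat_lit 41295377792) (.nd (nat_lit 41278866816) (.lf (nat_lit 0x99c698580)) (.lf (nat_lit 0x61860c500099d657580))) (.nd (nat_lit 41347043520) (.lf (nat_lit 0x1860c40009a079d0c0)) (.lf (nat_lit 0x1860c40009a079d100))))) (.nd (nat_lit 41347301632) (.nd (nat_lit 41347043648) (.nd (nat_lit 41347043585) (.lf (nat_lit 0x1860c40009a079d101)) (.lf (nat_lit 0x11450a38009a079d140))) (.nd (nat_lit 41347301568) (.lf (nat_lit 0x1860c40009a07dc0c0)) (.lf (nat_lit 0x1860c40009a07dc100)))) (.nd (nat_lit 41347301696) (.nd (nat_lit 41347301633) (.lf (nat_lit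 0x1860c40009a07dc101)) (.lf (nat_lit 0x11450a38009a07dc140))) (.nd (nat_lit 41347305601) (.lf (nat_lit 0x1860c40009a07dd081)) (.lf (nat_lit 0x1860c40009a07dd0c0))))))) (.nd (nat_lit 41500303424) (.nd (nat_lit 41364074752) (.nd (nat_lit 41347309760) (.nd (nat_lit 41347305728) (.nd (nat_lit 41347305665) (.lf (nat_lit 0x1860c40009a07dd0c1)) (.lf (nat_lit 0x1860c40009a07dd100))) (.nd (nat_lit 41347309697) (.lf (nat_lit 0x1860c40009a07de081)) (.lf (nat_lit 0x1860c40009a07de0c0)))) (.nd (nat_lit 41363820673) (.nd (nat_lit 41363816704) (.lf (nat_lit 0x1040a30009a179c100)) (.lf (nat_lit 0x1040a30009a179d081))) (.nd (nat_lit 41363820736) (.lf (nat_lit 0x1040a30009a179d0c0)) (.lf (nat_lit 0xe48a30009a17db100))))) (.nd (nat_lit 41364336769) (.nd (nat_lit 41364078784) (.nd (nat_lit 41364078721) (.lf (nat_lit 0x1860c40009a17dc081)) (.lf (nat_lit 0x1860c40009a17dc0c0))) (.nd (nat_lit 41364332800) (.lf (nat_lit 0xc50a30009a181a100)) (.lf (nat_lit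 0x1258b38009a181b081)))) (.nd (nat_lit 41466499264) (.nd (nat_lit 41364336832) (.lf (nat_lit 0x1258b38009a181b0c0)) (.lf (nat_lit 0x60c30009a79890c0))) (.nd (nat_lit 41466507328) (.lf (nat_lit 0x50a28009a798b040)) (.lf (nat_lit 0x3061a009a99c6040)))))) (.nd (nat_lit 43528868096) (.nd (nat_lit 43511836992) (.nd (nat_lit 43426620992) (.nd (nat_lit 41500557440) (.lf (nat_lit 0x3061a009a9a04080)) (.lf (nat_lit 0x61860c5000a1c6da640))) (.nd (nat_lit 43443394048) (.lf (nat_lit 0xa1d6d9600)) (.lf (nat_lit 0x11450a3800a2181f140)))) (.nd (nat_lit 43528614016) (.nd (nat_lit 43528613952) (.lf (nat_lit 0x1860c4000a2281f040)) (.lf (nat_lit 0x1860c4000a2281f080))) (.nd (nat_lit 43528614080) (.lf (nat_lit 0x1860c4000a2281f0c0)) (.lf (nat_lit 0x1258b3800a2285d100))))) (.nd (nat_lit 43528876160) (.nd (nat_lit 43528872128) (.nd (nat_lit 43528872065) (.lf (nat_lit 0x1860c4000a2285e081)) (.lf (nat_lit 0x1860c4000a2285e0c0))) (.nd (nat_lit 43528876096)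 (.lf (nat_lit 0x1860c4000a2285f040)) (.lf (nat_lit 0x1860c4000a2285f080)))) (.nd (nat_lit 43545383104) (.nd (nat_lit 43528880192) (.lf (nat_lit 0x1860c4000a22860040)) (.lf (nat_lit 0x1860c4000a2381d0c0))) (.nd (nat_lit 43545387072) (.lf (nat_lit 0x1040a3000a2381e040)) (.lf (nat_lit 0x1040a3000a2381e080))))))))
noncomputable def jt0_18 : BT := (.nd (nat_lit 47874711681) (.nd (nat_lit 45710438528) (.nd (nat_lit 43648069696) (.nd (nat_lit 43648057600) (.nd (nat_lit 43545649216) (.nd (nat_lit 43545391168) (.lf (nat_lit 0x1860c4000a2381f040)) (.lf (nat_lit 0xc4082800a2385e040))) (.nd (nat_lit 43561902144) (.lf (nat_lit 0x1040a3000a247de040)) (.lf (nat_lit 0x70e3800a29a08100)))) (.nd (nat_lit 43648065600) (.nd (nat_lit 43648061632) (.lf (nat_lit 0x70e3800a29a090c0)) (.lf (nat_lit 0x60c3000a29a0a040))) (.nd (nat_lit 43648065664) (.lf (nat_lit 0x60c3000a29a0a080)) (.lf (nat_lit 0x60c3000a29a0b040))))) (.nd (nat_lit 45710180416) (.nd (nat_lit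 43682123840) (.nd (nat_lit 43682119808) (.lf (nat_lit 0x3061a00a2ba84080)) (.lf (nat_lit 0x3061a00a2ba85040))) (.nd (nat_lit 45693407424) (.lf (nat_lit 0x1860c4000aa38a10c0)) (.lf (nat_lit 0x1860c4000aa48a0040)))) (.nd (nat_lit 45710184512) (.nd (nat_lit 45710180480) (.lf (nat_lit 0x1860c4000aa48a0080)) (.lf (nat_lit 0x1860c4000aa48a1040))) (.nd (nat_lit 45710438464) (.lf (nat_lit 0x1860c4000aa48df040)) (.lf (nat_lit 0x1860c4000aa48df080)))))) (.nd (nat_lit 45829619968) (.nd (nat_lit 45727211584) (.nd (nat_lit 45726695488) (.nd (nat_lit 45710442560) (.lf (nat_lit 0x1860c4000aa48e0040)) (.lf (nat_lit 0x1040a3000aa5860040))) (.nd (nat_lit 45726953536) (.lf (nat_lit 0x1040a3000aa589f040)) (.lf (nat_lit 0x1258b3800aa58de040)))) (.nd (nat_lit 45829615936) (.nd (nat_lit 45727469632) (.lf (nat_lit 0xc50a3000aa591d040)) (.lf (nat_lit 0x8104000aaba87140))) (.nd (nat_lit 45829619904) (.lf (nat_lit 0x8104000aaba880c0)) (.lf (nat_lit 0x8458b3200aaba88100)))))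 (.nd (nat_lit 45829632064) (.nd (nat_lit 45829627968) (.nd (nat_lit 45829624000) (.lf (nat_lit 0x658b3200aaba890c0)) (.lf (nat_lit 0x70e3800aaba8a040))) (.nd (nat_lit 45829628032) (.lf (nat_lit 0x70e3800aaba8a080)) (.lf (nat_lit 0x70e3800aaba8b040)))) (.nd (nat_lit 45880193152) (.nd (nat_lit 45863686208) (.lf (nat_lit 0x3061a00aadb05040)) (.lf (nat_lit 0x3061a00aaeac3080))) (.nd (nat_lit 47857934656) (.lf (nat_lit 0x11a68d4800b248e2140)) (.lf (nat_lit 0x1e78f5000b258e2081))))))) (.nd (nat_lit 50141667457) (.nd (nat_lit 48011190336) (.nd (nat_lit 47891746880) (.nd (nat_lit 47874969792) (.nd (nat_lit 47874969729) (.lf (nat_lit 0x1e78f5000b25921081)) (.lf (nat_lit 0x11450a3800b259210c0))) (.nd (nat_lit 47874977856) (.lf (nat_lit 0x1860c4000b25923040)) (.lf (nat_lit 0x1860c4000b26921040)))) (.nd (nat_lit 47977128192) (.nd (nat_lit 47892004928) (.lf (nat_lit 0x1258b3800b26960040)) (.lf (nat_lit 0x9124800b2ba8e100))) (.nd (nat_lit 47977140288)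 (.lf (nat_lit 0x70e3800b2ba91040)) (.lf (nat_lit 0x658b3200b2db0a040))))) (.nd (nat_lit 48045244544) (.nd (nat_lit 48011194432) (.nd (nat_lit 48011190400) (.lf (nat_lit 0x658b3200b2db0a080)) (.lf (nat_lit 0x658b3200b2db0b040))) (.nd (nat_lit 48027689280) (.lf (nat_lit 0x8250c3200b2eac6140)) (.lf (nat_lit 0x4082200b2fb84080)))) (.nd (nat_lit 50039505088) (.nd (nat_lit 48045248576) (.lf (nat_lit 0x4082200b2fb85040)) (.lf (nat_lit 0x1e78f5000ba69640c0))) (.nd (nat_lit 50124648512) (.lf (nat_lit 0xc70e4000baba97040)) (.lf (nat_lit 0x108278f4000bacad2081)))))) (.nd (nat_lit 52204032257) (.nd (nat_lit 50192756800) (.nd (nat_lit 50158690560) (.nd (nat_lit 50141675584) (.lf (nat_lit 0x678f4000bacad4040)) (.lf (nat_lit 0x10e4893200badb0e100))) (.nd (nat_lit 50158702656) (.lf (nat_lit 0x8104000badb11040)) (.lf (nat_lit 0x658b3200bafb8b040)))) (.nd (nat_lit 52101773120) (.nd (nat_lit 50226806912) (.lf (nat_lit 0x50a2a00bb1c04080)) (.lf (nat_lit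 0xc2181f740))) (.nd (nat_lit 52204028288) (.lf (nat_lit 0x1208105800c279a4180)) (.lf (nat_lit 0x249126000c279a5101))))) (.nd (nat_lit 52221071424) (.nd (nat_lit 52220809408) (.nd (nat_lit 52204032320) (.lf (nat_lit 0x1208105800c279a5140)) (.lf (nat_lit 0x11a68d4800c289a50c0))) (.nd (nat_lit 52221067456) (.lf (nat_lit 0x11a68d4800c289e40c0)) (.lf (nat_lit 0x1e78f5000c289e5040)))) (.nd (nat_lit 52221075520) (.nd (nat_lit 52221071488) (.lf (nat_lit 0x1e78f5000c289e5080)) (.lf (nat_lit 0x1e78f5000c289e6040))) (.nd (nat_lit 52237586496) (.lf (nat_lit 0x1a68e4800c299a5040)) (.lf (nat_lit 0x1e78f5000c299e4040))))))))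
noncomputable def jt0_19 : BT := (.nd (nat_lit 52306210880) (.nd (nat_lit 52289183808) (.nd (nat_lit 52238102592) (.lf (nat_lit 0x1870e4800c29a23040)) (.nd (nat_lit 52289175681) (.lf (nat_lit 0x108e78f4800c2cad8081)) (.lf (nat_lit 0x1278f4800c2cada040)))) (.nd (nat_lit 52305952832) (.lf (nat_lit 0x1278f4800c2dad8040)) (.nd (nat_lit 52306202753) (.lf (nat_lit 0x10888104800c2db15081)) (.lf (nat_lit 0xc8104800c2db17040))))) (.nd (nat_lit 52323237952) (.nd (nat_lit 52322979904) (.lf (nat_lit 0xc8104800c2eb15040)) (.nd (nat_lit 52323229825) (.lf (nat_lit 0x1860c4200c2eb52081)) (.lf (nat_lit 0x68914800c2eb54040)))) (.nd (nat_lit 52340265024) (.lf (nat_lit 0x9124800c2fb91040)) (.nd (nat_lit 52408115264) (.lf (nat_lit 0x60c3200c33c46040)) (.lf (nat_lit 0x60c3200c33c84080))))))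
noncomputable def jt0 : BT := (.nd (nat_lit 24030777408) (.nd (nat_lit 17452023936) (.nd (nat_lit 15270453504) (.nd (nat_lit 15253676544) jt0_0 jt0_1) (.nd (nat_lit 15287214401) jt0_2 (.nd (nat_lit 17418203713) jt0_3 jt0_4))) (.nd (nat_lit 17501028800) (.nd (nat_lit 17469047041) jt0_5 jt0_6) (.nd (nat_lit 19633852544) jt0_7 (.nd (nat_lit 19700408512) jt0_8 jt0_9)))) (.nd (nat_lit 30524113088) (.nd (nat_lit 30472733316) (.nd (nat_lit 30455698117) jt0_10 jt0_11) (.nd (nat_lit 30489510592) jt0_12 (.nd (nat_lit 30506283649) jt0_13 jt0_14))) (.nd (nat_lit 39182250176) (.nd (nat_lit 32687850112) jt0_15 jt0_16) (.nd (nat_lit 43545387136) jt0_17 (.nd (nat_lit 52237844544) jt0_18 jt0_19)))))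
noncomputable def jt1 : BT := (.nd (nat_lit 15270437188) (.nd (nat_lit 15269925188) (.nd (nat_lit 15253668164) (.lf (nat_lit 0x38d308144)) (.lf (nat_lit 0x38e289144))) (.nd (nat_lit 15270179204) (.lf (nat_lit 0x38e2c7184)) (.nd (nat_lit 15270183236) (.lf (nat_lit 0x38e2c8144)) (.lf (nat_lit 0x38e306144))))) (.nd (nat_lit 15286436164) (.nd (nat_lit 15270441284) (.lf (nat_lit 0x38e307144)) (.nd (nat_lit 15270699332) (.lf (nat_lit 0x38e346144)) (.lf (nat_lit 0x38f248144)))) (.nd (nat_lit 15286952260) (.lf (nat_lit 0x38f2c6144)) (.nd (nat_lit 15303205188) (.lf (nat_lit 0x390246144)) (.lf (nat_lit 0x3911c6144))))))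
def jg1 : Cfg := ⟨45, 36, 10, 3, 17⟩
noncomputable def jX1 : F3 := XRc 3 99 99 99 0
noncomputable def jt2_0 : BT := (.nd (nat_lit 15287476482) (.nd (nat_lit 15270711490) (.nd (nat_lit 15270699330) (.nd (nat_lit 15270449346) (.nd (nat_lit 15270191363) (.nd (nat_lit 15270191298) (.lf (nat_lit 0x38e2ca0c2)) (.lf (nat_lit 0x38e2ca103))) (.nd (nat_lit 15270445315) (.lf (nat_lit 0x38e308103)) (.lf (nat_lit 0x38e3090c2)))) (.nd (nat_lit 15270453442) (.nd (nat_lit 15270449411) (.lf (nat_lit 0x38e309103)) (.lf (nat_lit 0x38e30a0c2))) (.nd (nat_lit 15270457538) (.lf (nat_lit 0x38e30b0c2)) (.lf (nat_lit 0x38e346142))))) (.nd (nat_lit 15270703427) (.nd (nat_lit 15270703362) (.nd (nat_lit 15270699331) (.lf (nat_lit 0x38e346143)) (.lf (nat_lit 0x38e347102))) (.nd (nat_lit 15270703363) (.lf (nat_lit 0x38e347103)) (.lf (nat_lit 0x38e347143)))) (.nd (nat_lit 15270707458) (.nd (nat_lit 15270707394) (.lf (nat_lit 0x38e3480c2)) (.lf (nat_lit 0x38e348102)))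 (.nd (nat_lit 15270707459) (.lf (nat_lit 0x38e348103)) (.lf (nat_lit 0x38e3490c2)))))) (.nd (nat_lit 15286968514) (.nd (nat_lit 15286956355) (.nd (nat_lit 15270715586) (.nd (nat_lit 15270711554) (.lf (nat_lit 0x38e349102)) (.lf (nat_lit 0x38e34a0c2))) (.nd (nat_lit 15286702339) (.lf (nat_lit 0x38f289103)) (.lf (nat_lit 0x38f2c7143)))) (.nd (nat_lit 15286960387) (.nd (nat_lit 15286960386) (.lf (nat_lit 0x38f2c8102)) (.lf (nat_lit 0x38f2c8103))) (.nd (nat_lit 15286964418) (.lf (nat_lit 0x38f2c90c2)) (.lf (nat_lit 0x38f2ca0c2))))) (.nd (nat_lit 15287222466) (.nd (nat_lit 15287218434) (.nd (nat_lit 15287214403) (.lf (nat_lit 0x38f306143)) (.lf (nat_lit 0x38f307102))) (.nd (nat_lit 15287218435) (.lf (nat_lit 0x38f307103)) (.lf (nat_lit 0x38f3080c2)))) (.nd (nat_lit 15287472387) (.nd (nat_lit 15287226562) (.lf (nat_lit 0x38f3090c2)) (.lf (nat_lit 0x38f345103))) (.nd (nat_lit 15287476418) (.lf (nat_lit 0x38f3460c2)) (.lf (nat_lit 0x38f346102)))))))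 (.nd (nat_lit 15303475394) (.nd (nat_lit 15287734531) (.nd (nat_lit 15287484610) (.nd (nat_lit 15287480514) (.nd (nat_lit 15287476483) (.lf (nat_lit 0x38f346103)) (.lf (nat_lit 0x38f3470c2))) (.nd (nat_lit 15287480578) (.lf (nat_lit 0x38f347102)) (.lf (nat_lit 0x38f3480c2)))) (.nd (nat_lit 15287734466) (.nd (nat_lit 15287730370) (.lf (nat_lit 0x38f3840c2)) (.lf (nat_lit 0x38f3850c2))) (.nd (nat_lit 15287734530) (.lf (nat_lit 0x38f385102)) (.lf (nat_lit 0x38f385103))))) (.nd (nat_lit 15303209283) (.nd (nat_lit 15287738626) (.nd (nat_lit 15287738562) (.lf (nat_lit 0x38f3860c2)) (.lf (nat_lit 0x38f386102))) (.nd (nat_lit 15287742658) (.lf (nat_lit 0x38f3870c2)) (.lf (nat_lit 0x390247143)))) (.nd (nat_lit 15303467331) (.nd (nat_lit 15303213315) (.lf (nat_lit 0x390248103)) (.lf (nat_lit 0x390286143))) (.nd (nat_lit 15303471363) (.lf (nat_lit 0x390287103)) (.lf (nat_lit 0x3902880c2)))))) (.nd (nat_lit 15303737538) (.nd (nat_lit 15303729411)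 (.nd (nat_lit 15303479490) (.nd (nat_lit 15303475458) (.lf (nat_lit 0x390288102)) (.lf (nat_lit 0x3902890c2))) (.nd (nat_lit 15303729410) (.lf (nat_lit 0x3902c6102)) (.lf (nat_lit 0x3902c6103)))) (.nd (nat_lit 15303733442) (.nd (nat_lit 15303729474) (.lf (nat_lit 0x3902c6142)) (.lf (nat_lit 0x3902c70c2))) (.nd (nat_lit 15303733506) (.lf (nat_lit 0x3902c7102)) (.lf (nat_lit 0x3902c80c2))))) (.nd (nat_lit 15303991490) (.nd (nat_lit 15303987458) (.nd (nat_lit 15303987394) (.lf (nat_lit 0x3903050c2)) (.lf (nat_lit 0x390305102))) (.nd (nat_lit 15303987459) (.lf (nat_lit 0x390305103)) (.lf (nat_lit 0x3903060c2)))) (.nd (nat_lit 15303995586) (.nd (nat_lit 15303991554) (.lf (nat_lit 0x390306102)) (.lf (nat_lit 0x3903070c2))) (.nd (nat_lit 15304245442) (.lf (nat_lit 0x3903440c2)) (.lf (nat_lit 0x3903450c2))))))))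
noncomputable def jt2_1 : BT := (.nd (nat_lit 15336235266) (.nd (nat_lit 15319986434) (.nd (nat_lit 15319720259) (.nd (nat_lit 15304507586) (.nd (nat_lit 15304249602) (.lf (nat_lit 0x390345102)) (.nd (nat_lit 15304253634) (.lf (nat_lit 0x3903460c2)) (.lf (nat_lit 0x3903840c2)))) (.nd (nat_lit 15304511682) (.lf (nat_lit 0x3903850c2)) (.nd (nat_lit 15304769730) (.lf (nat_lit 0x3903c40c2)) (.lf (nat_lit 0x391206143))))) (.nd (nat_lit 15319982339) (.nd (nat_lit 15319724291) (.lf (nat_lit 0x391207103)) (.nd (nat_lit 15319724354) (.lf (nat_lit 0x391207142)) (.lf (nat_lit 0x391246103)))) (.nd (nat_lit 15319982402) (.lf (nat_lit 0x391246142)) (.nd (nat_lit 15319986370) (.lf (nat_lit 0x3912470c2)) (.lf (nat_lit 0x391247102)))))) (.nd (nat_lit 15320498370) (.nd (nat_lit 15320244418) (.nd (nat_lit 15319990466) (.lf (nat_lit 0x3912480c2)) (.nd (nat_lit 15320240387) (.lf (nat_lit 0x391285103)) (.lf (nat_lit 0x3912860c2)))) (.nd (nat_lit 15320244482)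 (.lf (nat_lit 0x391286102)) (.nd (nat_lit 15320248514) (.lf (nat_lit 0x3912870c2)) (.lf (nat_lit 0x3912c40c2))))) (.nd (nat_lit 15320506562) (.nd (nat_lit 15320502466) (.lf (nat_lit 0x3912c50c2)) (.nd (nat_lit 15320502530) (.lf (nat_lit 0x3912c5102)) (.lf (nat_lit 0x3912c60c2)))) (.nd (nat_lit 15320764610) (.nd (nat_lit 15320760514) (.lf (nat_lit 0x3913040c2)) (.lf (nat_lit 0x3913050c2))) (.nd (nat_lit 15321022658) (.lf (nat_lit 0x3913440c2)) (.lf (nat_lit 0x3921c6102))))))) (.nd (nat_lit 15352479938) (.nd (nat_lit 15336751298) (.nd (nat_lit 15336497346) (.nd (nat_lit 15336235267) (.lf (nat_lit 0x3921c6103)) (.nd (nat_lit 15336235330) (.lf (nat_lit 0x3921c6142)) (.lf (nat_lit 0x3922060c2)))) (.nd (nat_lit 15336497410) (.lf (nat_lit 0x392206102)) (.nd (nat_lit 15336501442) (.lf (nat_lit 0x3922070c2)) (.lf (nat_lit 0x3922440c2))))) (.nd (nat_lit 15336759490) (.nd (nat_lit 15336755394) (.lf (nat_lit 0x3922450c2)) (.nd (nat_lit 15336755458)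 (.lf (nat_lit 0x392245102)) (.lf (nat_lit 0x3922460c2)))) (.nd (nat_lit 15337017538) (.nd (nat_lit 15337013442) (.lf (nat_lit 0x3922840c2)) (.lf (nat_lit 0x3922850c2))) (.nd (nat_lit 15337275586) (.lf (nat_lit 0x3922c40c2)) (.lf (nat_lit 0x3931440c2)))))) (.nd (nat_lit 15353266370) (.nd (nat_lit 15353008322) (.nd (nat_lit 15352742082) (.lf (nat_lit 0x3931840c2)) (.nd (nat_lit 15353004226) (.lf (nat_lit 0x3931c40c2)) (.lf (nat_lit 0x3931c50c2)))) (.nd (nat_lit 15353008386) (.lf (nat_lit 0x3931c5102)) (.nd (nat_lit 15353012418) (.lf (nat_lit 0x3931c60c2)) (.lf (nat_lit 0x3932040c2))))) (.nd (nat_lit 15369257154) (.nd (nat_lit 15353270466) (.lf (nat_lit 0x3932050c2)) (.nd (nat_lit 15353528514) (.lf (nat_lit 0x3932440c2)) (.lf (nat_lit 0x3941440c2)))) (.nd (nat_lit 15369523394) (.nd (nat_lit 15369519298) (.lf (nat_lit 0x3941840c2)) (.lf (nat_lit 0x3941850c2))) (.nd (nat_lit 15369781442) (.lf (nat_lit 0x3941c40c2)) (.lf (nat_lit 0x3951440c2))))))))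
noncomputable def jt2 : BT := (.nd (nat_lit 15304249538) jt2_0 jt2_1)
def jg2 : Cfg := ⟨58, 49, 14, 5, 23⟩
noncomputable def jX2 : F3 := XRc 5 99 99 99 0
noncomputable def jt3 : BT := (.nd (nat_lit 17502326978) (.nd (nat_lit 17486069954) (.nd (nat_lit 17469296899) (.lf (nat_lit 0x411405103)) (.nd (nat_lit 17485816002) (.lf (nat_lit 0x4123c60c2)) (.lf (nat_lit 0x4124040c2)))) (.nd (nat_lit 17486074050) (.lf (nat_lit 0x4124050c2)) (.nd (nat_lit 17486332098) (.lf (nat_lit 0x4124440c2)) (.lf (nat_lit 0x4133850c2))))) (.nd (nat_lit 17535090882) (.nd (nat_lit 17502585026) (.lf (nat_lit 0x4133c40c2)) (.nd (nat_lit 17518837954) (.lf (nat_lit 0x4143440c2)) (.lf (nat_lit 0x4152c40c2)))) (.nd (nat_lit 17551343810) (.lf (nat_lit 0x4162440c2)) (.nd (nat_lit 17567596738) (.lf (nat_lit 0x4171c40c2)) (.lf (nat_lit 0x4181440c2))))))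
def jg3 : Cfg := ⟨63, 54, 16, 6, 26⟩
noncomputable def jX3 : F3 := XRc 6 99 99 99 0
noncomputable def jt4_0 : BT := (.nd (nat_lit 15270428736) (.nd (nat_lit 15268061248) (.nd (nat_lit 15253643328) (.nd (nat_lit 15251808320) (.nd (nat_lit 15251284032) (.nd (nat_lit 15234506816) (.lf (nat_lit 0x38c0c2040)) (.lf (nat_lit 0x38d0c2040))) (.nd (nat_lit 15251546176) (.lf (nat_lit 0x38d102040)) (.lf (nat_lit 0x38d142040)))) (.nd (nat_lit 15253381184) (.nd (nat_lit 15252070464) (.lf (nat_lit 0x38d182040)) (.lf (nat_lit 0x38d2c2040))) (.nd (nat_lit 15253413952) (.lf (nat_lit 0x38d2ca040)) (.lf (nat_lit 0x38d302040))))) (.nd (nat_lit 15253676224) (.nd (nat_lit 15253676096) (.nd (nat_lit 15253672000) (.lf (nat_lit 0x38d309040)) (.lf (nat_lit 0x38d30a040))) (.nd (nat_lit 15253676160) (.lf (nat_lit 0x38d30a080)) (.lf (nat_lit 0x38d30a0c0)))) (.nd (nat_lit 15253680256) (.nd (nat_lit 15253680192) (.lf (nat_lit 0x38d30b040)) (.lf (nat_lit 0x38d30b080)))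 (.nd (nat_lit 15253680257) (.lf (nat_lit 0x38d30b081)) (.lf (nat_lit 0x38e0c2040)))))) (.nd (nat_lit 15270158400) (.nd (nat_lit 15269109824) (.nd (nat_lit 15268585536) (.nd (nat_lit 15268323392) (.lf (nat_lit 0x38e102040)) (.lf (nat_lit 0x38e142040))) (.nd (nat_lit 15268847680) (.lf (nat_lit 0x38e182040)) (.lf (nat_lit 0x38e1c2040)))) (.nd (nat_lit 15269634112) (.nd (nat_lit 15269371968) (.lf (nat_lit 0x38e202040)) (.lf (nat_lit 0x38e242040))) (.nd (nat_lit 15269896256) (.lf (nat_lit 0x38e282040)) (.lf (nat_lit 0x38e2c2040))))) (.nd (nat_lit 15270191296) (.nd (nat_lit 15270191168) (.nd (nat_lit 15270187072) (.lf (nat_lit 0x38e2c9040)) (.lf (nat_lit 0x38e2ca040))) (.nd (nat_lit 15270191232) (.lf (nat_lit 0x38e2ca080)) (.lf (nat_lit 0x38e2ca0c0)))) (.nd (nat_lit 15270420544) (.nd (nat_lit 15270191297) (.lf (nat_lit 0x38e2ca0c1)) (.lf (nat_lit 0x38e302040))) (.nd (nat_lit 15270424640) (.lf (nat_lit 0x38e303040)) (.lf (nat_lit 0x38e304040)))))))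 (.nd (nat_lit 15270457472) (.nd (nat_lit 15270449344) (.nd (nat_lit 15270445184) (.nd (nat_lit 15270441024) (.nd (nat_lit 15270436928) (.lf (nat_lit 0x38e306040)) (.lf (nat_lit 0x38e307040))) (.nd (nat_lit 15270445120) (.lf (nat_lit 0x38e308040)) (.lf (nat_lit 0x38e308080)))) (.nd (nat_lit 15270449216) (.nd (nat_lit 15270445312) (.lf (nat_lit 0x38e308100)) (.lf (nat_lit 0x38e309040))) (.nd (nat_lit 15270449280) (.lf (nat_lit 0x38e309080)) (.lf (nat_lit 0x38e3090c0))))) (.nd (nat_lit 15270453377) (.nd (nat_lit 15270453312) (.nd (nat_lit 15270449345) (.lf (nat_lit 0x38e3090c1)) (.lf (nat_lit 0x38e30a040))) (.nd (nat_lit 15270453376) (.lf (nat_lit 0x38e30a080)) (.lf (nat_lit 0x38e30a081)))) (.nd (nat_lit 15270453441) (.nd (nat_lit 15270453440) (.lf (nat_lit 0x38e30a0c0)) (.lf (nat_lit 0x38e30a0c1))) (.nd (nat_lit 15270457408) (.lf (nat_lit 0x38e30b040)) (.lf (nat_lit 0x38e30b080)))))) (.nd (nat_lit 15270699136) (.nd (nat_lit 15270686848)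 (.nd (nat_lit 15270682688) (.nd (nat_lit 15270457473) (.lf (nat_lit 0x38e30b081)) (.lf (nat_lit 0x38e342040))) (.nd (nat_lit 15270686784) (.lf (nat_lit 0x38e343040)) (.lf (nat_lit 0x38e343080)))) (.nd (nat_lit 15270694976) (.nd (nat_lit 15270690880) (.lf (nat_lit 0x38e344040)) (.lf (nat_lit 0x38e345040))) (.nd (nat_lit 15270699072) (.lf (nat_lit 0x38e346040)) (.lf (nat_lit 0x38e346080))))) (.nd (nat_lit 15270699329) (.nd (nat_lit 15270699264) (.nd (nat_lit 15270699200) (.lf (nat_lit 0x38e3460c0)) (.lf (nat_lit 0x38e346100))) (.nd (nat_lit 15270699328) (.lf (nat_lit 0x38e346140)) (.lf (nat_lit 0x38e346141)))) (.nd (nat_lit 15270703232) (.nd (nat_lit 15270703168) (.lf (nat_lit 0x38e347040)) (.lf (nat_lit 0x38e347080))) (.nd (nat_lit 15270703296) (.lf (nat_lit 0x38e3470c0)) (.lf (nat_lit 0x38e347100))))))))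
noncomputable def jt4_1 : BT := (.nd (nat_lit 15285362752) (.nd (nat_lit 15270715521) (.nd (nat_lit 15270707457) (.nd (nat_lit 15270707329) (.nd (nat_lit 15270707264) (.nd (nat_lit 15270703361) (.lf (nat_lit 0x38e347101)) (.lf (nat_lit 0x38e348040))) (.nd (nat_lit 15270707328) (.lf (nat_lit 0x38e348080)) (.lf (nat_lit 0x38e348081)))) (.nd (nat_lit 15270707393) (.nd (nat_lit 15270707392) (.lf (nat_lit 0x38e3480c0)) (.lf (nat_lit 0x38e3480c1))) (.nd (nat_lit 15270707456) (.lf (nat_lit 0x38e348100)) (.lf (nat_lit 0x38e348101))))) (.nd (nat_lit 15270711488) (.nd (nat_lit 15270711424) (.nd (nat_lit 15270711360) (.lf (nat_lit 0x38e349040)) (.lf (nat_lit 0x38e349080))) (.nd (nat_lit 15270711425) (.lf (nat_lit 0x38e349081)) (.lf (nat_lit 0x38e3490c0)))) (.nd (nat_lit 15270715456) (.nd (nat_lit 15270711489) (.lf (nat_lit 0x38e3490c1)) (.lf (nat_lit 0x38e34a040))) (.nd (nat_lit 15270715520) (.lf (nat_lit 0x38e34a080)) (.lf (nat_lit 0x38e34a081))))))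 (.nd (nat_lit 15270719681) (.nd (nat_lit 15270719552) (.nd (nat_lit 15270715585) (.nd (nat_lit 15270715584) (.lf (nat_lit 0x38e34a0c0)) (.lf (nat_lit 0x38e34a0c1))) (.nd (nat_lit 15270715649) (.lf (nat_lit 0x38e34a101)) (.lf (nat_lit 0x38e34b040)))) (.nd (nat_lit 15270719617) (.nd (nat_lit 15270719616) (.lf (nat_lit 0x38e34b080)) (.lf (nat_lit 0x38e34b081))) (.nd (nat_lit 15270719680) (.lf (nat_lit 0x38e34b0c0)) (.lf (nat_lit 0x38e34b0c1))))) (.nd (nat_lit 15270723776) (.nd (nat_lit 15270723712) (.nd (nat_lit 15270723648) (.lf (nat_lit 0x38e34c040)) (.lf (nat_lit 0x38e34c080))) (.nd (nat_lit 15270723713) (.lf (nat_lit 0x38e34c081)) (.lf (nat_lit 0x38e34c0c0)))) (.nd (nat_lit 15285100608) (.nd (nat_lit 15284838464) (.lf (nat_lit 0x38f0c2040)) (.lf (nat_lit 0x38f102040))) (.nd (nat_lit 15285104704) (.lf (nat_lit 0x38f103040)) (.lf (nat_lit 0x38f142040))))))) (.nd (nat_lit 15286939712) (.nd (nat_lit 15286411328) (.nd (nat_lit 15285628992)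 (.nd (nat_lit 15285370944) (.nd (nat_lit 15285366848) (.lf (nat_lit 0x38f143040)) (.lf (nat_lit 0x38f144040))) (.nd (nat_lit 15285624896) (.lf (nat_lit 0x38f182040)) (.lf (nat_lit 0x38f183040)))) (.nd (nat_lit 15285891136) (.nd (nat_lit 15285887040) (.lf (nat_lit 0x38f1c2040)) (.lf (nat_lit 0x38f1c3040))) (.nd (nat_lit 15286149184) (.lf (nat_lit 0x38f202040)) (.lf (nat_lit 0x38f242040))))) (.nd (nat_lit 15286698048) (.nd (nat_lit 15286673472) (.nd (nat_lit 15286415424) (.lf (nat_lit 0x38f243040)) (.lf (nat_lit 0x38f282040))) (.nd (nat_lit 15286677568) (.lf (nat_lit 0x38f283040)) (.lf (nat_lit 0x38f288040)))) (.nd (nat_lit 15286702336) (.nd (nat_lit 15286702144) (.lf (nat_lit 0x38f289040)) (.lf (nat_lit 0x38f289100))) (.nd (nat_lit 15286935616) (.lf (nat_lit 0x38f2c2040)) (.lf (nat_lit 0x38f2c3040)))))) (.nd (nat_lit 15286960320) (.nd (nat_lit 15286956096) (.nd (nat_lit 15286947904) (.nd (nat_lit 15286943808) (.lf (nat_lit 0x38f2c4040))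 (.lf (nat_lit 0x38f2c5040))) (.nd (nat_lit 15286952000) (.lf (nat_lit 0x38f2c6040)) (.lf (nat_lit 0x38f2c7040)))) (.nd (nat_lit 15286960192) (.nd (nat_lit 15286956352) (.lf (nat_lit 0x38f2c7140)) (.lf (nat_lit 0x38f2c8040))) (.nd (nat_lit 15286960256) (.lf (nat_lit 0x38f2c8080)) (.lf (nat_lit 0x38f2c80c0))))) (.nd (nat_lit 15286964353) (.nd (nat_lit 15286964288) (.nd (nat_lit 15286960384) (.lf (nat_lit 0x38f2c8100)) (.lf (nat_lit 0x38f2c9040))) (.nd (nat_lit 15286964352) (.lf (nat_lit 0x38f2c9080)) (.lf (nat_lit 0x38f2c9081)))) (.nd (nat_lit 15286964417) (.nd (nat_lit 15286964416) (.lf (nat_lit 0x38f2c90c0)) (.lf (nat_lit 0x38f2c90c1))) (.nd (nat_lit 15286968384) (.lf (nat_lit 0x38f2ca040)) (.lf (nat_lit 0x38f2ca080))))))))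
noncomputable def jt4_2 : BT := (.nd (nat_lit 15287230592) (.nd (nat_lit 15287218304) (.nd (nat_lit 15287206016) (.nd (nat_lit 15287197760) (.nd (nat_lit 15286968512) (.nd (nat_lit 15286968449) (.lf (nat_lit 0x38f2ca081)) (.lf (nat_lit 0x38f2ca0c0))) (.nd (nat_lit 15286968513) (.lf (nat_lit 0x38f2ca0c1)) (.lf (nat_lit 0x38f302040)))) (.nd (nat_lit 15287201920) (.nd (nat_lit 15287201856) (.lf (nat_lit 0x38f303040)) (.lf (nat_lit 0x38f303080))) (.nd (nat_lit 15287205952) (.lf (nat_lit 0x38f304040)) (.lf (nat_lit 0x38f304080))))) (.nd (nat_lit 15287214272) (.nd (nat_lit 15287214144) (.nd (nat_lit 15287210048) (.lf (nat_lit 0x38f305040)) (.lf (nat_lit 0x38f306040))) (.nd (nat_lit 15287214208) (.lf (nat_lit 0x38f306080)) (.lf (nat_lit 0x38f3060c0)))) (.nd (nat_lit 15287214400) (.nd (nat_lit 15287214336) (.lf (nat_lit 0x38f306100)) (.lf (nat_lit 0x38f306140))) (.nd (nat_lit 15287218240) (.lf (nat_lit 0x38f307040)) (.lf (nat_lit 0x38f307080))))))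 (.nd (nat_lit 15287222465) (.nd (nat_lit 15287222336) (.nd (nat_lit 15287218432) (.nd (nat_lit 15287218368) (.lf (nat_lit 0x38f3070c0)) (.lf (nat_lit 0x38f307100))) (.nd (nat_lit 15287218433) (.lf (nat_lit 0x38f307101)) (.lf (nat_lit 0x38f308040)))) (.nd (nat_lit 15287222401) (.nd (nat_lit 15287222400) (.lf (nat_lit 0x38f308080)) (.lf (nat_lit 0x38f308081))) (.nd (nat_lit 15287222464) (.lf (nat_lit 0x38f3080c0)) (.lf (nat_lit 0x38f3080c1))))) (.nd (nat_lit 15287226497) (.nd (nat_lit 15287226432) (.nd (nat_lit 15287222528) (.lf (nat_lit 0x38f308100)) (.lf (nat_lit 0x38f309040))) (.nd (nat_lit 15287226496) (.lf (nat_lit 0x38f309080)) (.lf (nat_lit 0x38f309081)))) (.nd (nat_lit 15287226561) (.nd (nat_lit 15287226560) (.lf (nat_lit 0x38f3090c0)) (.lf (nat_lit 0x38f3090c1))) (.nd (nat_lit 15287230528) (.lf (nat_lit 0x38f30a040)) (.lf (nat_lit 0x38f30a080))))))) (.nd (nat_lit 15287476288) (.nd (nat_lit 15287464064) (.nd (nat_lit 15287234688)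 (.nd (nat_lit 15287230656) (.nd (nat_lit 15287230593) (.lf (nat_lit 0x38f30a081)) (.lf (nat_lit 0x38f30a0c0))) (.nd (nat_lit 15287234624) (.lf (nat_lit 0x38f30b040)) (.lf (nat_lit 0x38f30b080)))) (.nd (nat_lit 15287459904) (.nd (nat_lit 15287234689) (.lf (nat_lit 0x38f30b081)) (.lf (nat_lit 0x38f342040))) (.nd (nat_lit 15287464000) (.lf (nat_lit 0x38f343040)) (.lf (nat_lit 0x38f343080))))) (.nd (nat_lit 15287472192) (.nd (nat_lit 15287468160) (.nd (nat_lit 15287468096) (.lf (nat_lit 0x38f344040)) (.lf (nat_lit 0x38f344080))) (.nd (nat_lit 15287468224) (.lf (nat_lit 0x38f3440c0)) (.lf (nat_lit 0x38f345040)))) (.nd (nat_lit 15287472320) (.nd (nat_lit 15287472256) (.lf (nat_lit 0x38f345080)) (.lf (nat_lit 0x38f3450c0))) (.nd (nat_lit 15287472384) (.lf (nat_lit 0x38f345100)) (.lf (nat_lit 0x38f346040)))))) (.nd (nat_lit 15287480384) (.nd (nat_lit 15287476417) (.nd (nat_lit 15287476353) (.nd (nat_lit 15287476352) (.lf (nat_lit 0x38f346080))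 (.lf (nat_lit 0x38f346081))) (.nd (nat_lit 15287476416) (.lf (nat_lit 0x38f3460c0)) (.lf (nat_lit 0x38f3460c1)))) (.nd (nat_lit 15287476481) (.nd (nat_lit 15287476480) (.lf (nat_lit 0x38f346100)) (.lf (nat_lit 0x38f346101))) (.nd (nat_lit 15287476544) (.lf (nat_lit 0x38f346140)) (.lf (nat_lit 0x38f347040))))) (.nd (nat_lit 15287480513) (.nd (nat_lit 15287480449) (.nd (nat_lit 15287480448) (.lf (nat_lit 0x38f347080)) (.lf (nat_lit 0x38f347081))) (.nd (nat_lit 15287480512) (.lf (nat_lit 0x38f3470c0)) (.lf (nat_lit 0x38f3470c1)))) (.nd (nat_lit 15287480577) (.nd (nat_lit 15287480576) (.lf (nat_lit 0x38f347100)) (.lf (nat_lit 0x38f347101))) (.nd (nat_lit 15287484480) (.lf (nat_lit 0x38f348040)) (.lf (nat_lit 0x38f348080))))))))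
noncomputable def jt4_3 : BT := (.nd (nat_lit 15287738496) (.nd (nat_lit 15287726144) (.nd (nat_lit 15287492672) (.nd (nat_lit 15287488576) (.nd (nat_lit 15287484608) (.nd (nat_lit 15287484545) (.lf (nat_lit 0x38f348081)) (.lf (nat_lit 0x38f3480c0))) (.nd (nat_lit 15287484609) (.lf (nat_lit 0x38f3480c1)) (.lf (nat_lit 0x38f349040)))) (.nd (nat_lit 15287488641) (.nd (nat_lit 15287488640) (.lf (nat_lit 0x38f349080)) (.lf (nat_lit 0x38f349081))) (.nd (nat_lit 15287488704) (.lf (nat_lit 0x38f3490c0)) (.lf (nat_lit 0x38f34a040))))) (.nd (nat_lit 15287496768) (.nd (nat_lit 15287492737) (.nd (nat_lit 15287492736) (.lf (nat_lit 0x38f34a080)) (.lf (nat_lit 0x38f34a081))) (.nd (nat_lit 15287492800) (.lf (nat_lit 0x38f34a0c0)) (.lf (nat_lit 0x38f34b040)))) (.nd (nat_lit 15287500864) (.nd (nat_lit 15287496832) (.lf (nat_lit 0x38f34b080)) (.lf (nat_lit 0x38f34c040))) (.nd (nat_lit 15287722048) (.lf (nat_lit 0x38f382040)) (.lf (nat_lit 0x38f383040))))))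 (.nd (nat_lit 15287734336) (.nd (nat_lit 15287730304) (.nd (nat_lit 15287726209) (.nd (nat_lit 15287726208) (.lf (nat_lit 0x38f383080)) (.lf (nat_lit 0x38f383081))) (.nd (nat_lit 15287730240) (.lf (nat_lit 0x38f384040)) (.lf (nat_lit 0x38f384080)))) (.nd (nat_lit 15287730368) (.nd (nat_lit 15287730305) (.lf (nat_lit 0x38f384081)) (.lf (nat_lit 0x38f3840c0))) (.nd (nat_lit 15287730369) (.lf (nat_lit 0x38f3840c1)) (.lf (nat_lit 0x38f385040))))) (.nd (nat_lit 15287734465) (.nd (nat_lit 15287734401) (.nd (nat_lit 15287734400) (.lf (nat_lit 0x38f385080)) (.lf (nat_lit 0x38f385081))) (.nd (nat_lit 15287734464) (.lf (nat_lit 0x38f3850c0)) (.lf (nat_lit 0x38f3850c1)))) (.nd (nat_lit 15287734529) (.nd (nat_lit 15287734528) (.lf (nat_lit 0x38f385100)) (.lf (nat_lit 0x38f385101))) (.nd (nat_lit 15287738432) (.lf (nat_lit 0x38f386040)) (.lf (nat_lit 0x38f386080))))))) (.nd (nat_lit 15287750784) (.nd (nat_lit 15287742593) (.nd (nat_lit 15287738624)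 (.nd (nat_lit 15287738560) (.nd (nat_lit 15287738497) (.lf (nat_lit 0x38f386081)) (.lf (nat_lit 0x38f3860c0))) (.nd (nat_lit 15287738561) (.lf (nat_lit 0x38f3860c1)) (.lf (nat_lit 0x38f386100)))) (.nd (nat_lit 15287742528) (.nd (nat_lit 15287738625) (.lf (nat_lit 0x38f386101)) (.lf (nat_lit 0x38f387040))) (.nd (nat_lit 15287742592) (.lf (nat_lit 0x38f387080)) (.lf (nat_lit 0x38f387081))))) (.nd (nat_lit 15287746688) (.nd (nat_lit 15287742657) (.nd (nat_lit 15287742656) (.lf (nat_lit 0x38f3870c0)) (.lf (nat_lit 0x38f3870c1))) (.nd (nat_lit 15287746624) (.lf (nat_lit 0x38f388040)) (.lf (nat_lit 0x38f388080)))) (.nd (nat_lit 15287746752) (.nd (nat_lit 15287746689) (.lf (nat_lit 0x38f388081)) (.lf (nat_lit 0x38f3880c0))) (.nd (nat_lit 15287750720) (.lf (nat_lit 0x38f389040)) (.lf (nat_lit 0x38f389080)))))) (.nd (nat_lit 15302139968) (.nd (nat_lit 15287758912) (.nd (nat_lit 15287754816) (.nd (nat_lit 15287750785) (.lf (nat_lit 0x38f389081))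 (.lf (nat_lit 0x38f38a040))) (.nd (nat_lit 15287754880) (.lf (nat_lit 0x38f38a080)) (.lf (nat_lit 0x38f38b040)))) (.nd (nat_lit 15301877824) (.nd (nat_lit 15301615680) (.lf (nat_lit 0x3900c2040)) (.lf (nat_lit 0x390102040))) (.nd (nat_lit 15301881920) (.lf (nat_lit 0x390103040)) (.lf (nat_lit 0x390142040))))) (.nd (nat_lit 15302406208) (.nd (nat_lit 15302148160) (.nd (nat_lit 15302144064) (.lf (nat_lit 0x390143040)) (.lf (nat_lit 0x390144040))) (.nd (nat_lit 15302402112) (.lf (nat_lit 0x390182040)) (.lf (nat_lit 0x390183040)))) (.nd (nat_lit 15302664256) (.nd (nat_lit 15302410304) (.lf (nat_lit 0x390184040)) (.lf (nat_lit 0x3901c2040))) (.nd (nat_lit 15302668352) (.lf (nat_lit 0x3901c3040)) (.lf (nat_lit 0x3901c4040))))))))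
noncomputable def jt4_4 : BT := (.nd (nat_lit 15303479360) (.nd (nat_lit 15303454784) (.nd (nat_lit 15303204928) (.nd (nat_lit 15303188544) (.nd (nat_lit 15302930496) (.nd (nat_lit 15302926400) (.lf (nat_lit 0x390202040)) (.lf (nat_lit 0x390203040))) (.nd (nat_lit 15302934592) (.lf (nat_lit 0x390204040)) (.lf (nat_lit 0x390242040)))) (.nd (nat_lit 15303196736) (.nd (nat_lit 15303192640) (.lf (nat_lit 0x390243040)) (.lf (nat_lit 0x390244040))) (.nd (nat_lit 15303200832) (.lf (nat_lit 0x390245040)) (.lf (nat_lit 0x390246040))))) (.nd (nat_lit 15303213248) (.nd (nat_lit 15303213120) (.nd (nat_lit 15303209024) (.lf (nat_lit 0x390247040)) (.lf (nat_lit 0x390248040))) (.nd (nat_lit 15303213184) (.lf (nat_lit 0x390248080)) (.lf (nat_lit 0x3902480c0)))) (.nd (nat_lit 15303213376) (.nd (nat_lit 15303213312) (.lf (nat_lit 0x390248100)) (.lf (nat_lit 0x390248140))) (.nd (nat_lit 15303450688) (.lf (nat_lit 0x390282040)) (.lf (nat_lit 0x390283040))))))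 (.nd (nat_lit 15303471360) (.nd (nat_lit 15303467328) (.nd (nat_lit 15303462976) (.nd (nat_lit 15303458880) (.lf (nat_lit 0x390284040)) (.lf (nat_lit 0x390285040))) (.nd (nat_lit 15303467072) (.lf (nat_lit 0x390286040)) (.lf (nat_lit 0x390286140)))) (.nd (nat_lit 15303471232) (.nd (nat_lit 15303471168) (.lf (nat_lit 0x390287040)) (.lf (nat_lit 0x390287080))) (.nd (nat_lit 15303471296) (.lf (nat_lit 0x3902870c0)) (.lf (nat_lit 0x390287100))))) (.nd (nat_lit 15303475392) (.nd (nat_lit 15303475264) (.nd (nat_lit 15303471424) (.lf (nat_lit 0x390287140)) (.lf (nat_lit 0x390288040))) (.nd (nat_lit 15303475328) (.lf (nat_lit 0x390288080)) (.lf (nat_lit 0x3902880c0)))) (.nd (nat_lit 15303475456) (.nd (nat_lit 15303475393) (.lf (nat_lit 0x3902880c1)) (.lf (nat_lit 0x390288100))) (.nd (nat_lit 15303475457) (.lf (nat_lit 0x390288101)) (.lf (nat_lit 0x390289040))))))) (.nd (nat_lit 15303729216) (.nd (nat_lit 15303716992) (.nd (nat_lit 15303479489)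 (.nd (nat_lit 15303479425) (.nd (nat_lit 15303479424) (.lf (nat_lit 0x390289080)) (.lf (nat_lit 0x390289081))) (.nd (nat_lit 15303479488) (.lf (nat_lit 0x3902890c0)) (.lf (nat_lit 0x3902890c1)))) (.nd (nat_lit 15303712832) (.nd (nat_lit 15303479552) (.lf (nat_lit 0x390289100)) (.lf (nat_lit 0x3902c2040))) (.nd (nat_lit 15303716928) (.lf (nat_lit 0x3902c3040)) (.lf (nat_lit 0x3902c3080))))) (.nd (nat_lit 15303725120) (.nd (nat_lit 15303721088) (.nd (nat_lit 15303721024) (.lf (nat_lit 0x3902c4040)) (.lf (nat_lit 0x3902c4080))) (.nd (nat_lit 15303721152) (.lf (nat_lit 0x3902c40c0)) (.lf (nat_lit 0x3902c5040)))) (.nd (nat_lit 15303725248) (.nd (nat_lit 15303725184) (.lf (nat_lit 0x3902c5080)) (.lf (nat_lit 0x3902c50c0))) (.nd (nat_lit 15303725312) (.lf (nat_lit 0x3902c5100)) (.lf (nat_lit 0x3902c6040)))))) (.nd (nat_lit 15303733440) (.nd (nat_lit 15303729472) (.nd (nat_lit 15303729344) (.nd (nat_lit 15303729280) (.lf (nat_lit 0x3902c6080))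 (.lf (nat_lit 0x3902c60c0))) (.nd (nat_lit 15303729408) (.lf (nat_lit 0x3902c6100)) (.lf (nat_lit 0x3902c6140)))) (.nd (nat_lit 15303733312) (.nd (nat_lit 15303729473) (.lf (nat_lit 0x3902c6141)) (.lf (nat_lit 0x3902c7040))) (.nd (nat_lit 15303733376) (.lf (nat_lit 0x3902c7080)) (.lf (nat_lit 0x3902c70c0))))) (.nd (nat_lit 15303737408) (.nd (nat_lit 15303733504) (.nd (nat_lit 15303733441) (.lf (nat_lit 0x3902c70c1)) (.lf (nat_lit 0x3902c7100))) (.nd (nat_lit 15303733505) (.lf (nat_lit 0x3902c7101)) (.lf (nat_lit 0x3902c8040)))) (.nd (nat_lit 15303737473) (.nd (nat_lit 15303737472) (.lf (nat_lit 0x3902c8080)) (.lf (nat_lit 0x3902c8081))) (.nd (nat_lit 15303737536) (.lf (nat_lit 0x3902c80c0)) (.lf (nat_lit 0x3902c80c1))))))))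
noncomputable def jt4_5 : BT := (.nd (nat_lit 15303995456) (.nd (nat_lit 15303983232) (.nd (nat_lit 15303745600) (.nd (nat_lit 15303741568) (.nd (nat_lit 15303737601) (.nd (nat_lit 15303737600) (.lf (nat_lit 0x3902c8100)) (.lf (nat_lit 0x3902c8101))) (.nd (nat_lit 15303741504) (.lf (nat_lit 0x3902c9040)) (.lf (nat_lit 0x3902c9080)))) (.nd (nat_lit 15303741632) (.nd (nat_lit 15303741569) (.lf (nat_lit 0x3902c9081)) (.lf (nat_lit 0x3902c90c0))) (.nd (nat_lit 15303741633) (.lf (nat_lit 0x3902c90c1)) (.lf (nat_lit 0x3902ca040))))) (.nd (nat_lit 15303974976) (.nd (nat_lit 15303745665) (.nd (nat_lit 15303745664) (.lf (nat_lit 0x3902ca080)) (.lf (nat_lit 0x3902ca081))) (.nd (nat_lit 15303745728) (.lf (nat_lit 0x3902ca0c0)) (.lf (nat_lit 0x390302040)))) (.nd (nat_lit 15303979136) (.nd (nat_lit 15303979072) (.lf (nat_lit 0x390303040)) (.lf (nat_lit 0x390303080))) (.nd (nat_lit 15303983168) (.lf (nat_lit 0x390304040)) (.lf (nat_lit 0x390304080))))))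 (.nd (nat_lit 15303991360) (.nd (nat_lit 15303987392) (.nd (nat_lit 15303987264) (.nd (nat_lit 15303983296) (.lf (nat_lit 0x3903040c0)) (.lf (nat_lit 0x390305040))) (.nd (nat_lit 15303987328) (.lf (nat_lit 0x390305080)) (.lf (nat_lit 0x3903050c0)))) (.nd (nat_lit 15303987456) (.nd (nat_lit 15303987393) (.lf (nat_lit 0x3903050c1)) (.lf (nat_lit 0x390305100))) (.nd (nat_lit 15303987457) (.lf (nat_lit 0x390305101)) (.lf (nat_lit 0x390306040))))) (.nd (nat_lit 15303991489) (.nd (nat_lit 15303991425) (.nd (nat_lit 15303991424) (.lf (nat_lit 0x390306080)) (.lf (nat_lit 0x390306081))) (.nd (nat_lit 15303991488) (.lf (nat_lit 0x3903060c0)) (.lf (nat_lit 0x3903060c1)))) (.nd (nat_lit 15303991553) (.nd (nat_lit 15303991552) (.lf (nat_lit 0x390306100)) (.lf (nat_lit 0x390306101))) (.nd (nat_lit 15303991616) (.lf (nat_lit 0x390306140)) (.lf (nat_lit 0x390307040))))))) (.nd (nat_lit 15304003776) (.nd (nat_lit 15303999616) (.nd (nat_lit 15303995585)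 (.nd (nat_lit 15303995521) (.nd (nat_lit 15303995520) (.lf (nat_lit 0x390307080)) (.lf (nat_lit 0x390307081))) (.nd (nat_lit 15303995584) (.lf (nat_lit 0x3903070c0)) (.lf (nat_lit 0x3903070c1)))) (.nd (nat_lit 15303995649) (.nd (nat_lit 15303995648) (.lf (nat_lit 0x390307100)) (.lf (nat_lit 0x390307101))) (.nd (nat_lit 15303999552) (.lf (nat_lit 0x390308040)) (.lf (nat_lit 0x390308080))))) (.nd (nat_lit 15303999744) (.nd (nat_lit 15303999680) (.nd (nat_lit 15303999617) (.lf (nat_lit 0x390308081)) (.lf (nat_lit 0x3903080c0))) (.nd (nat_lit 15303999681) (.lf (nat_lit 0x3903080c1)) (.lf (nat_lit 0x390308100)))) (.nd (nat_lit 15304003712) (.nd (nat_lit 15304003648) (.lf (nat_lit 0x390309040)) (.lf (nat_lit 0x390309080))) (.nd (nat_lit 15304003713) (.lf (nat_lit 0x390309081)) (.lf (nat_lit 0x3903090c0)))))) (.nd (nat_lit 15304245312) (.nd (nat_lit 15304237120) (.nd (nat_lit 15304007808) (.nd (nat_lit 15304007744) (.lf (nat_lit 0x39030a040))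 (.lf (nat_lit 0x39030a080))) (.nd (nat_lit 15304011840) (.lf (nat_lit 0x39030b040)) (.lf (nat_lit 0x390342040)))) (.nd (nat_lit 15304241280) (.nd (nat_lit 15304241216) (.lf (nat_lit 0x390343040)) (.lf (nat_lit 0x390343080))) (.nd (nat_lit 15304241281) (.lf (nat_lit 0x390343081)) (.lf (nat_lit 0x390344040))))) (.nd (nat_lit 15304245441) (.nd (nat_lit 15304245377) (.nd (nat_lit 15304245376) (.lf (nat_lit 0x390344080)) (.lf (nat_lit 0x390344081))) (.nd (nat_lit 15304245440) (.lf (nat_lit 0x3903440c0)) (.lf (nat_lit 0x3903440c1)))) (.nd (nat_lit 15304249472) (.nd (nat_lit 15304249408) (.lf (nat_lit 0x390345040)) (.lf (nat_lit 0x390345080))) (.nd (nat_lit 15304249473) (.lf (nat_lit 0x390345081)) (.lf (nat_lit 0x3903450c0))))))))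
noncomputable def jt4_6 : BT := (.nd (nat_lit 15304507584) (.nd (nat_lit 15304257729) (.nd (nat_lit 15304253633) (.nd (nat_lit 15304253504) (.nd (nat_lit 15304249600) (.nd (nat_lit 15304249537) (.lf (nat_lit 0x3903450c1)) (.lf (nat_lit 0x390345100))) (.nd (nat_lit 15304249601) (.lf (nat_lit 0x390345101)) (.lf (nat_lit 0x390346040)))) (.nd (nat_lit 15304253569) (.nd (nat_lit 15304253568) (.lf (nat_lit 0x390346080)) (.lf (nat_lit 0x390346081))) (.nd (nat_lit 15304253632) (.lf (nat_lit 0x3903460c0)) (.lf (nat_lit 0x3903460c1))))) (.nd (nat_lit 15304257600) (.nd (nat_lit 15304253697) (.nd (nat_lit 15304253696) (.lf (nat_lit 0x390346100)) (.lf (nat_lit 0x390346101))) (.nd (nat_lit 15304253760) (.lf (nat_lit 0x390346140)) (.lf (nat_lit 0x390347040)))) (.nd (nat_lit 15304257665) (.nd (nat_lit 15304257664) (.lf (nat_lit 0x390347080)) (.lf (nat_lit 0x390347081))) (.nd (nat_lit 15304257728) (.lf (nat_lit 0x3903470c0)) (.lf (nat_lit 0x3903470c1))))))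 (.nd (nat_lit 15304269888) (.nd (nat_lit 15304261761) (.nd (nat_lit 15304261696) (.nd (nat_lit 15304257792) (.lf (nat_lit 0x390347100)) (.lf (nat_lit 0x390348040))) (.nd (nat_lit 15304261760) (.lf (nat_lit 0x390348080)) (.lf (nat_lit 0x390348081)))) (.nd (nat_lit 15304265792) (.nd (nat_lit 15304261824) (.lf (nat_lit 0x3903480c0)) (.lf (nat_lit 0x390349040))) (.nd (nat_lit 15304265856) (.lf (nat_lit 0x390349080)) (.lf (nat_lit 0x39034a040))))) (.nd (nat_lit 15304503425) (.nd (nat_lit 15304503360) (.nd (nat_lit 15304499264) (.lf (nat_lit 0x390382040)) (.lf (nat_lit 0x390383040))) (.nd (nat_lit 15304503424) (.lf (nat_lit 0x390383080)) (.lf (nat_lit 0x390383081)))) (.nd (nat_lit 15304507520) (.nd (nat_lit 15304507456) (.lf (nat_lit 0x390384040)) (.lf (nat_lit 0x390384080))) (.nd (nat_lit 15304507521) (.lf (nat_lit 0x390384081)) (.lf (nat_lit 0x3903840c0))))))) (.nd (nat_lit 15304519808) (.nd (nat_lit 15304511745) (.nd (nat_lit 15304511617)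 (.nd (nat_lit 15304511552) (.nd (nat_lit 15304507585) (.lf (nat_lit 0x3903840c1)) (.lf (nat_lit 0x390385040))) (.nd (nat_lit 15304511616) (.lf (nat_lit 0x390385080)) (.lf (nat_lit 0x390385081)))) (.nd (nat_lit 15304511681) (.nd (nat_lit 15304511680) (.lf (nat_lit 0x3903850c0)) (.lf (nat_lit 0x3903850c1))) (.nd (nat_lit 15304511744) (.lf (nat_lit 0x390385100)) (.lf (nat_lit 0x390385101))))) (.nd (nat_lit 15304515776) (.nd (nat_lit 15304515712) (.nd (nat_lit 15304515648) (.lf (nat_lit 0x390386040)) (.lf (nat_lit 0x390386080))) (.nd (nat_lit 15304515713) (.lf (nat_lit 0x390386081)) (.lf (nat_lit 0x3903860c0)))) (.nd (nat_lit 15304515840) (.nd (nat_lit 15304515777) (.lf (nat_lit 0x3903860c1)) (.lf (nat_lit 0x390386100))) (.nd (nat_lit 15304519744) (.lf (nat_lit 0x390387040)) (.lf (nat_lit 0x390387080)))))) (.nd (nat_lit 15304765568) (.nd (nat_lit 15304523904) (.nd (nat_lit 15304519872) (.nd (nat_lit 15304519809) (.lf (nat_lit 0x390387081))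 (.lf (nat_lit 0x3903870c0))) (.nd (nat_lit 15304523840) (.lf (nat_lit 0x390388040)) (.lf (nat_lit 0x390388080)))) (.nd (nat_lit 15304761408) (.nd (nat_lit 15304527936) (.lf (nat_lit 0x390389040)) (.lf (nat_lit 0x3903c2040))) (.nd (nat_lit 15304765504) (.lf (nat_lit 0x3903c3040)) (.lf (nat_lit 0x3903c3080))))) (.nd (nat_lit 15304769665) (.nd (nat_lit 15304769600) (.nd (nat_lit 15304765569) (.lf (nat_lit 0x3903c3081)) (.lf (nat_lit 0x3903c4040))) (.nd (nat_lit 15304769664) (.lf (nat_lit 0x3903c4080)) (.lf (nat_lit 0x3903c4081)))) (.nd (nat_lit 15304769729) (.nd (nat_lit 15304769728) (.lf (nat_lit 0x3903c40c0)) (.lf (nat_lit 0x3903c40c1))) (.nd (nat_lit 15304773696) (.lf (nat_lit 0x3903c5040)) (.lf (nat_lit 0x3903c5080))))))))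
noncomputable def jt4_7 : BT := (.nd (nat_lit 15319457856) (.nd (nat_lit 15318921280) (.nd (nat_lit 15304777920) (.nd (nat_lit 15304773888) (.nd (nat_lit 15304773824) (.nd (nat_lit 15304773761) (.lf (nat_lit 0x3903c5081)) (.lf (nat_lit 0x3903c50c0))) (.nd (nat_lit 15304773825) (.lf (nat_lit 0x3903c50c1)) (.lf (nat_lit 0x3903c5100)))) (.nd (nat_lit 15304777856) (.nd (nat_lit 15304777792) (.lf (nat_lit 0x3903c6040)) (.lf (nat_lit 0x3903c6080))) (.nd (nat_lit 15304777857) (.lf (nat_lit 0x3903c6081)) (.lf (nat_lit 0x3903c60c0))))) (.nd (nat_lit 15318392896) (.nd (nat_lit 15304781952) (.nd (nat_lit 15304781888) (.lf (nat_lit 0x3903c7040)) (.lf (nat_lit 0x3903c7080))) (.nd (nat_lit 15304785984) (.lf (nat_lit 0x3903c8040)) (.lf (nat_lit 0x3910c2040)))) (.nd (nat_lit 15318659136) (.nd (nat_lit 15318655040) (.lf (nat_lit 0x391102040)) (.lf (nat_lit 0x391103040))) (.nd (nat_lit 15318917184) (.lf (nat_lit 0x391142040)) (.lf (nat_lit 0x391143040))))))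 (.nd (nat_lit 15319187520) (.nd (nat_lit 15318925504) (.nd (nat_lit 15318925376) (.nd (nat_lit 15318921344) (.lf (nat_lit 0x391143080)) (.lf (nat_lit 0x391144040))) (.nd (nat_lit 15318925440) (.lf (nat_lit 0x391144080)) (.lf (nat_lit 0x3911440c0)))) (.nd (nat_lit 15319183424) (.nd (nat_lit 15319179328) (.lf (nat_lit 0x391182040)) (.lf (nat_lit 0x391183040))) (.nd (nat_lit 15319183488) (.lf (nat_lit 0x391183080)) (.lf (nat_lit 0x391184040))))) (.nd (nat_lit 15319445632) (.nd (nat_lit 15319441472) (.nd (nat_lit 15319191616) (.lf (nat_lit 0x391185040)) (.lf (nat_lit 0x3911c2040))) (.nd (nat_lit 15319445568) (.lf (nat_lit 0x3911c3040)) (.lf (nat_lit 0x3911c3080)))) (.nd (nat_lit 15319449728) (.nd (nat_lit 15319449664) (.lf (nat_lit 0x3911c4040)) (.lf (nat_lit 0x3911c4080))) (.nd (nat_lit 15319453760) (.lf (nat_lit 0x3911c5040)) (.lf (nat_lit 0x3911c6040))))))) (.nd (nat_lit 15319724416) (.nd (nat_lit 15319720000) (.nd (nat_lit 15319707776)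 (.nd (nat_lit 15319703616) (.nd (nat_lit 15319458112) (.lf (nat_lit 0x3911c6140)) (.lf (nat_lit 0x391202040))) (.nd (nat_lit 15319707712) (.lf (nat_lit 0x391203040)) (.lf (nat_lit 0x391203080)))) (.nd (nat_lit 15319711872) (.nd (nat_lit 15319711808) (.lf (nat_lit 0x391204040)) (.lf (nat_lit 0x391204080))) (.nd (nat_lit 15319715904) (.lf (nat_lit 0x391205040)) (.lf (nat_lit 0x391206040))))) (.nd (nat_lit 15319724160) (.nd (nat_lit 15319720256) (.nd (nat_lit 15319720064) (.lf (nat_lit 0x391206080)) (.lf (nat_lit 0x391206140))) (.nd (nat_lit 15319724096) (.lf (nat_lit 0x391207040)) (.lf (nat_lit 0x391207080)))) (.nd (nat_lit 15319724288) (.nd (nat_lit 15319724224) (.lf (nat_lit 0x3912070c0)) (.lf (nat_lit 0x391207100))) (.nd (nat_lit 15319724352) (.lf (nat_lit 0x391207140)) (.lf (nat_lit 0x391207180)))))) (.nd (nat_lit 15319978048) (.nd (nat_lit 15319969920) (.nd (nat_lit 15319965760) (.nd (nat_lit 15319724417) (.lf (nat_lit 0x391207181))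 (.lf (nat_lit 0x391242040))) (.nd (nat_lit 15319969856) (.lf (nat_lit 0x391243040)) (.lf (nat_lit 0x391243080)))) (.nd (nat_lit 15319974016) (.nd (nat_lit 15319973952) (.lf (nat_lit 0x391244040)) (.lf (nat_lit 0x391244080))) (.nd (nat_lit 15319974080) (.lf (nat_lit 0x3912440c0)) (.lf (nat_lit 0x391245040))))) (.nd (nat_lit 15319982208) (.nd (nat_lit 15319978176) (.nd (nat_lit 15319978112) (.lf (nat_lit 0x391245080)) (.lf (nat_lit 0x3912450c0))) (.nd (nat_lit 15319982144) (.lf (nat_lit 0x391246040)) (.lf (nat_lit 0x391246080)))) (.nd (nat_lit 15319982336) (.nd (nat_lit 15319982272) (.lf (nat_lit 0x3912460c0)) (.lf (nat_lit 0x391246100))) (.nd (nat_lit 15319982400) (.lf (nat_lit 0x391246140)) (.lf (nat_lit 0x391246141))))))))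
noncomputable def jt4_8 : BT := (.nd (nat_lit 15320244481) (.nd (nat_lit 15320227904) (.nd (nat_lit 15319990336) (.nd (nat_lit 15319986432) (.nd (nat_lit 15319986304) (.nd (nat_lit 15319986240) (.lf (nat_lit 0x391247040)) (.lf (nat_lit 0x391247080))) (.nd (nat_lit 15319986368) (.lf (nat_lit 0x3912470c0)) (.lf (nat_lit 0x391247100)))) (.nd (nat_lit 15319986496) (.nd (nat_lit 15319986433) (.lf (nat_lit 0x391247101)) (.lf (nat_lit 0x391247140))) (.nd (nat_lit 15319986497) (.lf (nat_lit 0x391247141)) (.lf (nat_lit 0x391248040))))) (.nd (nat_lit 15319990465) (.nd (nat_lit 15319990401) (.nd (nat_lit 15319990400) (.lf (nat_lit 0x391248080)) (.lf (nat_lit 0x391248081))) (.nd (nat_lit 15319990464) (.lf (nat_lit 0x3912480c0)) (.lf (nat_lit 0x3912480c1)))) (.nd (nat_lit 15319990529) (.nd (nat_lit 15319990528) (.lf (nat_lit 0x391248100)) (.lf (nat_lit 0x391248101))) (.nd (nat_lit 15319990592) (.lf (nat_lit 0x391248140)) (.lf (nat_lit 0x391282040))))))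 (.nd (nat_lit 15320240320) (.nd (nat_lit 15320236160) (.nd (nat_lit 15320232064) (.nd (nat_lit 15320232000) (.lf (nat_lit 0x391283040)) (.lf (nat_lit 0x391283080))) (.nd (nat_lit 15320236096) (.lf (nat_lit 0x391284040)) (.lf (nat_lit 0x391284080)))) (.nd (nat_lit 15320240192) (.nd (nat_lit 15320236224) (.lf (nat_lit 0x3912840c0)) (.lf (nat_lit 0x391285040))) (.nd (nat_lit 15320240256) (.lf (nat_lit 0x391285080)) (.lf (nat_lit 0x3912850c0))))) (.nd (nat_lit 15320244353) (.nd (nat_lit 15320244288) (.nd (nat_lit 15320240384) (.lf (nat_lit 0x391285100)) (.lf (nat_lit 0x391286040))) (.nd (nat_lit 15320244352) (.lf (nat_lit 0x391286080)) (.lf (nat_lit 0x391286081)))) (.nd (nat_lit 15320244417) (.nd (nat_lit 15320244416) (.lf (nat_lit 0x3912860c0)) (.lf (nat_lit 0x3912860c1))) (.nd (nat_lit 15320244480) (.lf (nat_lit 0x391286100)) (.lf (nat_lit 0x391286101))))))) (.nd (nat_lit 15320252672) (.nd (nat_lit 15320248576) (.nd (nat_lit 15320248448)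 (.nd (nat_lit 15320244545) (.nd (nat_lit 15320244544) (.lf (nat_lit 0x391286140)) (.lf (nat_lit 0x391286141))) (.nd (nat_lit 15320248384) (.lf (nat_lit 0x391287040)) (.lf (nat_lit 0x391287080)))) (.nd (nat_lit 15320248512) (.nd (nat_lit 15320248449) (.lf (nat_lit 0x391287081)) (.lf (nat_lit 0x3912870c0))) (.nd (nat_lit 15320248513) (.lf (nat_lit 0x3912870c1)) (.lf (nat_lit 0x391287100))))) (.nd (nat_lit 15320252544) (.nd (nat_lit 15320248640) (.nd (nat_lit 15320248577) (.lf (nat_lit 0x391287101)) (.lf (nat_lit 0x391287140))) (.nd (nat_lit 15320252480) (.lf (nat_lit 0x391288040)) (.lf (nat_lit 0x391288080)))) (.nd (nat_lit 15320252608) (.nd (nat_lit 15320252545) (.lf (nat_lit 0x391288081)) (.lf (nat_lit 0x3912880c0))) (.nd (nat_lit 15320252609) (.lf (nat_lit 0x3912880c1)) (.lf (nat_lit 0x391288100)))))) (.nd (nat_lit 15320498240) (.nd (nat_lit 15320256704) (.nd (nat_lit 15320256640) (.nd (nat_lit 15320256576) (.lf (nat_lit 0x391289040))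 (.lf (nat_lit 0x391289080))) (.nd (nat_lit 15320256641) (.lf (nat_lit 0x391289081)) (.lf (nat_lit 0x3912890c0)))) (.nd (nat_lit 15320494144) (.nd (nat_lit 15320490048) (.lf (nat_lit 0x3912c2040)) (.lf (nat_lit 0x3912c3040))) (.nd (nat_lit 15320494208) (.lf (nat_lit 0x3912c3080)) (.lf (nat_lit 0x3912c4040))))) (.nd (nat_lit 15320498369) (.nd (nat_lit 15320498305) (.nd (nat_lit 15320498304) (.lf (nat_lit 0x3912c4080)) (.lf (nat_lit 0x3912c4081))) (.nd (nat_lit 15320498368) (.lf (nat_lit 0x3912c40c0)) (.lf (nat_lit 0x3912c40c1)))) (.nd (nat_lit 15320502400) (.nd (nat_lit 15320502336) (.lf (nat_lit 0x3912c5040)) (.lf (nat_lit 0x3912c5080))) (.nd (nat_lit 15320502401) (.lf (nat_lit 0x3912c5081)) (.lf (nat_lit 0x3912c50c0))))))))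
noncomputable def jt4_9 : BT := (.nd (nat_lit 15320760512) (.nd (nat_lit 15320510657) (.nd (nat_lit 15320506561) (.nd (nat_lit 15320506432) (.nd (nat_lit 15320502528) (.nd (nat_lit 15320502465) (.lf (nat_lit 0x3912c50c1)) (.lf (nat_lit 0x3912c5100))) (.nd (nat_lit 15320502529) (.lf (nat_lit 0x3912c5101)) (.lf (nat_lit 0x3912c6040)))) (.nd (nat_lit 15320506497) (.nd (nat_lit 15320506496) (.lf (nat_lit 0x3912c6080)) (.lf (nat_lit 0x3912c6081))) (.nd (nat_lit 15320506560) (.lf (nat_lit 0x3912c60c0)) (.lf (nat_lit 0x3912c60c1))))) (.nd (nat_lit 15320510528) (.nd (nat_lit 15320506625) (.nd (nat_lit 15320506624) (.lf (nat_lit 0x3912c6100)) (.lf (nat_lit 0x3912c6101))) (.nd (nat_lit 15320506688) (.lf (nat_lit 0x3912c6140)) (.lf (nat_lit 0x3912c7040)))) (.nd (nat_lit 15320510593) (.nd (nat_lit 15320510592) (.lf (nat_lit 0x3912c7080)) (.lf (nat_lit 0x3912c7081))) (.nd (nat_lit 15320510656) (.lf (nat_lit 0x3912c70c0)) (.lf (nat_lit 0x3912c70c1))))))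 (.nd (nat_lit 15320522816) (.nd (nat_lit 15320514689) (.nd (nat_lit 15320514624) (.nd (nat_lit 15320510720) (.lf (nat_lit 0x3912c7100)) (.lf (nat_lit 0x3912c8040))) (.nd (nat_lit 15320514688) (.lf (nat_lit 0x3912c8080)) (.lf (nat_lit 0x3912c8081)))) (.nd (nat_lit 15320518720) (.nd (nat_lit 15320514752) (.lf (nat_lit 0x3912c80c0)) (.lf (nat_lit 0x3912c9040))) (.nd (nat_lit 15320518784) (.lf (nat_lit 0x3912c9080)) (.lf (nat_lit 0x3912ca040))))) (.nd (nat_lit 15320756353) (.nd (nat_lit 15320756288) (.nd (nat_lit 15320752192) (.lf (nat_lit 0x391302040)) (.lf (nat_lit 0x391303040))) (.nd (nat_lit 15320756352) (.lf (nat_lit 0x391303080)) (.lf (nat_lit 0x391303081)))) (.nd (nat_lit 15320760448) (.nd (nat_lit 15320760384) (.lf (nat_lit 0x391304040)) (.lf (nat_lit 0x391304080))) (.nd (nat_lit 15320760449) (.lf (nat_lit 0x391304081)) (.lf (nat_lit 0x3913040c0))))))) (.nd (nat_lit 15320772736) (.nd (nat_lit 15320764673) (.nd (nat_lit 15320764545)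 (.nd (nat_lit 15320764480) (.nd (nat_lit 15320760513) (.lf (nat_lit 0x3913040c1)) (.lf (nat_lit 0x391305040))) (.nd (nat_lit 15320764544) (.lf (nat_lit 0x391305080)) (.lf (nat_lit 0x391305081)))) (.nd (nat_lit 15320764609) (.nd (nat_lit 15320764608) (.lf (nat_lit 0x3913050c0)) (.lf (nat_lit 0x3913050c1))) (.nd (nat_lit 15320764672) (.lf (nat_lit 0x391305100)) (.lf (nat_lit 0x391305101))))) (.nd (nat_lit 15320768704) (.nd (nat_lit 15320768640) (.nd (nat_lit 15320768576) (.lf (nat_lit 0x391306040)) (.lf (nat_lit 0x391306080))) (.nd (nat_lit 15320768641) (.lf (nat_lit 0x391306081)) (.lf (nat_lit 0x3913060c0)))) (.nd (nat_lit 15320768768) (.nd (nat_lit 15320768705) (.lf (nat_lit 0x3913060c1)) (.lf (nat_lit 0x391306100))) (.nd (nat_lit 15320772672) (.lf (nat_lit 0x391307040)) (.lf (nat_lit 0x391307080)))))) (.nd (nat_lit 15321018496) (.nd (nat_lit 15320776832) (.nd (nat_lit 15320772800) (.nd (nat_lit 15320772737) (.lf (nat_lit 0x391307081))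 (.lf (nat_lit 0x3913070c0))) (.nd (nat_lit 15320776768) (.lf (nat_lit 0x391308040)) (.lf (nat_lit 0x391308080)))) (.nd (nat_lit 15321014336) (.nd (nat_lit 15320780864) (.lf (nat_lit 0x391309040)) (.lf (nat_lit 0x391342040))) (.nd (nat_lit 15321018432) (.lf (nat_lit 0x391343040)) (.lf (nat_lit 0x391343080))))) (.nd (nat_lit 15321022593) (.nd (nat_lit 15321022528) (.nd (nat_lit 15321018497) (.lf (nat_lit 0x391343081)) (.lf (nat_lit 0x391344040))) (.nd (nat_lit 15321022592) (.lf (nat_lit 0x391344080)) (.lf (nat_lit 0x391344081)))) (.nd (nat_lit 15321022657) (.nd (nat_lit 15321022656) (.lf (nat_lit 0x3913440c0)) (.lf (nat_lit 0x3913440c1))) (.nd (nat_lit 15321026624) (.lf (nat_lit 0x391345040)) (.lf (nat_lit 0x391345080))))))))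
noncomputable def jt4_10 : BT := (.nd (nat_lit 15321546816) (.nd (nat_lit 15321284672) (.nd (nat_lit 15321030848) (.nd (nat_lit 15321026816) (.nd (nat_lit 15321026752) (.nd (nat_lit 15321026689) (.lf (nat_lit 0x391345081)) (.lf (nat_lit 0x3913450c0))) (.nd (nat_lit 15321026753) (.lf (nat_lit 0x3913450c1)) (.lf (nat_lit 0x391345100)))) (.nd (nat_lit 15321030784) (.nd (nat_lit 15321030720) (.lf (nat_lit 0x391346040)) (.lf (nat_lit 0x391346080))) (.nd (nat_lit 15321030785) (.lf (nat_lit 0x391346081)) (.lf (nat_lit 0x3913460c0))))) (.nd (nat_lit 15321276480) (.nd (nat_lit 15321034880) (.nd (nat_lit 15321034816) (.lf (nat_lit 0x391347040)) (.lf (nat_lit 0x391347080))) (.nd (nat_lit 15321038912) (.lf (nat_lit 0x391348040)) (.lf (nat_lit 0x391382040)))) (.nd (nat_lit 15321280640) (.nd (nat_lit 15321280576) (.lf (nat_lit 0x391383040)) (.lf (nat_lit 0x391383080))) (.nd (nat_lit 15321280641) (.lf (nat_lit 0x391383081)) (.lf (nat_lit 0x391384040))))))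 (.nd (nat_lit 15321288896) (.nd (nat_lit 15321284801) (.nd (nat_lit 15321284737) (.nd (nat_lit 15321284736) (.lf (nat_lit 0x391384080)) (.lf (nat_lit 0x391384081))) (.nd (nat_lit 15321284800) (.lf (nat_lit 0x3913840c0)) (.lf (nat_lit 0x3913840c1)))) (.nd (nat_lit 15321288832) (.nd (nat_lit 15321288768) (.lf (nat_lit 0x391385040)) (.lf (nat_lit 0x391385080))) (.nd (nat_lit 15321288833) (.lf (nat_lit 0x391385081)) (.lf (nat_lit 0x3913850c0))))) (.nd (nat_lit 15321538624) (.nd (nat_lit 15321292928) (.nd (nat_lit 15321292864) (.lf (nat_lit 0x391386040)) (.lf (nat_lit 0x391386080))) (.nd (nat_lit 15321296960) (.lf (nat_lit 0x391387040)) (.lf (nat_lit 0x3913c2040)))) (.nd (nat_lit 15321542784) (.nd (nat_lit 15321542720) (.lf (nat_lit 0x3913c3040)) (.lf (nat_lit 0x3913c3080))) (.nd (nat_lit 15321542785) (.lf (nat_lit 0x3913c3081)) (.lf (nat_lit 0x3913c4040))))))) (.nd (nat_lit 15335436352) (.nd (nat_lit 15321804864) (.nd (nat_lit 15321550912)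 (.nd (nat_lit 15321546881) (.nd (nat_lit 15321546880) (.lf (nat_lit 0x3913c4080)) (.lf (nat_lit 0x3913c4081))) (.nd (nat_lit 15321546944) (.lf (nat_lit 0x3913c40c0)) (.lf (nat_lit 0x3913c5040)))) (.nd (nat_lit 15321555008) (.nd (nat_lit 15321550976) (.lf (nat_lit 0x3913c5080)) (.lf (nat_lit 0x3913c6040))) (.nd (nat_lit 15321800768) (.lf (nat_lit 0x391402040)) (.lf (nat_lit 0x391403040))))) (.nd (nat_lit 15321809024) (.nd (nat_lit 15321804929) (.nd (nat_lit 15321804928) (.lf (nat_lit 0x391403080)) (.lf (nat_lit 0x391403081))) (.nd (nat_lit 15321808960) (.lf (nat_lit 0x391404040)) (.lf (nat_lit 0x391404080)))) (.nd (nat_lit 15335170112) (.nd (nat_lit 15321813056) (.lf (nat_lit 0x391405040)) (.lf (nat_lit 0x3920c2040))) (.nd (nat_lit 15335432256) (.lf (nat_lit 0x392102040)) (.lf (nat_lit 0x392103040)))))) (.nd (nat_lit 15335956544) (.nd (nat_lit 15335698560) (.nd (nat_lit 15335694400) (.nd (nat_lit 15335436416) (.lf (nat_lit 0x392103080))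 (.lf (nat_lit 0x392142040))) (.nd (nat_lit 15335698496) (.lf (nat_lit 0x392143040)) (.lf (nat_lit 0x392143080)))) (.nd (nat_lit 15335702656) (.nd (nat_lit 15335702592) (.lf (nat_lit 0x392144040)) (.lf (nat_lit 0x392144080))) (.nd (nat_lit 15335702720) (.lf (nat_lit 0x3921440c0)) (.lf (nat_lit 0x392182040))))) (.nd (nat_lit 15335964800) (.nd (nat_lit 15335960704) (.nd (nat_lit 15335960640) (.lf (nat_lit 0x392183040)) (.lf (nat_lit 0x392183080))) (.nd (nat_lit 15335964736) (.lf (nat_lit 0x392184040)) (.lf (nat_lit 0x392184080)))) (.nd (nat_lit 15335968832) (.nd (nat_lit 15335964864) (.lf (nat_lit 0x3921840c0)) (.lf (nat_lit 0x392185040))) (.nd (nat_lit 15335968896) (.lf (nat_lit 0x392185080)) (.lf (nat_lit 0x3921850c0))))))))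
noncomputable def jt4_11 : BT := (.nd (nat_lit 15336497345) (.nd (nat_lit 15336235328) (.nd (nat_lit 15336231040) (.nd (nat_lit 15336226880) (.nd (nat_lit 15336222784) (.nd (nat_lit 15336218688) (.lf (nat_lit 0x3921c2040)) (.lf (nat_lit 0x3921c3040))) (.nd (nat_lit 15336222848) (.lf (nat_lit 0x3921c3080)) (.lf (nat_lit 0x3921c4040)))) (.nd (nat_lit 15336227008) (.nd (nat_lit 15336226944) (.lf (nat_lit 0x3921c4080)) (.lf (nat_lit 0x3921c40c0))) (.nd (nat_lit 15336230976) (.lf (nat_lit 0x3921c5040)) (.lf (nat_lit 0x3921c5080))))) (.nd (nat_lit 15336235136) (.nd (nat_lit 15336231168) (.nd (nat_lit 15336231104) (.lf (nat_lit 0x3921c50c0)) (.lf (nat_lit 0x3921c5100))) (.nd (nat_lit 15336235072) (.lf (nat_lit 0x3921c6040)) (.lf (nat_lit 0x3921c6080)))) (.nd (nat_lit 15336235264) (.nd (nat_lit 15336235200) (.lf (nat_lit 0x3921c60c0)) (.lf (nat_lit 0x3921c6100))) (.nd (nat_lit 15336235265) (.lf (nat_lit 0x3921c6101)) (.lf (nat_lit 0x3921c6140))))))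 (.nd (nat_lit 15336493120) (.nd (nat_lit 15336484992) (.nd (nat_lit 15336480832) (.nd (nat_lit 15336235329) (.lf (nat_lit 0x3921c6141)) (.lf (nat_lit 0x392202040))) (.nd (nat_lit 15336484928) (.lf (nat_lit 0x392203040)) (.lf (nat_lit 0x392203080)))) (.nd (nat_lit 15336489088) (.nd (nat_lit 15336489024) (.lf (nat_lit 0x392204040)) (.lf (nat_lit 0x392204080))) (.nd (nat_lit 15336489152) (.lf (nat_lit 0x3922040c0)) (.lf (nat_lit 0x392205040))))) (.nd (nat_lit 15336497216) (.nd (nat_lit 15336493248) (.nd (nat_lit 15336493184) (.lf (nat_lit 0x392205080)) (.lf (nat_lit 0x3922050c0))) (.nd (nat_lit 15336493312) (.lf (nat_lit 0x392205100)) (.lf (nat_lit 0x392206040)))) (.nd (nat_lit 15336497281) (.nd (nat_lit 15336497280) (.lf (nat_lit 0x392206080)) (.lf (nat_lit 0x392206081))) (.nd (nat_lit 15336497344) (.lf (nat_lit 0x3922060c0)) (.lf (nat_lit 0x3922060c1))))))) (.nd (nat_lit 15336751168) (.nd (nat_lit 15336501440) (.nd (nat_lit 15336497473)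 (.nd (nat_lit 15336497409) (.nd (nat_lit 15336497408) (.lf (nat_lit 0x392206100)) (.lf (nat_lit 0x392206101))) (.nd (nat_lit 15336497472) (.lf (nat_lit 0x392206140)) (.lf (nat_lit 0x392206141)))) (.nd (nat_lit 15336501376) (.nd (nat_lit 15336501312) (.lf (nat_lit 0x392207040)) (.lf (nat_lit 0x392207080))) (.nd (nat_lit 15336501377) (.lf (nat_lit 0x392207081)) (.lf (nat_lit 0x3922070c0))))) (.nd (nat_lit 15336501568) (.nd (nat_lit 15336501504) (.nd (nat_lit 15336501441) (.lf (nat_lit 0x3922070c1)) (.lf (nat_lit 0x392207100))) (.nd (nat_lit 15336501505) (.lf (nat_lit 0x392207101)) (.lf (nat_lit 0x392207140)))) (.nd (nat_lit 15336747072) (.nd (nat_lit 15336742976) (.lf (nat_lit 0x392242040)) (.lf (nat_lit 0x392243040))) (.nd (nat_lit 15336747136) (.lf (nat_lit 0x392243080)) (.lf (nat_lit 0x392244040)))))) (.nd (nat_lit 15336755392) (.nd (nat_lit 15336751297) (.nd (nat_lit 15336751233) (.nd (nat_lit 15336751232) (.lf (nat_lit 0x392244080))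 (.lf (nat_lit 0x392244081))) (.nd (nat_lit 15336751296) (.lf (nat_lit 0x3922440c0)) (.lf (nat_lit 0x3922440c1)))) (.nd (nat_lit 15336755328) (.nd (nat_lit 15336755264) (.lf (nat_lit 0x392245040)) (.lf (nat_lit 0x392245080))) (.nd (nat_lit 15336755329) (.lf (nat_lit 0x392245081)) (.lf (nat_lit 0x3922450c0))))) (.nd (nat_lit 15336759360) (.nd (nat_lit 15336755456) (.nd (nat_lit 15336755393) (.lf (nat_lit 0x3922450c1)) (.lf (nat_lit 0x392245100))) (.nd (nat_lit 15336755457) (.lf (nat_lit 0x392245101)) (.lf (nat_lit 0x392246040)))) (.nd (nat_lit 15336759425) (.nd (nat_lit 15336759424) (.lf (nat_lit 0x392246080)) (.lf (nat_lit 0x392246081))) (.nd (nat_lit 15336759488) (.lf (nat_lit 0x3922460c0)) (.lf (nat_lit 0x3922460c1))))))))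
noncomputable def jt4_12 : BT := (.nd (nat_lit 15337021569) (.nd (nat_lit 15337009280) (.nd (nat_lit 15336763585) (.nd (nat_lit 15336763456) (.nd (nat_lit 15336759553) (.nd (nat_lit 15336759552) (.lf (nat_lit 0x392246100)) (.lf (nat_lit 0x392246101))) (.nd (nat_lit 15336759616) (.lf (nat_lit 0x392246140)) (.lf (nat_lit 0x392247040)))) (.nd (nat_lit 15336763521) (.nd (nat_lit 15336763520) (.lf (nat_lit 0x392247080)) (.lf (nat_lit 0x392247081))) (.nd (nat_lit 15336763584) (.lf (nat_lit 0x3922470c0)) (.lf (nat_lit 0x3922470c1))))) (.nd (nat_lit 15336767617) (.nd (nat_lit 15336767552) (.nd (nat_lit 15336763648) (.lf (nat_lit 0x392247100)) (.lf (nat_lit 0x392248040))) (.nd (nat_lit 15336767616) (.lf (nat_lit 0x392248080)) (.lf (nat_lit 0x392248081)))) (.nd (nat_lit 15337005120) (.nd (nat_lit 15336767680) (.lf (nat_lit 0x3922480c0)) (.lf (nat_lit 0x392282040))) (.nd (nat_lit 15337009216) (.lf (nat_lit 0x392283040)) (.lf (nat_lit 0x392283080))))))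 (.nd (nat_lit 15337017472) (.nd (nat_lit 15337013377) (.nd (nat_lit 15337013312) (.nd (nat_lit 15337009281) (.lf (nat_lit 0x392283081)) (.lf (nat_lit 0x392284040))) (.nd (nat_lit 15337013376) (.lf (nat_lit 0x392284080)) (.lf (nat_lit 0x392284081)))) (.nd (nat_lit 15337013441) (.nd (nat_lit 15337013440) (.lf (nat_lit 0x3922840c0)) (.lf (nat_lit 0x3922840c1))) (.nd (nat_lit 15337017408) (.lf (nat_lit 0x392285040)) (.lf (nat_lit 0x392285080))))) (.nd (nat_lit 15337017600) (.nd (nat_lit 15337017536) (.nd (nat_lit 15337017473) (.lf (nat_lit 0x392285081)) (.lf (nat_lit 0x3922850c0))) (.nd (nat_lit 15337017537) (.lf (nat_lit 0x3922850c1)) (.lf (nat_lit 0x392285100)))) (.nd (nat_lit 15337021504) (.nd (nat_lit 15337017601) (.lf (nat_lit 0x392285101)) (.lf (nat_lit 0x392286040))) (.nd (nat_lit 15337021568) (.lf (nat_lit 0x392286080)) (.lf (nat_lit 0x392286081))))))) (.nd (nat_lit 15337275520) (.nd (nat_lit 15337029696) (.nd (nat_lit 15337025600)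 (.nd (nat_lit 15337021633) (.nd (nat_lit 15337021632) (.lf (nat_lit 0x3922860c0)) (.lf (nat_lit 0x3922860c1))) (.nd (nat_lit 15337021696) (.lf (nat_lit 0x392286100)) (.lf (nat_lit 0x392287040)))) (.nd (nat_lit 15337025665) (.nd (nat_lit 15337025664) (.lf (nat_lit 0x392287080)) (.lf (nat_lit 0x392287081))) (.nd (nat_lit 15337025728) (.lf (nat_lit 0x3922870c0)) (.lf (nat_lit 0x392288040))))) (.nd (nat_lit 15337271360) (.nd (nat_lit 15337033792) (.nd (nat_lit 15337029760) (.lf (nat_lit 0x392288080)) (.lf (nat_lit 0x392289040))) (.nd (nat_lit 15337267264) (.lf (nat_lit 0x3922c2040)) (.lf (nat_lit 0x3922c3040)))) (.nd (nat_lit 15337271425) (.nd (nat_lit 15337271424) (.lf (nat_lit 0x3922c3080)) (.lf (nat_lit 0x3922c3081))) (.nd (nat_lit 15337275456) (.lf (nat_lit 0x3922c4040)) (.lf (nat_lit 0x3922c4080)))))) (.nd (nat_lit 15337279681) (.nd (nat_lit 15337279552) (.nd (nat_lit 15337275584) (.nd (nat_lit 15337275521) (.lf (nat_lit 0x3922c4081))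 (.lf (nat_lit 0x3922c40c0))) (.nd (nat_lit 15337275585) (.lf (nat_lit 0x3922c40c1)) (.lf (nat_lit 0x3922c5040)))) (.nd (nat_lit 15337279617) (.nd (nat_lit 15337279616) (.lf (nat_lit 0x3922c5080)) (.lf (nat_lit 0x3922c5081))) (.nd (nat_lit 15337279680) (.lf (nat_lit 0x3922c50c0)) (.lf (nat_lit 0x3922c50c1))))) (.nd (nat_lit 15337283713) (.nd (nat_lit 15337283648) (.nd (nat_lit 15337279744) (.lf (nat_lit 0x3922c5100)) (.lf (nat_lit 0x3922c6040))) (.nd (nat_lit 15337283712) (.lf (nat_lit 0x3922c6080)) (.lf (nat_lit 0x3922c6081)))) (.nd (nat_lit 15337287744) (.nd (nat_lit 15337283776) (.lf (nat_lit 0x3922c60c0)) (.lf (nat_lit 0x3922c7040))) (.nd (nat_lit 15337287808) (.lf (nat_lit 0x3922c7080)) (.lf (nat_lit 0x3922c8040))))))))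
noncomputable def jt4_13 : BT := (.nd (nat_lit 15338061888) (.nd (nat_lit 15337549888) (.nd (nat_lit 15337537728) (.nd (nat_lit 15337533569) (.nd (nat_lit 15337533504) (.nd (nat_lit 15337529408) (.lf (nat_lit 0x392302040)) (.lf (nat_lit 0x392303040))) (.nd (nat_lit 15337533568) (.lf (nat_lit 0x392303080)) (.lf (nat_lit 0x392303081)))) (.nd (nat_lit 15337537664) (.nd (nat_lit 15337537600) (.lf (nat_lit 0x392304040)) (.lf (nat_lit 0x392304080))) (.nd (nat_lit 15337537665) (.lf (nat_lit 0x392304081)) (.lf (nat_lit 0x3923040c0))))) (.nd (nat_lit 15337541761) (.nd (nat_lit 15337541696) (.nd (nat_lit 15337537729) (.lf (nat_lit 0x3923040c1)) (.lf (nat_lit 0x392305040))) (.nd (nat_lit 15337541760) (.lf (nat_lit 0x392305080)) (.lf (nat_lit 0x392305081)))) (.nd (nat_lit 15337545792) (.nd (nat_lit 15337541824) (.lf (nat_lit 0x3923050c0)) (.lf (nat_lit 0x392306040))) (.nd (nat_lit 15337545856) (.lf (nat_lit 0x392306080)) (.lf (nat_lit 0x392307040))))))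 (.nd (nat_lit 15337799872) (.nd (nat_lit 15337795713) (.nd (nat_lit 15337795648) (.nd (nat_lit 15337791552) (.lf (nat_lit 0x392342040)) (.lf (nat_lit 0x392343040))) (.nd (nat_lit 15337795712) (.lf (nat_lit 0x392343080)) (.lf (nat_lit 0x392343081)))) (.nd (nat_lit 15337799808) (.nd (nat_lit 15337799744) (.lf (nat_lit 0x392344040)) (.lf (nat_lit 0x392344080))) (.nd (nat_lit 15337799809) (.lf (nat_lit 0x392344081)) (.lf (nat_lit 0x3923440c0))))) (.nd (nat_lit 15338053696) (.nd (nat_lit 15337803904) (.nd (nat_lit 15337803840) (.lf (nat_lit 0x392345040)) (.lf (nat_lit 0x392345080))) (.nd (nat_lit 15337807936) (.lf (nat_lit 0x392346040)) (.lf (nat_lit 0x392382040)))) (.nd (nat_lit 15338057856) (.nd (nat_lit 15338057792) (.lf (nat_lit 0x392383040)) (.lf (nat_lit 0x392383080))) (.nd (nat_lit 15338057857) (.lf (nat_lit 0x392383081)) (.lf (nat_lit 0x392384040))))))) (.nd (nat_lit 15352475776) (.nd (nat_lit 15338582080) (.nd (nat_lit 15338319936)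 (.nd (nat_lit 15338065984) (.nd (nat_lit 15338061952) (.lf (nat_lit 0x392384080)) (.lf (nat_lit 0x392385040))) (.nd (nat_lit 15338315840) (.lf (nat_lit 0x3923c2040)) (.lf (nat_lit 0x3923c3040)))) (.nd (nat_lit 15338324032) (.nd (nat_lit 15338320000) (.lf (nat_lit 0x3923c3080)) (.lf (nat_lit 0x3923c4040))) (.nd (nat_lit 15338577984) (.lf (nat_lit 0x392402040)) (.lf (nat_lit 0x392403040))))) (.nd (nat_lit 15352213568) (.nd (nat_lit 15351947328) (.nd (nat_lit 15338840128) (.lf (nat_lit 0x392442040)) (.lf (nat_lit 0x3930c2040))) (.nd (nat_lit 15352209472) (.lf (nat_lit 0x393102040)) (.lf (nat_lit 0x393103040)))) (.nd (nat_lit 15352471616) (.nd (nat_lit 15352213632) (.lf (nat_lit 0x393103080)) (.lf (nat_lit 0x393142040))) (.nd (nat_lit 15352475712) (.lf (nat_lit 0x393143040)) (.lf (nat_lit 0x393143080)))))) (.nd (nat_lit 15352737920) (.nd (nat_lit 15352479936) (.nd (nat_lit 15352479872) (.nd (nat_lit 15352479808) (.lf (nat_lit 0x393144040))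 (.lf (nat_lit 0x393144080))) (.nd (nat_lit 15352479873) (.lf (nat_lit 0x393144081)) (.lf (nat_lit 0x3931440c0)))) (.nd (nat_lit 15352733760) (.nd (nat_lit 15352479937) (.lf (nat_lit 0x3931440c1)) (.lf (nat_lit 0x393182040))) (.nd (nat_lit 15352737856) (.lf (nat_lit 0x393183040)) (.lf (nat_lit 0x393183080))))) (.nd (nat_lit 15352742080) (.nd (nat_lit 15352742016) (.nd (nat_lit 15352741952) (.lf (nat_lit 0x393184040)) (.lf (nat_lit 0x393184080))) (.nd (nat_lit 15352742017) (.lf (nat_lit 0x393184081)) (.lf (nat_lit 0x3931840c0)))) (.nd (nat_lit 15352746048) (.nd (nat_lit 15352742081) (.lf (nat_lit 0x3931840c1)) (.lf (nat_lit 0x393185040))) (.nd (nat_lit 15352746112) (.lf (nat_lit 0x393185080)) (.lf (nat_lit 0x393185081))))))))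
noncomputable def jt4_14 : BT := (.nd (nat_lit 15353266304) (.nd (nat_lit 15353008321) (.nd (nat_lit 15353004160) (.nd (nat_lit 15353000000) (.nd (nat_lit 15352746240) (.nd (nat_lit 15352746176) (.lf (nat_lit 0x3931850c0)) (.lf (nat_lit 0x393185100))) (.nd (nat_lit 15352995904) (.lf (nat_lit 0x3931c2040)) (.lf (nat_lit 0x3931c3040)))) (.nd (nat_lit 15353000065) (.nd (nat_lit 15353000064) (.lf (nat_lit 0x3931c3080)) (.lf (nat_lit 0x3931c3081))) (.nd (nat_lit 15353004096) (.lf (nat_lit 0x3931c4040)) (.lf (nat_lit 0x3931c4080))))) (.nd (nat_lit 15353008192) (.nd (nat_lit 15353004224) (.nd (nat_lit 15353004161) (.lf (nat_lit 0x3931c4081)) (.lf (nat_lit 0x3931c40c0))) (.nd (nat_lit 15353004225) (.lf (nat_lit 0x3931c40c1)) (.lf (nat_lit 0x3931c5040)))) (.nd (nat_lit 15353008257) (.nd (nat_lit 15353008256) (.lf (nat_lit 0x3931c5080)) (.lf (nat_lit 0x3931c5081))) (.nd (nat_lit 15353008320) (.lf (nat_lit 0x3931c50c0)) (.lf (nat_lit 0x3931c50c1))))))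 (.nd (nat_lit 15353012480) (.nd (nat_lit 15353012352) (.nd (nat_lit 15353008385) (.nd (nat_lit 15353008384) (.lf (nat_lit 0x3931c5100)) (.lf (nat_lit 0x3931c5101))) (.nd (nat_lit 15353012288) (.lf (nat_lit 0x3931c6040)) (.lf (nat_lit 0x3931c6080)))) (.nd (nat_lit 15353012416) (.nd (nat_lit 15353012353) (.lf (nat_lit 0x3931c6081)) (.lf (nat_lit 0x3931c60c0))) (.nd (nat_lit 15353012417) (.lf (nat_lit 0x3931c60c1)) (.lf (nat_lit 0x3931c6100))))) (.nd (nat_lit 15353262144) (.nd (nat_lit 15353012544) (.nd (nat_lit 15353012481) (.lf (nat_lit 0x3931c6101)) (.lf (nat_lit 0x3931c6140))) (.nd (nat_lit 15353258048) (.lf (nat_lit 0x393202040)) (.lf (nat_lit 0x393203040)))) (.nd (nat_lit 15353262209) (.nd (nat_lit 15353262208) (.lf (nat_lit 0x393203080)) (.lf (nat_lit 0x393203081))) (.nd (nat_lit 15353266240) (.lf (nat_lit 0x393204040)) (.lf (nat_lit 0x393204080))))))) (.nd (nat_lit 15353274624) (.nd (nat_lit 15353270465) (.nd (nat_lit 15353270336)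 (.nd (nat_lit 15353266368) (.nd (nat_lit 15353266305) (.lf (nat_lit 0x393204081)) (.lf (nat_lit 0x3932040c0))) (.nd (nat_lit 15353266369) (.lf (nat_lit 0x3932040c1)) (.lf (nat_lit 0x393205040)))) (.nd (nat_lit 15353270401) (.nd (nat_lit 15353270400) (.lf (nat_lit 0x393205080)) (.lf (nat_lit 0x393205081))) (.nd (nat_lit 15353270464) (.lf (nat_lit 0x3932050c0)) (.lf (nat_lit 0x3932050c1))))) (.nd (nat_lit 15353274496) (.nd (nat_lit 15353270529) (.nd (nat_lit 15353270528) (.lf (nat_lit 0x393205100)) (.lf (nat_lit 0x393205101))) (.nd (nat_lit 15353274432) (.lf (nat_lit 0x393206040)) (.lf (nat_lit 0x393206080)))) (.nd (nat_lit 15353274560) (.nd (nat_lit 15353274497) (.lf (nat_lit 0x393206081)) (.lf (nat_lit 0x3932060c0))) (.nd (nat_lit 15353274561) (.lf (nat_lit 0x3932060c1)) (.lf (nat_lit 0x393206100)))))) (.nd (nat_lit 15353524353) (.nd (nat_lit 15353278656) (.nd (nat_lit 15353278592) (.nd (nat_lit 15353278528) (.lf (nat_lit 0x393207040))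 (.lf (nat_lit 0x393207080))) (.nd (nat_lit 15353278593) (.lf (nat_lit 0x393207081)) (.lf (nat_lit 0x3932070c0)))) (.nd (nat_lit 15353524288) (.nd (nat_lit 15353520192) (.lf (nat_lit 0x393242040)) (.lf (nat_lit 0x393243040))) (.nd (nat_lit 15353524352) (.lf (nat_lit 0x393243080)) (.lf (nat_lit 0x393243081))))) (.nd (nat_lit 15353528512) (.nd (nat_lit 15353528448) (.nd (nat_lit 15353528384) (.lf (nat_lit 0x393244040)) (.lf (nat_lit 0x393244080))) (.nd (nat_lit 15353528449) (.lf (nat_lit 0x393244081)) (.lf (nat_lit 0x3932440c0)))) (.nd (nat_lit 15353532480) (.nd (nat_lit 15353528513) (.lf (nat_lit 0x3932440c1)) (.lf (nat_lit 0x393245040))) (.nd (nat_lit 15353532544) (.lf (nat_lit 0x393245080)) (.lf (nat_lit 0x393245081))))))))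
noncomputable def jt4_15 : BT := (.nd (nat_lit 15354052736) (.nd (nat_lit 15353790592) (.nd (nat_lit 15353540672) (.nd (nat_lit 15353536576) (.nd (nat_lit 15353532609) (.nd (nat_lit 15353532608) (.lf (nat_lit 0x3932450c0)) (.lf (nat_lit 0x3932450c1))) (.nd (nat_lit 15353532672) (.lf (nat_lit 0x393245100)) (.lf (nat_lit 0x393246040)))) (.nd (nat_lit 15353536641) (.nd (nat_lit 15353536640) (.lf (nat_lit 0x393246080)) (.lf (nat_lit 0x393246081))) (.nd (nat_lit 15353536704) (.lf (nat_lit 0x3932460c0)) (.lf (nat_lit 0x393247040))))) (.nd (nat_lit 15353786432) (.nd (nat_lit 15353544768) (.nd (nat_lit 15353540736) (.lf (nat_lit 0x393247080)) (.lf (nat_lit 0x393248040))) (.nd (nat_lit 15353782336) (.lf (nat_lit 0x393282040)) (.lf (nat_lit 0x393283040)))) (.nd (nat_lit 15353786497) (.nd (nat_lit 15353786496) (.lf (nat_lit 0x393283080)) (.lf (nat_lit 0x393283081))) (.nd (nat_lit 15353790528) (.lf (nat_lit 0x393284040)) (.lf (nat_lit 0x393284080))))))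 (.nd (nat_lit 15353798720) (.nd (nat_lit 15353794624) (.nd (nat_lit 15353790656) (.nd (nat_lit 15353790593) (.lf (nat_lit 0x393284081)) (.lf (nat_lit 0x3932840c0))) (.nd (nat_lit 15353790657) (.lf (nat_lit 0x3932840c1)) (.lf (nat_lit 0x393285040)))) (.nd (nat_lit 15353794689) (.nd (nat_lit 15353794688) (.lf (nat_lit 0x393285080)) (.lf (nat_lit 0x393285081))) (.nd (nat_lit 15353794752) (.lf (nat_lit 0x3932850c0)) (.lf (nat_lit 0x393286040))))) (.nd (nat_lit 15354048576) (.nd (nat_lit 15353802816) (.nd (nat_lit 15353798784) (.lf (nat_lit 0x393286080)) (.lf (nat_lit 0x393287040))) (.nd (nat_lit 15354044480) (.lf (nat_lit 0x3932c2040)) (.lf (nat_lit 0x3932c3040)))) (.nd (nat_lit 15354048641) (.nd (nat_lit 15354048640) (.lf (nat_lit 0x3932c3080)) (.lf (nat_lit 0x3932c3081))) (.nd (nat_lit 15354052672) (.lf (nat_lit 0x3932c4040)) (.lf (nat_lit 0x3932c4080))))))) (.nd (nat_lit 15354576960) (.nd (nat_lit 15354310784) (.nd (nat_lit 15354056832)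 (.nd (nat_lit 15354052800) (.nd (nat_lit 15354052737) (.lf (nat_lit 0x3932c4081)) (.lf (nat_lit 0x3932c40c0))) (.nd (nat_lit 15354056768) (.lf (nat_lit 0x3932c5040)) (.lf (nat_lit 0x3932c5080)))) (.nd (nat_lit 15354306624) (.nd (nat_lit 15354060864) (.lf (nat_lit 0x3932c6040)) (.lf (nat_lit 0x393302040))) (.nd (nat_lit 15354310720) (.lf (nat_lit 0x393303040)) (.lf (nat_lit 0x393303080))))) (.nd (nat_lit 15354318912) (.nd (nat_lit 15354314816) (.nd (nat_lit 15354310785) (.lf (nat_lit 0x393303081)) (.lf (nat_lit 0x393304040))) (.nd (nat_lit 15354314880) (.lf (nat_lit 0x393304080)) (.lf (nat_lit 0x393305040)))) (.nd (nat_lit 15354572864) (.nd (nat_lit 15354568768) (.lf (nat_lit 0x393342040)) (.lf (nat_lit 0x393343040))) (.nd (nat_lit 15354572928) (.lf (nat_lit 0x393343080)) (.lf (nat_lit 0x393344040)))))) (.nd (nat_lit 15369248832) (.nd (nat_lit 15368724544) (.nd (nat_lit 15354835008) (.nd (nat_lit 15354830912) (.lf (nat_lit 0x393382040))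 (.lf (nat_lit 0x393383040))) (.nd (nat_lit 15355093056) (.lf (nat_lit 0x3933c2040)) (.lf (nat_lit 0x3940c2040)))) (.nd (nat_lit 15368990784) (.nd (nat_lit 15368986688) (.lf (nat_lit 0x394102040)) (.lf (nat_lit 0x394103040))) (.nd (nat_lit 15368990848) (.lf (nat_lit 0x394103080)) (.lf (nat_lit 0x394142040))))) (.nd (nat_lit 15369257024) (.nd (nat_lit 15369252992) (.nd (nat_lit 15369252928) (.lf (nat_lit 0x394143040)) (.lf (nat_lit 0x394143080))) (.nd (nat_lit 15369252993) (.lf (nat_lit 0x394143081)) (.lf (nat_lit 0x394144040)))) (.nd (nat_lit 15369257089) (.nd (nat_lit 15369257088) (.lf (nat_lit 0x394144080)) (.lf (nat_lit 0x394144081))) (.nd (nat_lit 15369257152) (.lf (nat_lit 0x3941440c0)) (.lf (nat_lit 0x3941440c1))))))))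
noncomputable def jt4_16 : BT := (.nd (nat_lit 15369789504) (.nd (nat_lit 15369523457) (.nd (nat_lit 15369519296) (.nd (nat_lit 15369515137) (.nd (nat_lit 15369515072) (.nd (nat_lit 15369510976) (.lf (nat_lit 0x394182040)) (.lf (nat_lit 0x394183040))) (.nd (nat_lit 15369515136) (.lf (nat_lit 0x394183080)) (.lf (nat_lit 0x394183081)))) (.nd (nat_lit 15369519232) (.nd (nat_lit 15369519168) (.lf (nat_lit 0x394184040)) (.lf (nat_lit 0x394184080))) (.nd (nat_lit 15369519233) (.lf (nat_lit 0x394184081)) (.lf (nat_lit 0x3941840c0))))) (.nd (nat_lit 15369523329) (.nd (nat_lit 15369523264) (.nd (nat_lit 15369519297) (.lf (nat_lit 0x3941840c1)) (.lf (nat_lit 0x394185040))) (.nd (nat_lit 15369523328) (.lf (nat_lit 0x394185080)) (.lf (nat_lit 0x394185081)))) (.nd (nat_lit 15369523393) (.nd (nat_lit 15369523392) (.lf (nat_lit 0x3941850c0)) (.lf (nat_lit 0x3941850c1))) (.nd (nat_lit 15369523456) (.lf (nat_lit 0x394185100)) (.lf (nat_lit 0x394185101))))))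 (.nd (nat_lit 15369781440) (.nd (nat_lit 15369777281) (.nd (nat_lit 15369777216) (.nd (nat_lit 15369773120) (.lf (nat_lit 0x3941c2040)) (.lf (nat_lit 0x3941c3040))) (.nd (nat_lit 15369777280) (.lf (nat_lit 0x3941c3080)) (.lf (nat_lit 0x3941c3081)))) (.nd (nat_lit 15369781376) (.nd (nat_lit 15369781312) (.lf (nat_lit 0x3941c4040)) (.lf (nat_lit 0x3941c4080))) (.nd (nat_lit 15369781377) (.lf (nat_lit 0x3941c4081)) (.lf (nat_lit 0x3941c40c0))))) (.nd (nat_lit 15369785473) (.nd (nat_lit 15369785408) (.nd (nat_lit 15369781441) (.lf (nat_lit 0x3941c40c1)) (.lf (nat_lit 0x3941c5040))) (.nd (nat_lit 15369785472) (.lf (nat_lit 0x3941c5080)) (.lf (nat_lit 0x3941c5081)))) (.nd (nat_lit 15369785537) (.nd (nat_lit 15369785536) (.lf (nat_lit 0x3941c50c0)) (.lf (nat_lit 0x3941c50c1))) (.nd (nat_lit 15369785600) (.lf (nat_lit 0x3941c5100)) (.lf (nat_lit 0x3941c6040))))))) (.nd (nat_lit 15370047680) (.nd (nat_lit 15370043456) (.nd (nat_lit 15370035264)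 (.nd (nat_lit 15369789569) (.nd (nat_lit 15369789568) (.lf (nat_lit 0x3941c6080)) (.lf (nat_lit 0x3941c6081))) (.nd (nat_lit 15369789632) (.lf (nat_lit 0x3941c60c0)) (.lf (nat_lit 0x394202040)))) (.nd (nat_lit 15370039424) (.nd (nat_lit 15370039360) (.lf (nat_lit 0x394203040)) (.lf (nat_lit 0x394203080))) (.nd (nat_lit 15370039425) (.lf (nat_lit 0x394203081)) (.lf (nat_lit 0x394204040))))) (.nd (nat_lit 15370043585) (.nd (nat_lit 15370043521) (.nd (nat_lit 15370043520) (.lf (nat_lit 0x394204080)) (.lf (nat_lit 0x394204081))) (.nd (nat_lit 15370043584) (.lf (nat_lit 0x3942040c0)) (.lf (nat_lit 0x3942040c1)))) (.nd (nat_lit 15370047616) (.nd (nat_lit 15370047552) (.lf (nat_lit 0x394205040)) (.lf (nat_lit 0x394205080))) (.nd (nat_lit 15370047617) (.lf (nat_lit 0x394205081)) (.lf (nat_lit 0x3942050c0)))))) (.nd (nat_lit 15370305600) (.nd (nat_lit 15370297408) (.nd (nat_lit 15370051712) (.nd (nat_lit 15370051648) (.lf (nat_lit 0x394206040))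 (.lf (nat_lit 0x394206080))) (.nd (nat_lit 15370055744) (.lf (nat_lit 0x394207040)) (.lf (nat_lit 0x394242040)))) (.nd (nat_lit 15370301568) (.nd (nat_lit 15370301504) (.lf (nat_lit 0x394243040)) (.lf (nat_lit 0x394243080))) (.nd (nat_lit 15370301569) (.lf (nat_lit 0x394243081)) (.lf (nat_lit 0x394244040))))) (.nd (nat_lit 15370309696) (.nd (nat_lit 15370305665) (.nd (nat_lit 15370305664) (.lf (nat_lit 0x394244080)) (.lf (nat_lit 0x394244081))) (.nd (nat_lit 15370305728) (.lf (nat_lit 0x3942440c0)) (.lf (nat_lit 0x394245040)))) (.nd (nat_lit 15370313792) (.nd (nat_lit 15370309760) (.lf (nat_lit 0x394245080)) (.lf (nat_lit 0x394246040))) (.nd (nat_lit 15370559552) (.lf (nat_lit 0x394282040)) (.lf (nat_lit 0x394283040))))))))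
noncomputable def jt4_17 : BT := (.nd (nat_lit 15386296449) (.nd (nat_lit 15385768064) (.nd (nat_lit 15370825856) (.nd (nat_lit 15370567808) (.nd (nat_lit 15370563713) (.nd (nat_lit 15370563712) (.lf (nat_lit 0x394283080)) (.lf (nat_lit 0x394283081))) (.nd (nat_lit 15370567744) (.lf (nat_lit 0x394284040)) (.lf (nat_lit 0x394284080)))) (.nd (nat_lit 15370821696) (.nd (nat_lit 15370571840) (.lf (nat_lit 0x394285040)) (.lf (nat_lit 0x3942c2040))) (.nd (nat_lit 15370825792) (.lf (nat_lit 0x3942c3040)) (.lf (nat_lit 0x3942c3080))))) (.nd (nat_lit 15371345984) (.nd (nat_lit 15371083840) (.nd (nat_lit 15370829888) (.lf (nat_lit 0x3942c4040)) (.lf (nat_lit 0x394302040))) (.nd (nat_lit 15371087936) (.lf (nat_lit 0x394303040)) (.lf (nat_lit 0x394342040)))) (.nd (nat_lit 15385763904) (.nd (nat_lit 15385501760) (.lf (nat_lit 0x3950c2040)) (.lf (nat_lit 0x395102040))) (.nd (nat_lit 15385768000) (.lf (nat_lit 0x395103040)) (.lf (nat_lit 0x395103080))))))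 (.nd (nat_lit 15386034368) (.nd (nat_lit 15386030209) (.nd (nat_lit 15386030144) (.nd (nat_lit 15386026048) (.lf (nat_lit 0x395142040)) (.lf (nat_lit 0x395143040))) (.nd (nat_lit 15386030208) (.lf (nat_lit 0x395143080)) (.lf (nat_lit 0x395143081)))) (.nd (nat_lit 15386034304) (.nd (nat_lit 15386034240) (.lf (nat_lit 0x395144040)) (.lf (nat_lit 0x395144080))) (.nd (nat_lit 15386034305) (.lf (nat_lit 0x395144081)) (.lf (nat_lit 0x3951440c0))))) (.nd (nat_lit 15386292352) (.nd (nat_lit 15386288192) (.nd (nat_lit 15386034369) (.lf (nat_lit 0x3951440c1)) (.lf (nat_lit 0x395182040))) (.nd (nat_lit 15386292288) (.lf (nat_lit 0x395183040)) (.lf (nat_lit 0x395183080)))) (.nd (nat_lit 15386296384) (.nd (nat_lit 15386292353) (.lf (nat_lit 0x395183081)) (.lf (nat_lit 0x395184040))) (.nd (nat_lit 15386296448) (.lf (nat_lit 0x395184080)) (.lf (nat_lit 0x395184081))))))) (.nd (nat_lit 15386562688) (.nd (nat_lit 15386554432) (.nd (nat_lit 15386300544)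 (.nd (nat_lit 15386296513) (.nd (nat_lit 15386296512) (.lf (nat_lit 0x3951840c0)) (.lf (nat_lit 0x3951840c1))) (.nd (nat_lit 15386300480) (.lf (nat_lit 0x395185040)) (.lf (nat_lit 0x395185080)))) (.nd (nat_lit 15386300608) (.nd (nat_lit 15386300545) (.lf (nat_lit 0x395185081)) (.lf (nat_lit 0x3951850c0))) (.nd (nat_lit 15386550336) (.lf (nat_lit 0x3951c2040)) (.lf (nat_lit 0x3951c3040))))) (.nd (nat_lit 15386558592) (.nd (nat_lit 15386554497) (.nd (nat_lit 15386554496) (.lf (nat_lit 0x3951c3080)) (.lf (nat_lit 0x3951c3081))) (.nd (nat_lit 15386558528) (.lf (nat_lit 0x3951c4040)) (.lf (nat_lit 0x3951c4080)))) (.nd (nat_lit 15386558656) (.nd (nat_lit 15386558593) (.lf (nat_lit 0x3951c4081)) (.lf (nat_lit 0x3951c40c0))) (.nd (nat_lit 15386562624) (.lf (nat_lit 0x3951c5040)) (.lf (nat_lit 0x3951c5080)))))) (.nd (nat_lit 15386824768) (.nd (nat_lit 15386816640) (.nd (nat_lit 15386812480) (.nd (nat_lit 15386566720) (.lf (nat_lit 0x3951c6040))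 (.lf (nat_lit 0x395202040))) (.nd (nat_lit 15386816576) (.lf (nat_lit 0x395203040)) (.lf (nat_lit 0x395203080)))) (.nd (nat_lit 15386820672) (.nd (nat_lit 15386816641) (.lf (nat_lit 0x395203081)) (.lf (nat_lit 0x395204040))) (.nd (nat_lit 15386820736) (.lf (nat_lit 0x395204080)) (.lf (nat_lit 0x395205040))))) (.nd (nat_lit 15387082816) (.nd (nat_lit 15387078720) (.nd (nat_lit 15387074624) (.lf (nat_lit 0x395242040)) (.lf (nat_lit 0x395243040))) (.nd (nat_lit 15387078784) (.lf (nat_lit 0x395243080)) (.lf (nat_lit 0x395244040)))) (.nd (nat_lit 15387340864) (.nd (nat_lit 15387336768) (.lf (nat_lit 0x395282040)) (.lf (nat_lit 0x395283040))) (.nd (nat_lit 15387598912) (.lf (nat_lit 0x3952c2040)) (.lf (nat_lit 0x3960c2040))))))))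
noncomputable def jt4_18 : BT := (.nd (nat_lit 15403331712) (.nd (nat_lit 15402811521) (.nd (nat_lit 15402803264) (.nd (nat_lit 15402545216) (.nd (nat_lit 15402541120) (.lf (nat_lit 0x396102040)) (.lf (nat_lit 0x396103040))) (.nd (nat_lit 15402545280) (.lf (nat_lit 0x396103080)) (.nd (nat_lit 15402545281) (.lf (nat_lit 0x396103081)) (.lf (nat_lit 0x396142040))))) (.nd (nat_lit 15402807425) (.nd (nat_lit 15402807360) (.lf (nat_lit 0x396143040)) (.nd (nat_lit 15402807424) (.lf (nat_lit 0x396143080)) (.lf (nat_lit 0x396143081)))) (.nd (nat_lit 15402811456) (.lf (nat_lit 0x396144040)) (.nd (nat_lit 15402811520) (.lf (nat_lit 0x396144080)) (.lf (nat_lit 0x396144081)))))) (.nd (nat_lit 15403069569) (.nd (nat_lit 15403065408) (.nd (nat_lit 15402811584) (.lf (nat_lit 0x3961440c0)) (.lf (nat_lit 0x396182040))) (.nd (nat_lit 15403069504) (.lf (nat_lit 0x396183040)) (.nd (nat_lit 15403069568) (.lf (nat_lit 0x396183080)) (.lf (nat_lit 0x396183081)))))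 (.nd (nat_lit 15403077696) (.nd (nat_lit 15403073600) (.lf (nat_lit 0x396184040)) (.nd (nat_lit 15403073664) (.lf (nat_lit 0x396184080)) (.lf (nat_lit 0x396185040)))) (.nd (nat_lit 15403327552) (.lf (nat_lit 0x3961c2040)) (.nd (nat_lit 15403331648) (.lf (nat_lit 0x3961c3040)) (.lf (nat_lit 0x3961c3080))))))) (.nd (nat_lit 15419584576) (.nd (nat_lit 15419056192) (.nd (nat_lit 15403589696) (.nd (nat_lit 15403335744) (.lf (nat_lit 0x3961c4040)) (.lf (nat_lit 0x396202040))) (.nd (nat_lit 15403593792) (.lf (nat_lit 0x396203040)) (.nd (nat_lit 15403851840) (.lf (nat_lit 0x396242040)) (.lf (nat_lit 0x3970c2040))))) (.nd (nat_lit 15419322496) (.nd (nat_lit 15419318336) (.lf (nat_lit 0x397102040)) (.nd (nat_lit 15419322432) (.lf (nat_lit 0x397103040)) (.lf (nat_lit 0x397103080)))) (.nd (nat_lit 15419322497) (.lf (nat_lit 0x397103081)) (.nd (nat_lit 15419580480) (.lf (nat_lit 0x397142040)) (.lf (nat_lit 0x397143040)))))) (.nd (nat_lit 15435833408)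 (.nd (nat_lit 15419842624) (.nd (nat_lit 15419584640) (.lf (nat_lit 0x397143080)) (.nd (nat_lit 15419588672) (.lf (nat_lit 0x397144040)) (.lf (nat_lit 0x397182040)))) (.nd (nat_lit 15419846720) (.lf (nat_lit 0x397183040)) (.nd (nat_lit 15420104768) (.lf (nat_lit 0x3971c2040)) (.lf (nat_lit 0x3980c2040))))) (.nd (nat_lit 15436357696) (.nd (nat_lit 15436095552) (.lf (nat_lit 0x398102040)) (.nd (nat_lit 15436099648) (.lf (nat_lit 0x398103040)) (.lf (nat_lit 0x398142040)))) (.nd (nat_lit 15452610624) (.lf (nat_lit 0x3990c2040)) (.nd (nat_lit 19667894466) (.lf (nat_lit 0x4944c40c2)) (.lf (nat_lit 0x49b1440c2))))))))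
noncomputable def jt4 : BT := (.nd (nat_lit 15320502464) (.nd (nat_lit 15302672448) (.nd (nat_lit 15286968448) (.nd (nat_lit 15270703360) jt4_0 jt4_1) (.nd (nat_lit 15287484544) jt4_2 jt4_3)) (.nd (nat_lit 15304249536) (.nd (nat_lit 15303737537) jt4_4 jt4_5) (.nd (nat_lit 15304773760) jt4_6 (.nd (nat_lit 15319982401) jt4_7 jt4_8)))) (.nd (nat_lit 15352746113) (.nd (nat_lit 15335968960) (.nd (nat_lit 15321026688) jt4_9 jt4_10) (.nd (nat_lit 15336759489) jt4_11 (.nd (nat_lit 15337291840) jt4_12 jt4_13))) (.nd (nat_lit 15369257153) (.nd (nat_lit 15353532545) jt4_14 jt4_15) (.nd (nat_lit 15370563648) jt4_16 (.nd (nat_lit 15402278976) jt4_17 jt4_18)))))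
def jg4 : Cfg := ⟨67, 58, 18, 7, 29⟩
noncomputable def jX4 : F3 := XRc 7 99 99 99 0
noncomputable def jt5_0 : BT := (.nd (nat_lit 17466138688) (.nd (nat_lit 17451982912) (.nd (nat_lit 17435246656) (.nd (nat_lit 17432322112) (.nd (nat_lit 17415544896) (.nd (nat_lit 17398767680) (.lf (nat_lit 0x40d0c2040)) (.lf (nat_lit 0x40e0c2040))) (.nd (nat_lit 17415807040) (.lf (nat_lit 0x40e102040)) (.lf (nat_lit 0x40f0c2040)))) (.nd (nat_lit 17432846400) (.nd (nat_lit 17432584256) (.lf (nat_lit 0x40f102040)) (.lf (nat_lit 0x40f142040))) (.nd (nat_lit 17435205696) (.lf (nat_lit 0x40f382040)) (.lf (nat_lit 0x40f38c040))))) (.nd (nat_lit 17449365568) (.nd (nat_lit 17449099328) (.nd (nat_lit 17435250752) (.lf (nat_lit 0x40f38d040)) (.lf (nat_lit 0x4100c2040))) (.nd (nat_lit 17449361472) (.lf (nat_lit 0x410102040)) (.lf (nat_lit 0x410103040)))) (.nd (nat_lit 17449885760) (.nd (nat_lit 17449623616) (.lf (nat_lit 0x410142040)) (.lf (nat_lit 0x410182040)))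 (.nd (nat_lit 17451761728) (.lf (nat_lit 0x41034c040)) (.lf (nat_lit 0x410382040)))))) (.nd (nat_lit 17452277888) (.nd (nat_lit 17452245056) (.nd (nat_lit 17452023872) (.nd (nat_lit 17452019776) (.lf (nat_lit 0x41038b040)) (.lf (nat_lit 0x41038c040))) (.nd (nat_lit 17452027968) (.lf (nat_lit 0x41038d040)) (.lf (nat_lit 0x4103c2040)))) (.nd (nat_lit 17452273728) (.nd (nat_lit 17452249152) (.lf (nat_lit 0x4103c3040)) (.lf (nat_lit 0x4103c9040))) (.nd (nat_lit 17452277824) (.lf (nat_lit 0x4103ca040)) (.lf (nat_lit 0x4103ca080))))) (.nd (nat_lit 17452290112) (.nd (nat_lit 17452286016) (.nd (nat_lit 17452281920) (.lf (nat_lit 0x4103cb040)) (.lf (nat_lit 0x4103cc040))) (.nd (nat_lit 17452286081) (.lf (nat_lit 0x4103cc081)) (.lf (nat_lit 0x4103cd040)))) (.nd (nat_lit 17452294208) (.nd (nat_lit 17452290176) (.lf (nat_lit 0x4103cd080)) (.lf (nat_lit 0x4103ce040))) (.nd (nat_lit 17465876544) (.lf (nat_lit 0x4110c2040)) (.lf (nat_lit 0x411102040)))))))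 (.nd (nat_lit 17468796992) (.nd (nat_lit 17468497984) (.nd (nat_lit 17466662976) (.nd (nat_lit 17466400832) (.nd (nat_lit 17466142784) (.lf (nat_lit 0x411103040)) (.lf (nat_lit 0x411142040))) (.nd (nat_lit 17466404928) (.lf (nat_lit 0x411143040)) (.lf (nat_lit 0x411182040)))) (.nd (nat_lit 17467973696) (.nd (nat_lit 17466925120) (.lf (nat_lit 0x4111c2040)) (.lf (nat_lit 0x4112c2040))) (.nd (nat_lit 17468235840) (.lf (nat_lit 0x411302040)) (.lf (nat_lit 0x411342040))))) (.nd (nat_lit 17468760128) (.nd (nat_lit 17468534848) (.nd (nat_lit 17468530752) (.lf (nat_lit 0x41134a040)) (.lf (nat_lit 0x41134b040))) (.nd (nat_lit 17468538944) (.lf (nat_lit 0x41134c040)) (.lf (nat_lit 0x411382040)))) (.nd (nat_lit 17468788800) (.nd (nat_lit 17468764224) (.lf (nat_lit 0x411383040)) (.lf (nat_lit 0x411389040))) (.nd (nat_lit 17468792896) (.lf (nat_lit 0x41138a040)) (.lf (nat_lit 0x41138b040)))))) (.nd (nat_lit 17469042752) (.nd (nat_lit 17469026368)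 (.nd (nat_lit 17468805184) (.nd (nat_lit 17468801088) (.lf (nat_lit 0x41138c040)) (.lf (nat_lit 0x41138d040))) (.nd (nat_lit 17469022272) (.lf (nat_lit 0x4113c2040)) (.lf (nat_lit 0x4113c3040)))) (.nd (nat_lit 17469034560) (.nd (nat_lit 17469030464) (.lf (nat_lit 0x4113c4040)) (.lf (nat_lit 0x4113c5040))) (.nd (nat_lit 17469038656) (.lf (nat_lit 0x4113c6040)) (.lf (nat_lit 0x4113c7040))))) (.nd (nat_lit 17469051008) (.nd (nat_lit 17469046912) (.nd (nat_lit 17469046848) (.lf (nat_lit 0x4113c8040)) (.lf (nat_lit 0x4113c8080))) (.nd (nat_lit 17469050944) (.lf (nat_lit 0x4113c9040)) (.lf (nat_lit 0x4113c9080)))) (.nd (nat_lit 17469059136) (.nd (nat_lit 17469055040) (.lf (nat_lit 0x4113ca040)) (.lf (nat_lit 0x4113cb040))) (.nd (nat_lit 17469063232) (.lf (nat_lit 0x4113cc040)) (.lf (nat_lit 0x411402040))))))))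
noncomputable def jt5_1 : BT := (.nd (nat_lit 17485045888) (.nd (nat_lit 17469317184) (.nd (nat_lit 17469300864) (.nd (nat_lit 17469292672) (.nd (nat_lit 17469288576) (.nd (nat_lit 17469288512) (.lf (nat_lit 0x411403040)) (.lf (nat_lit 0x411403080))) (.nd (nat_lit 17469292608) (.lf (nat_lit 0x411404040)) (.lf (nat_lit 0x411404080)))) (.nd (nat_lit 17469296768) (.nd (nat_lit 17469296704) (.lf (nat_lit 0x411405040)) (.lf (nat_lit 0x411405080))) (.nd (nat_lit 17469300800) (.lf (nat_lit 0x411406040)) (.lf (nat_lit 0x411406080))))) (.nd (nat_lit 17469308992) (.nd (nat_lit 17469304896) (.nd (nat_lit 17469300928) (.lf (nat_lit 0x4114060c0)) (.lf (nat_lit 0x411407040))) (.nd (nat_lit 17469304960) (.lf (nat_lit 0x411407080)) (.lf (nat_lit 0x411408040)))) (.nd (nat_lit 17469309057) (.nd (nat_lit 17469309056) (.lf (nat_lit 0x411408080)) (.lf (nat_lit 0x411408081))) (.nd (nat_lit 17469313088) (.lf (nat_lit 0x411409040)) (.lf (nat_lit 0x41140a040))))))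 (.nd (nat_lit 17483444288) (.nd (nat_lit 17482920000) (.nd (nat_lit 17482653760) (.nd (nat_lit 17469321280) (.lf (nat_lit 0x41140b040)) (.lf (nat_lit 0x4120c2040))) (.nd (nat_lit 17482915904) (.lf (nat_lit 0x412102040)) (.lf (nat_lit 0x412103040)))) (.nd (nat_lit 17483182144) (.nd (nat_lit 17483178048) (.lf (nat_lit 0x412142040)) (.lf (nat_lit 0x412143040))) (.nd (nat_lit 17483440192) (.lf (nat_lit 0x412182040)) (.lf (nat_lit 0x412183040))))) (.nd (nat_lit 17484488768) (.nd (nat_lit 17483964480) (.nd (nat_lit 17483702336) (.lf (nat_lit 0x4121c2040)) (.lf (nat_lit 0x412202040))) (.nd (nat_lit 17484226624) (.lf (nat_lit 0x412242040)) (.lf (nat_lit 0x412282040)))) (.nd (nat_lit 17485013056) (.nd (nat_lit 17484750912) (.lf (nat_lit 0x4122c2040)) (.lf (nat_lit 0x412302040))) (.nd (nat_lit 17485045824) (.lf (nat_lit 0x41230a040)) (.lf (nat_lit 0x41230a080))))))) (.nd (nat_lit 17485549632) (.nd (nat_lit 17485307968) (.nd (nat_lit 17485279296)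 (.nd (nat_lit 17485049984) (.nd (nat_lit 17485049920) (.lf (nat_lit 0x41230b040)) (.lf (nat_lit 0x41230b080))) (.nd (nat_lit 17485275200) (.lf (nat_lit 0x412342040)) (.lf (nat_lit 0x412343040)))) (.nd (nat_lit 17485303872) (.nd (nat_lit 17485299776) (.lf (nat_lit 0x412348040)) (.lf (nat_lit 0x412349040))) (.nd (nat_lit 17485303936) (.lf (nat_lit 0x412349080)) (.lf (nat_lit 0x41234a040))))) (.nd (nat_lit 17485316160) (.nd (nat_lit 17485308033) (.nd (nat_lit 17485308032) (.lf (nat_lit 0x41234a080)) (.lf (nat_lit 0x41234a081))) (.nd (nat_lit 17485312064) (.lf (nat_lit 0x41234b040)) (.lf (nat_lit 0x41234c040)))) (.nd (nat_lit 17485541440) (.nd (nat_lit 17485537344) (.lf (nat_lit 0x412382040)) (.lf (nat_lit 0x412383040))) (.nd (nat_lit 17485545536) (.lf (nat_lit 0x412384040)) (.lf (nat_lit 0x412385040)))))) (.nd (nat_lit 17485570112) (.nd (nat_lit 17485561984) (.nd (nat_lit 17485557824) (.nd (nat_lit 17485553728) (.lf (nat_lit 0x412386040))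 (.lf (nat_lit 0x412387040))) (.nd (nat_lit 17485561920) (.lf (nat_lit 0x412388040)) (.lf (nat_lit 0x412388080)))) (.nd (nat_lit 17485566080) (.nd (nat_lit 17485566016) (.lf (nat_lit 0x412389040)) (.lf (nat_lit 0x412389080))) (.nd (nat_lit 17485566081) (.lf (nat_lit 0x412389081)) (.lf (nat_lit 0x41238a040))))) (.nd (nat_lit 17485803584) (.nd (nat_lit 17485574208) (.nd (nat_lit 17485570176) (.lf (nat_lit 0x41238a080)) (.lf (nat_lit 0x41238b040))) (.nd (nat_lit 17485799488) (.lf (nat_lit 0x4123c2040)) (.lf (nat_lit 0x4123c3040)))) (.nd (nat_lit 17485807680) (.nd (nat_lit 17485803648) (.lf (nat_lit 0x4123c3080)) (.lf (nat_lit 0x4123c4040))) (.nd (nat_lit 17485807744) (.lf (nat_lit 0x4123c4080)) (.lf (nat_lit 0x4123c5040))))))))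
noncomputable def jt5_2 : BT := (.nd (nat_lit 17486082176) (.nd (nat_lit 17486061632) (.nd (nat_lit 17485820032) (.nd (nat_lit 17485815872) (.nd (nat_lit 17485811904) (.nd (nat_lit 17485811840) (.lf (nat_lit 0x4123c5080)) (.lf (nat_lit 0x4123c50c0))) (.nd (nat_lit 17485811968) (.lf (nat_lit 0x4123c5100)) (.lf (nat_lit 0x4123c6040)))) (.nd (nat_lit 17485816000) (.nd (nat_lit 17485815936) (.lf (nat_lit 0x4123c6080)) (.lf (nat_lit 0x4123c60c0))) (.nd (nat_lit 17485819968) (.lf (nat_lit 0x4123c7040)) (.lf (nat_lit 0x4123c7080))))) (.nd (nat_lit 17485824129) (.nd (nat_lit 17485824064) (.nd (nat_lit 17485820033) (.lf (nat_lit 0x4123c7081)) (.lf (nat_lit 0x4123c8040))) (.nd (nat_lit 17485824128) (.lf (nat_lit 0x4123c8080)) (.lf (nat_lit 0x4123c8081)))) (.nd (nat_lit 17485828224) (.nd (nat_lit 17485828160) (.lf (nat_lit 0x4123c9040)) (.lf (nat_lit 0x4123c9080))) (.nd (nat_lit 17485832256) (.lf (nat_lit 0x4123ca040)) (.lf (nat_lit 0x412402040))))))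 (.nd (nat_lit 17486073985) (.nd (nat_lit 17486069888) (.nd (nat_lit 17486065792) (.nd (nat_lit 17486065728) (.lf (nat_lit 0x412403040)) (.lf (nat_lit 0x412403080))) (.nd (nat_lit 17486069824) (.lf (nat_lit 0x412404040)) (.lf (nat_lit 0x412404080)))) (.nd (nat_lit 17486073920) (.nd (nat_lit 17486069952) (.lf (nat_lit 0x4124040c0)) (.lf (nat_lit 0x412405040))) (.nd (nat_lit 17486073984) (.lf (nat_lit 0x412405080)) (.lf (nat_lit 0x412405081))))) (.nd (nat_lit 17486078080) (.nd (nat_lit 17486074049) (.nd (nat_lit 17486074048) (.lf (nat_lit 0x4124050c0)) (.lf (nat_lit 0x4124050c1))) (.nd (nat_lit 17486078016) (.lf (nat_lit 0x412406040)) (.lf (nat_lit 0x412406080)))) (.nd (nat_lit 17486078144) (.nd (nat_lit 17486078081) (.lf (nat_lit 0x412406081)) (.lf (nat_lit 0x4124060c0))) (.nd (nat_lit 17486082112) (.lf (nat_lit 0x412407040)) (.lf (nat_lit 0x412407080))))))) (.nd (nat_lit 17486336129) (.nd (nat_lit 17486327937) (.nd (nat_lit 17486090304)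 (.nd (nat_lit 17486086208) (.nd (nat_lit 17486082177) (.lf (nat_lit 0x412407081)) (.lf (nat_lit 0x412408040))) (.nd (nat_lit 17486086272) (.lf (nat_lit 0x412408080)) (.lf (nat_lit 0x412409040)))) (.nd (nat_lit 17486327872) (.nd (nat_lit 17486323776) (.lf (nat_lit 0x412442040)) (.lf (nat_lit 0x412443040))) (.nd (nat_lit 17486327936) (.lf (nat_lit 0x412443080)) (.lf (nat_lit 0x412443081))))) (.nd (nat_lit 17486332096) (.nd (nat_lit 17486332032) (.nd (nat_lit 17486331968) (.lf (nat_lit 0x412444040)) (.lf (nat_lit 0x412444080))) (.nd (nat_lit 17486332033) (.lf (nat_lit 0x412444081)) (.lf (nat_lit 0x4124440c0)))) (.nd (nat_lit 17486336064) (.nd (nat_lit 17486332097) (.lf (nat_lit 0x4124440c1)) (.lf (nat_lit 0x412445040))) (.nd (nat_lit 17486336128) (.lf (nat_lit 0x412445080)) (.lf (nat_lit 0x412445081)))))) (.nd (nat_lit 17486344256) (.nd (nat_lit 17486340160) (.nd (nat_lit 17486336193) (.nd (nat_lit 17486336192) (.lf (nat_lit 0x4124450c0))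 (.lf (nat_lit 0x4124450c1))) (.nd (nat_lit 17486336256) (.lf (nat_lit 0x412445100)) (.lf (nat_lit 0x412446040)))) (.nd (nat_lit 17486340225) (.nd (nat_lit 17486340224) (.lf (nat_lit 0x412446080)) (.lf (nat_lit 0x412446081))) (.nd (nat_lit 17486340288) (.lf (nat_lit 0x4124460c0)) (.lf (nat_lit 0x412447040))))) (.nd (nat_lit 17499693120) (.nd (nat_lit 17486348352) (.nd (nat_lit 17486344320) (.lf (nat_lit 0x412447080)) (.lf (nat_lit 0x412448040))) (.nd (nat_lit 17499430976) (.lf (nat_lit 0x4130c2040)) (.lf (nat_lit 0x413102040)))) (.nd (nat_lit 17499697280) (.nd (nat_lit 17499697216) (.lf (nat_lit 0x413103040)) (.lf (nat_lit 0x413103080))) (.nd (nat_lit 17499955264) (.lf (nat_lit 0x413142040)) (.lf (nat_lit 0x413143040))))))))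
noncomputable def jt5_3 : BT := (.nd (nat_lit 17501827136) (.nd (nat_lit 17501560896) (.nd (nat_lit 17501003840) (.nd (nat_lit 17500479552) (.nd (nat_lit 17500217408) (.nd (nat_lit 17499963456) (.lf (nat_lit 0x413144040)) (.lf (nat_lit 0x413182040))) (.nd (nat_lit 17500221504) (.lf (nat_lit 0x413183040)) (.lf (nat_lit 0x4131c2040)))) (.nd (nat_lit 17500741696) (.nd (nat_lit 17500483648) (.lf (nat_lit 0x4131c3040)) (.lf (nat_lit 0x413202040))) (.nd (nat_lit 17500745792) (.lf (nat_lit 0x413203040)) (.lf (nat_lit 0x413242040))))) (.nd (nat_lit 17501528128) (.nd (nat_lit 17501265984) (.nd (nat_lit 17501007936) (.lf (nat_lit 0x413243040)) (.lf (nat_lit 0x413282040))) (.nd (nat_lit 17501270080) (.lf (nat_lit 0x413283040)) (.lf (nat_lit 0x4132c2040)))) (.nd (nat_lit 17501552704) (.nd (nat_lit 17501532224) (.lf (nat_lit 0x4132c3040)) (.lf (nat_lit 0x4132c8040))) (.nd (nat_lit 17501556800) (.lf (nat_lit 0x4132c9040)) (.lf (nat_lit 0x4132ca040))))))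 (.nd (nat_lit 17501810752) (.nd (nat_lit 17501794368) (.nd (nat_lit 17501560961) (.nd (nat_lit 17501560960) (.lf (nat_lit 0x4132ca080)) (.lf (nat_lit 0x4132ca081))) (.nd (nat_lit 17501790272) (.lf (nat_lit 0x413302040)) (.lf (nat_lit 0x413303040)))) (.nd (nat_lit 17501802560) (.nd (nat_lit 17501798464) (.lf (nat_lit 0x413304040)) (.lf (nat_lit 0x413305040))) (.nd (nat_lit 17501806656) (.lf (nat_lit 0x413306040)) (.lf (nat_lit 0x413307040))))) (.nd (nat_lit 17501819008) (.nd (nat_lit 17501814912) (.nd (nat_lit 17501814848) (.lf (nat_lit 0x413308040)) (.lf (nat_lit 0x413308080))) (.nd (nat_lit 17501818944) (.lf (nat_lit 0x413309040)) (.lf (nat_lit 0x413309080)))) (.nd (nat_lit 17501823040) (.nd (nat_lit 17501819009) (.lf (nat_lit 0x413309081)) (.lf (nat_lit 0x41330a040))) (.nd (nat_lit 17501823104) (.lf (nat_lit 0x41330a080)) (.lf (nat_lit 0x41330b040))))))) (.nd (nat_lit 17502085184) (.nd (nat_lit 17502072896) (.nd (nat_lit 17502060608)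 (.nd (nat_lit 17502056512) (.nd (nat_lit 17502052416) (.lf (nat_lit 0x413342040)) (.lf (nat_lit 0x413343040))) (.nd (nat_lit 17502056576) (.lf (nat_lit 0x413343080)) (.lf (nat_lit 0x413344040)))) (.nd (nat_lit 17502068800) (.nd (nat_lit 17502064704) (.lf (nat_lit 0x413345040)) (.lf (nat_lit 0x413346040))) (.nd (nat_lit 17502068864) (.lf (nat_lit 0x413346080)) (.lf (nat_lit 0x413347040))))) (.nd (nat_lit 17502077056) (.nd (nat_lit 17502073024) (.nd (nat_lit 17502072960) (.lf (nat_lit 0x413347080)) (.lf (nat_lit 0x4133470c0))) (.nd (nat_lit 17502076992) (.lf (nat_lit 0x413348040)) (.lf (nat_lit 0x413348080)))) (.nd (nat_lit 17502081088) (.nd (nat_lit 17502077057) (.lf (nat_lit 0x413348081)) (.lf (nat_lit 0x413349040))) (.nd (nat_lit 17502081152) (.lf (nat_lit 0x413349080)) (.lf (nat_lit 0x41334a040)))))) (.nd (nat_lit 17502326912) (.nd (nat_lit 17502322752) (.nd (nat_lit 17502318656) (.nd (nat_lit 17502314560) (.lf (nat_lit 0x413382040))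 (.lf (nat_lit 0x413383040))) (.nd (nat_lit 17502318720) (.lf (nat_lit 0x413383080)) (.lf (nat_lit 0x413384040)))) (.nd (nat_lit 17502322880) (.nd (nat_lit 17502322816) (.lf (nat_lit 0x413384080)) (.lf (nat_lit 0x4133840c0))) (.nd (nat_lit 17502326848) (.lf (nat_lit 0x413385040)) (.lf (nat_lit 0x413385080))))) (.nd (nat_lit 17502331008) (.nd (nat_lit 17502327040) (.nd (nat_lit 17502326976) (.lf (nat_lit 0x4133850c0)) (.lf (nat_lit 0x413385100))) (.nd (nat_lit 17502330944) (.lf (nat_lit 0x413386040)) (.lf (nat_lit 0x413386080)))) (.nd (nat_lit 17502331072) (.nd (nat_lit 17502331009) (.lf (nat_lit 0x413386081)) (.lf (nat_lit 0x4133860c0))) (.nd (nat_lit 17502335040) (.lf (nat_lit 0x413387040)) (.lf (nat_lit 0x413387080))))))))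
noncomputable def jt5_4 : BT := (.nd (nat_lit 17502847105) (.nd (nat_lit 17502589120) (.nd (nat_lit 17502584896) (.nd (nat_lit 17502343232) (.nd (nat_lit 17502339136) (.nd (nat_lit 17502335105) (.lf (nat_lit 0x413387081)) (.lf (nat_lit 0x413388040))) (.nd (nat_lit 17502339200) (.lf (nat_lit 0x413388080)) (.lf (nat_lit 0x413389040)))) (.nd (nat_lit 17502580800) (.nd (nat_lit 17502576704) (.lf (nat_lit 0x4133c2040)) (.lf (nat_lit 0x4133c3040))) (.nd (nat_lit 17502580864) (.lf (nat_lit 0x4133c3080)) (.lf (nat_lit 0x4133c4040))))) (.nd (nat_lit 17502585025) (.nd (nat_lit 17502584961) (.nd (nat_lit 17502584960) (.lf (nat_lit 0x4133c4080)) (.lf (nat_lit 0x4133c4081))) (.nd (nat_lit 17502585024) (.lf (nat_lit 0x4133c40c0)) (.lf (nat_lit 0x4133c40c1)))) (.nd (nat_lit 17502589056) (.nd (nat_lit 17502588992) (.lf (nat_lit 0x4133c5040)) (.lf (nat_lit 0x4133c5080))) (.nd (nat_lit 17502589057) (.lf (nat_lit 0x4133c5081)) (.lf (nat_lit 0x4133c50c0))))))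 (.nd (nat_lit 17502597248) (.nd (nat_lit 17502593152) (.nd (nat_lit 17502589184) (.nd (nat_lit 17502589121) (.lf (nat_lit 0x4133c50c1)) (.lf (nat_lit 0x4133c5100))) (.nd (nat_lit 17502593088) (.lf (nat_lit 0x4133c6040)) (.lf (nat_lit 0x4133c6080)))) (.nd (nat_lit 17502593216) (.nd (nat_lit 17502593153) (.lf (nat_lit 0x4133c6081)) (.lf (nat_lit 0x4133c60c0))) (.nd (nat_lit 17502597184) (.lf (nat_lit 0x4133c7040)) (.lf (nat_lit 0x4133c7080))))) (.nd (nat_lit 17502843008) (.nd (nat_lit 17502838848) (.nd (nat_lit 17502601280) (.lf (nat_lit 0x4133c8040)) (.lf (nat_lit 0x413402040))) (.nd (nat_lit 17502842944) (.lf (nat_lit 0x413403040)) (.lf (nat_lit 0x413403080)))) (.nd (nat_lit 17502847040) (.nd (nat_lit 17502843009) (.lf (nat_lit 0x413403081)) (.lf (nat_lit 0x413404040))) (.nd (nat_lit 17502847104) (.lf (nat_lit 0x413404080)) (.lf (nat_lit 0x413404081))))))) (.nd (nat_lit 17503109249) (.nd (nat_lit 17502855296) (.nd (nat_lit 17502851200)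 (.nd (nat_lit 17502847169) (.nd (nat_lit 17502847168) (.lf (nat_lit 0x4134040c0)) (.lf (nat_lit 0x4134040c1))) (.nd (nat_lit 17502851136) (.lf (nat_lit 0x413405040)) (.lf (nat_lit 0x413405080)))) (.nd (nat_lit 17502851264) (.nd (nat_lit 17502851201) (.lf (nat_lit 0x413405081)) (.lf (nat_lit 0x4134050c0))) (.nd (nat_lit 17502855232) (.lf (nat_lit 0x413406040)) (.lf (nat_lit 0x413406080))))) (.nd (nat_lit 17503105152) (.nd (nat_lit 17503100992) (.nd (nat_lit 17502859328) (.lf (nat_lit 0x413407040)) (.lf (nat_lit 0x413442040))) (.nd (nat_lit 17503105088) (.lf (nat_lit 0x413443040)) (.lf (nat_lit 0x413443080)))) (.nd (nat_lit 17503109184) (.nd (nat_lit 17503105153) (.lf (nat_lit 0x413443081)) (.lf (nat_lit 0x413444040))) (.nd (nat_lit 17503109248) (.lf (nat_lit 0x413444080)) (.lf (nat_lit 0x413444081)))))) (.nd (nat_lit 17503367297) (.nd (nat_lit 17503117376) (.nd (nat_lit 17503113280) (.nd (nat_lit 17503109312) (.lf (nat_lit 0x4134440c0))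 (.lf (nat_lit 0x413445040))) (.nd (nat_lit 17503113344) (.lf (nat_lit 0x413445080)) (.lf (nat_lit 0x413446040)))) (.nd (nat_lit 17503367232) (.nd (nat_lit 17503363136) (.lf (nat_lit 0x413482040)) (.lf (nat_lit 0x413483040))) (.nd (nat_lit 17503367296) (.lf (nat_lit 0x413483080)) (.lf (nat_lit 0x413483081))))) (.nd (nat_lit 17516208192) (.nd (nat_lit 17503371392) (.nd (nat_lit 17503371328) (.lf (nat_lit 0x413484040)) (.lf (nat_lit 0x413484080))) (.nd (nat_lit 17503375424) (.lf (nat_lit 0x413485040)) (.lf (nat_lit 0x4140c2040)))) (.nd (nat_lit 17516474432) (.nd (nat_lit 17516470336) (.lf (nat_lit 0x414102040)) (.lf (nat_lit 0x414103040))) (.nd (nat_lit 17516474496) (.lf (nat_lit 0x414103080)) (.lf (nat_lit 0x414142040))))))))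
noncomputable def jt5_5 : BT := (.nd (nat_lit 17518309504) (.nd (nat_lit 17517789248) (.nd (nat_lit 17517256768) (.nd (nat_lit 17516994624) (.nd (nat_lit 17516736640) (.nd (nat_lit 17516736576) (.lf (nat_lit 0x414143040)) (.lf (nat_lit 0x414143080))) (.nd (nat_lit 17516740672) (.lf (nat_lit 0x414144040)) (.lf (nat_lit 0x414182040)))) (.nd (nat_lit 17517002816) (.nd (nat_lit 17516998720) (.lf (nat_lit 0x414183040)) (.lf (nat_lit 0x414184040))) (.nd (nat_lit 17517006912) (.lf (nat_lit 0x414185040)) (.lf (nat_lit 0x4141c2040))))) (.nd (nat_lit 17517523008) (.nd (nat_lit 17517264960) (.nd (nat_lit 17517260864) (.lf (nat_lit 0x4141c3040)) (.lf (nat_lit 0x4141c4040))) (.nd (nat_lit 17517518912) (.lf (nat_lit 0x414202040)) (.lf (nat_lit 0x414203040)))) (.nd (nat_lit 17517781056) (.nd (nat_lit 17517527104) (.lf (nat_lit 0x414204040)) (.lf (nat_lit 0x414242040))) (.nd (nat_lit 17517785152) (.lf (nat_lit 0x414243040)) (.lf (nat_lit 0x414244040))))))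 (.nd (nat_lit 17518067776) (.nd (nat_lit 17518051392) (.nd (nat_lit 17518043200) (.nd (nat_lit 17517805632) (.lf (nat_lit 0x414248040)) (.lf (nat_lit 0x414282040))) (.nd (nat_lit 17518047296) (.lf (nat_lit 0x414283040)) (.lf (nat_lit 0x414284040)))) (.nd (nat_lit 17518059584) (.nd (nat_lit 17518055488) (.lf (nat_lit 0x414285040)) (.lf (nat_lit 0x414286040))) (.nd (nat_lit 17518063680) (.lf (nat_lit 0x414287040)) (.lf (nat_lit 0x414288040))))) (.nd (nat_lit 17518071936) (.nd (nat_lit 17518067904) (.nd (nat_lit 17518067840) (.lf (nat_lit 0x414288080)) (.lf (nat_lit 0x4142880c0))) (.nd (nat_lit 17518071872) (.lf (nat_lit 0x414289040)) (.lf (nat_lit 0x414289080)))) (.nd (nat_lit 17518305344) (.nd (nat_lit 17518071937) (.lf (nat_lit 0x414289081)) (.lf (nat_lit 0x4142c2040))) (.nd (nat_lit 17518309440) (.lf (nat_lit 0x4142c3040)) (.lf (nat_lit 0x4142c3080))))))) (.nd (nat_lit 17518571648) (.nd (nat_lit 17518329984) (.nd (nat_lit 17518325824)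 (.nd (nat_lit 17518317632) (.nd (nat_lit 17518313536) (.lf (nat_lit 0x4142c4040)) (.lf (nat_lit 0x4142c5040))) (.nd (nat_lit 17518321728) (.lf (nat_lit 0x4142c6040)) (.lf (nat_lit 0x4142c7040)))) (.nd (nat_lit 17518325952) (.nd (nat_lit 17518325888) (.lf (nat_lit 0x4142c7080)) (.lf (nat_lit 0x4142c70c0))) (.nd (nat_lit 17518329920) (.lf (nat_lit 0x4142c8040)) (.lf (nat_lit 0x4142c8080))))) (.nd (nat_lit 17518334080) (.nd (nat_lit 17518330048) (.nd (nat_lit 17518329985) (.lf (nat_lit 0x4142c8081)) (.lf (nat_lit 0x4142c80c0))) (.nd (nat_lit 17518334016) (.lf (nat_lit 0x4142c9040)) (.lf (nat_lit 0x4142c9080)))) (.nd (nat_lit 17518567488) (.nd (nat_lit 17518338112) (.lf (nat_lit 0x4142ca040)) (.lf (nat_lit 0x414302040))) (.nd (nat_lit 17518571584) (.lf (nat_lit 0x414303040)) (.lf (nat_lit 0x414303080)))))) (.nd (nat_lit 17518583872) (.nd (nat_lit 17518579776) (.nd (nat_lit 17518575744) (.nd (nat_lit 17518575680) (.lf (nat_lit 0x414304040))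 (.lf (nat_lit 0x414304080))) (.nd (nat_lit 17518575808) (.lf (nat_lit 0x4143040c0)) (.lf (nat_lit 0x414305040)))) (.nd (nat_lit 17518579904) (.nd (nat_lit 17518579840) (.lf (nat_lit 0x414305080)) (.lf (nat_lit 0x4143050c0))) (.nd (nat_lit 17518579968) (.lf (nat_lit 0x414305100)) (.lf (nat_lit 0x414306040))))) (.nd (nat_lit 17518587968) (.nd (nat_lit 17518584000) (.nd (nat_lit 17518583936) (.lf (nat_lit 0x414306080)) (.lf (nat_lit 0x4143060c0))) (.nd (nat_lit 17518584001) (.lf (nat_lit 0x4143060c1)) (.lf (nat_lit 0x414307040)))) (.nd (nat_lit 17518588033) (.nd (nat_lit 17518588032) (.lf (nat_lit 0x414307080)) (.lf (nat_lit 0x414307081))) (.nd (nat_lit 17518588096) (.lf (nat_lit 0x4143070c0)) (.lf (nat_lit 0x414308040))))))))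
noncomputable def jt5_6 : BT := (.nd (nat_lit 17519104128) (.nd (nat_lit 17518846080) (.nd (nat_lit 17518837952) (.nd (nat_lit 17518833728) (.nd (nat_lit 17518596160) (.nd (nat_lit 17518592128) (.lf (nat_lit 0x414308080)) (.lf (nat_lit 0x414309040))) (.nd (nat_lit 17518829632) (.lf (nat_lit 0x414342040)) (.lf (nat_lit 0x414343040)))) (.nd (nat_lit 17518837824) (.nd (nat_lit 17518833792) (.lf (nat_lit 0x414343080)) (.lf (nat_lit 0x414344040))) (.nd (nat_lit 17518837888) (.lf (nat_lit 0x414344080)) (.lf (nat_lit 0x4143440c0))))) (.nd (nat_lit 17518842048) (.nd (nat_lit 17518841984) (.nd (nat_lit 17518841920) (.lf (nat_lit 0x414345040)) (.lf (nat_lit 0x414345080))) (.nd (nat_lit 17518841985) (.lf (nat_lit 0x414345081)) (.lf (nat_lit 0x4143450c0)))) (.nd (nat_lit 17518842112) (.nd (nat_lit 17518842049) (.lf (nat_lit 0x4143450c1)) (.lf (nat_lit 0x414345100))) (.nd (nat_lit 17518846016) (.lf (nat_lit 0x414346040)) (.lf (nat_lit 0x414346080))))))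 (.nd (nat_lit 17519095936) (.nd (nat_lit 17518850176) (.nd (nat_lit 17518846144) (.nd (nat_lit 17518846081) (.lf (nat_lit 0x414346081)) (.lf (nat_lit 0x4143460c0))) (.nd (nat_lit 17518850112) (.lf (nat_lit 0x414347040)) (.lf (nat_lit 0x414347080)))) (.nd (nat_lit 17519091776) (.nd (nat_lit 17518854208) (.lf (nat_lit 0x414348040)) (.lf (nat_lit 0x414382040))) (.nd (nat_lit 17519095872) (.lf (nat_lit 0x414383040)) (.lf (nat_lit 0x414383080))))) (.nd (nat_lit 17519100033) (.nd (nat_lit 17519099968) (.nd (nat_lit 17519095937) (.lf (nat_lit 0x414383081)) (.lf (nat_lit 0x414384040))) (.nd (nat_lit 17519100032) (.lf (nat_lit 0x414384080)) (.lf (nat_lit 0x414384081)))) (.nd (nat_lit 17519100097) (.nd (nat_lit 17519100096) (.lf (nat_lit 0x4143840c0)) (.lf (nat_lit 0x4143840c1))) (.nd (nat_lit 17519104064) (.lf (nat_lit 0x414385040)) (.lf (nat_lit 0x414385080))))))) (.nd (nat_lit 17519370304) (.nd (nat_lit 17519358080) (.nd (nat_lit 17519108224)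 (.nd (nat_lit 17519104192) (.nd (nat_lit 17519104129) (.lf (nat_lit 0x414385081)) (.lf (nat_lit 0x4143850c0))) (.nd (nat_lit 17519108160) (.lf (nat_lit 0x414386040)) (.lf (nat_lit 0x414386080)))) (.nd (nat_lit 17519353920) (.nd (nat_lit 17519112256) (.lf (nat_lit 0x414387040)) (.lf (nat_lit 0x4143c2040))) (.nd (nat_lit 17519358016) (.lf (nat_lit 0x4143c3040)) (.lf (nat_lit 0x4143c3080))))) (.nd (nat_lit 17519362177) (.nd (nat_lit 17519362112) (.nd (nat_lit 17519358081) (.lf (nat_lit 0x4143c3081)) (.lf (nat_lit 0x4143c4040))) (.nd (nat_lit 17519362176) (.lf (nat_lit 0x4143c4080)) (.lf (nat_lit 0x4143c4081)))) (.nd (nat_lit 17519366208) (.nd (nat_lit 17519362240) (.lf (nat_lit 0x4143c40c0)) (.lf (nat_lit 0x4143c5040))) (.nd (nat_lit 17519366272) (.lf (nat_lit 0x4143c5080)) (.lf (nat_lit 0x4143c6040)))))) (.nd (nat_lit 17519878208) (.nd (nat_lit 17519620225) (.nd (nat_lit 17519620160) (.nd (nat_lit 17519616064) (.lf (nat_lit 0x414402040))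 (.lf (nat_lit 0x414403040))) (.nd (nat_lit 17519620224) (.lf (nat_lit 0x414403080)) (.lf (nat_lit 0x414403081)))) (.nd (nat_lit 17519624320) (.nd (nat_lit 17519624256) (.lf (nat_lit 0x414404040)) (.lf (nat_lit 0x414404080))) (.nd (nat_lit 17519628352) (.lf (nat_lit 0x414405040)) (.lf (nat_lit 0x414442040))))) (.nd (nat_lit 17520140352) (.nd (nat_lit 17519882368) (.nd (nat_lit 17519882304) (.lf (nat_lit 0x414443040)) (.lf (nat_lit 0x414443080))) (.nd (nat_lit 17519886400) (.lf (nat_lit 0x414444040)) (.lf (nat_lit 0x414482040)))) (.nd (nat_lit 17520402496) (.nd (nat_lit 17520144448) (.lf (nat_lit 0x414483040)) (.lf (nat_lit 0x4144c2040))) (.nd (nat_lit 17532985408) (.lf (nat_lit 0x4150c2040)) (.lf (nat_lit 0x415102040))))))))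
noncomputable def jt5_7 : BT := (.nd (nat_lit 17534570560) (.nd (nat_lit 17534038144) (.nd (nat_lit 17533771840) (.nd (nat_lit 17533513792) (.nd (nat_lit 17533251712) (.nd (nat_lit 17533251648) (.lf (nat_lit 0x415103040)) (.lf (nat_lit 0x415103080))) (.nd (nat_lit 17533509696) (.lf (nat_lit 0x415142040)) (.lf (nat_lit 0x415143040)))) (.nd (nat_lit 17533517888) (.nd (nat_lit 17533513856) (.lf (nat_lit 0x415143080)) (.lf (nat_lit 0x415144040))) (.nd (nat_lit 17533517952) (.lf (nat_lit 0x415144080)) (.lf (nat_lit 0x415182040))))) (.nd (nat_lit 17533780096) (.nd (nat_lit 17533776000) (.nd (nat_lit 17533775936) (.lf (nat_lit 0x415183040)) (.lf (nat_lit 0x415183080))) (.nd (nat_lit 17533780032) (.lf (nat_lit 0x415184040)) (.lf (nat_lit 0x415184080)))) (.nd (nat_lit 17534033984) (.nd (nat_lit 17533784128) (.lf (nat_lit 0x415185040)) (.lf (nat_lit 0x4151c2040))) (.nd (nat_lit 17534038080) (.lf (nat_lit 0x4151c3040)) (.lf (nat_lit 0x4151c3080))))))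 (.nd (nat_lit 17534308416) (.nd (nat_lit 17534296128) (.nd (nat_lit 17534046272) (.nd (nat_lit 17534042176) (.lf (nat_lit 0x4151c4040)) (.lf (nat_lit 0x4151c5040))) (.nd (nat_lit 17534050368) (.lf (nat_lit 0x4151c6040)) (.lf (nat_lit 0x415202040)))) (.nd (nat_lit 17534300288) (.nd (nat_lit 17534300224) (.lf (nat_lit 0x415203040)) (.lf (nat_lit 0x415203080))) (.nd (nat_lit 17534304320) (.lf (nat_lit 0x415204040)) (.lf (nat_lit 0x415205040))))) (.nd (nat_lit 17534562368) (.nd (nat_lit 17534316608) (.nd (nat_lit 17534312512) (.lf (nat_lit 0x415206040)) (.lf (nat_lit 0x415207040))) (.nd (nat_lit 17534558272) (.lf (nat_lit 0x415242040)) (.lf (nat_lit 0x415243040)))) (.nd (nat_lit 17534566464) (.nd (nat_lit 17534562432) (.lf (nat_lit 0x415243080)) (.lf (nat_lit 0x415244040))) (.nd (nat_lit 17534566528) (.lf (nat_lit 0x415244080)) (.lf (nat_lit 0x415245040))))))) (.nd (nat_lit 17534828608) (.nd (nat_lit 17534578944) (.nd (nat_lit 17534574912)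 (.nd (nat_lit 17534574720) (.nd (nat_lit 17534574656) (.lf (nat_lit 0x415246040)) (.lf (nat_lit 0x415246080))) (.nd (nat_lit 17534574848) (.lf (nat_lit 0x415246100)) (.lf (nat_lit 0x415246140)))) (.nd (nat_lit 17534578816) (.nd (nat_lit 17534578752) (.lf (nat_lit 0x415247040)) (.lf (nat_lit 0x415247080))) (.nd (nat_lit 17534578880) (.lf (nat_lit 0x4152470c0)) (.lf (nat_lit 0x415247100))))) (.nd (nat_lit 17534582976) (.nd (nat_lit 17534582912) (.nd (nat_lit 17534582848) (.lf (nat_lit 0x415248040)) (.lf (nat_lit 0x415248080))) (.nd (nat_lit 17534582913) (.lf (nat_lit 0x415248081)) (.lf (nat_lit 0x4152480c0)))) (.nd (nat_lit 17534824512) (.nd (nat_lit 17534820416) (.lf (nat_lit 0x415282040)) (.lf (nat_lit 0x415283040))) (.nd (nat_lit 17534824576) (.lf (nat_lit 0x415283080)) (.lf (nat_lit 0x415284040)))))) (.nd (nat_lit 17534836864) (.nd (nat_lit 17534832768) (.nd (nat_lit 17534828736) (.nd (nat_lit 17534828672) (.lf (nat_lit 0x415284080))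 (.lf (nat_lit 0x4152840c0))) (.nd (nat_lit 17534832704) (.lf (nat_lit 0x415285040)) (.lf (nat_lit 0x415285080)))) (.nd (nat_lit 17534832896) (.nd (nat_lit 17534832832) (.lf (nat_lit 0x4152850c0)) (.lf (nat_lit 0x415285100))) (.nd (nat_lit 17534836800) (.lf (nat_lit 0x415286040)) (.lf (nat_lit 0x415286080))))) (.nd (nat_lit 17534840896) (.nd (nat_lit 17534836929) (.nd (nat_lit 17534836928) (.lf (nat_lit 0x4152860c0)) (.lf (nat_lit 0x4152860c1))) (.nd (nat_lit 17534836992) (.lf (nat_lit 0x415286100)) (.lf (nat_lit 0x415287040)))) (.nd (nat_lit 17534840961) (.nd (nat_lit 17534840960) (.lf (nat_lit 0x415287080)) (.lf (nat_lit 0x415287081))) (.nd (nat_lit 17534841024) (.lf (nat_lit 0x4152870c0)) (.lf (nat_lit 0x415288040))))))))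
noncomputable def jt5_8 : BT := (.nd (nat_lit 17535357057) (.nd (nat_lit 17535099009) (.nd (nat_lit 17535090880) (.nd (nat_lit 17535086656) (.nd (nat_lit 17534849088) (.nd (nat_lit 17534845056) (.lf (nat_lit 0x415288080)) (.lf (nat_lit 0x415289040))) (.nd (nat_lit 17535082560) (.lf (nat_lit 0x4152c2040)) (.lf (nat_lit 0x4152c3040)))) (.nd (nat_lit 17535090752) (.nd (nat_lit 17535086720) (.lf (nat_lit 0x4152c3080)) (.lf (nat_lit 0x4152c4040))) (.nd (nat_lit 17535090816) (.lf (nat_lit 0x4152c4080)) (.lf (nat_lit 0x4152c40c0))))) (.nd (nat_lit 17535094977) (.nd (nat_lit 17535094912) (.nd (nat_lit 17535094848) (.lf (nat_lit 0x4152c5040)) (.lf (nat_lit 0x4152c5080))) (.nd (nat_lit 17535094976) (.lf (nat_lit 0x4152c50c0)) (.lf (nat_lit 0x4152c50c1)))) (.nd (nat_lit 17535098944) (.nd (nat_lit 17535095040) (.lf (nat_lit 0x4152c5100)) (.lf (nat_lit 0x4152c6040))) (.nd (nat_lit 17535099008) (.lf (nat_lit 0x4152c6080)) (.lf (nat_lit 0x4152c6081))))))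 (.nd (nat_lit 17535348865) (.nd (nat_lit 17535107136) (.nd (nat_lit 17535103040) (.nd (nat_lit 17535099072) (.lf (nat_lit 0x4152c60c0)) (.lf (nat_lit 0x4152c7040))) (.nd (nat_lit 17535103104) (.lf (nat_lit 0x4152c7080)) (.lf (nat_lit 0x4152c8040)))) (.nd (nat_lit 17535348800) (.nd (nat_lit 17535344704) (.lf (nat_lit 0x415302040)) (.lf (nat_lit 0x415303040))) (.nd (nat_lit 17535348864) (.lf (nat_lit 0x415303080)) (.lf (nat_lit 0x415303081))))) (.nd (nat_lit 17535353024) (.nd (nat_lit 17535352960) (.nd (nat_lit 17535352896) (.lf (nat_lit 0x415304040)) (.lf (nat_lit 0x415304080))) (.nd (nat_lit 17535352961) (.lf (nat_lit 0x415304081)) (.lf (nat_lit 0x4153040c0)))) (.nd (nat_lit 17535356992) (.nd (nat_lit 17535353025) (.lf (nat_lit 0x4153040c1)) (.lf (nat_lit 0x415305040))) (.nd (nat_lit 17535357056) (.lf (nat_lit 0x415305080)) (.lf (nat_lit 0x415305081))))))) (.nd (nat_lit 17535868992) (.nd (nat_lit 17535611009) (.nd (nat_lit 17535365184)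 (.nd (nat_lit 17535361088) (.nd (nat_lit 17535357120) (.lf (nat_lit 0x4153050c0)) (.lf (nat_lit 0x415306040))) (.nd (nat_lit 17535361152) (.lf (nat_lit 0x415306080)) (.lf (nat_lit 0x415307040)))) (.nd (nat_lit 17535610944) (.nd (nat_lit 17535606848) (.lf (nat_lit 0x415342040)) (.lf (nat_lit 0x415343040))) (.nd (nat_lit 17535611008) (.lf (nat_lit 0x415343080)) (.lf (nat_lit 0x415343081))))) (.nd (nat_lit 17535615168) (.nd (nat_lit 17535615104) (.nd (nat_lit 17535615040) (.lf (nat_lit 0x415344040)) (.lf (nat_lit 0x415344080))) (.nd (nat_lit 17535615105) (.lf (nat_lit 0x415344081)) (.lf (nat_lit 0x4153440c0)))) (.nd (nat_lit 17535619200) (.nd (nat_lit 17535619136) (.lf (nat_lit 0x415345040)) (.lf (nat_lit 0x415345080))) (.nd (nat_lit 17535623232) (.lf (nat_lit 0x415346040)) (.lf (nat_lit 0x415382040)))))) (.nd (nat_lit 17536135232) (.nd (nat_lit 17535877184) (.nd (nat_lit 17535873152) (.nd (nat_lit 17535873088) (.lf (nat_lit 0x415383040))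 (.lf (nat_lit 0x415383080))) (.nd (nat_lit 17535873153) (.lf (nat_lit 0x415383081)) (.lf (nat_lit 0x415384040)))) (.nd (nat_lit 17535881280) (.nd (nat_lit 17535877248) (.lf (nat_lit 0x415384080)) (.lf (nat_lit 0x415385040))) (.nd (nat_lit 17536131136) (.lf (nat_lit 0x4153c2040)) (.lf (nat_lit 0x4153c3040))))) (.nd (nat_lit 17536397376) (.nd (nat_lit 17536139328) (.nd (nat_lit 17536135296) (.lf (nat_lit 0x4153c3080)) (.lf (nat_lit 0x4153c4040))) (.nd (nat_lit 17536393280) (.lf (nat_lit 0x415402040)) (.lf (nat_lit 0x415403040)))) (.nd (nat_lit 17549762624) (.nd (nat_lit 17536655424) (.lf (nat_lit 0x415442040)) (.lf (nat_lit 0x4160c2040))) (.nd (nat_lit 17550024768) (.lf (nat_lit 0x416102040)) (.lf (nat_lit 0x416103040))))))))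
noncomputable def jt5_9 : BT := (.nd (nat_lit 17551077440) (.nd (nat_lit 17550811200) (.nd (nat_lit 17550549056) (.nd (nat_lit 17550291072) (.nd (nat_lit 17550286912) (.nd (nat_lit 17550028928) (.lf (nat_lit 0x416103080)) (.lf (nat_lit 0x416142040))) (.nd (nat_lit 17550291008) (.lf (nat_lit 0x416143040)) (.lf (nat_lit 0x416143080)))) (.nd (nat_lit 17550295168) (.nd (nat_lit 17550295104) (.lf (nat_lit 0x416144040)) (.lf (nat_lit 0x416144080))) (.nd (nat_lit 17550295232) (.lf (nat_lit 0x4161440c0)) (.lf (nat_lit 0x416182040))))) (.nd (nat_lit 17550557312) (.nd (nat_lit 17550553216) (.nd (nat_lit 17550553152) (.lf (nat_lit 0x416183040)) (.lf (nat_lit 0x416183080))) (.nd (nat_lit 17550557248) (.lf (nat_lit 0x416184040)) (.lf (nat_lit 0x416184080)))) (.nd (nat_lit 17550561344) (.nd (nat_lit 17550557376) (.lf (nat_lit 0x4161840c0)) (.lf (nat_lit 0x416185040))) (.nd (nat_lit 17550561408) (.lf (nat_lit 0x416185080)) (.lf (nat_lit 0x4161c2040))))))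 (.nd (nat_lit 17550823616) (.nd (nat_lit 17550819456) (.nd (nat_lit 17550815360) (.nd (nat_lit 17550815296) (.lf (nat_lit 0x4161c3040)) (.lf (nat_lit 0x4161c3080))) (.nd (nat_lit 17550819392) (.lf (nat_lit 0x4161c4040)) (.lf (nat_lit 0x4161c4080)))) (.nd (nat_lit 17550823488) (.nd (nat_lit 17550819520) (.lf (nat_lit 0x4161c40c0)) (.lf (nat_lit 0x4161c5040))) (.nd (nat_lit 17550823552) (.lf (nat_lit 0x4161c5080)) (.lf (nat_lit 0x4161c50c0))))) (.nd (nat_lit 17550827776) (.nd (nat_lit 17550827648) (.nd (nat_lit 17550827584) (.lf (nat_lit 0x4161c6040)) (.lf (nat_lit 0x4161c6080))) (.nd (nat_lit 17550827712) (.lf (nat_lit 0x4161c60c0)) (.lf (nat_lit 0x4161c6100)))) (.nd (nat_lit 17550827840) (.nd (nat_lit 17550827777) (.lf (nat_lit 0x4161c6101)) (.lf (nat_lit 0x4161c6140))) (.nd (nat_lit 17551073344) (.lf (nat_lit 0x416202040)) (.lf (nat_lit 0x416203040))))))) (.nd (nat_lit 17551093889) (.nd (nat_lit 17551085824) (.nd (nat_lit 17551081664)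 (.nd (nat_lit 17551081536) (.nd (nat_lit 17551077504) (.lf (nat_lit 0x416203080)) (.lf (nat_lit 0x416204040))) (.nd (nat_lit 17551081600) (.lf (nat_lit 0x416204080)) (.lf (nat_lit 0x4162040c0)))) (.nd (nat_lit 17551085696) (.nd (nat_lit 17551085632) (.lf (nat_lit 0x416205040)) (.lf (nat_lit 0x416205080))) (.nd (nat_lit 17551085760) (.lf (nat_lit 0x4162050c0)) (.lf (nat_lit 0x416205100))))) (.nd (nat_lit 17551089857) (.nd (nat_lit 17551089792) (.nd (nat_lit 17551089728) (.lf (nat_lit 0x416206040)) (.lf (nat_lit 0x416206080))) (.nd (nat_lit 17551089856) (.lf (nat_lit 0x4162060c0)) (.lf (nat_lit 0x4162060c1)))) (.nd (nat_lit 17551093824) (.nd (nat_lit 17551089920) (.lf (nat_lit 0x416206100)) (.lf (nat_lit 0x416207040))) (.nd (nat_lit 17551093888) (.lf (nat_lit 0x416207080)) (.lf (nat_lit 0x416207081)))))) (.nd (nat_lit 17551347776) (.nd (nat_lit 17551339648) (.nd (nat_lit 17551335488) (.nd (nat_lit 17551093952) (.lf (nat_lit 0x4162070c0))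 (.lf (nat_lit 0x416242040))) (.nd (nat_lit 17551339584) (.lf (nat_lit 0x416243040)) (.lf (nat_lit 0x416243080)))) (.nd (nat_lit 17551343744) (.nd (nat_lit 17551343680) (.lf (nat_lit 0x416244040)) (.lf (nat_lit 0x416244080))) (.nd (nat_lit 17551343808) (.lf (nat_lit 0x4162440c0)) (.lf (nat_lit 0x416245040))))) (.nd (nat_lit 17551347905) (.nd (nat_lit 17551347841) (.nd (nat_lit 17551347840) (.lf (nat_lit 0x416245080)) (.lf (nat_lit 0x416245081))) (.nd (nat_lit 17551347904) (.lf (nat_lit 0x4162450c0)) (.lf (nat_lit 0x4162450c1)))) (.nd (nat_lit 17551351872) (.nd (nat_lit 17551347968) (.lf (nat_lit 0x416245100)) (.lf (nat_lit 0x416246040))) (.nd (nat_lit 17551351936) (.lf (nat_lit 0x416246080)) (.lf (nat_lit 0x416246081))))))))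
noncomputable def jt5_10 : BT := (.nd (nat_lit 17552121920) (.nd (nat_lit 17551609985) (.nd (nat_lit 17551601793) (.nd (nat_lit 17551360064) (.nd (nat_lit 17551355968) (.nd (nat_lit 17551352000) (.lf (nat_lit 0x4162460c0)) (.lf (nat_lit 0x416247040))) (.nd (nat_lit 17551356032) (.lf (nat_lit 0x416247080)) (.lf (nat_lit 0x416248040)))) (.nd (nat_lit 17551601728) (.nd (nat_lit 17551597632) (.lf (nat_lit 0x416282040)) (.lf (nat_lit 0x416283040))) (.nd (nat_lit 17551601792) (.lf (nat_lit 0x416283080)) (.lf (nat_lit 0x416283081))))) (.nd (nat_lit 17551605952) (.nd (nat_lit 17551605888) (.nd (nat_lit 17551605824) (.lf (nat_lit 0x416284040)) (.lf (nat_lit 0x416284080))) (.nd (nat_lit 17551605889) (.lf (nat_lit 0x416284081)) (.lf (nat_lit 0x4162840c0)))) (.nd (nat_lit 17551609920) (.nd (nat_lit 17551605953) (.lf (nat_lit 0x4162840c1)) (.lf (nat_lit 0x416285040))) (.nd (nat_lit 17551609984) (.lf (nat_lit 0x416285080)) (.lf (nat_lit 0x416285081))))))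 (.nd (nat_lit 17551863937) (.nd (nat_lit 17551618112) (.nd (nat_lit 17551614016) (.nd (nat_lit 17551610048) (.lf (nat_lit 0x4162850c0)) (.lf (nat_lit 0x416286040))) (.nd (nat_lit 17551614080) (.lf (nat_lit 0x416286080)) (.lf (nat_lit 0x416287040)))) (.nd (nat_lit 17551863872) (.nd (nat_lit 17551859776) (.lf (nat_lit 0x4162c2040)) (.lf (nat_lit 0x4162c3040))) (.nd (nat_lit 17551863936) (.lf (nat_lit 0x4162c3080)) (.lf (nat_lit 0x4162c3081))))) (.nd (nat_lit 17551868096) (.nd (nat_lit 17551868032) (.nd (nat_lit 17551867968) (.lf (nat_lit 0x4162c4040)) (.lf (nat_lit 0x4162c4080))) (.nd (nat_lit 17551868033) (.lf (nat_lit 0x4162c4081)) (.lf (nat_lit 0x4162c40c0)))) (.nd (nat_lit 17551872128) (.nd (nat_lit 17551872064) (.lf (nat_lit 0x4162c5040)) (.lf (nat_lit 0x4162c5080))) (.nd (nat_lit 17551876160) (.lf (nat_lit 0x4162c6040)) (.lf (nat_lit 0x416302040))))))) (.nd (nat_lit 17566806080) (.nd (nat_lit 17552388160) (.nd (nat_lit 17552130112)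 (.nd (nat_lit 17552126080) (.nd (nat_lit 17552126016) (.lf (nat_lit 0x416303040)) (.lf (nat_lit 0x416303080))) (.nd (nat_lit 17552126081) (.lf (nat_lit 0x416303081)) (.lf (nat_lit 0x416304040)))) (.nd (nat_lit 17552134208) (.nd (nat_lit 17552130176) (.lf (nat_lit 0x416304080)) (.lf (nat_lit 0x416305040))) (.nd (nat_lit 17552384064) (.lf (nat_lit 0x416342040)) (.lf (nat_lit 0x416343040))))) (.nd (nat_lit 17552650304) (.nd (nat_lit 17552392256) (.nd (nat_lit 17552388224) (.lf (nat_lit 0x416343080)) (.lf (nat_lit 0x416344040))) (.nd (nat_lit 17552646208) (.lf (nat_lit 0x416382040)) (.lf (nat_lit 0x416383040)))) (.nd (nat_lit 17566539840) (.nd (nat_lit 17552908352) (.lf (nat_lit 0x4163c2040)) (.lf (nat_lit 0x4170c2040))) (.nd (nat_lit 17566801984) (.lf (nat_lit 0x417102040)) (.lf (nat_lit 0x417103040)))))) (.nd (nat_lit 17567072384) (.nd (nat_lit 17567068224) (.nd (nat_lit 17566806145) (.nd (nat_lit 17566806144) (.lf (nat_lit 0x417103080))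 (.lf (nat_lit 0x417103081))) (.nd (nat_lit 17567064128) (.lf (nat_lit 0x417142040)) (.lf (nat_lit 0x417143040)))) (.nd (nat_lit 17567068289) (.nd (nat_lit 17567068288) (.lf (nat_lit 0x417143080)) (.lf (nat_lit 0x417143081))) (.nd (nat_lit 17567072320) (.lf (nat_lit 0x417144040)) (.lf (nat_lit 0x417144080))))) (.nd (nat_lit 17567326272) (.nd (nat_lit 17567072448) (.nd (nat_lit 17567072385) (.lf (nat_lit 0x417144081)) (.lf (nat_lit 0x4171440c0))) (.nd (nat_lit 17567072449) (.lf (nat_lit 0x4171440c1)) (.lf (nat_lit 0x417182040)))) (.nd (nat_lit 17567330432) (.nd (nat_lit 17567330368) (.lf (nat_lit 0x417183040)) (.lf (nat_lit 0x417183080))) (.nd (nat_lit 17567330433) (.lf (nat_lit 0x417183081)) (.lf (nat_lit 0x417184040))))))))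
noncomputable def jt5_11 : BT := (.nd (nat_lit 17567854721) (.nd (nat_lit 17567596673) (.nd (nat_lit 17567338752) (.nd (nat_lit 17567338560) (.nd (nat_lit 17567334529) (.nd (nat_lit 17567334528) (.lf (nat_lit 0x417184080)) (.lf (nat_lit 0x417184081))) (.nd (nat_lit 17567334592) (.lf (nat_lit 0x4171840c0)) (.lf (nat_lit 0x417185040)))) (.nd (nat_lit 17567338625) (.nd (nat_lit 17567338624) (.lf (nat_lit 0x417185080)) (.lf (nat_lit 0x417185081))) (.nd (nat_lit 17567338688) (.lf (nat_lit 0x4171850c0)) (.lf (nat_lit 0x417185100))))) (.nd (nat_lit 17567592576) (.nd (nat_lit 17567588416) (.nd (nat_lit 17567338753) (.lf (nat_lit 0x417185101)) (.lf (nat_lit 0x4171c2040))) (.nd (nat_lit 17567592512) (.lf (nat_lit 0x4171c3040)) (.lf (nat_lit 0x4171c3080)))) (.nd (nat_lit 17567596608) (.nd (nat_lit 17567592577) (.lf (nat_lit 0x4171c3081)) (.lf (nat_lit 0x4171c4040))) (.nd (nat_lit 17567596672) (.lf (nat_lit 0x4171c4080)) (.lf (nat_lit 0x4171c4081))))))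 (.nd (nat_lit 17567600896) (.nd (nat_lit 17567600768) (.nd (nat_lit 17567596737) (.nd (nat_lit 17567596736) (.lf (nat_lit 0x4171c40c0)) (.lf (nat_lit 0x4171c40c1))) (.nd (nat_lit 17567600704) (.lf (nat_lit 0x4171c5040)) (.lf (nat_lit 0x4171c5080)))) (.nd (nat_lit 17567600832) (.nd (nat_lit 17567600769) (.lf (nat_lit 0x4171c5081)) (.lf (nat_lit 0x4171c50c0))) (.nd (nat_lit 17567600833) (.lf (nat_lit 0x4171c50c1)) (.lf (nat_lit 0x4171c5100))))) (.nd (nat_lit 17567604928) (.nd (nat_lit 17567604864) (.nd (nat_lit 17567604800) (.lf (nat_lit 0x4171c6040)) (.lf (nat_lit 0x4171c6080))) (.nd (nat_lit 17567604865) (.lf (nat_lit 0x4171c6081)) (.lf (nat_lit 0x4171c60c0)))) (.nd (nat_lit 17567854656) (.nd (nat_lit 17567850560) (.lf (nat_lit 0x417202040)) (.lf (nat_lit 0x417203040))) (.nd (nat_lit 17567854720) (.lf (nat_lit 0x417203080)) (.lf (nat_lit 0x417203081))))))) (.nd (nat_lit 17568116865) (.nd (nat_lit 17567862913) (.nd (nat_lit 17567858880)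 (.nd (nat_lit 17567858816) (.nd (nat_lit 17567858752) (.lf (nat_lit 0x417204040)) (.lf (nat_lit 0x417204080))) (.nd (nat_lit 17567858817) (.lf (nat_lit 0x417204081)) (.lf (nat_lit 0x4172040c0)))) (.nd (nat_lit 17567862848) (.nd (nat_lit 17567858881) (.lf (nat_lit 0x4172040c1)) (.lf (nat_lit 0x417205040))) (.nd (nat_lit 17567862912) (.lf (nat_lit 0x417205080)) (.lf (nat_lit 0x417205081))))) (.nd (nat_lit 17567871040) (.nd (nat_lit 17567866944) (.nd (nat_lit 17567862976) (.lf (nat_lit 0x4172050c0)) (.lf (nat_lit 0x417206040))) (.nd (nat_lit 17567867008) (.lf (nat_lit 0x417206080)) (.lf (nat_lit 0x417207040)))) (.nd (nat_lit 17568116800) (.nd (nat_lit 17568112704) (.lf (nat_lit 0x417242040)) (.lf (nat_lit 0x417243040))) (.nd (nat_lit 17568116864) (.lf (nat_lit 0x417243080)) (.lf (nat_lit 0x417243081)))))) (.nd (nat_lit 17568374848) (.nd (nat_lit 17568121024) (.nd (nat_lit 17568120960) (.nd (nat_lit 17568120896) (.lf (nat_lit 0x417244040))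 (.lf (nat_lit 0x417244080))) (.nd (nat_lit 17568120961) (.lf (nat_lit 0x417244081)) (.lf (nat_lit 0x4172440c0)))) (.nd (nat_lit 17568125056) (.nd (nat_lit 17568124992) (.lf (nat_lit 0x417245040)) (.lf (nat_lit 0x417245080))) (.nd (nat_lit 17568129088) (.lf (nat_lit 0x417246040)) (.lf (nat_lit 0x417282040))))) (.nd (nat_lit 17568383040) (.nd (nat_lit 17568379008) (.nd (nat_lit 17568378944) (.lf (nat_lit 0x417283040)) (.lf (nat_lit 0x417283080))) (.nd (nat_lit 17568379009) (.lf (nat_lit 0x417283081)) (.lf (nat_lit 0x417284040)))) (.nd (nat_lit 17568387136) (.nd (nat_lit 17568383104) (.lf (nat_lit 0x417284080)) (.lf (nat_lit 0x417285040))) (.nd (nat_lit 17568636992) (.lf (nat_lit 0x4172c2040)) (.lf (nat_lit 0x4172c3040))))))))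
noncomputable def jt5_12 : BT := (.nd (nat_lit 17584115904) (.nd (nat_lit 17583849600) (.nd (nat_lit 17583583296) (.nd (nat_lit 17568903232) (.nd (nat_lit 17568645184) (.nd (nat_lit 17568641152) (.lf (nat_lit 0x4172c3080)) (.lf (nat_lit 0x4172c4040))) (.nd (nat_lit 17568899136) (.lf (nat_lit 0x417302040)) (.lf (nat_lit 0x417303040)))) (.nd (nat_lit 17583317056) (.nd (nat_lit 17569161280) (.lf (nat_lit 0x417342040)) (.lf (nat_lit 0x4180c2040))) (.nd (nat_lit 17583579200) (.lf (nat_lit 0x418102040)) (.lf (nat_lit 0x418103040))))) (.nd (nat_lit 17583845440) (.nd (nat_lit 17583583361) (.nd (nat_lit 17583583360) (.lf (nat_lit 0x418103080)) (.lf (nat_lit 0x418103081))) (.nd (nat_lit 17583841344) (.lf (nat_lit 0x418142040)) (.lf (nat_lit 0x418143040)))) (.nd (nat_lit 17583845505) (.nd (nat_lit 17583845504) (.lf (nat_lit 0x418143080)) (.lf (nat_lit 0x418143081))) (.nd (nat_lit 17583849536) (.lf (nat_lit 0x418144040)) (.lf (nat_lit 0x418144080))))))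 (.nd (nat_lit 17584111680) (.nd (nat_lit 17584103488) (.nd (nat_lit 17583849664) (.nd (nat_lit 17583849601) (.lf (nat_lit 0x418144081)) (.lf (nat_lit 0x4181440c0))) (.nd (nat_lit 17583849665) (.lf (nat_lit 0x4181440c1)) (.lf (nat_lit 0x418182040)))) (.nd (nat_lit 17584107648) (.nd (nat_lit 17584107584) (.lf (nat_lit 0x418183040)) (.lf (nat_lit 0x418183080))) (.nd (nat_lit 17584107649) (.lf (nat_lit 0x418183081)) (.lf (nat_lit 0x418184040))))) (.nd (nat_lit 17584111809) (.nd (nat_lit 17584111745) (.nd (nat_lit 17584111744) (.lf (nat_lit 0x418184080)) (.lf (nat_lit 0x418184081))) (.nd (nat_lit 17584111808) (.lf (nat_lit 0x4181840c0)) (.lf (nat_lit 0x4181840c1)))) (.nd (nat_lit 17584115840) (.nd (nat_lit 17584115776) (.lf (nat_lit 0x418185040)) (.lf (nat_lit 0x418185080))) (.nd (nat_lit 17584115841) (.lf (nat_lit 0x418185081)) (.lf (nat_lit 0x4181850c0))))))) (.nd (nat_lit 17584635968) (.nd (nat_lit 17584373952) (.nd (nat_lit 17584369793)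 (.nd (nat_lit 17584369728) (.nd (nat_lit 17584365632) (.lf (nat_lit 0x4181c2040)) (.lf (nat_lit 0x4181c3040))) (.nd (nat_lit 17584369792) (.lf (nat_lit 0x4181c3080)) (.lf (nat_lit 0x4181c3081)))) (.nd (nat_lit 17584373888) (.nd (nat_lit 17584373824) (.lf (nat_lit 0x4181c4040)) (.lf (nat_lit 0x4181c4080))) (.nd (nat_lit 17584373889) (.lf (nat_lit 0x4181c4081)) (.lf (nat_lit 0x4181c40c0))))) (.nd (nat_lit 17584627776) (.nd (nat_lit 17584377984) (.nd (nat_lit 17584377920) (.lf (nat_lit 0x4181c5040)) (.lf (nat_lit 0x4181c5080))) (.nd (nat_lit 17584382016) (.lf (nat_lit 0x4181c6040)) (.lf (nat_lit 0x418202040)))) (.nd (nat_lit 17584631936) (.nd (nat_lit 17584631872) (.lf (nat_lit 0x418203040)) (.lf (nat_lit 0x418203080))) (.nd (nat_lit 17584631937) (.lf (nat_lit 0x418203081)) (.lf (nat_lit 0x418204040)))))) (.nd (nat_lit 17585156160) (.nd (nat_lit 17584894016) (.nd (nat_lit 17584640064) (.nd (nat_lit 17584636032) (.lf (nat_lit 0x418204080))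 (.lf (nat_lit 0x418205040))) (.nd (nat_lit 17584889920) (.lf (nat_lit 0x418242040)) (.lf (nat_lit 0x418243040)))) (.nd (nat_lit 17584898112) (.nd (nat_lit 17584894080) (.lf (nat_lit 0x418243080)) (.lf (nat_lit 0x418244040))) (.nd (nat_lit 17585152064) (.lf (nat_lit 0x418282040)) (.lf (nat_lit 0x418283040))))) (.nd (nat_lit 17600360512) (.nd (nat_lit 17600094272) (.nd (nat_lit 17585414208) (.lf (nat_lit 0x4182c2040)) (.lf (nat_lit 0x4190c2040))) (.nd (nat_lit 17600356416) (.lf (nat_lit 0x419102040)) (.lf (nat_lit 0x419103040)))) (.nd (nat_lit 17600360577) (.nd (nat_lit 17600360576) (.lf (nat_lit 0x419103080)) (.lf (nat_lit 0x419103081))) (.nd (nat_lit 17600618560) (.lf (nat_lit 0x419142040)) (.lf (nat_lit 0x419143040))))))))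
noncomputable def jt5_13 : BT := (.nd (nat_lit 17601404992) (.nd (nat_lit 17600884864) (.nd (nat_lit 17600626816) (.nd (nat_lit 17600622721) (.nd (nat_lit 17600622720) (.lf (nat_lit 0x419143080)) (.lf (nat_lit 0x419143081))) (.nd (nat_lit 17600626752) (.lf (nat_lit 0x419144040)) (.lf (nat_lit 0x419144080)))) (.nd (nat_lit 17600626880) (.nd (nat_lit 17600626817) (.lf (nat_lit 0x419144081)) (.lf (nat_lit 0x4191440c0))) (.nd (nat_lit 17600880704) (.lf (nat_lit 0x419182040)) (.nd (nat_lit 17600884800) (.lf (nat_lit 0x419183040)) (.lf (nat_lit 0x419183080)))))) (.nd (nat_lit 17600892992) (.nd (nat_lit 17600888896) (.nd (nat_lit 17600884865) (.lf (nat_lit 0x419183081)) (.lf (nat_lit 0x419184040))) (.nd (nat_lit 17600888960) (.lf (nat_lit 0x419184080)) (.lf (nat_lit 0x419185040)))) (.nd (nat_lit 17601146944) (.nd (nat_lit 17601142848) (.lf (nat_lit 0x4191c2040)) (.lf (nat_lit 0x4191c3040))) (.nd (nat_lit 17601147008) (.lf (nat_lit 0x4191c3080))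 (.nd (nat_lit 17601151040) (.lf (nat_lit 0x4191c4040)) (.lf (nat_lit 0x419202040))))))) (.nd (nat_lit 17617399872) (.nd (nat_lit 17617133632) (.nd (nat_lit 17601667136) (.nd (nat_lit 17601409088) (.lf (nat_lit 0x419203040)) (.lf (nat_lit 0x419242040))) (.nd (nat_lit 17616871488) (.lf (nat_lit 0x41a0c2040)) (.lf (nat_lit 0x41a102040)))) (.nd (nat_lit 17617137792) (.nd (nat_lit 17617137728) (.lf (nat_lit 0x41a103040)) (.lf (nat_lit 0x41a103080))) (.nd (nat_lit 17617137793) (.lf (nat_lit 0x41a103081)) (.nd (nat_lit 17617395776) (.lf (nat_lit 0x41a142040)) (.lf (nat_lit 0x41a143040)))))) (.nd (nat_lit 17617920064) (.nd (nat_lit 17617403968) (.nd (nat_lit 17617399936) (.lf (nat_lit 0x41a143080)) (.lf (nat_lit 0x41a144040))) (.nd (nat_lit 17617657920) (.lf (nat_lit 0x41a182040)) (.nd (nat_lit 17617662016) (.lf (nat_lit 0x41a183040)) (.lf (nat_lit 0x41a1c2040))))) (.nd (nat_lit 17633910848) (.nd (nat_lit 17633648704) (.lf (nat_lit 0x41b0c2040))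 (.lf (nat_lit 0x41b102040))) (.nd (nat_lit 17633914944) (.lf (nat_lit 0x41b103040)) (.nd (nat_lit 17634172992) (.lf (nat_lit 0x41b142040)) (.lf (nat_lit 0x41c0c2040))))))))
noncomputable def jt5 : BT := (.nd (nat_lit 17533247552) (.nd (nat_lit 17499959360) (.nd (nat_lit 17469284416) jt5_0 (.nd (nat_lit 17485811776) jt5_1 jt5_2)) (.nd (nat_lit 17516732480) (.nd (nat_lit 17502335104) jt5_3 jt5_4) (.nd (nat_lit 17518592064) jt5_5 jt5_6))) (.nd (nat_lit 17551351937) (.nd (nat_lit 17534844992) jt5_7 (.nd (nat_lit 17550028864) jt5_8 jt5_9)) (.nd (nat_lit 17568641088) (.nd (nat_lit 17567334464) jt5_10 jt5_11) (.nd (nat_lit 17600622656) jt5_12 jt5_13))))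
def jg5 : Cfg := ⟨72, 63, 20, 8, 32⟩
noncomputable def jX5 : F3 := XRc 8 99 99 99 0
noncomputable def jt6_0 : BT := (.nd (nat_lit 19650584640) (.nd (nat_lit 19633807424) (.nd (nat_lit 19613626432) (.nd (nat_lit 19596582976) (.nd (nat_lit 19579805760) (.nd (nat_lit 19563028544) (.lf (nat_lit 0x48e0c2040)) (.lf (nat_lit 0x48f0c2040))) (.nd (nat_lit 19580067904) (.lf (nat_lit 0x48f102040)) (.lf (nat_lit 0x4900c2040)))) (.nd (nat_lit 19613360192) (.nd (nat_lit 19596845120) (.lf (nat_lit 0x490102040)) (.lf (nat_lit 0x4910c2040))) (.nd (nat_lit 19613622336) (.lf (nat_lit 0x491102040)) (.lf (nat_lit 0x491103040))))) (.nd (nat_lit 19630403648) (.nd (nat_lit 19630137408) (.nd (nat_lit 19613884480) (.lf (nat_lit 0x491142040)) (.lf (nat_lit 0x4920c2040))) (.nd (nat_lit 19630399552) (.lf (nat_lit 0x492102040)) (.lf (nat_lit 0x492103040)))) (.nd (nat_lit 19633332288) (.nd (nat_lit 19630661696) (.lf (nat_lit 0x492142040)) (.lf (nat_lit 0x4923ce040)))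 (.nd (nat_lit 19633590336) (.lf (nat_lit 0x49240d040)) (.lf (nat_lit 0x492442040)))))) (.nd (nat_lit 19647438912) (.nd (nat_lit 19633856576) (.nd (nat_lit 19633848384) (.nd (nat_lit 19633844288) (.lf (nat_lit 0x49244b040)) (.lf (nat_lit 0x49244c040))) (.nd (nat_lit 19633852480) (.lf (nat_lit 0x49244d040)) (.lf (nat_lit 0x49244e040)))) (.nd (nat_lit 19647176768) (.nd (nat_lit 19646914624) (.lf (nat_lit 0x4930c2040)) (.lf (nat_lit 0x493102040))) (.nd (nat_lit 19647180864) (.lf (nat_lit 0x493103040)) (.lf (nat_lit 0x493142040))))) (.nd (nat_lit 19650109504) (.nd (nat_lit 19650101312) (.nd (nat_lit 19647701056) (.lf (nat_lit 0x493182040)) (.lf (nat_lit 0x4933cc040))) (.nd (nat_lit 19650105408) (.lf (nat_lit 0x4933cd040)) (.lf (nat_lit 0x4933ce040)))) (.nd (nat_lit 19650359360) (.nd (nat_lit 19650322496) (.lf (nat_lit 0x493402040)) (.lf (nat_lit 0x49340b040))) (.nd (nat_lit 19650363456) (.lf (nat_lit 0x49340c040)) (.lf (nat_lit 0x493442040)))))))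 (.nd (nat_lit 19664220224) (.nd (nat_lit 19650871360) (.nd (nat_lit 19650846784) (.nd (nat_lit 19650621504) (.nd (nat_lit 19650617408) (.lf (nat_lit 0x49344a040)) (.lf (nat_lit 0x49344b040))) (.nd (nat_lit 19650625600) (.lf (nat_lit 0x49344c040)) (.lf (nat_lit 0x493482040)))) (.nd (nat_lit 19650854976) (.nd (nat_lit 19650850880) (.lf (nat_lit 0x493483040)) (.lf (nat_lit 0x493484040))) (.nd (nat_lit 19650867264) (.lf (nat_lit 0x493487040)) (.lf (nat_lit 0x493488040))))) (.nd (nat_lit 19663953984) (.nd (nat_lit 19650879552) (.nd (nat_lit 19650875456) (.lf (nat_lit 0x493489040)) (.lf (nat_lit 0x49348a040))) (.nd (nat_lit 19663691840) (.lf (nat_lit 0x4940c2040)) (.lf (nat_lit 0x494102040)))) (.nd (nat_lit 19663958144) (.nd (nat_lit 19663958080) (.lf (nat_lit 0x494103040)) (.lf (nat_lit 0x494103080))) (.nd (nat_lit 19664216128) (.lf (nat_lit 0x494142040)) (.lf (nat_lit 0x494143040)))))) (.nd (nat_lit 19666878528) (.nd (nat_lit 19666616384)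 (.nd (nat_lit 19664740416) (.nd (nat_lit 19664478272) (.lf (nat_lit 0x494182040)) (.lf (nat_lit 0x4941c2040))) (.nd (nat_lit 19666575424) (.lf (nat_lit 0x494382040)) (.lf (nat_lit 0x49438c040)))) (.nd (nat_lit 19666837568) (.nd (nat_lit 19666620480) (.lf (nat_lit 0x49438d040)) (.lf (nat_lit 0x4943c2040))) (.nd (nat_lit 19666874432) (.lf (nat_lit 0x4943cb040)) (.lf (nat_lit 0x4943cc040))))) (.nd (nat_lit 19667132480) (.nd (nat_lit 19667103808) (.nd (nat_lit 19667099712) (.lf (nat_lit 0x494402040)) (.lf (nat_lit 0x494403040))) (.nd (nat_lit 19667128384) (.lf (nat_lit 0x494409040)) (.lf (nat_lit 0x49440a040)))) (.nd (nat_lit 19667361856) (.nd (nat_lit 19667136576) (.lf (nat_lit 0x49440b040)) (.lf (nat_lit 0x494442040))) (.nd (nat_lit 19667365952) (.lf (nat_lit 0x494443040)) (.lf (nat_lit 0x494444040))))))))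
noncomputable def jt6_1 : BT := (.nd (nat_lit 19667906688) (.nd (nat_lit 19667648576) (.nd (nat_lit 19667628160) (.nd (nat_lit 19667390528) (.nd (nat_lit 19667382336) (.nd (nat_lit 19667378240) (.lf (nat_lit 0x494446040)) (.lf (nat_lit 0x494447040))) (.nd (nat_lit 19667386432) (.lf (nat_lit 0x494448040)) (.lf (nat_lit 0x494449040)))) (.nd (nat_lit 19667624000) (.nd (nat_lit 19667394624) (.lf (nat_lit 0x49444a040)) (.lf (nat_lit 0x494482040))) (.nd (nat_lit 19667628096) (.lf (nat_lit 0x494483040)) (.lf (nat_lit 0x494483080))))) (.nd (nat_lit 19667636352) (.nd (nat_lit 19667632256) (.nd (nat_lit 19667632192) (.lf (nat_lit 0x494484040)) (.lf (nat_lit 0x494484080))) (.nd (nat_lit 19667636288) (.lf (nat_lit 0x494485040)) (.lf (nat_lit 0x494485080)))) (.nd (nat_lit 19667640448) (.nd (nat_lit 19667640384) (.lf (nat_lit 0x494486040)) (.lf (nat_lit 0x494486080))) (.nd (nat_lit 19667644480) (.lf (nat_lit 0x494487040)) (.lf (nat_lit 0x494488040))))))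 (.nd (nat_lit 19667894465) (.nd (nat_lit 19667890304) (.nd (nat_lit 19667886144) (.nd (nat_lit 19667652672) (.lf (nat_lit 0x494489040)) (.lf (nat_lit 0x4944c2040))) (.nd (nat_lit 19667890240) (.lf (nat_lit 0x4944c3040)) (.lf (nat_lit 0x4944c3080)))) (.nd (nat_lit 19667894400) (.nd (nat_lit 19667894336) (.lf (nat_lit 0x4944c4040)) (.lf (nat_lit 0x4944c4080))) (.nd (nat_lit 19667894464) (.lf (nat_lit 0x4944c40c0)) (.lf (nat_lit 0x4944c40c1))))) (.nd (nat_lit 19667902528) (.nd (nat_lit 19667898496) (.nd (nat_lit 19667898432) (.lf (nat_lit 0x4944c5040)) (.lf (nat_lit 0x4944c5080))) (.nd (nat_lit 19667898497) (.lf (nat_lit 0x4944c5081)) (.lf (nat_lit 0x4944c6040)))) (.nd (nat_lit 19667902593) (.nd (nat_lit 19667902592) (.lf (nat_lit 0x4944c6080)) (.lf (nat_lit 0x4944c6081))) (.nd (nat_lit 19667906624) (.lf (nat_lit 0x4944c7040)) (.lf (nat_lit 0x4944c7080))))))) (.nd (nat_lit 19683090496) (.nd (nat_lit 19681255488) (.nd (nat_lit 19680735296)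 (.nd (nat_lit 19680469056) (.nd (nat_lit 19667910720) (.lf (nat_lit 0x4944c8040)) (.lf (nat_lit 0x4950c2040))) (.nd (nat_lit 19680731200) (.lf (nat_lit 0x495102040)) (.lf (nat_lit 0x495103040)))) (.nd (nat_lit 19680993344) (.nd (nat_lit 19680735360) (.lf (nat_lit 0x495103080)) (.lf (nat_lit 0x495142040))) (.nd (nat_lit 19680997440) (.lf (nat_lit 0x495143040)) (.lf (nat_lit 0x495182040))))) (.nd (nat_lit 19682041920) (.nd (nat_lit 19681517632) (.nd (nat_lit 19681259584) (.lf (nat_lit 0x495183040)) (.lf (nat_lit 0x4951c2040))) (.nd (nat_lit 19681779776) (.lf (nat_lit 0x495202040)) (.lf (nat_lit 0x495242040)))) (.nd (nat_lit 19682566208) (.nd (nat_lit 19682304064) (.lf (nat_lit 0x495282040)) (.lf (nat_lit 0x4952c2040))) (.nd (nat_lit 19682828352) (.lf (nat_lit 0x495302040)) (.lf (nat_lit 0x495342040)))))) (.nd (nat_lit 19683639360) (.nd (nat_lit 19683385408) (.nd (nat_lit 19683131456) (.nd (nat_lit 19683127360) (.lf (nat_lit 0x49534b040))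 (.lf (nat_lit 0x49534c040))) (.nd (nat_lit 19683352640) (.lf (nat_lit 0x495382040)) (.lf (nat_lit 0x49538a040)))) (.nd (nat_lit 19683614784) (.nd (nat_lit 19683389504) (.lf (nat_lit 0x49538b040)) (.lf (nat_lit 0x4953c2040))) (.nd (nat_lit 19683618880) (.lf (nat_lit 0x4953c3040)) (.lf (nat_lit 0x4953c8040))))) (.nd (nat_lit 19683881024) (.nd (nat_lit 19683647552) (.nd (nat_lit 19683643456) (.lf (nat_lit 0x4953c9040)) (.lf (nat_lit 0x4953ca040))) (.nd (nat_lit 19683876928) (.lf (nat_lit 0x495402040)) (.lf (nat_lit 0x495403040)))) (.nd (nat_lit 19683889216) (.nd (nat_lit 19683885120) (.lf (nat_lit 0x495404040)) (.lf (nat_lit 0x495405040))) (.nd (nat_lit 19683893312) (.lf (nat_lit 0x495406040)) (.lf (nat_lit 0x495407040))))))))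
noncomputable def jt6_2 : BT := (.nd (nat_lit 19684667520) (.nd (nat_lit 19684163648) (.nd (nat_lit 19684147328) (.nd (nat_lit 19684139072) (.nd (nat_lit 19683901504) (.nd (nat_lit 19683897472) (.lf (nat_lit 0x495407080)) (.lf (nat_lit 0x495408040))) (.nd (nat_lit 19683905600) (.lf (nat_lit 0x495409040)) (.lf (nat_lit 0x495442040)))) (.nd (nat_lit 19684143232) (.nd (nat_lit 19684143168) (.lf (nat_lit 0x495443040)) (.lf (nat_lit 0x495443080))) (.nd (nat_lit 19684147264) (.lf (nat_lit 0x495444040)) (.lf (nat_lit 0x495444080))))) (.nd (nat_lit 19684155456) (.nd (nat_lit 19684151360) (.nd (nat_lit 19684147392) (.lf (nat_lit 0x4954440c0)) (.lf (nat_lit 0x495445040))) (.nd (nat_lit 19684151424) (.lf (nat_lit 0x495445080)) (.lf (nat_lit 0x495446040)))) (.nd (nat_lit 19684155521) (.nd (nat_lit 19684155520) (.lf (nat_lit 0x495446080)) (.lf (nat_lit 0x495446081))) (.nd (nat_lit 19684159552) (.lf (nat_lit 0x495447040)) (.lf (nat_lit 0x495448040))))))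 (.nd (nat_lit 19684413504) (.nd (nat_lit 19684409408) (.nd (nat_lit 19684405312) (.nd (nat_lit 19684401216) (.lf (nat_lit 0x495482040)) (.lf (nat_lit 0x495483040))) (.nd (nat_lit 19684405376) (.lf (nat_lit 0x495483080)) (.lf (nat_lit 0x495484040)))) (.nd (nat_lit 19684409473) (.nd (nat_lit 19684409472) (.lf (nat_lit 0x495484080)) (.lf (nat_lit 0x495484081))) (.nd (nat_lit 19684409536) (.lf (nat_lit 0x4954840c0)) (.lf (nat_lit 0x495485040))))) (.nd (nat_lit 19684417664) (.nd (nat_lit 19684413569) (.nd (nat_lit 19684413568) (.lf (nat_lit 0x495485080)) (.lf (nat_lit 0x495485081))) (.nd (nat_lit 19684417600) (.lf (nat_lit 0x495486040)) (.lf (nat_lit 0x495486080)))) (.nd (nat_lit 19684663360) (.nd (nat_lit 19684421696) (.lf (nat_lit 0x495487040)) (.lf (nat_lit 0x4954c2040))) (.nd (nat_lit 19684667456) (.lf (nat_lit 0x4954c3040)) (.lf (nat_lit 0x4954c3080))))))) (.nd (nat_lit 19697246272) (.nd (nat_lit 19684679744) (.nd (nat_lit 19684671617)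 (.nd (nat_lit 19684671552) (.nd (nat_lit 19684667521) (.lf (nat_lit 0x4954c3081)) (.lf (nat_lit 0x4954c4040))) (.nd (nat_lit 19684671616) (.lf (nat_lit 0x4954c4080)) (.lf (nat_lit 0x4954c4081)))) (.nd (nat_lit 19684675648) (.nd (nat_lit 19684671680) (.lf (nat_lit 0x4954c40c0)) (.lf (nat_lit 0x4954c5040))) (.nd (nat_lit 19684675712) (.lf (nat_lit 0x4954c5080)) (.lf (nat_lit 0x4954c6040))))) (.nd (nat_lit 19684929665) (.nd (nat_lit 19684929600) (.nd (nat_lit 19684925504) (.lf (nat_lit 0x495502040)) (.lf (nat_lit 0x495503040))) (.nd (nat_lit 19684929664) (.lf (nat_lit 0x495503080)) (.lf (nat_lit 0x495503081)))) (.nd (nat_lit 19684933760) (.nd (nat_lit 19684933696) (.lf (nat_lit 0x495504040)) (.lf (nat_lit 0x495504080))) (.nd (nat_lit 19684937792) (.lf (nat_lit 0x495505040)) (.lf (nat_lit 0x4960c2040)))))) (.nd (nat_lit 19698032704) (.nd (nat_lit 19697770560) (.nd (nat_lit 19697512512) (.nd (nat_lit 19697508416) (.lf (nat_lit 0x496102040))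 (.lf (nat_lit 0x496103040))) (.nd (nat_lit 19697512576) (.lf (nat_lit 0x496103080)) (.lf (nat_lit 0x496142040)))) (.nd (nat_lit 19697774720) (.nd (nat_lit 19697774656) (.lf (nat_lit 0x496143040)) (.lf (nat_lit 0x496143080))) (.nd (nat_lit 19697778752) (.lf (nat_lit 0x496144040)) (.lf (nat_lit 0x496182040))))) (.nd (nat_lit 19698556992) (.nd (nat_lit 19698294848) (.nd (nat_lit 19698036800) (.lf (nat_lit 0x496183040)) (.lf (nat_lit 0x4961c2040))) (.nd (nat_lit 19698298944) (.lf (nat_lit 0x4961c3040)) (.lf (nat_lit 0x496202040)))) (.nd (nat_lit 19699081280) (.nd (nat_lit 19698819136) (.lf (nat_lit 0x496242040)) (.lf (nat_lit 0x496282040))) (.nd (nat_lit 19699343424) (.lf (nat_lit 0x4962c2040)) (.lf (nat_lit 0x496302040))))))))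
noncomputable def jt6_3 : BT := (.nd (nat_lit 19700666560) (.nd (nat_lit 19700400192) (.nd (nat_lit 19700133952) (.nd (nat_lit 19699871808) (.nd (nat_lit 19699642432) (.nd (nat_lit 19699638336) (.lf (nat_lit 0x49630a040)) (.lf (nat_lit 0x49630b040))) (.nd (nat_lit 19699867712) (.lf (nat_lit 0x496342040)) (.lf (nat_lit 0x496343040)))) (.nd (nat_lit 19699900480) (.nd (nat_lit 19699896384) (.lf (nat_lit 0x496349040)) (.lf (nat_lit 0x49634a040))) (.nd (nat_lit 19700129856) (.lf (nat_lit 0x496382040)) (.lf (nat_lit 0x496383040))))) (.nd (nat_lit 19700158528) (.nd (nat_lit 19700150336) (.nd (nat_lit 19700138048) (.lf (nat_lit 0x496384040)) (.lf (nat_lit 0x496387040))) (.nd (nat_lit 19700154432) (.lf (nat_lit 0x496388040)) (.lf (nat_lit 0x496389040)))) (.nd (nat_lit 19700396096) (.nd (nat_lit 19700392000) (.lf (nat_lit 0x4963c2040)) (.lf (nat_lit 0x4963c3040))) (.nd (nat_lit 19700396160) (.lf (nat_lit 0x4963c3080)) (.lf (nat_lit 0x4963c4040))))))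 (.nd (nat_lit 19700658240) (.nd (nat_lit 19700412480) (.nd (nat_lit 19700408384) (.nd (nat_lit 19700404288) (.lf (nat_lit 0x4963c5040)) (.lf (nat_lit 0x4963c6040))) (.nd (nat_lit 19700408448) (.lf (nat_lit 0x4963c6080)) (.lf (nat_lit 0x4963c7040)))) (.nd (nat_lit 19700416576) (.nd (nat_lit 19700412544) (.lf (nat_lit 0x4963c7080)) (.lf (nat_lit 0x4963c8040))) (.nd (nat_lit 19700654144) (.lf (nat_lit 0x496402040)) (.lf (nat_lit 0x496403040))))) (.nd (nat_lit 19700662464) (.nd (nat_lit 19700662336) (.nd (nat_lit 19700658304) (.lf (nat_lit 0x496403080)) (.lf (nat_lit 0x496404040))) (.nd (nat_lit 19700662400) (.lf (nat_lit 0x496404080)) (.lf (nat_lit 0x4964040c0)))) (.nd (nat_lit 19700666496) (.nd (nat_lit 19700666432) (.lf (nat_lit 0x496405040)) (.lf (nat_lit 0x496405080))) (.nd (nat_lit 19700666497) (.lf (nat_lit 0x496405081)) (.lf (nat_lit 0x4964050c0))))))) (.nd (nat_lit 19701182528) (.nd (nat_lit 19700924480) (.nd (nat_lit 19700916288)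 (.nd (nat_lit 19700670592) (.nd (nat_lit 19700670528) (.lf (nat_lit 0x496406040)) (.lf (nat_lit 0x496406080))) (.nd (nat_lit 19700674624) (.lf (nat_lit 0x496407040)) (.lf (nat_lit 0x496442040)))) (.nd (nat_lit 19700920448) (.nd (nat_lit 19700920384) (.lf (nat_lit 0x496443040)) (.lf (nat_lit 0x496443080))) (.nd (nat_lit 19700920449) (.lf (nat_lit 0x496443081)) (.lf (nat_lit 0x496444040))))) (.nd (nat_lit 19700928576) (.nd (nat_lit 19700924545) (.nd (nat_lit 19700924544) (.lf (nat_lit 0x496444080)) (.lf (nat_lit 0x496444081))) (.nd (nat_lit 19700924608) (.lf (nat_lit 0x4964440c0)) (.lf (nat_lit 0x496445040)))) (.nd (nat_lit 19700932672) (.nd (nat_lit 19700928640) (.lf (nat_lit 0x496445080)) (.lf (nat_lit 0x496446040))) (.nd (nat_lit 19701178432) (.lf (nat_lit 0x496482040)) (.lf (nat_lit 0x496483040)))))) (.nd (nat_lit 19701444736) (.nd (nat_lit 19701186688) (.nd (nat_lit 19701182593) (.nd (nat_lit 19701182592) (.lf (nat_lit 0x496483080))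 (.lf (nat_lit 0x496483081))) (.nd (nat_lit 19701186624) (.lf (nat_lit 0x496484040)) (.lf (nat_lit 0x496484080)))) (.nd (nat_lit 19701440576) (.nd (nat_lit 19701190720) (.lf (nat_lit 0x496485040)) (.lf (nat_lit 0x4964c2040))) (.nd (nat_lit 19701444672) (.lf (nat_lit 0x4964c3040)) (.lf (nat_lit 0x4964c3080))))) (.nd (nat_lit 19701964864) (.nd (nat_lit 19701702720) (.nd (nat_lit 19701448768) (.lf (nat_lit 0x4964c4040)) (.lf (nat_lit 0x496502040))) (.nd (nat_lit 19701706816) (.lf (nat_lit 0x496503040)) (.lf (nat_lit 0x496542040)))) (.nd (nat_lit 19714285632) (.nd (nat_lit 19714023488) (.lf (nat_lit 0x4970c2040)) (.lf (nat_lit 0x497102040))) (.nd (nat_lit 19714289728) (.lf (nat_lit 0x497103040)) (.lf (nat_lit 0x497103080))))))))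
noncomputable def jt6_4 : BT := (.nd (nat_lit 19716653120) (.nd (nat_lit 19715862592) (.nd (nat_lit 19715072064) (.nd (nat_lit 19714555968) (.nd (nat_lit 19714551872) (.nd (nat_lit 19714547776) (.lf (nat_lit 0x497142040)) (.lf (nat_lit 0x497143040))) (.nd (nat_lit 19714551936) (.lf (nat_lit 0x497143080)) (.lf (nat_lit 0x497144040)))) (.nd (nat_lit 19714814016) (.nd (nat_lit 19714809920) (.lf (nat_lit 0x497182040)) (.lf (nat_lit 0x497183040))) (.nd (nat_lit 19714818112) (.lf (nat_lit 0x497184040)) (.lf (nat_lit 0x4971c2040))))) (.nd (nat_lit 19715338304) (.nd (nat_lit 19715080256) (.nd (nat_lit 19715076160) (.lf (nat_lit 0x4971c3040)) (.lf (nat_lit 0x4971c4040))) (.nd (nat_lit 19715334208) (.lf (nat_lit 0x497202040)) (.lf (nat_lit 0x497203040)))) (.nd (nat_lit 19715600448) (.nd (nat_lit 19715596352) (.lf (nat_lit 0x497242040)) (.lf (nat_lit 0x497243040))) (.nd (nat_lit 19715858496) (.lf (nat_lit 0x497282040)) (.lf (nat_lit 0x497283040))))))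 (.nd (nat_lit 19716390976) (.nd (nat_lit 19716149376) (.nd (nat_lit 19716124736) (.nd (nat_lit 19716120640) (.lf (nat_lit 0x4972c2040)) (.lf (nat_lit 0x4972c3040))) (.nd (nat_lit 19716149312) (.lf (nat_lit 0x4972c9040)) (.lf (nat_lit 0x4972c9080)))) (.nd (nat_lit 19716382784) (.nd (nat_lit 19716153408) (.lf (nat_lit 0x4972ca040)) (.lf (nat_lit 0x497302040))) (.nd (nat_lit 19716386880) (.lf (nat_lit 0x497303040)) (.lf (nat_lit 0x497304040))))) (.nd (nat_lit 19716411456) (.nd (nat_lit 19716407360) (.nd (nat_lit 19716403264) (.lf (nat_lit 0x497307040)) (.lf (nat_lit 0x497308040))) (.nd (nat_lit 19716407424) (.lf (nat_lit 0x497308080)) (.lf (nat_lit 0x497309040)))) (.nd (nat_lit 19716649024) (.nd (nat_lit 19716644928) (.lf (nat_lit 0x497342040)) (.lf (nat_lit 0x497343040))) (.nd (nat_lit 19716649088) (.lf (nat_lit 0x497343080)) (.lf (nat_lit 0x497344040))))))) (.nd (nat_lit 19716923456) (.nd (nat_lit 19716911168) (.nd (nat_lit 19716665408)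 (.nd (nat_lit 19716661312) (.nd (nat_lit 19716657216) (.lf (nat_lit 0x497345040)) (.lf (nat_lit 0x497346040))) (.nd (nat_lit 19716661376) (.lf (nat_lit 0x497346080)) (.lf (nat_lit 0x497347040)))) (.nd (nat_lit 19716669504) (.nd (nat_lit 19716665472) (.lf (nat_lit 0x497347080)) (.lf (nat_lit 0x497348040))) (.nd (nat_lit 19716907072) (.lf (nat_lit 0x497382040)) (.lf (nat_lit 0x497383040))))) (.nd (nat_lit 19716915392) (.nd (nat_lit 19716915264) (.nd (nat_lit 19716911232) (.lf (nat_lit 0x497383080)) (.lf (nat_lit 0x497384040))) (.nd (nat_lit 19716915328) (.lf (nat_lit 0x497384080)) (.lf (nat_lit 0x4973840c0)))) (.nd (nat_lit 19716919424) (.nd (nat_lit 19716919360) (.lf (nat_lit 0x497385040)) (.lf (nat_lit 0x497385080))) (.nd (nat_lit 19716919488) (.lf (nat_lit 0x4973850c0)) (.lf (nat_lit 0x497386040)))))) (.nd (nat_lit 19717177472) (.nd (nat_lit 19717173312) (.nd (nat_lit 19716927552) (.nd (nat_lit 19716923520) (.lf (nat_lit 0x497386080))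 (.lf (nat_lit 0x497387040))) (.nd (nat_lit 19717169216) (.lf (nat_lit 0x4973c2040)) (.lf (nat_lit 0x4973c3040)))) (.nd (nat_lit 19717173377) (.nd (nat_lit 19717173376) (.lf (nat_lit 0x4973c3080)) (.lf (nat_lit 0x4973c3081))) (.nd (nat_lit 19717177408) (.lf (nat_lit 0x4973c4040)) (.lf (nat_lit 0x4973c4080))))) (.nd (nat_lit 19717181568) (.nd (nat_lit 19717177536) (.nd (nat_lit 19717177473) (.lf (nat_lit 0x4973c4081)) (.lf (nat_lit 0x4973c40c0))) (.nd (nat_lit 19717181504) (.lf (nat_lit 0x4973c5040)) (.lf (nat_lit 0x4973c5080)))) (.nd (nat_lit 19717431360) (.nd (nat_lit 19717185600) (.lf (nat_lit 0x4973c6040)) (.lf (nat_lit 0x497402040))) (.nd (nat_lit 19717435456) (.lf (nat_lit 0x497403040)) (.lf (nat_lit 0x497403080))))))))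
noncomputable def jt6_5 : BT := (.nd (nat_lit 19732111424) (.nd (nat_lit 19731067009) (.nd (nat_lit 19717701696) (.nd (nat_lit 19717443648) (.nd (nat_lit 19717439552) (.nd (nat_lit 19717435521) (.lf (nat_lit 0x497403081)) (.lf (nat_lit 0x497404040))) (.nd (nat_lit 19717439616) (.lf (nat_lit 0x497404080)) (.lf (nat_lit 0x497405040)))) (.nd (nat_lit 19717697600) (.nd (nat_lit 19717693504) (.lf (nat_lit 0x497442040)) (.lf (nat_lit 0x497443040))) (.nd (nat_lit 19717697664) (.lf (nat_lit 0x497443080)) (.lf (nat_lit 0x497444040))))) (.nd (nat_lit 19730800704) (.nd (nat_lit 19717959744) (.nd (nat_lit 19717955648) (.lf (nat_lit 0x497482040)) (.lf (nat_lit 0x497483040))) (.nd (nat_lit 19718217792) (.lf (nat_lit 0x4974c2040)) (.lf (nat_lit 0x4980c2040)))) (.nd (nat_lit 19731066944) (.nd (nat_lit 19731062848) (.lf (nat_lit 0x498102040)) (.lf (nat_lit 0x498103040))) (.nd (nat_lit 19731067008) (.lf (nat_lit 0x498103080)) (.lf (nat_lit 0x498103081))))))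 (.nd (nat_lit 19731591296) (.nd (nat_lit 19731333184) (.nd (nat_lit 19731329088) (.nd (nat_lit 19731324992) (.lf (nat_lit 0x498142040)) (.lf (nat_lit 0x498143040))) (.nd (nat_lit 19731329152) (.lf (nat_lit 0x498143080)) (.lf (nat_lit 0x498144040)))) (.nd (nat_lit 19731587136) (.nd (nat_lit 19731333248) (.lf (nat_lit 0x498144080)) (.lf (nat_lit 0x498182040))) (.nd (nat_lit 19731591232) (.lf (nat_lit 0x498183040)) (.lf (nat_lit 0x498183080))))) (.nd (nat_lit 19731853376) (.nd (nat_lit 19731599424) (.nd (nat_lit 19731595328) (.lf (nat_lit 0x498184040)) (.lf (nat_lit 0x498185040))) (.nd (nat_lit 19731849280) (.lf (nat_lit 0x4981c2040)) (.lf (nat_lit 0x4981c3040)))) (.nd (nat_lit 19731857472) (.nd (nat_lit 19731853440) (.lf (nat_lit 0x4981c3080)) (.lf (nat_lit 0x4981c4040))) (.nd (nat_lit 19731861568) (.lf (nat_lit 0x4981c5040)) (.lf (nat_lit 0x498202040))))))) (.nd (nat_lit 19732652096) (.nd (nat_lit 19732394048) (.nd (nat_lit 19732373568)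 (.nd (nat_lit 19732119616) (.nd (nat_lit 19732115520) (.lf (nat_lit 0x498203040)) (.lf (nat_lit 0x498204040))) (.nd (nat_lit 19732123712) (.lf (nat_lit 0x498205040)) (.lf (nat_lit 0x498242040)))) (.nd (nat_lit 19732381760) (.nd (nat_lit 19732377664) (.lf (nat_lit 0x498243040)) (.lf (nat_lit 0x498244040))) (.nd (nat_lit 19732385856) (.lf (nat_lit 0x498245040)) (.lf (nat_lit 0x498247040))))) (.nd (nat_lit 19732639808) (.nd (nat_lit 19732398272) (.nd (nat_lit 19732398144) (.lf (nat_lit 0x498248040)) (.lf (nat_lit 0x4982480c0))) (.nd (nat_lit 19732635712) (.lf (nat_lit 0x498282040)) (.lf (nat_lit 0x498283040)))) (.nd (nat_lit 19732643904) (.nd (nat_lit 19732639872) (.lf (nat_lit 0x498283080)) (.lf (nat_lit 0x498284040))) (.nd (nat_lit 19732648000) (.lf (nat_lit 0x498285040)) (.lf (nat_lit 0x498286040)))))) (.nd (nat_lit 19732902016) (.nd (nat_lit 19732660352) (.nd (nat_lit 19732656320) (.nd (nat_lit 19732656192) (.lf (nat_lit 0x498287040))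 (.lf (nat_lit 0x4982870c0))) (.nd (nat_lit 19732660288) (.lf (nat_lit 0x498288040)) (.lf (nat_lit 0x498288080)))) (.nd (nat_lit 19732897856) (.nd (nat_lit 19732664384) (.lf (nat_lit 0x498289040)) (.lf (nat_lit 0x4982c2040))) (.nd (nat_lit 19732901952) (.lf (nat_lit 0x4982c3040)) (.lf (nat_lit 0x4982c3080))))) (.nd (nat_lit 19732914240) (.nd (nat_lit 19732910144) (.nd (nat_lit 19732906048) (.lf (nat_lit 0x4982c4040)) (.lf (nat_lit 0x4982c5040))) (.nd (nat_lit 19732910336) (.lf (nat_lit 0x4982c5100)) (.lf (nat_lit 0x4982c6040)))) (.nd (nat_lit 19732914368) (.nd (nat_lit 19732914304) (.lf (nat_lit 0x4982c6080)) (.lf (nat_lit 0x4982c60c0))) (.nd (nat_lit 19732918336) (.lf (nat_lit 0x4982c7040)) (.lf (nat_lit 0x4982c7080))))))))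
noncomputable def jt6_6 : BT := (.nd (nat_lit 19733950528) (.nd (nat_lit 19733426304) (.nd (nat_lit 19733172288) (.nd (nat_lit 19733164160) (.nd (nat_lit 19733160000) (.nd (nat_lit 19732922432) (.lf (nat_lit 0x4982c8040)) (.lf (nat_lit 0x498302040))) (.nd (nat_lit 19733164096) (.lf (nat_lit 0x498303040)) (.lf (nat_lit 0x498303080)))) (.nd (nat_lit 19733168256) (.nd (nat_lit 19733168192) (.lf (nat_lit 0x498304040)) (.lf (nat_lit 0x498304080))) (.nd (nat_lit 19733168320) (.lf (nat_lit 0x4983040c0)) (.lf (nat_lit 0x498305040))))) (.nd (nat_lit 19733176448) (.nd (nat_lit 19733172416) (.nd (nat_lit 19733172352) (.lf (nat_lit 0x498305080)) (.lf (nat_lit 0x4983050c0))) (.nd (nat_lit 19733176384) (.lf (nat_lit 0x498306040)) (.lf (nat_lit 0x498306080)))) (.nd (nat_lit 19733422144) (.nd (nat_lit 19733180480) (.lf (nat_lit 0x498307040)) (.lf (nat_lit 0x498342040))) (.nd (nat_lit 19733426240) (.lf (nat_lit 0x498343040)) (.lf (nat_lit 0x498343080))))))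 (.nd (nat_lit 19733684288) (.nd (nat_lit 19733430464) (.nd (nat_lit 19733430400) (.nd (nat_lit 19733430336) (.lf (nat_lit 0x498344040)) (.lf (nat_lit 0x498344080))) (.nd (nat_lit 19733430401) (.lf (nat_lit 0x498344081)) (.lf (nat_lit 0x4983440c0)))) (.nd (nat_lit 19733434496) (.nd (nat_lit 19733434432) (.lf (nat_lit 0x498345040)) (.lf (nat_lit 0x498345080))) (.nd (nat_lit 19733438528) (.lf (nat_lit 0x498346040)) (.lf (nat_lit 0x498382040))))) (.nd (nat_lit 19733692480) (.nd (nat_lit 19733688448) (.nd (nat_lit 19733688384) (.lf (nat_lit 0x498383040)) (.lf (nat_lit 0x498383080))) (.nd (nat_lit 19733688449) (.lf (nat_lit 0x498383081)) (.lf (nat_lit 0x498384040)))) (.nd (nat_lit 19733696576) (.nd (nat_lit 19733692544) (.lf (nat_lit 0x498384080)) (.lf (nat_lit 0x498385040))) (.nd (nat_lit 19733946432) (.lf (nat_lit 0x4983c2040)) (.lf (nat_lit 0x4983c3040))))))) (.nd (nat_lit 19748110464) (.nd (nat_lit 19747844160) (.nd (nat_lit 19734212672)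 (.nd (nat_lit 19733954624) (.nd (nat_lit 19733950592) (.lf (nat_lit 0x4983c3080)) (.lf (nat_lit 0x4983c4040))) (.nd (nat_lit 19734208576) (.lf (nat_lit 0x498402040)) (.lf (nat_lit 0x498403040)))) (.nd (nat_lit 19747577920) (.nd (nat_lit 19734470720) (.lf (nat_lit 0x498442040)) (.lf (nat_lit 0x4990c2040))) (.nd (nat_lit 19747840064) (.lf (nat_lit 0x499102040)) (.lf (nat_lit 0x499103040))))) (.nd (nat_lit 19748106304) (.nd (nat_lit 19747844225) (.nd (nat_lit 19747844224) (.lf (nat_lit 0x499103080)) (.lf (nat_lit 0x499103081))) (.nd (nat_lit 19748102208) (.lf (nat_lit 0x499142040)) (.lf (nat_lit 0x499143040)))) (.nd (nat_lit 19748106369) (.nd (nat_lit 19748106368) (.lf (nat_lit 0x499143080)) (.lf (nat_lit 0x499143081))) (.nd (nat_lit 19748110400) (.lf (nat_lit 0x499144040)) (.lf (nat_lit 0x499144080)))))) (.nd (nat_lit 19748626496) (.nd (nat_lit 19748368512) (.nd (nat_lit 19748364352) (.nd (nat_lit 19748110528) (.lf (nat_lit 0x4991440c0))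 (.lf (nat_lit 0x499182040))) (.nd (nat_lit 19748368448) (.lf (nat_lit 0x499183040)) (.lf (nat_lit 0x499183080)))) (.nd (nat_lit 19748372608) (.nd (nat_lit 19748372544) (.lf (nat_lit 0x499184040)) (.lf (nat_lit 0x499184080))) (.nd (nat_lit 19748376640) (.lf (nat_lit 0x499185040)) (.lf (nat_lit 0x4991c2040))))) (.nd (nat_lit 19748634752) (.nd (nat_lit 19748630656) (.nd (nat_lit 19748630592) (.lf (nat_lit 0x4991c3040)) (.lf (nat_lit 0x4991c3080))) (.nd (nat_lit 19748634688) (.lf (nat_lit 0x4991c4040)) (.lf (nat_lit 0x4991c4080)))) (.nd (nat_lit 19748642880) (.nd (nat_lit 19748638784) (.lf (nat_lit 0x4991c5040)) (.lf (nat_lit 0x4991c6040))) (.nd (nat_lit 19748643136) (.lf (nat_lit 0x4991c6140)) (.lf (nat_lit 0x499202040))))))))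
noncomputable def jt6_7 : BT := (.nd (nat_lit 19749421184) (.nd (nat_lit 19749159040) (.nd (nat_lit 19748905216) (.nd (nat_lit 19748896896) (.nd (nat_lit 19748892800) (.nd (nat_lit 19748892736) (.lf (nat_lit 0x499203040)) (.lf (nat_lit 0x499203080))) (.nd (nat_lit 19748896832) (.lf (nat_lit 0x499204040)) (.lf (nat_lit 0x499204080)))) (.nd (nat_lit 19748905024) (.nd (nat_lit 19748900928) (.lf (nat_lit 0x499205040)) (.lf (nat_lit 0x499206040))) (.nd (nat_lit 19748905088) (.lf (nat_lit 0x499206080)) (.lf (nat_lit 0x499206100))))) (.nd (nat_lit 19749150784) (.nd (nat_lit 19748909184) (.nd (nat_lit 19748909120) (.lf (nat_lit 0x499207040)) (.lf (nat_lit 0x499207080))) (.nd (nat_lit 19748909248) (.lf (nat_lit 0x4992070c0)) (.lf (nat_lit 0x499242040)))) (.nd (nat_lit 19749154944) (.nd (nat_lit 19749154880) (.lf (nat_lit 0x499243040)) (.lf (nat_lit 0x499243080))) (.nd (nat_lit 19749158976) (.lf (nat_lit 0x499244040)) (.lf (nat_lit 0x499244080))))))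 (.nd (nat_lit 19749167296) (.nd (nat_lit 19749163200) (.nd (nat_lit 19749163072) (.nd (nat_lit 19749159104) (.lf (nat_lit 0x4992440c0)) (.lf (nat_lit 0x499245040))) (.nd (nat_lit 19749163136) (.lf (nat_lit 0x499245080)) (.lf (nat_lit 0x4992450c0)))) (.nd (nat_lit 19749167168) (.nd (nat_lit 19749163264) (.lf (nat_lit 0x499245100)) (.lf (nat_lit 0x499246040))) (.nd (nat_lit 19749167232) (.lf (nat_lit 0x499246080)) (.lf (nat_lit 0x4992460c0))))) (.nd (nat_lit 19749412928) (.nd (nat_lit 19749171328) (.nd (nat_lit 19749171264) (.lf (nat_lit 0x499247040)) (.lf (nat_lit 0x499247080))) (.nd (nat_lit 19749175360) (.lf (nat_lit 0x499248040)) (.lf (nat_lit 0x499282040)))) (.nd (nat_lit 19749417088) (.nd (nat_lit 19749417024) (.lf (nat_lit 0x499283040)) (.lf (nat_lit 0x499283080))) (.nd (nat_lit 19749421120) (.lf (nat_lit 0x499284040)) (.lf (nat_lit 0x499284080))))))) (.nd (nat_lit 19749683392) (.nd (nat_lit 19749433408) (.nd (nat_lit 19749425281)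 (.nd (nat_lit 19749425216) (.nd (nat_lit 19749421248) (.lf (nat_lit 0x4992840c0)) (.lf (nat_lit 0x499285040))) (.nd (nat_lit 19749425280) (.lf (nat_lit 0x499285080)) (.lf (nat_lit 0x499285081)))) (.nd (nat_lit 19749429312) (.nd (nat_lit 19749425344) (.lf (nat_lit 0x4992850c0)) (.lf (nat_lit 0x499286040))) (.nd (nat_lit 19749429376) (.lf (nat_lit 0x499286080)) (.lf (nat_lit 0x499287040))))) (.nd (nat_lit 19749679233) (.nd (nat_lit 19749679168) (.nd (nat_lit 19749675072) (.lf (nat_lit 0x4992c2040)) (.lf (nat_lit 0x4992c3040))) (.nd (nat_lit 19749679232) (.lf (nat_lit 0x4992c3080)) (.lf (nat_lit 0x4992c3081)))) (.nd (nat_lit 19749683328) (.nd (nat_lit 19749683264) (.lf (nat_lit 0x4992c4040)) (.lf (nat_lit 0x4992c4080))) (.nd (nat_lit 19749683329) (.lf (nat_lit 0x4992c4081)) (.lf (nat_lit 0x4992c40c0)))))) (.nd (nat_lit 19749945408) (.nd (nat_lit 19749937216) (.nd (nat_lit 19749687424) (.nd (nat_lit 19749687360) (.lf (nat_lit 0x4992c5040))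 (.lf (nat_lit 0x4992c5080))) (.nd (nat_lit 19749691456) (.lf (nat_lit 0x4992c6040)) (.lf (nat_lit 0x499302040)))) (.nd (nat_lit 19749941376) (.nd (nat_lit 19749941312) (.lf (nat_lit 0x499303040)) (.lf (nat_lit 0x499303080))) (.nd (nat_lit 19749941377) (.lf (nat_lit 0x499303081)) (.lf (nat_lit 0x499304040))))) (.nd (nat_lit 19750203456) (.nd (nat_lit 19749949504) (.nd (nat_lit 19749945472) (.lf (nat_lit 0x499304080)) (.lf (nat_lit 0x499305040))) (.nd (nat_lit 19750199360) (.lf (nat_lit 0x499342040)) (.lf (nat_lit 0x499343040)))) (.nd (nat_lit 19750207552) (.nd (nat_lit 19750203520) (.lf (nat_lit 0x499343080)) (.lf (nat_lit 0x499344040))) (.nd (nat_lit 19750461504) (.lf (nat_lit 0x499382040)) (.lf (nat_lit 0x499383040))))))))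
noncomputable def jt6_8 : BT := (.nd (nat_lit 19765412032) (.nd (nat_lit 19765145664) (.nd (nat_lit 19764883520) (.nd (nat_lit 19764621376) (.nd (nat_lit 19764355136) (.nd (nat_lit 19750723648) (.lf (nat_lit 0x4993c2040)) (.lf (nat_lit 0x49a0c2040))) (.nd (nat_lit 19764617280) (.lf (nat_lit 0x49a102040)) (.lf (nat_lit 0x49a103040)))) (.nd (nat_lit 19764621441) (.nd (nat_lit 19764621440) (.lf (nat_lit 0x49a103080)) (.lf (nat_lit 0x49a103081))) (.nd (nat_lit 19764879424) (.lf (nat_lit 0x49a142040)) (.lf (nat_lit 0x49a143040))))) (.nd (nat_lit 19764887680) (.nd (nat_lit 19764883585) (.nd (nat_lit 19764883584) (.lf (nat_lit 0x49a143080)) (.lf (nat_lit 0x49a143081))) (.nd (nat_lit 19764887616) (.lf (nat_lit 0x49a144040)) (.lf (nat_lit 0x49a144080)))) (.nd (nat_lit 19764887744) (.nd (nat_lit 19764887681) (.lf (nat_lit 0x49a144081)) (.lf (nat_lit 0x49a1440c0))) (.nd (nat_lit 19765141568) (.lf (nat_lit 0x49a182040)) (.lf (nat_lit 0x49a183040))))))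 (.nd (nat_lit 19765153984) (.nd (nat_lit 19765149824) (.nd (nat_lit 19765145729) (.nd (nat_lit 19765145728) (.lf (nat_lit 0x49a183080)) (.lf (nat_lit 0x49a183081))) (.nd (nat_lit 19765149760) (.lf (nat_lit 0x49a184040)) (.lf (nat_lit 0x49a184080)))) (.nd (nat_lit 19765153856) (.nd (nat_lit 19765149888) (.lf (nat_lit 0x49a1840c0)) (.lf (nat_lit 0x49a185040))) (.nd (nat_lit 19765153920) (.lf (nat_lit 0x49a185080)) (.lf (nat_lit 0x49a1850c0))))) (.nd (nat_lit 19765407872) (.nd (nat_lit 19765403712) (.nd (nat_lit 19765154048) (.lf (nat_lit 0x49a185100)) (.lf (nat_lit 0x49a1c2040))) (.nd (nat_lit 19765407808) (.lf (nat_lit 0x49a1c3040)) (.lf (nat_lit 0x49a1c3080)))) (.nd (nat_lit 19765411904) (.nd (nat_lit 19765407873) (.lf (nat_lit 0x49a1c3081)) (.lf (nat_lit 0x49a1c4040))) (.nd (nat_lit 19765411968) (.lf (nat_lit 0x49a1c4080)) (.lf (nat_lit 0x49a1c40c0))))))) (.nd (nat_lit 19765674176) (.nd (nat_lit 19765420224) (.nd (nat_lit 19765416192)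 (.nd (nat_lit 19765416064) (.nd (nat_lit 19765416000) (.lf (nat_lit 0x49a1c5040)) (.lf (nat_lit 0x49a1c5080))) (.nd (nat_lit 19765416128) (.lf (nat_lit 0x49a1c50c0)) (.lf (nat_lit 0x49a1c5100)))) (.nd (nat_lit 19765420160) (.nd (nat_lit 19765420096) (.lf (nat_lit 0x49a1c6040)) (.lf (nat_lit 0x49a1c6080))) (.nd (nat_lit 19765420161) (.lf (nat_lit 0x49a1c6081)) (.lf (nat_lit 0x49a1c60c0))))) (.nd (nat_lit 19765670017) (.nd (nat_lit 19765669952) (.nd (nat_lit 19765665856) (.lf (nat_lit 0x49a202040)) (.lf (nat_lit 0x49a203040))) (.nd (nat_lit 19765670016) (.lf (nat_lit 0x49a203080)) (.lf (nat_lit 0x49a203081)))) (.nd (nat_lit 19765674112) (.nd (nat_lit 19765674048) (.lf (nat_lit 0x49a204040)) (.lf (nat_lit 0x49a204080))) (.nd (nat_lit 19765674113) (.lf (nat_lit 0x49a204081)) (.lf (nat_lit 0x49a2040c0)))))) (.nd (nat_lit 19765686336) (.nd (nat_lit 19765678209) (.nd (nat_lit 19765678144) (.nd (nat_lit 19765674177) (.lf (nat_lit 0x49a2040c1))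 (.lf (nat_lit 0x49a205040))) (.nd (nat_lit 19765678208) (.lf (nat_lit 0x49a205080)) (.lf (nat_lit 0x49a205081)))) (.nd (nat_lit 19765682240) (.nd (nat_lit 19765678272) (.lf (nat_lit 0x49a2050c0)) (.lf (nat_lit 0x49a206040))) (.nd (nat_lit 19765682304) (.lf (nat_lit 0x49a206080)) (.lf (nat_lit 0x49a207040))))) (.nd (nat_lit 19765932161) (.nd (nat_lit 19765932096) (.nd (nat_lit 19765928000) (.lf (nat_lit 0x49a242040)) (.lf (nat_lit 0x49a243040))) (.nd (nat_lit 19765932160) (.lf (nat_lit 0x49a243080)) (.lf (nat_lit 0x49a243081)))) (.nd (nat_lit 19765936256) (.nd (nat_lit 19765936192) (.lf (nat_lit 0x49a244040)) (.lf (nat_lit 0x49a244080))) (.nd (nat_lit 19765936257) (.lf (nat_lit 0x49a244081)) (.lf (nat_lit 0x49a2440c0))))))))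
noncomputable def jt6_9 : BT := (.nd (nat_lit 19781918784) (.nd (nat_lit 19766718528) (.nd (nat_lit 19766198336) (.nd (nat_lit 19766190144) (.nd (nat_lit 19765940352) (.nd (nat_lit 19765940288) (.lf (nat_lit 0x49a245040)) (.lf (nat_lit 0x49a245080))) (.nd (nat_lit 19765944384) (.lf (nat_lit 0x49a246040)) (.lf (nat_lit 0x49a282040)))) (.nd (nat_lit 19766194304) (.nd (nat_lit 19766194240) (.lf (nat_lit 0x49a283040)) (.lf (nat_lit 0x49a283080))) (.nd (nat_lit 19766194305) (.lf (nat_lit 0x49a283081)) (.lf (nat_lit 0x49a284040))))) (.nd (nat_lit 19766456384) (.nd (nat_lit 19766202432) (.nd (nat_lit 19766198400) (.lf (nat_lit 0x49a284080)) (.lf (nat_lit 0x49a285040))) (.nd (nat_lit 19766452288) (.lf (nat_lit 0x49a2c2040)) (.lf (nat_lit 0x49a2c3040)))) (.nd (nat_lit 19766460480) (.nd (nat_lit 19766456448) (.lf (nat_lit 0x49a2c3080)) (.lf (nat_lit 0x49a2c4040))) (.nd (nat_lit 19766714432) (.lf (nat_lit 0x49a302040)) (.lf (nat_lit 0x49a303040))))))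 (.nd (nat_lit 19781660736) (.nd (nat_lit 19781398592) (.nd (nat_lit 19781132352) (.nd (nat_lit 19766976576) (.lf (nat_lit 0x49a342040)) (.lf (nat_lit 0x49b0c2040))) (.nd (nat_lit 19781394496) (.lf (nat_lit 0x49b102040)) (.lf (nat_lit 0x49b103040)))) (.nd (nat_lit 19781398657) (.nd (nat_lit 19781398656) (.lf (nat_lit 0x49b103080)) (.lf (nat_lit 0x49b103081))) (.nd (nat_lit 19781656640) (.lf (nat_lit 0x49b142040)) (.lf (nat_lit 0x49b143040))))) (.nd (nat_lit 19781664896) (.nd (nat_lit 19781660801) (.nd (nat_lit 19781660800) (.lf (nat_lit 0x49b143080)) (.lf (nat_lit 0x49b143081))) (.nd (nat_lit 19781664832) (.lf (nat_lit 0x49b144040)) (.lf (nat_lit 0x49b144080)))) (.nd (nat_lit 19781664960) (.nd (nat_lit 19781664897) (.lf (nat_lit 0x49b144081)) (.lf (nat_lit 0x49b1440c0))) (.nd (nat_lit 19781664961) (.lf (nat_lit 0x49b1440c1)) (.lf (nat_lit 0x49b182040))))))) (.nd (nat_lit 19782185089) (.nd (nat_lit 19781927105) (.nd (nat_lit 19781926976)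 (.nd (nat_lit 19781922944) (.nd (nat_lit 19781922880) (.lf (nat_lit 0x49b183040)) (.lf (nat_lit 0x49b183080))) (.nd (nat_lit 19781922945) (.lf (nat_lit 0x49b183081)) (.lf (nat_lit 0x49b184040)))) (.nd (nat_lit 19781927041) (.nd (nat_lit 19781927040) (.lf (nat_lit 0x49b184080)) (.lf (nat_lit 0x49b184081))) (.nd (nat_lit 19781927104) (.lf (nat_lit 0x49b1840c0)) (.lf (nat_lit 0x49b1840c1))))) (.nd (nat_lit 19781931200) (.nd (nat_lit 19781931136) (.nd (nat_lit 19781931072) (.lf (nat_lit 0x49b185040)) (.lf (nat_lit 0x49b185080))) (.nd (nat_lit 19781931137) (.lf (nat_lit 0x49b185081)) (.lf (nat_lit 0x49b1850c0)))) (.nd (nat_lit 19782185024) (.nd (nat_lit 19782180928) (.lf (nat_lit 0x49b1c2040)) (.lf (nat_lit 0x49b1c3040))) (.nd (nat_lit 19782185088) (.lf (nat_lit 0x49b1c3080)) (.lf (nat_lit 0x49b1c3081)))))) (.nd (nat_lit 19782443072) (.nd (nat_lit 19782189248) (.nd (nat_lit 19782189184) (.nd (nat_lit 19782189120) (.lf (nat_lit 0x49b1c4040))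 (.lf (nat_lit 0x49b1c4080))) (.nd (nat_lit 19782189185) (.lf (nat_lit 0x49b1c4081)) (.lf (nat_lit 0x49b1c40c0)))) (.nd (nat_lit 19782193280) (.nd (nat_lit 19782193216) (.lf (nat_lit 0x49b1c5040)) (.lf (nat_lit 0x49b1c5080))) (.nd (nat_lit 19782197312) (.lf (nat_lit 0x49b1c6040)) (.lf (nat_lit 0x49b202040))))) (.nd (nat_lit 19782451264) (.nd (nat_lit 19782447232) (.nd (nat_lit 19782447168) (.lf (nat_lit 0x49b203040)) (.lf (nat_lit 0x49b203080))) (.nd (nat_lit 19782447233) (.lf (nat_lit 0x49b203081)) (.lf (nat_lit 0x49b204040)))) (.nd (nat_lit 19782455360) (.nd (nat_lit 19782451328) (.lf (nat_lit 0x49b204080)) (.lf (nat_lit 0x49b205040))) (.nd (nat_lit 19782705216) (.lf (nat_lit 0x49b242040)) (.lf (nat_lit 0x49b243040))))))))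
noncomputable def jt6_10 : BT := (.nd (nat_lit 19798704256) (.nd (nat_lit 19798437952) (.nd (nat_lit 19797909568) (.nd (nat_lit 19782967360) (.nd (nat_lit 19782709376) (.lf (nat_lit 0x49b243080)) (.nd (nat_lit 19782713408) (.lf (nat_lit 0x49b244040)) (.lf (nat_lit 0x49b282040)))) (.nd (nat_lit 19782971456) (.lf (nat_lit 0x49b283040)) (.nd (nat_lit 19783229504) (.lf (nat_lit 0x49b2c2040)) (.lf (nat_lit 0x49c0c2040))))) (.nd (nat_lit 19798175872) (.nd (nat_lit 19798171712) (.lf (nat_lit 0x49c102040)) (.nd (nat_lit 19798175808) (.lf (nat_lit 0x49c103040)) (.lf (nat_lit 0x49c103080)))) (.nd (nat_lit 19798175873) (.lf (nat_lit 0x49c103081)) (.nd (nat_lit 19798433856) (.lf (nat_lit 0x49c142040)) (.lf (nat_lit 0x49c143040)))))) (.nd (nat_lit 19798442176) (.nd (nat_lit 19798442048) (.nd (nat_lit 19798438016) (.lf (nat_lit 0x49c143080)) (.nd (nat_lit 19798438017) (.lf (nat_lit 0x49c143081)) (.lf (nat_lit 0x49c144040)))) (.nd (nat_lit 19798442112)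 (.lf (nat_lit 0x49c144080)) (.nd (nat_lit 19798442113) (.lf (nat_lit 0x49c144081)) (.lf (nat_lit 0x49c1440c0))))) (.nd (nat_lit 19798700160) (.nd (nat_lit 19798696000) (.lf (nat_lit 0x49c182040)) (.nd (nat_lit 19798700096) (.lf (nat_lit 0x49c183040)) (.lf (nat_lit 0x49c183080)))) (.nd (nat_lit 19798700161) (.lf (nat_lit 0x49c183081)) (.nd (nat_lit 19798704192) (.lf (nat_lit 0x49c184040)) (.lf (nat_lit 0x49c184080))))))) (.nd (nat_lit 19814953088) (.nd (nat_lit 19799220288) (.nd (nat_lit 19798962240) (.nd (nat_lit 19798708288) (.lf (nat_lit 0x49c185040)) (.nd (nat_lit 19798958144) (.lf (nat_lit 0x49c1c2040)) (.lf (nat_lit 0x49c1c3040)))) (.nd (nat_lit 19798962304) (.lf (nat_lit 0x49c1c3080)) (.nd (nat_lit 19798966336) (.lf (nat_lit 0x49c1c4040)) (.lf (nat_lit 0x49c202040))))) (.nd (nat_lit 19814686784) (.nd (nat_lit 19799224384) (.lf (nat_lit 0x49c203040)) (.nd (nat_lit 19799482432) (.lf (nat_lit 0x49c242040)) (.lf (nat_lit 0x49d0c2040))))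 (.nd (nat_lit 19814948928) (.lf (nat_lit 0x49d102040)) (.nd (nat_lit 19814953024) (.lf (nat_lit 0x49d103040)) (.lf (nat_lit 0x49d103080)))))) (.nd (nat_lit 19815473216) (.nd (nat_lit 19815215168) (.nd (nat_lit 19814953089) (.lf (nat_lit 0x49d103081)) (.nd (nat_lit 19815211072) (.lf (nat_lit 0x49d142040)) (.lf (nat_lit 0x49d143040)))) (.nd (nat_lit 19815215232) (.lf (nat_lit 0x49d143080)) (.nd (nat_lit 19815219264) (.lf (nat_lit 0x49d144040)) (.lf (nat_lit 0x49d182040))))) (.nd (nat_lit 19831464000) (.nd (nat_lit 19815477312) (.lf (nat_lit 0x49d183040)) (.nd (nat_lit 19815735360) (.lf (nat_lit 0x49d1c2040)) (.lf (nat_lit 0x49e0c2040)))) (.nd (nat_lit 19831730240) (.nd (nat_lit 19831726144) (.lf (nat_lit 0x49e102040)) (.lf (nat_lit 0x49e103040))) (.nd (nat_lit 19831988288) (.lf (nat_lit 0x49e142040)) (.lf (nat_lit 0x49f0c2040))))))))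
noncomputable def jt6 : BT := (.nd (nat_lit 19717435520) (.nd (nat_lit 19683897408) (.nd (nat_lit 19667370048) jt6_0 jt6_1) (.nd (nat_lit 19699605568) jt6_2 (.nd (nat_lit 19714289792) jt6_3 jt6_4))) (.nd (nat_lit 19750465600) (.nd (nat_lit 19732918400) jt6_5 (.nd (nat_lit 19748888640) jt6_6 jt6_7)) (.nd (nat_lit 19765936320) jt6_8 (.nd (nat_lit 19782709312) jt6_9 jt6_10))))
def jg6 : Cfg := ⟨75, 66, 22, 9, 35⟩
noncomputable def jX6 : F3 := XRc 9 99 99 99 0
noncomputable def jt7_0 : BT := (.nd (nat_lit 21845516352) (.nd (nat_lit 21811699776) (.nd (nat_lit 21777887296) (.nd (nat_lit 21760843840) (.nd (nat_lit 21744066624) (.nd (nat_lit 21727289408) (.lf (nat_lit 0x50f0c2040)) (.lf (nat_lit 0x5100c2040))) (.nd (nat_lit 21744328768) (.lf (nat_lit 0x510102040)) (.lf (nat_lit 0x5110c2040)))) (.nd (nat_lit 21777621056) (.nd (nat_lit 21761105984) (.lf (nat_lit 0x511102040)) (.lf (nat_lit 0x5120c2040))) (.nd (nat_lit 21777883200) (.lf (nat_lit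 0x512102040)) (.lf (nat_lit 0x512103040))))) (.nd (nat_lit 21794922560) (.nd (nat_lit 21794660416) (.nd (nat_lit 21794398272) (.lf (nat_lit 0x5130c2040)) (.lf (nat_lit 0x513102040))) (.nd (nat_lit 21794664512) (.lf (nat_lit 0x513103040)) (.lf (nat_lit 0x513142040)))) (.nd (nat_lit 21811437632) (.nd (nat_lit 21811175488) (.lf (nat_lit 0x5140c2040)) (.lf (nat_lit 0x514102040))) (.nd (nat_lit 21811441728) (.lf (nat_lit 0x514103040)) (.lf (nat_lit 0x514142040)))))) (.nd (nat_lit 21832409152) (.nd (nat_lit 21828219008) (.nd (nat_lit 21828214848) (.nd (nat_lit 21827952704) (.lf (nat_lit 0x5150c2040)) (.lf (nat_lit 0x515102040))) (.nd (nat_lit 21828218944) (.lf (nat_lit 0x515103040)) (.lf (nat_lit 0x515103080)))) (.nd (nat_lit 21828739136) (.nd (nat_lit 21828476992) (.lf (nat_lit 0x515142040)) (.lf (nat_lit 0x515182040))) (.nd (nat_lit 21832147008) (.lf (nat_lit 0x5154c2040)) (.lf (nat_lit 0x515502040))))) (.nd (nat_lit 21844996160) (.nd (nat_lit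 21844729920) (.nd (nat_lit 21832437824) (.lf (nat_lit 0x515509040)) (.lf (nat_lit 0x5160c2040))) (.nd (nat_lit 21844992064) (.lf (nat_lit 0x516102040)) (.lf (nat_lit 0x516103040)))) (.nd (nat_lit 21845254208) (.nd (nat_lit 21844996224) (.lf (nat_lit 0x516103080)) (.lf (nat_lit 0x516142040))) (.nd (nat_lit 21845258304) (.lf (nat_lit 0x516143040)) (.lf (nat_lit 0x516182040))))))) (.nd (nat_lit 21849460864) (.nd (nat_lit 21849210944) (.nd (nat_lit 21849186368) (.nd (nat_lit 21848924224) (.nd (nat_lit 21848662080) (.lf (nat_lit 0x516482040)) (.lf (nat_lit 0x5164c2040))) (.nd (nat_lit 21848952896) (.lf (nat_lit 0x5164c9040)) (.lf (nat_lit 0x516502040)))) (.nd (nat_lit 21849194560) (.nd (nat_lit 21849190464) (.lf (nat_lit 0x516503040)) (.lf (nat_lit 0x516504040))) (.nd (nat_lit 21849206848) (.lf (nat_lit 0x516507040)) (.lf (nat_lit 0x516508040))))) (.nd (nat_lit 21849452672) (.nd (nat_lit 21849448512) (.nd (nat_lit 21849215040) (.lf (nat_lit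 0x516509040)) (.lf (nat_lit 0x516542040))) (.nd (nat_lit 21849452608) (.lf (nat_lit 0x516543040)) (.lf (nat_lit 0x516543080)))) (.nd (nat_lit 21849456768) (.nd (nat_lit 21849456704) (.lf (nat_lit 0x516544040)) (.lf (nat_lit 0x516544080))) (.nd (nat_lit 21849460800) (.lf (nat_lit 0x516545040)) (.lf (nat_lit 0x516545080)))))) (.nd (nat_lit 21862031424) (.nd (nat_lit 21861507136) (.nd (nat_lit 21849468992) (.nd (nat_lit 21849464896) (.lf (nat_lit 0x516546040)) (.lf (nat_lit 0x516547040))) (.nd (nat_lit 21849473088) (.lf (nat_lit 0x516548040)) (.lf (nat_lit 0x5170c2040)))) (.nd (nat_lit 21861773376) (.nd (nat_lit 21861769280) (.lf (nat_lit 0x517102040)) (.lf (nat_lit 0x517103040))) (.nd (nat_lit 21861773440) (.lf (nat_lit 0x517103080)) (.lf (nat_lit 0x517142040))))) (.nd (nat_lit 21864915008) (.nd (nat_lit 21862293568) (.nd (nat_lit 21862035520) (.lf (nat_lit 0x517143040)) (.lf (nat_lit 0x517182040))) (.nd (nat_lit 21862555712) (.lf (nat_lit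 0x5171c2040)) (.lf (nat_lit 0x517402040)))) (.nd (nat_lit 21865439296) (.nd (nat_lit 21865177152) (.lf (nat_lit 0x517442040)) (.lf (nat_lit 0x517482040))) (.nd (nat_lit 21865443392) (.lf (nat_lit 0x517483040)) (.lf (nat_lit 0x517488040))))))))
noncomputable def jt7_1 : BT := (.nd (nat_lit 21866496064) (.nd (nat_lit 21865979968) (.nd (nat_lit 21865726016) (.nd (nat_lit 21865709632) (.nd (nat_lit 21865701440) (.nd (nat_lit 21865467968) (.lf (nat_lit 0x517489040)) (.lf (nat_lit 0x5174c2040))) (.nd (nat_lit 21865705536) (.lf (nat_lit 0x5174c3040)) (.lf (nat_lit 0x5174c4040)))) (.nd (nat_lit 21865717824) (.nd (nat_lit 21865713728) (.lf (nat_lit 0x5174c5040)) (.lf (nat_lit 0x5174c6040))) (.nd (nat_lit 21865721920) (.lf (nat_lit 0x5174c7040)) (.lf (nat_lit 0x5174c8040))))) (.nd (nat_lit 21865971776) (.nd (nat_lit 21865967680) (.nd (nat_lit 21865963584) (.lf (nat_lit 0x517502040)) (.lf (nat_lit 0x517503040))) (.nd (nat_lit 21865967744) (.lf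 (nat_lit 0x517503080)) (.lf (nat_lit 0x517504040)))) (.nd (nat_lit 21865975872) (.nd (nat_lit 21865971840) (.lf (nat_lit 0x517504080)) (.lf (nat_lit 0x517505040))) (.nd (nat_lit 21865975936) (.lf (nat_lit 0x517505080)) (.lf (nat_lit 0x517506040)))))) (.nd (nat_lit 21866233985) (.nd (nat_lit 21866229888) (.nd (nat_lit 21866225728) (.nd (nat_lit 21865984064) (.lf (nat_lit 0x517507040)) (.lf (nat_lit 0x517542040))) (.nd (nat_lit 21866229824) (.lf (nat_lit 0x517543040)) (.lf (nat_lit 0x517543080)))) (.nd (nat_lit 21866233920) (.nd (nat_lit 21866229889) (.lf (nat_lit 0x517543081)) (.lf (nat_lit 0x517544040))) (.nd (nat_lit 21866233984) (.lf (nat_lit 0x517544080)) (.lf (nat_lit 0x517544081))))) (.nd (nat_lit 21866487872) (.nd (nat_lit 21866238080) (.nd (nat_lit 21866238016) (.lf (nat_lit 0x517545040)) (.lf (nat_lit 0x517545080))) (.nd (nat_lit 21866242112) (.lf (nat_lit 0x517546040)) (.lf (nat_lit 0x517582040)))) (.nd (nat_lit 21866492032)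 (.nd (nat_lit 21866491968) (.lf (nat_lit 0x517583040)) (.lf (nat_lit 0x517583080))) (.nd (nat_lit 21866492033) (.lf (nat_lit 0x517583081)) (.lf (nat_lit 0x517584040))))))) (.nd (nat_lit 21881204800) (.nd (nat_lit 21878812736) (.nd (nat_lit 21878546496) (.nd (nat_lit 21866500160) (.nd (nat_lit 21866496128) (.lf (nat_lit 0x517584080)) (.lf (nat_lit 0x517585040))) (.nd (nat_lit 21878284352) (.lf (nat_lit 0x5180c2040)) (.lf (nat_lit 0x518102040)))) (.nd (nat_lit 21878550656) (.nd (nat_lit 21878550592) (.lf (nat_lit 0x518103040)) (.lf (nat_lit 0x518103080))) (.nd (nat_lit 21878808640) (.lf (nat_lit 0x518142040)) (.lf (nat_lit 0x518143040))))) (.nd (nat_lit 21879595072) (.nd (nat_lit 21879074880) (.nd (nat_lit 21879070784) (.lf (nat_lit 0x518182040)) (.lf (nat_lit 0x518183040))) (.nd (nat_lit 21879332928) (.lf (nat_lit 0x5181c2040)) (.lf (nat_lit 0x518202040)))) (.nd (nat_lit 21880946752) (.nd (nat_lit 21879857216) (.lf (nat_lit 0x518242040))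 (.lf (nat_lit 0x51834c040))) (.nd (nat_lit 21881167936) (.lf (nat_lit 0x518382040)) (.lf (nat_lit 0x51838b040)))))) (.nd (nat_lit 21881978944) (.nd (nat_lit 21881720896) (.nd (nat_lit 21881462848) (.nd (nat_lit 21881430080) (.lf (nat_lit 0x5183c2040)) (.lf (nat_lit 0x5183ca040))) (.nd (nat_lit 21881692224) (.lf (nat_lit 0x518402040)) (.lf (nat_lit 0x518409040)))) (.nd (nat_lit 21881958464) (.nd (nat_lit 21881954368) (.lf (nat_lit 0x518442040)) (.lf (nat_lit 0x518443040))) (.nd (nat_lit 21881974848) (.lf (nat_lit 0x518447040)) (.lf (nat_lit 0x518448040))))) (.nd (nat_lit 21882228800) (.nd (nat_lit 21882220608) (.nd (nat_lit 21882216512) (.lf (nat_lit 0x518482040)) (.lf (nat_lit 0x518483040))) (.nd (nat_lit 21882224704) (.lf (nat_lit 0x518484040)) (.lf (nat_lit 0x518485040)))) (.nd (nat_lit 21882236992) (.nd (nat_lit 21882232896) (.lf (nat_lit 0x518486040)) (.lf (nat_lit 0x518487040))) (.nd (nat_lit 21882478656) (.lf (nat_lit 0x5184c2040))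 (.lf (nat_lit 0x5184c3040))))))))
noncomputable def jt7_2 : BT := (.nd (nat_lit 21895848000) (.nd (nat_lit 21883002944) (.nd (nat_lit 21882495040) (.nd (nat_lit 21882486913) (.nd (nat_lit 21882486848) (.nd (nat_lit 21882482816) (.lf (nat_lit 0x5184c3080)) (.lf (nat_lit 0x5184c4040))) (.nd (nat_lit 21882486912) (.lf (nat_lit 0x5184c4080)) (.lf (nat_lit 0x5184c4081)))) (.nd (nat_lit 21882490944) (.nd (nat_lit 21882486976) (.lf (nat_lit 0x5184c40c0)) (.lf (nat_lit 0x5184c5040))) (.nd (nat_lit 21882491008) (.lf (nat_lit 0x5184c5080)) (.lf (nat_lit 0x5184c6040))))) (.nd (nat_lit 21882744961) (.nd (nat_lit 21882744896) (.nd (nat_lit 21882740800) (.lf (nat_lit 0x518502040)) (.lf (nat_lit 0x518503040))) (.nd (nat_lit 21882744960) (.lf (nat_lit 0x518503080)) (.lf (nat_lit 0x518503081)))) (.nd (nat_lit 21882749056) (.nd (nat_lit 21882748992) (.lf (nat_lit 0x518504040)) (.lf (nat_lit 0x518504080))) (.nd (nat_lit 21882753088) (.lf (nat_lit 0x518505040))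 (.lf (nat_lit 0x518542040)))))) (.nd (nat_lit 21895323712) (.nd (nat_lit 21883265088) (.nd (nat_lit 21883007104) (.nd (nat_lit 21883007040) (.lf (nat_lit 0x518543040)) (.lf (nat_lit 0x518543080))) (.nd (nat_lit 21883011136) (.lf (nat_lit 0x518544040)) (.lf (nat_lit 0x518582040)))) (.nd (nat_lit 21883527232) (.nd (nat_lit 21883269184) (.lf (nat_lit 0x518583040)) (.lf (nat_lit 0x5185c2040))) (.nd (nat_lit 21895061568) (.lf (nat_lit 0x5190c2040)) (.lf (nat_lit 0x519102040))))) (.nd (nat_lit 21895585856) (.nd (nat_lit 21895327872) (.nd (nat_lit 21895327808) (.lf (nat_lit 0x519103040)) (.lf (nat_lit 0x519103080))) (.nd (nat_lit 21895327873) (.lf (nat_lit 0x519103081)) (.lf (nat_lit 0x519142040)))) (.nd (nat_lit 21895590016) (.nd (nat_lit 21895589952) (.lf (nat_lit 0x519143040)) (.lf (nat_lit 0x519143080))) (.nd (nat_lit 21895594048) (.lf (nat_lit 0x519144040)) (.lf (nat_lit 0x519182040))))))) (.nd (nat_lit 21898231872) (.nd (nat_lit 21897420864)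 (.nd (nat_lit 21896372288) (.nd (nat_lit 21896110144) (.nd (nat_lit 21895852096) (.lf (nat_lit 0x519183040)) (.lf (nat_lit 0x5191c2040))) (.nd (nat_lit 21896114240) (.lf (nat_lit 0x5191c3040)) (.lf (nat_lit 0x519202040)))) (.nd (nat_lit 21896896576) (.nd (nat_lit 21896634432) (.lf (nat_lit 0x519242040)) (.lf (nat_lit 0x519282040))) (.nd (nat_lit 21897158720) (.lf (nat_lit 0x5192c2040)) (.lf (nat_lit 0x519302040))))) (.nd (nat_lit 21897945152) (.nd (nat_lit 21897683008) (.nd (nat_lit 21897457728) (.lf (nat_lit 0x51930b040)) (.lf (nat_lit 0x519342040))) (.nd (nat_lit 21897715776) (.lf (nat_lit 0x51934a040)) (.lf (nat_lit 0x519382040)))) (.nd (nat_lit 21898207296) (.nd (nat_lit 21897973824) (.lf (nat_lit 0x519389040)) (.lf (nat_lit 0x5193c2040))) (.nd (nat_lit 21898211392) (.lf (nat_lit 0x5193c3040)) (.lf (nat_lit 0x5193c8040)))))) (.nd (nat_lit 21898731584) (.nd (nat_lit 21898481728) (.nd (nat_lit 21898473536) (.nd (nat_lit 21898469440)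 (.lf (nat_lit 0x519402040)) (.lf (nat_lit 0x519403040))) (.nd (nat_lit 21898477632) (.lf (nat_lit 0x519404040)) (.lf (nat_lit 0x519405040)))) (.nd (nat_lit 21898485888) (.nd (nat_lit 21898485824) (.lf (nat_lit 0x519406040)) (.lf (nat_lit 0x519406080))) (.nd (nat_lit 21898489920) (.lf (nat_lit 0x519407040)) (.lf (nat_lit 0x519442040))))) (.nd (nat_lit 21898739840) (.nd (nat_lit 21898735744) (.nd (nat_lit 21898735680) (.lf (nat_lit 0x519443040)) (.lf (nat_lit 0x519443080))) (.nd (nat_lit 21898739776) (.lf (nat_lit 0x519444040)) (.lf (nat_lit 0x519444080)))) (.nd (nat_lit 21898743872) (.nd (nat_lit 21898739904) (.lf (nat_lit 0x5194440c0)) (.lf (nat_lit 0x519445040))) (.nd (nat_lit 21898743936) (.lf (nat_lit 0x519445080)) (.lf (nat_lit 0x519446040))))))))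
noncomputable def jt7_3 : BT := (.nd (nat_lit 21913415744) (.nd (nat_lit 21912100928) (.nd (nat_lit 21899255872) (.nd (nat_lit 21898997889) (.nd (nat_lit 21898997824) (.nd (nat_lit 21898993728) (.lf (nat_lit 0x519482040)) (.lf (nat_lit 0x519483040))) (.nd (nat_lit 21898997888) (.lf (nat_lit 0x519483080)) (.lf (nat_lit 0x519483081)))) (.nd (nat_lit 21899001984) (.nd (nat_lit 21899001920) (.lf (nat_lit 0x519484040)) (.lf (nat_lit 0x519484080))) (.nd (nat_lit 21899006016) (.lf (nat_lit 0x519485040)) (.lf (nat_lit 0x5194c2040))))) (.nd (nat_lit 21899518016) (.nd (nat_lit 21899260032) (.nd (nat_lit 21899259968) (.lf (nat_lit 0x5194c3040)) (.lf (nat_lit 0x5194c3080))) (.nd (nat_lit 21899264064) (.lf (nat_lit 0x5194c4040)) (.lf (nat_lit 0x519502040)))) (.nd (nat_lit 21899780160) (.nd (nat_lit 21899522112) (.lf (nat_lit 0x519503040)) (.lf (nat_lit 0x519542040))) (.nd (nat_lit 21911838784) (.lf (nat_lit 0x51a0c2040)) (.lf (nat_lit 0x51a102040))))))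 (.nd (nat_lit 21912625216) (.nd (nat_lit 21912363072) (.nd (nat_lit 21912105088) (.nd (nat_lit 21912105024) (.lf (nat_lit 0x51a103040)) (.lf (nat_lit 0x51a103080))) (.nd (nat_lit 21912105089) (.lf (nat_lit 0x51a103081)) (.lf (nat_lit 0x51a142040)))) (.nd (nat_lit 21912367232) (.nd (nat_lit 21912367168) (.lf (nat_lit 0x51a143040)) (.lf (nat_lit 0x51a143080))) (.nd (nat_lit 21912371264) (.lf (nat_lit 0x51a144040)) (.lf (nat_lit 0x51a182040))))) (.nd (nat_lit 21912891456) (.nd (nat_lit 21912633408) (.nd (nat_lit 21912629312) (.lf (nat_lit 0x51a183040)) (.lf (nat_lit 0x51a184040))) (.nd (nat_lit 21912887360) (.lf (nat_lit 0x51a1c2040)) (.lf (nat_lit 0x51a1c3040)))) (.nd (nat_lit 21913153600) (.nd (nat_lit 21913149504) (.lf (nat_lit 0x51a202040)) (.lf (nat_lit 0x51a203040))) (.nd (nat_lit 21913411648) (.lf (nat_lit 0x51a242040)) (.lf (nat_lit 0x51a243040))))))) (.nd (nat_lit 21914738752) (.nd (nat_lit 21914226752) (.nd (nat_lit 21913940032)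 (.nd (nat_lit 21913677888) (.nd (nat_lit 21913673792) (.lf (nat_lit 0x51a282040)) (.lf (nat_lit 0x51a283040))) (.nd (nat_lit 21913935936) (.lf (nat_lit 0x51a2c2040)) (.lf (nat_lit 0x51a2c3040)))) (.nd (nat_lit 21914198080) (.nd (nat_lit 21913968704) (.lf (nat_lit 0x51a2ca040)) (.lf (nat_lit 0x51a302040))) (.nd (nat_lit 21914202176) (.lf (nat_lit 0x51a303040)) (.lf (nat_lit 0x51a309040))))) (.nd (nat_lit 21914722368) (.nd (nat_lit 21914464320) (.nd (nat_lit 21914460224) (.lf (nat_lit 0x51a342040)) (.lf (nat_lit 0x51a343040))) (.nd (nat_lit 21914484800) (.lf (nat_lit 0x51a348040)) (.lf (nat_lit 0x51a382040)))) (.nd (nat_lit 21914730560) (.nd (nat_lit 21914726464) (.lf (nat_lit 0x51a383040)) (.lf (nat_lit 0x51a384040))) (.nd (nat_lit 21914734656) (.lf (nat_lit 0x51a385040)) (.lf (nat_lit 0x51a386040)))))) (.nd (nat_lit 21914992832) (.nd (nat_lit 21914988608) (.nd (nat_lit 21914742848) (.nd (nat_lit 21914738816) (.lf (nat_lit 0x51a386080))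 (.lf (nat_lit 0x51a387040))) (.nd (nat_lit 21914984512) (.lf (nat_lit 0x51a3c2040)) (.lf (nat_lit 0x51a3c3040)))) (.nd (nat_lit 21914992704) (.nd (nat_lit 21914988672) (.lf (nat_lit 0x51a3c3080)) (.lf (nat_lit 0x51a3c4040))) (.nd (nat_lit 21914992768) (.lf (nat_lit 0x51a3c4080)) (.lf (nat_lit 0x51a3c40c0))))) (.nd (nat_lit 21915246656) (.nd (nat_lit 21914996864) (.nd (nat_lit 21914996800) (.lf (nat_lit 0x51a3c5040)) (.lf (nat_lit 0x51a3c5080))) (.nd (nat_lit 21915000896) (.lf (nat_lit 0x51a3c6040)) (.lf (nat_lit 0x51a402040)))) (.nd (nat_lit 21915250816) (.nd (nat_lit 21915250752) (.lf (nat_lit 0x51a403040)) (.lf (nat_lit 0x51a403080))) (.nd (nat_lit 21915250817) (.lf (nat_lit 0x51a403081)) (.lf (nat_lit 0x51a404040))))))))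
noncomputable def jt7_4 : BT := (.nd (nat_lit 21930188864) (.nd (nat_lit 21929144384) (.nd (nat_lit 21915775040) (.nd (nat_lit 21915512896) (.nd (nat_lit 21915258944) (.nd (nat_lit 21915254912) (.lf (nat_lit 0x51a404080)) (.lf (nat_lit 0x51a405040))) (.nd (nat_lit 21915508800) (.lf (nat_lit 0x51a442040)) (.lf (nat_lit 0x51a443040)))) (.nd (nat_lit 21915516992) (.nd (nat_lit 21915512960) (.lf (nat_lit 0x51a443080)) (.lf (nat_lit 0x51a444040))) (.nd (nat_lit 21915770944) (.lf (nat_lit 0x51a482040)) (.lf (nat_lit 0x51a483040))))) (.nd (nat_lit 21928882240) (.nd (nat_lit 21928616000) (.nd (nat_lit 21916033088) (.lf (nat_lit 0x51a4c2040)) (.lf (nat_lit 0x51b0c2040))) (.nd (nat_lit 21928878144) (.lf (nat_lit 0x51b102040)) (.lf (nat_lit 0x51b103040)))) (.nd (nat_lit 21928882305) (.nd (nat_lit 21928882304) (.lf (nat_lit 0x51b103080)) (.lf (nat_lit 0x51b103081))) (.nd (nat_lit 21929140288) (.lf (nat_lit 0x51b142040)) (.lf (nat_lit 0x51b143040))))))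 (.nd (nat_lit 21929414720) (.nd (nat_lit 21929402432) (.nd (nat_lit 21929148480) (.nd (nat_lit 21929144448) (.lf (nat_lit 0x51b143080)) (.lf (nat_lit 0x51b144040))) (.nd (nat_lit 21929148544) (.lf (nat_lit 0x51b144080)) (.lf (nat_lit 0x51b182040)))) (.nd (nat_lit 21929406592) (.nd (nat_lit 21929406528) (.lf (nat_lit 0x51b183040)) (.lf (nat_lit 0x51b183080))) (.nd (nat_lit 21929410624) (.lf (nat_lit 0x51b184040)) (.lf (nat_lit 0x51b185040))))) (.nd (nat_lit 21929672768) (.nd (nat_lit 21929668672) (.nd (nat_lit 21929664576) (.lf (nat_lit 0x51b1c2040)) (.lf (nat_lit 0x51b1c3040))) (.nd (nat_lit 21929668736) (.lf (nat_lit 0x51b1c3080)) (.lf (nat_lit 0x51b1c4040)))) (.nd (nat_lit 21929930816) (.nd (nat_lit 21929926720) (.lf (nat_lit 0x51b202040)) (.lf (nat_lit 0x51b203040))) (.nd (nat_lit 21929934912) (.lf (nat_lit 0x51b204040)) (.lf (nat_lit 0x51b242040))))))) (.nd (nat_lit 21930979392) (.nd (nat_lit 21930713152) (.nd (nat_lit 21930455104)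 (.nd (nat_lit 21930197056) (.nd (nat_lit 21930192960) (.lf (nat_lit 0x51b243040)) (.lf (nat_lit 0x51b244040))) (.nd (nat_lit 21930451008) (.lf (nat_lit 0x51b282040)) (.lf (nat_lit 0x51b283040)))) (.nd (nat_lit 21930475584) (.nd (nat_lit 21930459200) (.lf (nat_lit 0x51b284040)) (.lf (nat_lit 0x51b288040))) (.nd (nat_lit 21930479680) (.lf (nat_lit 0x51b289040)) (.lf (nat_lit 0x51b2c2040))))) (.nd (nat_lit 21930733632) (.nd (nat_lit 21930721344) (.nd (nat_lit 21930717248) (.lf (nat_lit 0x51b2c3040)) (.lf (nat_lit 0x51b2c4040))) (.nd (nat_lit 21930725440) (.lf (nat_lit 0x51b2c5040)) (.lf (nat_lit 0x51b2c7040)))) (.nd (nat_lit 21930737728) (.nd (nat_lit 21930733696) (.lf (nat_lit 0x51b2c7080)) (.lf (nat_lit 0x51b2c8040))) (.nd (nat_lit 21930975296) (.lf (nat_lit 0x51b302040)) (.lf (nat_lit 0x51b303040)))))) (.nd (nat_lit 21931241536) (.nd (nat_lit 21930991680) (.nd (nat_lit 21930983488) (.nd (nat_lit 21930979456) (.lf (nat_lit 0x51b303080))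 (.lf (nat_lit 0x51b304040))) (.nd (nat_lit 21930987584) (.lf (nat_lit 0x51b305040)) (.lf (nat_lit 0x51b306040)))) (.nd (nat_lit 21930995776) (.nd (nat_lit 21930991744) (.lf (nat_lit 0x51b306080)) (.lf (nat_lit 0x51b307040))) (.nd (nat_lit 21931237440) (.lf (nat_lit 0x51b342040)) (.lf (nat_lit 0x51b343040))))) (.nd (nat_lit 21931245760) (.nd (nat_lit 21931245632) (.nd (nat_lit 21931241600) (.lf (nat_lit 0x51b343080)) (.lf (nat_lit 0x51b344040))) (.nd (nat_lit 21931245696) (.lf (nat_lit 0x51b344080)) (.lf (nat_lit 0x51b3440c0)))) (.nd (nat_lit 21931249792) (.nd (nat_lit 21931249728) (.lf (nat_lit 0x51b345040)) (.lf (nat_lit 0x51b345080))) (.nd (nat_lit 21931253824) (.lf (nat_lit 0x51b346040)) (.lf (nat_lit 0x51b382040))))))))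
noncomputable def jt7_5 : BT := (.nd (nat_lit 21946445888) (.nd (nat_lit 21945659456) (.nd (nat_lit 21931765824) (.nd (nat_lit 21931507776) (.nd (nat_lit 21931503744) (.nd (nat_lit 21931503680) (.lf (nat_lit 0x51b383040)) (.lf (nat_lit 0x51b383080))) (.nd (nat_lit 21931503745) (.lf (nat_lit 0x51b383081)) (.lf (nat_lit 0x51b384040)))) (.nd (nat_lit 21931511872) (.nd (nat_lit 21931507840) (.lf (nat_lit 0x51b384080)) (.lf (nat_lit 0x51b385040))) (.nd (nat_lit 21931761728) (.lf (nat_lit 0x51b3c2040)) (.lf (nat_lit 0x51b3c3040))))) (.nd (nat_lit 21932027968) (.nd (nat_lit 21931769920) (.nd (nat_lit 21931765888) (.lf (nat_lit 0x51b3c3080)) (.lf (nat_lit 0x51b3c4040))) (.nd (nat_lit 21932023872) (.lf (nat_lit 0x51b402040)) (.lf (nat_lit 0x51b403040)))) (.nd (nat_lit 21945393216) (.nd (nat_lit 21932286016) (.lf (nat_lit 0x51b442040)) (.lf (nat_lit 0x51c0c2040))) (.nd (nat_lit 21945655360) (.lf (nat_lit 0x51c102040)) (.lf (nat_lit 0x51c103040))))))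 (.nd (nat_lit 21945925760) (.nd (nat_lit 21945921600) (.nd (nat_lit 21945659521) (.nd (nat_lit 21945659520) (.lf (nat_lit 0x51c103080)) (.lf (nat_lit 0x51c103081))) (.nd (nat_lit 21945917504) (.lf (nat_lit 0x51c142040)) (.lf (nat_lit 0x51c143040)))) (.nd (nat_lit 21945921665) (.nd (nat_lit 21945921664) (.lf (nat_lit 0x51c143080)) (.lf (nat_lit 0x51c143081))) (.nd (nat_lit 21945925696) (.lf (nat_lit 0x51c144040)) (.lf (nat_lit 0x51c144080))))) (.nd (nat_lit 21946187840) (.nd (nat_lit 21946183744) (.nd (nat_lit 21946179648) (.lf (nat_lit 0x51c182040)) (.lf (nat_lit 0x51c183040))) (.nd (nat_lit 21946183808) (.lf (nat_lit 0x51c183080)) (.lf (nat_lit 0x51c184040)))) (.nd (nat_lit 21946191936) (.nd (nat_lit 21946187904) (.lf (nat_lit 0x51c184080)) (.lf (nat_lit 0x51c185040))) (.nd (nat_lit 21946441792) (.lf (nat_lit 0x51c1c2040)) (.lf (nat_lit 0x51c1c3040))))))) (.nd (nat_lit 21946974272) (.nd (nat_lit 21946708096) (.nd (nat_lit 21946454080)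 (.nd (nat_lit 21946449984) (.nd (nat_lit 21946445952) (.lf (nat_lit 0x51c1c3080)) (.lf (nat_lit 0x51c1c4040))) (.nd (nat_lit 21946450048) (.lf (nat_lit 0x51c1c4080)) (.lf (nat_lit 0x51c1c5040)))) (.nd (nat_lit 21946703936) (.nd (nat_lit 21946458176) (.lf (nat_lit 0x51c1c6040)) (.lf (nat_lit 0x51c202040))) (.nd (nat_lit 21946708032) (.lf (nat_lit 0x51c203040)) (.lf (nat_lit 0x51c203080))))) (.nd (nat_lit 21946724416) (.nd (nat_lit 21946716224) (.nd (nat_lit 21946712128) (.lf (nat_lit 0x51c204040)) (.lf (nat_lit 0x51c205040))) (.nd (nat_lit 21946720320) (.lf (nat_lit 0x51c206040)) (.lf (nat_lit 0x51c207040)))) (.nd (nat_lit 21946970176) (.nd (nat_lit 21946966080) (.lf (nat_lit 0x51c242040)) (.lf (nat_lit 0x51c243040))) (.nd (nat_lit 21946970240) (.lf (nat_lit 0x51c243080)) (.lf (nat_lit 0x51c244040)))))) (.nd (nat_lit 21947232384) (.nd (nat_lit 21946986624) (.nd (nat_lit 21946982464) (.nd (nat_lit 21946978368) (.lf (nat_lit 0x51c245040))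 (.lf (nat_lit 0x51c246040))) (.nd (nat_lit 21946986560) (.lf (nat_lit 0x51c247040)) (.lf (nat_lit 0x51c247080)))) (.nd (nat_lit 21947228224) (.nd (nat_lit 21946990656) (.lf (nat_lit 0x51c248040)) (.lf (nat_lit 0x51c282040))) (.nd (nat_lit 21947232320) (.lf (nat_lit 0x51c283040)) (.lf (nat_lit 0x51c283080))))) (.nd (nat_lit 21947240576) (.nd (nat_lit 21947236480) (.nd (nat_lit 21947236416) (.lf (nat_lit 0x51c284040)) (.lf (nat_lit 0x51c284080))) (.nd (nat_lit 21947240512) (.lf (nat_lit 0x51c285040)) (.lf (nat_lit 0x51c285080)))) (.nd (nat_lit 21947244608) (.nd (nat_lit 21947240640) (.lf (nat_lit 0x51c2850c0)) (.lf (nat_lit 0x51c286040))) (.nd (nat_lit 21947244672) (.lf (nat_lit 0x51c286080)) (.lf (nat_lit 0x51c287040))))))))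
noncomputable def jt7_6 : BT := (.nd (nat_lit 21962698881) (.nd (nat_lit 21947764800) (.nd (nat_lit 21947502720) (.nd (nat_lit 21947498560) (.nd (nat_lit 21947494464) (.nd (nat_lit 21947490368) (.lf (nat_lit 0x51c2c2040)) (.lf (nat_lit 0x51c2c3040))) (.nd (nat_lit 21947494528) (.lf (nat_lit 0x51c2c3080)) (.lf (nat_lit 0x51c2c4040)))) (.nd (nat_lit 21947498688) (.nd (nat_lit 21947498624) (.lf (nat_lit 0x51c2c4080)) (.lf (nat_lit 0x51c2c40c0))) (.nd (nat_lit 21947502656) (.lf (nat_lit 0x51c2c5040)) (.lf (nat_lit 0x51c2c5080))))) (.nd (nat_lit 21947756672) (.nd (nat_lit 21947752512) (.nd (nat_lit 21947506752) (.lf (nat_lit 0x51c2c6040)) (.lf (nat_lit 0x51c302040))) (.nd (nat_lit 21947756608) (.lf (nat_lit 0x51c303040)) (.lf (nat_lit 0x51c303080)))) (.nd (nat_lit 21947760704) (.nd (nat_lit 21947756673) (.lf (nat_lit 0x51c303081)) (.lf (nat_lit 0x51c304040))) (.nd (nat_lit 21947760768) (.lf (nat_lit 0x51c304080)) (.lf (nat_lit 0x51c305040))))))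 (.nd (nat_lit 21962170432) (.nd (nat_lit 21948022848) (.nd (nat_lit 21948018752) (.nd (nat_lit 21948014656) (.lf (nat_lit 0x51c342040)) (.lf (nat_lit 0x51c343040))) (.nd (nat_lit 21948018816) (.lf (nat_lit 0x51c343080)) (.lf (nat_lit 0x51c344040)))) (.nd (nat_lit 21948280896) (.nd (nat_lit 21948276800) (.lf (nat_lit 0x51c382040)) (.lf (nat_lit 0x51c383040))) (.nd (nat_lit 21948538944) (.lf (nat_lit 0x51c3c2040)) (.lf (nat_lit 0x51d0c2040))))) (.nd (nat_lit 21962436737) (.nd (nat_lit 21962436672) (.nd (nat_lit 21962432576) (.lf (nat_lit 0x51d102040)) (.lf (nat_lit 0x51d103040))) (.nd (nat_lit 21962436736) (.lf (nat_lit 0x51d103080)) (.lf (nat_lit 0x51d103081)))) (.nd (nat_lit 21962698816) (.nd (nat_lit 21962694720) (.lf (nat_lit 0x51d142040)) (.lf (nat_lit 0x51d143040))) (.nd (nat_lit 21962698880) (.lf (nat_lit 0x51d143080)) (.lf (nat_lit 0x51d143081))))))) (.nd (nat_lit 21963227200) (.nd (nat_lit 21962965056) (.nd (nat_lit 21962956864)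 (.nd (nat_lit 21962702976) (.nd (nat_lit 21962702912) (.lf (nat_lit 0x51d144040)) (.lf (nat_lit 0x51d144080))) (.nd (nat_lit 21962703040) (.lf (nat_lit 0x51d1440c0)) (.lf (nat_lit 0x51d182040)))) (.nd (nat_lit 21962961024) (.nd (nat_lit 21962960960) (.lf (nat_lit 0x51d183040)) (.lf (nat_lit 0x51d183080))) (.nd (nat_lit 21962961025) (.lf (nat_lit 0x51d183081)) (.lf (nat_lit 0x51d184040))))) (.nd (nat_lit 21962969216) (.nd (nat_lit 21962965184) (.nd (nat_lit 21962965120) (.lf (nat_lit 0x51d184080)) (.lf (nat_lit 0x51d1840c0))) (.nd (nat_lit 21962969152) (.lf (nat_lit 0x51d185040)) (.lf (nat_lit 0x51d185080)))) (.nd (nat_lit 21963223104) (.nd (nat_lit 21963219008) (.lf (nat_lit 0x51d1c2040)) (.lf (nat_lit 0x51d1c3040))) (.nd (nat_lit 21963223168) (.lf (nat_lit 0x51d1c3080)) (.lf (nat_lit 0x51d1c4040)))))) (.nd (nat_lit 21963235456) (.nd (nat_lit 21963231360) (.nd (nat_lit 21963227328) (.nd (nat_lit 21963227264) (.lf (nat_lit 0x51d1c4080))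 (.lf (nat_lit 0x51d1c40c0))) (.nd (nat_lit 21963231296) (.lf (nat_lit 0x51d1c5040)) (.lf (nat_lit 0x51d1c5080)))) (.nd (nat_lit 21963231488) (.nd (nat_lit 21963231424) (.lf (nat_lit 0x51d1c50c0)) (.lf (nat_lit 0x51d1c5100))) (.nd (nat_lit 21963235392) (.lf (nat_lit 0x51d1c6040)) (.lf (nat_lit 0x51d1c6080))))) (.nd (nat_lit 21963485312) (.nd (nat_lit 21963481152) (.nd (nat_lit 21963235520) (.lf (nat_lit 0x51d1c60c0)) (.lf (nat_lit 0x51d202040))) (.nd (nat_lit 21963485248) (.lf (nat_lit 0x51d203040)) (.lf (nat_lit 0x51d203080)))) (.nd (nat_lit 21963489408) (.nd (nat_lit 21963489344) (.lf (nat_lit 0x51d204040)) (.lf (nat_lit 0x51d204080))) (.nd (nat_lit 21963489472) (.lf (nat_lit 0x51d2040c0)) (.lf (nat_lit 0x51d205040))))))))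
noncomputable def jt7_7 : BT := (.nd (nat_lit 21979209792) (.nd (nat_lit 21963759680) (.nd (nat_lit 21963747456) (.nd (nat_lit 21963497600) (.nd (nat_lit 21963493568) (.nd (nat_lit 21963493504) (.lf (nat_lit 0x51d205080)) (.lf (nat_lit 0x51d2050c0))) (.nd (nat_lit 21963497536) (.lf (nat_lit 0x51d206040)) (.lf (nat_lit 0x51d206080)))) (.nd (nat_lit 21963743296) (.nd (nat_lit 21963501632) (.lf (nat_lit 0x51d207040)) (.lf (nat_lit 0x51d242040))) (.nd (nat_lit 21963747392) (.lf (nat_lit 0x51d243040)) (.lf (nat_lit 0x51d243080))))) (.nd (nat_lit 21963751553) (.nd (nat_lit 21963751488) (.nd (nat_lit 21963747457) (.lf (nat_lit 0x51d243081)) (.lf (nat_lit 0x51d244040))) (.nd (nat_lit 21963751552) (.lf (nat_lit 0x51d244080)) (.lf (nat_lit 0x51d244081)))) (.nd (nat_lit 21963755584) (.nd (nat_lit 21963751616) (.lf (nat_lit 0x51d2440c0)) (.lf (nat_lit 0x51d245040))) (.nd (nat_lit 21963755648) (.lf (nat_lit 0x51d245080)) (.lf (nat_lit 0x51d246040))))))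 (.nd (nat_lit 21964267584) (.nd (nat_lit 21964009601) (.nd (nat_lit 21964009536) (.nd (nat_lit 21964005440) (.lf (nat_lit 0x51d282040)) (.lf (nat_lit 0x51d283040))) (.nd (nat_lit 21964009600) (.lf (nat_lit 0x51d283080)) (.lf (nat_lit 0x51d283081)))) (.nd (nat_lit 21964013696) (.nd (nat_lit 21964013632) (.lf (nat_lit 0x51d284040)) (.lf (nat_lit 0x51d284080))) (.nd (nat_lit 21964017728) (.lf (nat_lit 0x51d285040)) (.lf (nat_lit 0x51d2c2040))))) (.nd (nat_lit 21964529728) (.nd (nat_lit 21964271744) (.nd (nat_lit 21964271680) (.lf (nat_lit 0x51d2c3040)) (.lf (nat_lit 0x51d2c3080))) (.nd (nat_lit 21964275776) (.lf (nat_lit 0x51d2c4040)) (.lf (nat_lit 0x51d302040)))) (.nd (nat_lit 21964791872) (.nd (nat_lit 21964533824) (.lf (nat_lit 0x51d303040)) (.lf (nat_lit 0x51d342040))) (.nd (nat_lit 21978947648) (.lf (nat_lit 0x51e0c2040)) (.lf (nat_lit 0x51e102040))))))) (.nd (nat_lit 21979738241) (.nd (nat_lit 21979480128) (.nd (nat_lit 21979471936)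 (.nd (nat_lit 21979213952) (.nd (nat_lit 21979213888) (.lf (nat_lit 0x51e103040)) (.lf (nat_lit 0x51e103080))) (.nd (nat_lit 21979213953) (.lf (nat_lit 0x51e103081)) (.lf (nat_lit 0x51e142040)))) (.nd (nat_lit 21979476096) (.nd (nat_lit 21979476032) (.lf (nat_lit 0x51e143040)) (.lf (nat_lit 0x51e143080))) (.nd (nat_lit 21979476097) (.lf (nat_lit 0x51e143081)) (.lf (nat_lit 0x51e144040))))) (.nd (nat_lit 21979480257) (.nd (nat_lit 21979480193) (.nd (nat_lit 21979480192) (.lf (nat_lit 0x51e144080)) (.lf (nat_lit 0x51e144081))) (.nd (nat_lit 21979480256) (.lf (nat_lit 0x51e1440c0)) (.lf (nat_lit 0x51e1440c1)))) (.nd (nat_lit 21979738176) (.nd (nat_lit 21979734080) (.lf (nat_lit 0x51e182040)) (.lf (nat_lit 0x51e183040))) (.nd (nat_lit 21979738240) (.lf (nat_lit 0x51e183080)) (.lf (nat_lit 0x51e183081)))))) (.nd (nat_lit 21979746433) (.nd (nat_lit 21979742400) (.nd (nat_lit 21979742336) (.nd (nat_lit 21979742272) (.lf (nat_lit 0x51e184040))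 (.lf (nat_lit 0x51e184080))) (.nd (nat_lit 21979742337) (.lf (nat_lit 0x51e184081)) (.lf (nat_lit 0x51e1840c0)))) (.nd (nat_lit 21979746368) (.nd (nat_lit 21979742401) (.lf (nat_lit 0x51e1840c1)) (.lf (nat_lit 0x51e185040))) (.nd (nat_lit 21979746432) (.lf (nat_lit 0x51e185080)) (.lf (nat_lit 0x51e185081))))) (.nd (nat_lit 21980000384) (.nd (nat_lit 21979996224) (.nd (nat_lit 21979746496) (.lf (nat_lit 0x51e1850c0)) (.lf (nat_lit 0x51e1c2040))) (.nd (nat_lit 21980000320) (.lf (nat_lit 0x51e1c3040)) (.lf (nat_lit 0x51e1c3080)))) (.nd (nat_lit 21980004416) (.nd (nat_lit 21980000385) (.lf (nat_lit 0x51e1c3081)) (.lf (nat_lit 0x51e1c4040))) (.nd (nat_lit 21980004480) (.lf (nat_lit 0x51e1c4080)) (.lf (nat_lit 0x51e1c4081))))))))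
noncomputable def jt7_8 : BT := (.nd (nat_lit 21996257472) (.nd (nat_lit 21980528704) (.nd (nat_lit 21980262528) (.nd (nat_lit 21980008576) (.nd (nat_lit 21980004544) (.lf (nat_lit 0x51e1c40c0)) (.nd (nat_lit 21980008512) (.lf (nat_lit 0x51e1c5040)) (.lf (nat_lit 0x51e1c5080)))) (.nd (nat_lit 21980258368) (.nd (nat_lit 21980012608) (.lf (nat_lit 0x51e1c6040)) (.lf (nat_lit 0x51e202040))) (.nd (nat_lit 21980262464) (.lf (nat_lit 0x51e203040)) (.lf (nat_lit 0x51e203080))))) (.nd (nat_lit 21980270656) (.nd (nat_lit 21980266560) (.nd (nat_lit 21980262529) (.lf (nat_lit 0x51e203081)) (.lf (nat_lit 0x51e204040))) (.nd (nat_lit 21980266624) (.lf (nat_lit 0x51e204080)) (.lf (nat_lit 0x51e205040)))) (.nd (nat_lit 21980524608) (.nd (nat_lit 21980520512) (.lf (nat_lit 0x51e242040)) (.lf (nat_lit 0x51e243040))) (.nd (nat_lit 21980524672) (.lf (nat_lit 0x51e243080)) (.lf (nat_lit 0x51e244040)))))) (.nd (nat_lit 21995991169) (.nd (nat_lit 21995724864)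 (.nd (nat_lit 21980786752) (.nd (nat_lit 21980782656) (.lf (nat_lit 0x51e282040)) (.lf (nat_lit 0x51e283040))) (.nd (nat_lit 21981044800) (.lf (nat_lit 0x51e2c2040)) (.lf (nat_lit 0x51f0c2040)))) (.nd (nat_lit 21995991104) (.nd (nat_lit 21995987008) (.lf (nat_lit 0x51f102040)) (.lf (nat_lit 0x51f103040))) (.nd (nat_lit 21995991168) (.lf (nat_lit 0x51f103080)) (.lf (nat_lit 0x51f103081))))) (.nd (nat_lit 21996253313) (.nd (nat_lit 21996253248) (.nd (nat_lit 21996249152) (.lf (nat_lit 0x51f142040)) (.lf (nat_lit 0x51f143040))) (.nd (nat_lit 21996253312) (.lf (nat_lit 0x51f143080)) (.lf (nat_lit 0x51f143081)))) (.nd (nat_lit 21996257408) (.nd (nat_lit 21996257344) (.lf (nat_lit 0x51f144040)) (.lf (nat_lit 0x51f144080))) (.nd (nat_lit 21996257409) (.lf (nat_lit 0x51f144081)) (.lf (nat_lit 0x51f1440c0))))))) (.nd (nat_lit 22012502080) (.nd (nat_lit 21996523584) (.nd (nat_lit 21996515456) (.nd (nat_lit 21996511296) (.lf (nat_lit 0x51f182040))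 (.nd (nat_lit 21996515392) (.lf (nat_lit 0x51f183040)) (.lf (nat_lit 0x51f183080)))) (.nd (nat_lit 21996519488) (.nd (nat_lit 21996515457) (.lf (nat_lit 0x51f183081)) (.lf (nat_lit 0x51f184040))) (.nd (nat_lit 21996519552) (.lf (nat_lit 0x51f184080)) (.lf (nat_lit 0x51f185040))))) (.nd (nat_lit 21996781632) (.nd (nat_lit 21996777536) (.nd (nat_lit 21996773440) (.lf (nat_lit 0x51f1c2040)) (.lf (nat_lit 0x51f1c3040))) (.nd (nat_lit 21996777600) (.lf (nat_lit 0x51f1c3080)) (.lf (nat_lit 0x51f1c4040)))) (.nd (nat_lit 21997039680) (.nd (nat_lit 21997035584) (.lf (nat_lit 0x51f202040)) (.lf (nat_lit 0x51f203040))) (.nd (nat_lit 21997297728) (.lf (nat_lit 0x51f242040)) (.lf (nat_lit 0x5200c2040)))))) (.nd (nat_lit 22013034560) (.nd (nat_lit 22012768385) (.nd (nat_lit 22012768320) (.nd (nat_lit 22012764224) (.lf (nat_lit 0x520102040)) (.lf (nat_lit 0x520103040))) (.nd (nat_lit 22012768384) (.lf (nat_lit 0x520103080)) (.lf (nat_lit 0x520103081))))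 (.nd (nat_lit 22013030464) (.nd (nat_lit 22013026368) (.lf (nat_lit 0x520142040)) (.lf (nat_lit 0x520143040))) (.nd (nat_lit 22013030528) (.lf (nat_lit 0x520143080)) (.lf (nat_lit 0x520144040))))) (.nd (nat_lit 22029279296) (.nd (nat_lit 22013292608) (.nd (nat_lit 22013288512) (.lf (nat_lit 0x520182040)) (.lf (nat_lit 0x520183040))) (.nd (nat_lit 22013550656) (.lf (nat_lit 0x5201c2040)) (.lf (nat_lit 0x5210c2040)))) (.nd (nat_lit 22029545536) (.nd (nat_lit 22029541440) (.lf (nat_lit 0x521102040)) (.lf (nat_lit 0x521103040))) (.nd (nat_lit 22029803584) (.lf (nat_lit 0x521142040)) (.lf (nat_lit 0x5220c2040))))))))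
noncomputable def jt7 : BT := (.nd (nat_lit 21915254848) (.nd (nat_lit 21882482752) (.nd (nat_lit 21865463872) jt7_0 jt7_1) (.nd (nat_lit 21898747968) jt7_2 jt7_3)) (.nd (nat_lit 21947248704) (.nd (nat_lit 21931499584) jt7_4 jt7_5) (.nd (nat_lit 21963493440) jt7_6 (.nd (nat_lit 21980004481) jt7_7 jt7_8))))
def jg7 : Cfg := ⟨79, 70, 24, 10, 38⟩
noncomputable def jX7 : F3 := XRc 10 99 99 99 0
noncomputable def jt8_0 : BT := (.nd (nat_lit 24026296384) (.nd (nat_lit 23992213568) (.nd (nat_lit 23942148160) (.nd (nat_lit 23925104704) (.nd (nat_lit 23908327488) (.nd (nat_lit 23891550272) (.lf (nat_lit 0x5900c2040)) (.lf (nat_lit 0x5910c2040))) (.nd (nat_lit 23908589632) (.lf (nat_lit 0x591102040)) (.lf (nat_lit 0x5920c2040)))) (.nd (nat_lit 23941881920) (.nd (nat_lit 23925366848) (.lf (nat_lit 0x592102040)) (.lf (nat_lit 0x5930c2040))) (.nd (nat_lit 23942144064) (.lf (nat_lit 0x593102040)) (.lf (nat_lit 0x593103040))))) (.nd (nat_lit 23975436352)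 (.nd (nat_lit 23958921280) (.nd (nat_lit 23958659136) (.lf (nat_lit 0x5940c2040)) (.lf (nat_lit 0x594102040))) (.nd (nat_lit 23958925376) (.lf (nat_lit 0x594103040)) (.lf (nat_lit 0x5950c2040)))) (.nd (nat_lit 23975702592) (.nd (nat_lit 23975698496) (.lf (nat_lit 0x595102040)) (.lf (nat_lit 0x595103040))) (.nd (nat_lit 23975960640) (.lf (nat_lit 0x595142040)) (.lf (nat_lit 0x5960c2040)))))) (.nd (nat_lit 24009257088) (.nd (nat_lit 23992737856) (.nd (nat_lit 23992479808) (.nd (nat_lit 23992475712) (.lf (nat_lit 0x596102040)) (.lf (nat_lit 0x596103040))) (.nd (nat_lit 23992479872) (.lf (nat_lit 0x596103080)) (.lf (nat_lit 0x596142040)))) (.nd (nat_lit 24009252928) (.nd (nat_lit 24008990784) (.lf (nat_lit 0x5970c2040)) (.lf (nat_lit 0x597102040))) (.nd (nat_lit 24009257024) (.lf (nat_lit 0x597103040)) (.lf (nat_lit 0x597103080))))) (.nd (nat_lit 24026030144) (.nd (nat_lit 24013971520) (.nd (nat_lit 24009515072) (.lf (nat_lit 0x597142040))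 (.lf (nat_lit 0x597582040))) (.nd (nat_lit 24025768000) (.lf (nat_lit 0x5980c2040)) (.lf (nat_lit 0x598102040)))) (.nd (nat_lit 24026034304) (.nd (nat_lit 24026034240) (.lf (nat_lit 0x598103040)) (.lf (nat_lit 0x598103080))) (.nd (nat_lit 24026292288) (.lf (nat_lit 0x598142040)) (.lf (nat_lit 0x598143040))))))) (.nd (nat_lit 24043331648) (.nd (nat_lit 24031027264) (.nd (nat_lit 24031010880) (.nd (nat_lit 24030486592) (.nd (nat_lit 24026554432) (.lf (nat_lit 0x598182040)) (.lf (nat_lit 0x598542040))) (.nd (nat_lit 24030748736) (.lf (nat_lit 0x598582040)) (.lf (nat_lit 0x5985c2040)))) (.nd (nat_lit 24031019072) (.nd (nat_lit 24031014976) (.lf (nat_lit 0x5985c3040)) (.lf (nat_lit 0x5985c4040))) (.nd (nat_lit 24031023168) (.lf (nat_lit 0x5985c5040)) (.lf (nat_lit 0x5985c6040))))) (.nd (nat_lit 24042811456) (.nd (nat_lit 24042545216) (.nd (nat_lit 24031031360) (.lf (nat_lit 0x5985c7040)) (.lf (nat_lit 0x5990c2040))) (.nd (nat_lit 24042807360)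 (.lf (nat_lit 0x599102040)) (.lf (nat_lit 0x599103040)))) (.nd (nat_lit 24043069504) (.nd (nat_lit 24042811520) (.lf (nat_lit 0x599103080)) (.lf (nat_lit 0x599142040))) (.nd (nat_lit 24043073600) (.lf (nat_lit 0x599143040)) (.lf (nat_lit 0x599182040)))))) (.nd (nat_lit 24047542336) (.nd (nat_lit 24047525952) (.nd (nat_lit 24047263808) (.nd (nat_lit 24047001664) (.lf (nat_lit 0x599502040)) (.lf (nat_lit 0x599542040))) (.nd (nat_lit 24047267904) (.lf (nat_lit 0x599543040)) (.lf (nat_lit 0x599582040)))) (.nd (nat_lit 24047534144) (.nd (nat_lit 24047530048) (.lf (nat_lit 0x599583040)) (.lf (nat_lit 0x599584040))) (.nd (nat_lit 24047538240) (.lf (nat_lit 0x599585040)) (.lf (nat_lit 0x599586040))))) (.nd (nat_lit 24047792256) (.nd (nat_lit 24047788096) (.nd (nat_lit 24047546432) (.lf (nat_lit 0x599587040)) (.lf (nat_lit 0x5995c2040))) (.nd (nat_lit 24047792192) (.lf (nat_lit 0x5995c3040)) (.lf (nat_lit 0x5995c3080)))) (.nd (nat_lit 24047796352)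 (.nd (nat_lit 24047796288) (.lf (nat_lit 0x5995c4040)) (.lf (nat_lit 0x5995c4080))) (.nd (nat_lit 24047796353) (.lf (nat_lit 0x5995c4081)) (.lf (nat_lit 0x5995c5040))))))))
noncomputable def jt8_1 : BT := (.nd (nat_lit 24064307264) (.nd (nat_lit 24060108864) (.nd (nat_lit 24048062528) (.nd (nat_lit 24048054400) (.nd (nat_lit 24048050240) (.nd (nat_lit 24047804480) (.lf (nat_lit 0x5995c6040)) (.lf (nat_lit 0x599602040))) (.nd (nat_lit 24048054336) (.lf (nat_lit 0x599603040)) (.lf (nat_lit 0x599603080)))) (.nd (nat_lit 24048058432) (.nd (nat_lit 24048054401) (.lf (nat_lit 0x599603081)) (.lf (nat_lit 0x599604040))) (.nd (nat_lit 24048058496) (.lf (nat_lit 0x599604080)) (.lf (nat_lit 0x599605040))))) (.nd (nat_lit 24059588736) (.nd (nat_lit 24059584576) (.nd (nat_lit 24059322432) (.lf (nat_lit 0x59a0c2040)) (.lf (nat_lit 0x59a102040))) (.nd (nat_lit 24059588672) (.lf (nat_lit 0x59a103040)) (.lf (nat_lit 0x59a103080)))) (.nd (nat_lit 24059846720)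 (.nd (nat_lit 24059588737) (.lf (nat_lit 0x59a103081)) (.lf (nat_lit 0x59a142040))) (.nd (nat_lit 24059850816) (.lf (nat_lit 0x59a143040)) (.lf (nat_lit 0x59a182040)))))) (.nd (nat_lit 24064041024) (.nd (nat_lit 24063541312) (.nd (nat_lit 24063254592) (.nd (nat_lit 24060371008) (.lf (nat_lit 0x59a1c2040)) (.lf (nat_lit 0x59a482040))) (.nd (nat_lit 24063516736) (.lf (nat_lit 0x59a4c2040)) (.lf (nat_lit 0x59a4c8040)))) (.nd (nat_lit 24063782976) (.nd (nat_lit 24063778880) (.lf (nat_lit 0x59a502040)) (.lf (nat_lit 0x59a503040))) (.nd (nat_lit 24063799360) (.lf (nat_lit 0x59a507040)) (.lf (nat_lit 0x59a542040))))) (.nd (nat_lit 24064049280) (.nd (nat_lit 24064045184) (.nd (nat_lit 24064045120) (.lf (nat_lit 0x59a543040)) (.lf (nat_lit 0x59a543080))) (.nd (nat_lit 24064049216) (.lf (nat_lit 0x59a544040)) (.lf (nat_lit 0x59a544080)))) (.nd (nat_lit 24064057408) (.nd (nat_lit 24064053312) (.lf (nat_lit 0x59a545040)) (.lf (nat_lit 0x59a546040)))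 (.nd (nat_lit 24064303168) (.lf (nat_lit 0x59a582040)) (.lf (nat_lit 0x59a583040))))))) (.nd (nat_lit 24076365952) (.nd (nat_lit 24064569472) (.nd (nat_lit 24064311424) (.nd (nat_lit 24064307329) (.nd (nat_lit 24064307328) (.lf (nat_lit 0x59a583080)) (.lf (nat_lit 0x59a583081))) (.nd (nat_lit 24064311360) (.lf (nat_lit 0x59a584040)) (.lf (nat_lit 0x59a584080)))) (.nd (nat_lit 24064565312) (.nd (nat_lit 24064315456) (.lf (nat_lit 0x59a585040)) (.lf (nat_lit 0x59a5c2040))) (.nd (nat_lit 24064569408) (.lf (nat_lit 0x59a5c3040)) (.lf (nat_lit 0x59a5c3080))))) (.nd (nat_lit 24065089600) (.nd (nat_lit 24064827456) (.nd (nat_lit 24064573504) (.lf (nat_lit 0x59a5c4040)) (.lf (nat_lit 0x59a602040))) (.nd (nat_lit 24064831552) (.lf (nat_lit 0x59a603040)) (.lf (nat_lit 0x59a642040)))) (.nd (nat_lit 24076361792) (.nd (nat_lit 24076099648) (.lf (nat_lit 0x59b0c2040)) (.lf (nat_lit 0x59b102040))) (.nd (nat_lit 24076365888) (.lf (nat_lit 0x59b103040))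 (.lf (nat_lit 0x59b103080)))))) (.nd (nat_lit 24077148224) (.nd (nat_lit 24076628096) (.nd (nat_lit 24076623936) (.nd (nat_lit 24076365953) (.lf (nat_lit 0x59b103081)) (.lf (nat_lit 0x59b142040))) (.nd (nat_lit 24076628032) (.lf (nat_lit 0x59b143040)) (.lf (nat_lit 0x59b143080)))) (.nd (nat_lit 24076886080) (.nd (nat_lit 24076632128) (.lf (nat_lit 0x59b144040)) (.lf (nat_lit 0x59b182040))) (.nd (nat_lit 24076890176) (.lf (nat_lit 0x59b183040)) (.lf (nat_lit 0x59b1c2040))))) (.nd (nat_lit 24079769664) (.nd (nat_lit 24077672512) (.nd (nat_lit 24077410368) (.lf (nat_lit 0x59b202040)) (.lf (nat_lit 0x59b242040))) (.nd (nat_lit 24079507520) (.lf (nat_lit 0x59b402040)) (.lf (nat_lit 0x59b442040)))) (.nd (nat_lit 24080035904) (.nd (nat_lit 24080031808) (.lf (nat_lit 0x59b482040)) (.lf (nat_lit 0x59b483040))) (.nd (nat_lit 24080052288) (.lf (nat_lit 0x59b487040)) (.lf (nat_lit 0x59b4c2040))))))))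
noncomputable def jt8_2 : BT := (.nd (nat_lit 24094187584) (.nd (nat_lit 24081080384) (.nd (nat_lit 24080560256) (.nd (nat_lit 24080306304) (.nd (nat_lit 24080302144) (.nd (nat_lit 24080298048) (.lf (nat_lit 0x59b4c3040)) (.lf (nat_lit 0x59b4c4040))) (.nd (nat_lit 24080306240) (.lf (nat_lit 0x59b4c5040)) (.lf (nat_lit 0x59b4c5080)))) (.nd (nat_lit 24080556096) (.nd (nat_lit 24080310336) (.lf (nat_lit 0x59b4c6040)) (.lf (nat_lit 0x59b502040))) (.nd (nat_lit 24080560192) (.lf (nat_lit 0x59b503040)) (.lf (nat_lit 0x59b503080))))) (.nd (nat_lit 24080818240) (.nd (nat_lit 24080564352) (.nd (nat_lit 24080564288) (.lf (nat_lit 0x59b504040)) (.lf (nat_lit 0x59b504080))) (.nd (nat_lit 24080568384) (.lf (nat_lit 0x59b505040)) (.lf (nat_lit 0x59b542040)))) (.nd (nat_lit 24080822400) (.nd (nat_lit 24080822336) (.lf (nat_lit 0x59b543040)) (.lf (nat_lit 0x59b543080))) (.nd (nat_lit 24080826432) (.lf (nat_lit 0x59b544040)) (.lf (nat_lit 0x59b582040))))))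 (.nd (nat_lit 24093401152) (.nd (nat_lit 24093139008) (.nd (nat_lit 24081342528) (.nd (nat_lit 24081084480) (.lf (nat_lit 0x59b583040)) (.lf (nat_lit 0x59b5c2040))) (.nd (nat_lit 24092876864) (.lf (nat_lit 0x59c0c2040)) (.lf (nat_lit 0x59c102040)))) (.nd (nat_lit 24093143168) (.nd (nat_lit 24093143104) (.lf (nat_lit 0x59c103040)) (.lf (nat_lit 0x59c103080))) (.nd (nat_lit 24093143169) (.lf (nat_lit 0x59c103081)) (.lf (nat_lit 0x59c142040))))) (.nd (nat_lit 24093663296) (.nd (nat_lit 24093405312) (.nd (nat_lit 24093405248) (.lf (nat_lit 0x59c143040)) (.lf (nat_lit 0x59c143080))) (.nd (nat_lit 24093409344) (.lf (nat_lit 0x59c144040)) (.lf (nat_lit 0x59c182040)))) (.nd (nat_lit 24093925440) (.nd (nat_lit 24093667392) (.lf (nat_lit 0x59c183040)) (.lf (nat_lit 0x59c1c2040))) (.nd (nat_lit 24093929536) (.lf (nat_lit 0x59c1c3040)) (.lf (nat_lit 0x59c202040))))))) (.nd (nat_lit 24096809024) (.nd (nat_lit 24096284736) (.nd (nat_lit 24095236160)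 (.nd (nat_lit 24094711872) (.nd (nat_lit 24094449728) (.lf (nat_lit 0x59c242040)) (.lf (nat_lit 0x59c282040))) (.nd (nat_lit 24094974016) (.lf (nat_lit 0x59c2c2040)) (.lf (nat_lit 0x59c302040)))) (.nd (nat_lit 24095760448) (.nd (nat_lit 24095498304) (.lf (nat_lit 0x59c342040)) (.lf (nat_lit 0x59c382040))) (.nd (nat_lit 24096022592) (.lf (nat_lit 0x59c3c2040)) (.lf (nat_lit 0x59c402040))))) (.nd (nat_lit 24096550976) (.nd (nat_lit 24096305216) (.nd (nat_lit 24096288832) (.lf (nat_lit 0x59c403040)) (.lf (nat_lit 0x59c407040))) (.nd (nat_lit 24096546880) (.lf (nat_lit 0x59c442040)) (.lf (nat_lit 0x59c443040)))) (.nd (nat_lit 24096559168) (.nd (nat_lit 24096555072) (.lf (nat_lit 0x59c444040)) (.lf (nat_lit 0x59c445040))) (.nd (nat_lit 24096563264) (.lf (nat_lit 0x59c446040)) (.lf (nat_lit 0x59c482040)))))) (.nd (nat_lit 24097075328) (.nd (nat_lit 24096817280) (.nd (nat_lit 24096813184) (.nd (nat_lit 24096813120) (.lf (nat_lit 0x59c483040))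 (.lf (nat_lit 0x59c483080))) (.nd (nat_lit 24096817216) (.lf (nat_lit 0x59c484040)) (.lf (nat_lit 0x59c484080)))) (.nd (nat_lit 24097071168) (.nd (nat_lit 24096821312) (.lf (nat_lit 0x59c485040)) (.lf (nat_lit 0x59c4c2040))) (.nd (nat_lit 24097075264) (.lf (nat_lit 0x59c4c3040)) (.lf (nat_lit 0x59c4c3080))))) (.nd (nat_lit 24097595456) (.nd (nat_lit 24097333312) (.nd (nat_lit 24097079360) (.lf (nat_lit 0x59c4c4040)) (.lf (nat_lit 0x59c502040))) (.nd (nat_lit 24097337408) (.lf (nat_lit 0x59c503040)) (.lf (nat_lit 0x59c542040)))) (.nd (nat_lit 24109916224) (.nd (nat_lit 24109654080) (.lf (nat_lit 0x59d0c2040)) (.lf (nat_lit 0x59d102040))) (.nd (nat_lit 24109920320) (.lf (nat_lit 0x59d103040)) (.lf (nat_lit 0x59d103080))))))))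
noncomputable def jt8_3 : BT := (.nd (nat_lit 24113070144) (.nd (nat_lit 24111489088) (.nd (nat_lit 24110444672) (.nd (nat_lit 24110182528) (.nd (nat_lit 24110178368) (.nd (nat_lit 24109920385) (.lf (nat_lit 0x59d103081)) (.lf (nat_lit 0x59d142040))) (.nd (nat_lit 24110182464) (.lf (nat_lit 0x59d143040)) (.lf (nat_lit 0x59d143080)))) (.nd (nat_lit 24110440512) (.nd (nat_lit 24110186560) (.lf (nat_lit 0x59d144040)) (.lf (nat_lit 0x59d182040))) (.nd (nat_lit 24110444608) (.lf (nat_lit 0x59d183040)) (.lf (nat_lit 0x59d183080))))) (.nd (nat_lit 24110964800) (.nd (nat_lit 24110702656) (.nd (nat_lit 24110448704) (.lf (nat_lit 0x59d184040)) (.lf (nat_lit 0x59d1c2040))) (.nd (nat_lit 24110706752) (.lf (nat_lit 0x59d1c3040)) (.lf (nat_lit 0x59d202040)))) (.nd (nat_lit 24111226944) (.nd (nat_lit 24110968896) (.lf (nat_lit 0x59d203040)) (.lf (nat_lit 0x59d242040))) (.nd (nat_lit 24111231040) (.lf (nat_lit 0x59d243040)) (.lf (nat_lit 0x59d282040))))))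 (.nd (nat_lit 24112799808) (.nd (nat_lit 24112279616) (.nd (nat_lit 24112013376) (.nd (nat_lit 24111751232) (.lf (nat_lit 0x59d2c2040)) (.lf (nat_lit 0x59d302040))) (.nd (nat_lit 24112275520) (.lf (nat_lit 0x59d342040)) (.lf (nat_lit 0x59d343040)))) (.nd (nat_lit 24112541760) (.nd (nat_lit 24112537664) (.lf (nat_lit 0x59d382040)) (.lf (nat_lit 0x59d383040))) (.nd (nat_lit 24112558144) (.lf (nat_lit 0x59d387040)) (.lf (nat_lit 0x59d3c2040))))) (.nd (nat_lit 24112816192) (.nd (nat_lit 24112808000) (.nd (nat_lit 24112803904) (.lf (nat_lit 0x59d3c3040)) (.lf (nat_lit 0x59d3c4040))) (.nd (nat_lit 24112812096) (.lf (nat_lit 0x59d3c5040)) (.lf (nat_lit 0x59d3c6040)))) (.nd (nat_lit 24113066048) (.nd (nat_lit 24113061952) (.lf (nat_lit 0x59d402040)) (.lf (nat_lit 0x59d403040))) (.nd (nat_lit 24113066112) (.lf (nat_lit 0x59d403080)) (.lf (nat_lit 0x59d404040))))))) (.nd (nat_lit 24126959680) (.nd (nat_lit 24113590336) (.nd (nat_lit 24113328192)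 (.nd (nat_lit 24113074240) (.nd (nat_lit 24113070208) (.lf (nat_lit 0x59d404080)) (.lf (nat_lit 0x59d405040))) (.nd (nat_lit 24113324096) (.lf (nat_lit 0x59d442040)) (.lf (nat_lit 0x59d443040)))) (.nd (nat_lit 24113332288) (.nd (nat_lit 24113328256) (.lf (nat_lit 0x59d443080)) (.lf (nat_lit 0x59d444040))) (.nd (nat_lit 24113586240) (.lf (nat_lit 0x59d482040)) (.lf (nat_lit 0x59d483040))))) (.nd (nat_lit 24126697536) (.nd (nat_lit 24126431296) (.nd (nat_lit 24113848384) (.lf (nat_lit 0x59d4c2040)) (.lf (nat_lit 0x59e0c2040))) (.nd (nat_lit 24126693440) (.lf (nat_lit 0x59e102040)) (.lf (nat_lit 0x59e103040)))) (.nd (nat_lit 24126697601) (.nd (nat_lit 24126697600) (.lf (nat_lit 0x59e103080)) (.lf (nat_lit 0x59e103081))) (.nd (nat_lit 24126955584) (.lf (nat_lit 0x59e142040)) (.lf (nat_lit 0x59e143040)))))) (.nd (nat_lit 24127230016) (.nd (nat_lit 24127217728) (.nd (nat_lit 24126963776) (.nd (nat_lit 24126959744) (.lf (nat_lit 0x59e143080))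 (.lf (nat_lit 0x59e144040))) (.nd (nat_lit 24126963840) (.lf (nat_lit 0x59e144080)) (.lf (nat_lit 0x59e182040)))) (.nd (nat_lit 24127221888) (.nd (nat_lit 24127221824) (.lf (nat_lit 0x59e183040)) (.lf (nat_lit 0x59e183080))) (.nd (nat_lit 24127225920) (.lf (nat_lit 0x59e184040)) (.lf (nat_lit 0x59e185040))))) (.nd (nat_lit 24127488064) (.nd (nat_lit 24127483968) (.nd (nat_lit 24127479872) (.lf (nat_lit 0x59e1c2040)) (.lf (nat_lit 0x59e1c3040))) (.nd (nat_lit 24127484032) (.lf (nat_lit 0x59e1c3080)) (.lf (nat_lit 0x59e1c4040)))) (.nd (nat_lit 24127746112) (.nd (nat_lit 24127742016) (.lf (nat_lit 0x59e202040)) (.lf (nat_lit 0x59e203040))) (.nd (nat_lit 24127750208) (.lf (nat_lit 0x59e204040)) (.lf (nat_lit 0x59e242040))))))))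
noncomputable def jt8_4 : BT := (.nd (nat_lit 24143470656) (.nd (nat_lit 24129065088) (.nd (nat_lit 24128790592) (.nd (nat_lit 24128294976) (.nd (nat_lit 24128266304) (.nd (nat_lit 24128008256) (.lf (nat_lit 0x59e243040)) (.lf (nat_lit 0x59e282040))) (.nd (nat_lit 24128270400) (.lf (nat_lit 0x59e283040)) (.lf (nat_lit 0x59e289040)))) (.nd (nat_lit 24128532544) (.nd (nat_lit 24128528448) (.lf (nat_lit 0x59e2c2040)) (.lf (nat_lit 0x59e2c3040))) (.nd (nat_lit 24128553024) (.lf (nat_lit 0x59e2c8040)) (.lf (nat_lit 0x59e302040))))) (.nd (nat_lit 24129052736) (.nd (nat_lit 24128798784) (.nd (nat_lit 24128794688) (.lf (nat_lit 0x59e303040)) (.lf (nat_lit 0x59e304040))) (.nd (nat_lit 24128811072) (.lf (nat_lit 0x59e307040)) (.lf (nat_lit 0x59e342040)))) (.nd (nat_lit 24129060928) (.nd (nat_lit 24129056832) (.lf (nat_lit 0x59e343040)) (.lf (nat_lit 0x59e344040))) (.nd (nat_lit 24129065024) (.lf (nat_lit 0x59e345040)) (.lf (nat_lit 0x59e345080))))))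 (.nd (nat_lit 24129577024) (.nd (nat_lit 24129319040) (.nd (nat_lit 24129314880) (.nd (nat_lit 24129069120) (.lf (nat_lit 0x59e346040)) (.lf (nat_lit 0x59e382040))) (.nd (nat_lit 24129318976) (.lf (nat_lit 0x59e383040)) (.lf (nat_lit 0x59e383080)))) (.nd (nat_lit 24129323136) (.nd (nat_lit 24129323072) (.lf (nat_lit 0x59e384040)) (.lf (nat_lit 0x59e384080))) (.nd (nat_lit 24129327168) (.lf (nat_lit 0x59e385040)) (.lf (nat_lit 0x59e3c2040))))) (.nd (nat_lit 24129839168) (.nd (nat_lit 24129581184) (.nd (nat_lit 24129581120) (.lf (nat_lit 0x59e3c3040)) (.lf (nat_lit 0x59e3c3080))) (.nd (nat_lit 24129585216) (.lf (nat_lit 0x59e3c4040)) (.lf (nat_lit 0x59e402040)))) (.nd (nat_lit 24130101312) (.nd (nat_lit 24129843264) (.lf (nat_lit 0x59e403040)) (.lf (nat_lit 0x59e442040))) (.nd (nat_lit 24143208512) (.lf (nat_lit 0x59f0c2040)) (.lf (nat_lit 0x59f102040))))))) (.nd (nat_lit 24144257088) (.nd (nat_lit 24143740992) (.nd (nat_lit 24143732800)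 (.nd (nat_lit 24143474816) (.nd (nat_lit 24143474752) (.lf (nat_lit 0x59f103040)) (.lf (nat_lit 0x59f103080))) (.nd (nat_lit 24143474817) (.lf (nat_lit 0x59f103081)) (.lf (nat_lit 0x59f142040)))) (.nd (nat_lit 24143736960) (.nd (nat_lit 24143736896) (.lf (nat_lit 0x59f143040)) (.lf (nat_lit 0x59f143080))) (.nd (nat_lit 24143736961) (.lf (nat_lit 0x59f143081)) (.lf (nat_lit 0x59f144040))))) (.nd (nat_lit 24143999104) (.nd (nat_lit 24143994944) (.nd (nat_lit 24143741056) (.lf (nat_lit 0x59f144080)) (.lf (nat_lit 0x59f182040))) (.nd (nat_lit 24143999040) (.lf (nat_lit 0x59f183040)) (.lf (nat_lit 0x59f183080)))) (.nd (nat_lit 24144003200) (.nd (nat_lit 24144003136) (.lf (nat_lit 0x59f184040)) (.lf (nat_lit 0x59f184080))) (.nd (nat_lit 24144007232) (.lf (nat_lit 0x59f185040)) (.lf (nat_lit 0x59f1c2040)))))) (.nd (nat_lit 24144523392) (.nd (nat_lit 24144269376) (.nd (nat_lit 24144261248) (.nd (nat_lit 24144261184) (.lf (nat_lit 0x59f1c3040))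 (.lf (nat_lit 0x59f1c3080))) (.nd (nat_lit 24144265280) (.lf (nat_lit 0x59f1c4040)) (.lf (nat_lit 0x59f1c5040)))) (.nd (nat_lit 24144519232) (.nd (nat_lit 24144273472) (.lf (nat_lit 0x59f1c6040)) (.lf (nat_lit 0x59f202040))) (.nd (nat_lit 24144523328) (.lf (nat_lit 0x59f203040)) (.lf (nat_lit 0x59f203080))))) (.nd (nat_lit 24144781376) (.nd (nat_lit 24144531520) (.nd (nat_lit 24144527424) (.lf (nat_lit 0x59f204040)) (.lf (nat_lit 0x59f205040))) (.nd (nat_lit 24144535616) (.lf (nat_lit 0x59f206040)) (.lf (nat_lit 0x59f242040)))) (.nd (nat_lit 24144785536) (.nd (nat_lit 24144785472) (.lf (nat_lit 0x59f243040)) (.lf (nat_lit 0x59f243080))) (.nd (nat_lit 24144789568) (.lf (nat_lit 0x59f244040)) (.lf (nat_lit 0x59f245040))))))))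
noncomputable def jt8_5 : BT := (.nd (nat_lit 24146096192) (.nd (nat_lit 24145313920) (.nd (nat_lit 24145055808) (.nd (nat_lit 24145043520) (.nd (nat_lit 24144801856) (.nd (nat_lit 24144797760) (.lf (nat_lit 0x59f246040)) (.lf (nat_lit 0x59f247040))) (.nd (nat_lit 24144805952) (.lf (nat_lit 0x59f248040)) (.lf (nat_lit 0x59f282040)))) (.nd (nat_lit 24145047680) (.nd (nat_lit 24145047616) (.lf (nat_lit 0x59f283040)) (.lf (nat_lit 0x59f283080))) (.nd (nat_lit 24145051712) (.lf (nat_lit 0x59f284040)) (.lf (nat_lit 0x59f285040))))) (.nd (nat_lit 24145305664) (.nd (nat_lit 24145059968) (.nd (nat_lit 24145059904) (.lf (nat_lit 0x59f286040)) (.lf (nat_lit 0x59f286080))) (.nd (nat_lit 24145064000) (.lf (nat_lit 0x59f287040)) (.lf (nat_lit 0x59f2c2040)))) (.nd (nat_lit 24145309824) (.nd (nat_lit 24145309760) (.lf (nat_lit 0x59f2c3040)) (.lf (nat_lit 0x59f2c3080))) (.nd (nat_lit 24145313856) (.lf (nat_lit 0x59f2c4040)) (.lf (nat_lit 0x59f2c4080))))))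 (.nd (nat_lit 24145576000) (.nd (nat_lit 24145322048) (.nd (nat_lit 24145317952) (.nd (nat_lit 24145313984) (.lf (nat_lit 0x59f2c40c0)) (.lf (nat_lit 0x59f2c5040))) (.nd (nat_lit 24145318016) (.lf (nat_lit 0x59f2c5080)) (.lf (nat_lit 0x59f2c6040)))) (.nd (nat_lit 24145571904) (.nd (nat_lit 24145567808) (.lf (nat_lit 0x59f302040)) (.lf (nat_lit 0x59f303040))) (.nd (nat_lit 24145571968) (.lf (nat_lit 0x59f303080)) (.lf (nat_lit 0x59f304040))))) (.nd (nat_lit 24145834048) (.nd (nat_lit 24145580096) (.nd (nat_lit 24145576064) (.lf (nat_lit 0x59f304080)) (.lf (nat_lit 0x59f305040))) (.nd (nat_lit 24145829952) (.lf (nat_lit 0x59f342040)) (.lf (nat_lit 0x59f343040)))) (.nd (nat_lit 24145838144) (.nd (nat_lit 24145834112) (.lf (nat_lit 0x59f343080)) (.lf (nat_lit 0x59f344040))) (.nd (nat_lit 24146092096) (.lf (nat_lit 0x59f382040)) (.lf (nat_lit 0x59f383040))))))) (.nd (nat_lit 24160776320) (.nd (nat_lit 24160514112) (.nd (nat_lit 24160251968)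 (.nd (nat_lit 24159985728) (.nd (nat_lit 24146354240) (.lf (nat_lit 0x59f3c2040)) (.lf (nat_lit 0x5a00c2040))) (.nd (nat_lit 24160247872) (.lf (nat_lit 0x5a0102040)) (.lf (nat_lit 0x5a0103040)))) (.nd (nat_lit 24160252033) (.nd (nat_lit 24160252032) (.lf (nat_lit 0x5a0103080)) (.lf (nat_lit 0x5a0103081))) (.nd (nat_lit 24160510016) (.lf (nat_lit 0x5a0142040)) (.lf (nat_lit 0x5a0143040))))) (.nd (nat_lit 24160518272) (.nd (nat_lit 24160514177) (.nd (nat_lit 24160514176) (.lf (nat_lit 0x5a0143080)) (.lf (nat_lit 0x5a0143081))) (.nd (nat_lit 24160518208) (.lf (nat_lit 0x5a0144040)) (.lf (nat_lit 0x5a0144080)))) (.nd (nat_lit 24160772160) (.nd (nat_lit 24160518336) (.lf (nat_lit 0x5a01440c0)) (.lf (nat_lit 0x5a0182040))) (.nd (nat_lit 24160776256) (.lf (nat_lit 0x5a0183040)) (.lf (nat_lit 0x5a0183080)))))) (.nd (nat_lit 24161038400) (.nd (nat_lit 24160780480) (.nd (nat_lit 24160780352) (.nd (nat_lit 24160776321) (.lf (nat_lit 0x5a0183081))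 (.lf (nat_lit 0x5a0184040))) (.nd (nat_lit 24160780416) (.lf (nat_lit 0x5a0184080)) (.lf (nat_lit 0x5a01840c0)))) (.nd (nat_lit 24160784512) (.nd (nat_lit 24160784448) (.lf (nat_lit 0x5a0185040)) (.lf (nat_lit 0x5a0185080))) (.nd (nat_lit 24161034304) (.lf (nat_lit 0x5a01c2040)) (.lf (nat_lit 0x5a01c3040))))) (.nd (nat_lit 24161046592) (.nd (nat_lit 24161042496) (.nd (nat_lit 24161038464) (.lf (nat_lit 0x5a01c3080)) (.lf (nat_lit 0x5a01c4040))) (.nd (nat_lit 24161042560) (.lf (nat_lit 0x5a01c4080)) (.lf (nat_lit 0x5a01c5040)))) (.nd (nat_lit 24161050688) (.nd (nat_lit 24161046656) (.lf (nat_lit 0x5a01c5080)) (.lf (nat_lit 0x5a01c6040))) (.nd (nat_lit 24161050752) (.lf (nat_lit 0x5a01c6080)) (.lf (nat_lit 0x5a01c60c0))))))))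
noncomputable def jt8_6 : BT := (.nd (nat_lit 24162087040) (.nd (nat_lit 24161566784) (.nd (nat_lit 24161308800) (.nd (nat_lit 24161304640) (.nd (nat_lit 24161300544) (.nd (nat_lit 24161296448) (.lf (nat_lit 0x5a0202040)) (.lf (nat_lit 0x5a0203040))) (.nd (nat_lit 24161300608) (.lf (nat_lit 0x5a0203080)) (.lf (nat_lit 0x5a0204040)))) (.nd (nat_lit 24161304768) (.nd (nat_lit 24161304704) (.lf (nat_lit 0x5a0204080)) (.lf (nat_lit 0x5a02040c0))) (.nd (nat_lit 24161308736) (.lf (nat_lit 0x5a0205040)) (.lf (nat_lit 0x5a0205080))))) (.nd (nat_lit 24161316928) (.nd (nat_lit 24161312832) (.nd (nat_lit 24161308864) (.lf (nat_lit 0x5a02050c0)) (.lf (nat_lit 0x5a0206040))) (.nd (nat_lit 24161312896) (.lf (nat_lit 0x5a0206080)) (.lf (nat_lit 0x5a0207040)))) (.nd (nat_lit 24161562688) (.nd (nat_lit 24161558592) (.lf (nat_lit 0x5a0242040)) (.lf (nat_lit 0x5a0243040))) (.nd (nat_lit 24161562752) (.lf (nat_lit 0x5a0243080)) (.lf (nat_lit 0x5a0244040))))))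 (.nd (nat_lit 24161824832) (.nd (nat_lit 24161570880) (.nd (nat_lit 24161566849) (.nd (nat_lit 24161566848) (.lf (nat_lit 0x5a0244080)) (.lf (nat_lit 0x5a0244081))) (.nd (nat_lit 24161566912) (.lf (nat_lit 0x5a02440c0)) (.lf (nat_lit 0x5a0245040)))) (.nd (nat_lit 24161574976) (.nd (nat_lit 24161570944) (.lf (nat_lit 0x5a0245080)) (.lf (nat_lit 0x5a0246040))) (.nd (nat_lit 24161820736) (.lf (nat_lit 0x5a0282040)) (.lf (nat_lit 0x5a0283040))))) (.nd (nat_lit 24161828992) (.nd (nat_lit 24161824897) (.nd (nat_lit 24161824896) (.lf (nat_lit 0x5a0283080)) (.lf (nat_lit 0x5a0283081))) (.nd (nat_lit 24161828928) (.lf (nat_lit 0x5a0284040)) (.lf (nat_lit 0x5a0284080)))) (.nd (nat_lit 24162082880) (.nd (nat_lit 24161833024) (.lf (nat_lit 0x5a0285040)) (.lf (nat_lit 0x5a02c2040))) (.nd (nat_lit 24162086976) (.lf (nat_lit 0x5a02c3040)) (.lf (nat_lit 0x5a02c3080))))))) (.nd (nat_lit 24177295489) (.nd (nat_lit 24177029248) (.nd (nat_lit 24162607168)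 (.nd (nat_lit 24162345024) (.nd (nat_lit 24162091072) (.lf (nat_lit 0x5a02c4040)) (.lf (nat_lit 0x5a0302040))) (.nd (nat_lit 24162349120) (.lf (nat_lit 0x5a0303040)) (.lf (nat_lit 0x5a0342040)))) (.nd (nat_lit 24177025088) (.nd (nat_lit 24176762944) (.lf (nat_lit 0x5a10c2040)) (.lf (nat_lit 0x5a1102040))) (.nd (nat_lit 24177029184) (.lf (nat_lit 0x5a1103040)) (.lf (nat_lit 0x5a1103080))))) (.nd (nat_lit 24177291392) (.nd (nat_lit 24177287232) (.nd (nat_lit 24177029249) (.lf (nat_lit 0x5a1103081)) (.lf (nat_lit 0x5a1142040))) (.nd (nat_lit 24177291328) (.lf (nat_lit 0x5a1143040)) (.lf (nat_lit 0x5a1143080)))) (.nd (nat_lit 24177295424) (.nd (nat_lit 24177291393) (.lf (nat_lit 0x5a1143081)) (.lf (nat_lit 0x5a1144040))) (.nd (nat_lit 24177295488) (.lf (nat_lit 0x5a1144080)) (.lf (nat_lit 0x5a1144081)))))) (.nd (nat_lit 24177557632) (.nd (nat_lit 24177553472) (.nd (nat_lit 24177295553) (.nd (nat_lit 24177295552) (.lf (nat_lit 0x5a11440c0))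 (.lf (nat_lit 0x5a11440c1))) (.nd (nat_lit 24177549376) (.lf (nat_lit 0x5a1182040)) (.lf (nat_lit 0x5a1183040)))) (.nd (nat_lit 24177553537) (.nd (nat_lit 24177553536) (.lf (nat_lit 0x5a1183080)) (.lf (nat_lit 0x5a1183081))) (.nd (nat_lit 24177557568) (.lf (nat_lit 0x5a1184040)) (.lf (nat_lit 0x5a1184080))))) (.nd (nat_lit 24177561664) (.nd (nat_lit 24177557696) (.nd (nat_lit 24177557633) (.lf (nat_lit 0x5a1184081)) (.lf (nat_lit 0x5a11840c0))) (.nd (nat_lit 24177557697) (.lf (nat_lit 0x5a11840c1)) (.lf (nat_lit 0x5a1185040)))) (.nd (nat_lit 24177561729) (.nd (nat_lit 24177561728) (.lf (nat_lit 0x5a1185080)) (.lf (nat_lit 0x5a1185081))) (.nd (nat_lit 24177561792) (.lf (nat_lit 0x5a11850c0)) (.lf (nat_lit 0x5a11c2040))))))))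
noncomputable def jt8_7 : BT := (.nd (nat_lit 24194068608) (.nd (nat_lit 24178081920) (.nd (nat_lit 24177823808) (.nd (nat_lit 24177819712) (.nd (nat_lit 24177815680) (.nd (nat_lit 24177815616) (.lf (nat_lit 0x5a11c3040)) (.lf (nat_lit 0x5a11c3080))) (.nd (nat_lit 24177815681) (.lf (nat_lit 0x5a11c3081)) (.lf (nat_lit 0x5a11c4040)))) (.nd (nat_lit 24177819777) (.nd (nat_lit 24177819776) (.lf (nat_lit 0x5a11c4080)) (.lf (nat_lit 0x5a11c4081))) (.nd (nat_lit 24177819840) (.lf (nat_lit 0x5a11c40c0)) (.lf (nat_lit 0x5a11c5040))))) (.nd (nat_lit 24178077760) (.nd (nat_lit 24177827904) (.nd (nat_lit 24177823872) (.lf (nat_lit 0x5a11c5080)) (.lf (nat_lit 0x5a11c6040))) (.nd (nat_lit 24178073664) (.lf (nat_lit 0x5a1202040)) (.lf (nat_lit 0x5a1203040)))) (.nd (nat_lit 24178077825) (.nd (nat_lit 24178077824) (.lf (nat_lit 0x5a1203080)) (.lf (nat_lit 0x5a1203081))) (.nd (nat_lit 24178081856) (.lf (nat_lit 0x5a1204040)) (.lf (nat_lit 0x5a1204080))))))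 (.nd (nat_lit 24178860096) (.nd (nat_lit 24178339968) (.nd (nat_lit 24178335808) (.nd (nat_lit 24178085952) (.lf (nat_lit 0x5a1205040)) (.lf (nat_lit 0x5a1242040))) (.nd (nat_lit 24178339904) (.lf (nat_lit 0x5a1243040)) (.lf (nat_lit 0x5a1243080)))) (.nd (nat_lit 24178597952) (.nd (nat_lit 24178344000) (.lf (nat_lit 0x5a1244040)) (.lf (nat_lit 0x5a1282040))) (.nd (nat_lit 24178602048) (.lf (nat_lit 0x5a1283040)) (.lf (nat_lit 0x5a12c2040))))) (.nd (nat_lit 24193806464) (.nd (nat_lit 24193802304) (.nd (nat_lit 24193540160) (.lf (nat_lit 0x5a20c2040)) (.lf (nat_lit 0x5a2102040))) (.nd (nat_lit 24193806400) (.lf (nat_lit 0x5a2103040)) (.lf (nat_lit 0x5a2103080)))) (.nd (nat_lit 24194064448) (.nd (nat_lit 24193806465) (.lf (nat_lit 0x5a2103081)) (.lf (nat_lit 0x5a2142040))) (.nd (nat_lit 24194068544) (.lf (nat_lit 0x5a2143040)) (.lf (nat_lit 0x5a2143080))))))) (.nd (nat_lit 24194596928) (.nd (nat_lit 24194330752) (.nd (nat_lit 24194072705)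 (.nd (nat_lit 24194072640) (.nd (nat_lit 24194068609) (.lf (nat_lit 0x5a2143081)) (.lf (nat_lit 0x5a2144040))) (.nd (nat_lit 24194072704) (.lf (nat_lit 0x5a2144080)) (.lf (nat_lit 0x5a2144081)))) (.nd (nat_lit 24194326592) (.nd (nat_lit 24194072768) (.lf (nat_lit 0x5a21440c0)) (.lf (nat_lit 0x5a2182040))) (.nd (nat_lit 24194330688) (.lf (nat_lit 0x5a2183040)) (.lf (nat_lit 0x5a2183080))))) (.nd (nat_lit 24194338880) (.nd (nat_lit 24194334784) (.nd (nat_lit 24194330753) (.lf (nat_lit 0x5a2183081)) (.lf (nat_lit 0x5a2184040))) (.nd (nat_lit 24194334848) (.lf (nat_lit 0x5a2184080)) (.lf (nat_lit 0x5a2185040)))) (.nd (nat_lit 24194592832) (.nd (nat_lit 24194588736) (.lf (nat_lit 0x5a21c2040)) (.lf (nat_lit 0x5a21c3040))) (.nd (nat_lit 24194592896) (.lf (nat_lit 0x5a21c3080)) (.lf (nat_lit 0x5a21c4040)))))) (.nd (nat_lit 24210583681) (.nd (nat_lit 24210317376) (.nd (nat_lit 24194854976) (.nd (nat_lit 24194850880) (.lf (nat_lit 0x5a2202040))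 (.lf (nat_lit 0x5a2203040))) (.nd (nat_lit 24195113024) (.lf (nat_lit 0x5a2242040)) (.lf (nat_lit 0x5a30c2040)))) (.nd (nat_lit 24210583616) (.nd (nat_lit 24210579520) (.lf (nat_lit 0x5a3102040)) (.lf (nat_lit 0x5a3103040))) (.nd (nat_lit 24210583680) (.lf (nat_lit 0x5a3103080)) (.lf (nat_lit 0x5a3103081))))) (.nd (nat_lit 24210849856) (.nd (nat_lit 24210845760) (.nd (nat_lit 24210841664) (.lf (nat_lit 0x5a3142040)) (.lf (nat_lit 0x5a3143040))) (.nd (nat_lit 24210845824) (.lf (nat_lit 0x5a3143080)) (.lf (nat_lit 0x5a3144040)))) (.nd (nat_lit 24211107904) (.nd (nat_lit 24211103808) (.lf (nat_lit 0x5a3182040)) (.lf (nat_lit 0x5a3183040))) (.nd (nat_lit 24211365952) (.lf (nat_lit 0x5a31c2040)) (.lf (nat_lit 0x5a40c2040))))))))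
noncomputable def jt8_8 : BT := (.nd (nat_lit 24227360832) (.nd (nat_lit 24227356736) (.lf (nat_lit 0x5a4102040)) (.lf (nat_lit 0x5a4103040))) (.nd (nat_lit 24227618880) (.lf (nat_lit 0x5a4142040)) (.lf (nat_lit 0x5a50c2040))))
noncomputable def jt8 : BT := (.nd (nat_lit 24128004160) (.nd (nat_lit 24080293952) (.nd (nat_lit 24047800384) jt8_0 jt8_1) (.nd (nat_lit 24109920384) jt8_2 jt8_3)) (.nd (nat_lit 24161050816) (.nd (nat_lit 24144793664) jt8_4 jt8_5) (.nd (nat_lit 24177811520) jt8_6 (.nd (nat_lit 24227094592) jt8_7 jt8_8))))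
def jg8 : Cfg := ⟨82, 73, 26, 11, 41⟩
noncomputable def jX8 : F3 := XRc 11 99 99 99 0
noncomputable def jt9_0 : BT := (.nd (nat_lit 26207072320) (.nd (nat_lit 26156736576) (.nd (nat_lit 26106409024) (.nd (nat_lit 26089365568) (.nd (nat_lit 26072588352) (.nd (nat_lit 26055811136) (.lf (nat_lit 0x6110c2040)) (.lf (nat_lit 0x6120c2040))) (.nd (nat_lit 26072850496) (.lf (nat_lit 0x612102040)) (.lf (nat_lit 0x6130c2040)))) (.nd (nat_lit 26106142784) (.nd (nat_lit 26089627712) (.lf (nat_lit 0x613102040)) (.lf (nat_lit 0x6140c2040))) (.nd (nat_lit 26106404928) (.lf (nat_lit 0x614102040)) (.lf (nat_lit 0x614103040))))) (.nd (nat_lit 26139697216) (.nd (nat_lit 26123182144) (.nd (nat_lit 26122920000) (.lf (nat_lit 0x6150c2040)) (.lf (nat_lit 0x615102040))) (.nd (nat_lit 26123186240) (.lf (nat_lit 0x615103040)) (.lf (nat_lit 0x6160c2040)))) (.nd (nat_lit 26139963456) (.nd (nat_lit 26139959360) (.lf (nat_lit 0x616102040)) (.lf (nat_lit 0x616103040)))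 (.nd (nat_lit 26156474432) (.lf (nat_lit 0x6170c2040)) (.lf (nat_lit 0x617102040)))))) (.nd (nat_lit 26173775936) (.nd (nat_lit 26173251648) (.nd (nat_lit 26156740736) (.nd (nat_lit 26156740672) (.lf (nat_lit 0x617103040)) (.lf (nat_lit 0x617103080))) (.nd (nat_lit 26156998720) (.lf (nat_lit 0x617142040)) (.lf (nat_lit 0x6180c2040)))) (.nd (nat_lit 26173517888) (.nd (nat_lit 26173513792) (.lf (nat_lit 0x618102040)) (.lf (nat_lit 0x618103040))) (.nd (nat_lit 26173517952) (.lf (nat_lit 0x618103080)) (.lf (nat_lit 0x618142040))))) (.nd (nat_lit 26190295168) (.nd (nat_lit 26190291008) (.nd (nat_lit 26190028864) (.lf (nat_lit 0x6190c2040)) (.lf (nat_lit 0x619102040))) (.nd (nat_lit 26190295104) (.lf (nat_lit 0x619103040)) (.lf (nat_lit 0x619103080)))) (.nd (nat_lit 26206806080) (.nd (nat_lit 26190553152) (.lf (nat_lit 0x619142040)) (.lf (nat_lit 0x61a0c2040))) (.nd (nat_lit 26207068224) (.lf (nat_lit 0x61a102040)) (.lf (nat_lit 0x61a103040)))))))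 (.nd (nat_lit 26229088320) (.nd (nat_lit 26223845440) (.nd (nat_lit 26212311104) (.nd (nat_lit 26207330368) (.nd (nat_lit 26207072384) (.lf (nat_lit 0x61a103080)) (.lf (nat_lit 0x61a142040))) (.nd (nat_lit 26207592512) (.lf (nat_lit 0x61a182040)) (.lf (nat_lit 0x61a602040)))) (.nd (nat_lit 26212577344) (.nd (nat_lit 26212573248) (.lf (nat_lit 0x61a642040)) (.lf (nat_lit 0x61a643040))) (.nd (nat_lit 26223583296) (.lf (nat_lit 0x61b0c2040)) (.lf (nat_lit 0x61b102040))))) (.nd (nat_lit 26224107584) (.nd (nat_lit 26223849600) (.nd (nat_lit 26223849536) (.lf (nat_lit 0x61b103040)) (.lf (nat_lit 0x61b103080))) (.nd (nat_lit 26223849601) (.lf (nat_lit 0x61b103081)) (.lf (nat_lit 0x61b142040)))) (.nd (nat_lit 26224369728) (.nd (nat_lit 26224111680) (.lf (nat_lit 0x61b143040)) (.lf (nat_lit 0x61b182040))) (.nd (nat_lit 26228826176) (.lf (nat_lit 0x61b5c2040)) (.lf (nat_lit 0x61b602040)))))) (.nd (nat_lit 26229366848) (.nd (nat_lit 26229354624)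 (.nd (nat_lit 26229350464) (.nd (nat_lit 26229092416) (.lf (nat_lit 0x61b603040)) (.lf (nat_lit 0x61b642040))) (.nd (nat_lit 26229354560) (.lf (nat_lit 0x61b643040)) (.lf (nat_lit 0x61b643080)))) (.nd (nat_lit 26229358720) (.nd (nat_lit 26229358656) (.lf (nat_lit 0x61b644040)) (.lf (nat_lit 0x61b644080))) (.nd (nat_lit 26229362752) (.lf (nat_lit 0x61b645040)) (.lf (nat_lit 0x61b646040))))) (.nd (nat_lit 26229616769) (.nd (nat_lit 26229616704) (.nd (nat_lit 26229612608) (.lf (nat_lit 0x61b682040)) (.lf (nat_lit 0x61b683040))) (.nd (nat_lit 26229616768) (.lf (nat_lit 0x61b683080)) (.lf (nat_lit 0x61b683081)))) (.nd (nat_lit 26229620864) (.nd (nat_lit 26229620800) (.lf (nat_lit 0x61b684040)) (.lf (nat_lit 0x61b684080))) (.nd (nat_lit 26229624896) (.lf (nat_lit 0x61b685040)) (.lf (nat_lit 0x61c0c2040))))))))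
noncomputable def jt9_1 : BT := (.nd (nat_lit 26257404032) (.nd (nat_lit 26245865536) (.nd (nat_lit 26241409088) (.nd (nat_lit 26240626817) (.nd (nat_lit 26240626752) (.nd (nat_lit 26240622656) (.lf (nat_lit 0x61c102040)) (.lf (nat_lit 0x61c103040))) (.nd (nat_lit 26240626816) (.lf (nat_lit 0x61c103080)) (.lf (nat_lit 0x61c103081)))) (.nd (nat_lit 26240888896) (.nd (nat_lit 26240884800) (.lf (nat_lit 0x61c142040)) (.lf (nat_lit 0x61c143040))) (.nd (nat_lit 26241146944) (.lf (nat_lit 0x61c182040)) (.lf (nat_lit 0x61c1c2040))))) (.nd (nat_lit 26245607488) (.nd (nat_lit 26245341248) (.nd (nat_lit 26245079104) (.lf (nat_lit 0x61c542040)) (.lf (nat_lit 0x61c582040))) (.nd (nat_lit 26245603392) (.lf (nat_lit 0x61c5c2040)) (.lf (nat_lit 0x61c5c3040)))) (.nd (nat_lit 26245615680) (.nd (nat_lit 26245611584) (.lf (nat_lit 0x61c5c4040)) (.lf (nat_lit 0x61c5c5040))) (.nd (nat_lit 26245619776) (.lf (nat_lit 0x61c5c6040)) (.lf (nat_lit 0x61c602040))))))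 (.nd (nat_lit 26246131840) (.nd (nat_lit 26245873792) (.nd (nat_lit 26245869696) (.nd (nat_lit 26245869632) (.lf (nat_lit 0x61c603040)) (.lf (nat_lit 0x61c603080))) (.nd (nat_lit 26245873728) (.lf (nat_lit 0x61c604040)) (.lf (nat_lit 0x61c604080)))) (.nd (nat_lit 26246127680) (.nd (nat_lit 26245877824) (.lf (nat_lit 0x61c605040)) (.lf (nat_lit 0x61c642040))) (.nd (nat_lit 26246131776) (.lf (nat_lit 0x61c643040)) (.lf (nat_lit 0x61c643080))))) (.nd (nat_lit 26246651968) (.nd (nat_lit 26246389824) (.nd (nat_lit 26246135872) (.lf (nat_lit 0x61c644040)) (.lf (nat_lit 0x61c682040))) (.nd (nat_lit 26246393920) (.lf (nat_lit 0x61c683040)) (.lf (nat_lit 0x61c6c2040)))) (.nd (nat_lit 26257399872) (.nd (nat_lit 26257137728) (.lf (nat_lit 0x61d0c2040)) (.lf (nat_lit 0x61d102040))) (.nd (nat_lit 26257403968) (.lf (nat_lit 0x61d103040)) (.lf (nat_lit 0x61d103080))))))) (.nd (nat_lit 26262130752) (.nd (nat_lit 26261856320) (.nd (nat_lit 26257924160)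 (.nd (nat_lit 26257662016) (.nd (nat_lit 26257404033) (.lf (nat_lit 0x61d103081)) (.lf (nat_lit 0x61d142040))) (.nd (nat_lit 26257666112) (.lf (nat_lit 0x61d143040)) (.lf (nat_lit 0x61d182040)))) (.nd (nat_lit 26258186304) (.nd (nat_lit 26257928256) (.lf (nat_lit 0x61d183040)) (.lf (nat_lit 0x61d1c2040))) (.nd (nat_lit 26261594176) (.lf (nat_lit 0x61d502040)) (.lf (nat_lit 0x61d542040))))) (.nd (nat_lit 26262122560) (.nd (nat_lit 26261872704) (.nd (nat_lit 26261860416) (.lf (nat_lit 0x61d543040)) (.lf (nat_lit 0x61d546040))) (.nd (nat_lit 26262118464) (.lf (nat_lit 0x61d582040)) (.lf (nat_lit 0x61d583040)))) (.nd (nat_lit 26262126656) (.nd (nat_lit 26262122624) (.lf (nat_lit 0x61d583080)) (.lf (nat_lit 0x61d584040))) (.nd (nat_lit 26262126720) (.lf (nat_lit 0x61d584080)) (.lf (nat_lit 0x61d585040)))))) (.nd (nat_lit 26273914944) (.nd (nat_lit 26262388800) (.nd (nat_lit 26262384704) (.nd (nat_lit 26262380608) (.lf (nat_lit 0x61d5c2040))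 (.lf (nat_lit 0x61d5c3040))) (.nd (nat_lit 26262384768) (.lf (nat_lit 0x61d5c3080)) (.lf (nat_lit 0x61d5c4040)))) (.nd (nat_lit 26262646848) (.nd (nat_lit 26262642752) (.lf (nat_lit 0x61d602040)) (.lf (nat_lit 0x61d603040))) (.nd (nat_lit 26262904896) (.lf (nat_lit 0x61d642040)) (.lf (nat_lit 0x61e0c2040))))) (.nd (nat_lit 26274181249) (.nd (nat_lit 26274181184) (.nd (nat_lit 26274177088) (.lf (nat_lit 0x61e102040)) (.lf (nat_lit 0x61e103040))) (.nd (nat_lit 26274181248) (.lf (nat_lit 0x61e103080)) (.lf (nat_lit 0x61e103081)))) (.nd (nat_lit 26274443328) (.nd (nat_lit 26274439232) (.lf (nat_lit 0x61e142040)) (.lf (nat_lit 0x61e143040))) (.nd (nat_lit 26274443392) (.lf (nat_lit 0x61e143080)) (.lf (nat_lit 0x61e144040))))))))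
noncomputable def jt9_2 : BT := (.nd (nat_lit 26292265024) (.nd (nat_lit 26278899776) (.nd (nat_lit 26278375488) (.nd (nat_lit 26275225664) (.nd (nat_lit 26274705472) (.nd (nat_lit 26274701376) (.lf (nat_lit 0x61e182040)) (.lf (nat_lit 0x61e183040))) (.nd (nat_lit 26274963520) (.lf (nat_lit 0x61e1c2040)) (.lf (nat_lit 0x61e202040)))) (.nd (nat_lit 26278109248) (.nd (nat_lit 26277847104) (.lf (nat_lit 0x61e482040)) (.lf (nat_lit 0x61e4c2040))) (.nd (nat_lit 26278371392) (.lf (nat_lit 0x61e502040)) (.lf (nat_lit 0x61e503040))))) (.nd (nat_lit 26278637632) (.nd (nat_lit 26278383680) (.nd (nat_lit 26278379584) (.lf (nat_lit 0x61e504040)) (.lf (nat_lit 0x61e505040))) (.nd (nat_lit 26278633536) (.lf (nat_lit 0x61e542040)) (.lf (nat_lit 0x61e543040)))) (.nd (nat_lit 26278641728) (.nd (nat_lit 26278637696) (.lf (nat_lit 0x61e543080)) (.lf (nat_lit 0x61e544040))) (.nd (nat_lit 26278895680) (.lf (nat_lit 0x61e582040)) (.lf (nat_lit 0x61e583040))))))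 (.nd (nat_lit 26291220544) (.nd (nat_lit 26290958400) (.nd (nat_lit 26290692160) (.nd (nat_lit 26279157824) (.lf (nat_lit 0x61e5c2040)) (.lf (nat_lit 0x61f0c2040))) (.nd (nat_lit 26290954304) (.lf (nat_lit 0x61f102040)) (.lf (nat_lit 0x61f103040)))) (.nd (nat_lit 26290958465) (.nd (nat_lit 26290958464) (.lf (nat_lit 0x61f103080)) (.lf (nat_lit 0x61f103081))) (.nd (nat_lit 26291216448) (.lf (nat_lit 0x61f142040)) (.lf (nat_lit 0x61f143040))))) (.nd (nat_lit 26291482688) (.nd (nat_lit 26291224640) (.nd (nat_lit 26291220608) (.lf (nat_lit 0x61f143080)) (.lf (nat_lit 0x61f144040))) (.nd (nat_lit 26291478592) (.lf (nat_lit 0x61f182040)) (.lf (nat_lit 0x61f183040)))) (.nd (nat_lit 26291744832) (.nd (nat_lit 26291740736) (.lf (nat_lit 0x61f1c2040)) (.lf (nat_lit 0x61f1c3040))) (.nd (nat_lit 26292002880) (.lf (nat_lit 0x61f202040)) (.lf (nat_lit 0x61f242040))))))) (.nd (nat_lit 26295152704) (.nd (nat_lit 26294628416) (.nd (nat_lit 26293837888)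 (.nd (nat_lit 26292789312) (.nd (nat_lit 26292527168) (.lf (nat_lit 0x61f282040)) (.lf (nat_lit 0x61f2c2040))) (.nd (nat_lit 26293575744) (.lf (nat_lit 0x61f382040)) (.lf (nat_lit 0x61f3c2040)))) (.nd (nat_lit 26294362176) (.nd (nat_lit 26294100032) (.lf (nat_lit 0x61f402040)) (.lf (nat_lit 0x61f442040))) (.nd (nat_lit 26294624320) (.lf (nat_lit 0x61f482040)) (.lf (nat_lit 0x61f483040))))) (.nd (nat_lit 26294890560) (.nd (nat_lit 26294636608) (.nd (nat_lit 26294632512) (.lf (nat_lit 0x61f484040)) (.lf (nat_lit 0x61f485040))) (.nd (nat_lit 26294886464) (.lf (nat_lit 0x61f4c2040)) (.lf (nat_lit 0x61f4c3040)))) (.nd (nat_lit 26294894656) (.nd (nat_lit 26294890624) (.lf (nat_lit 0x61f4c3080)) (.lf (nat_lit 0x61f4c4040))) (.nd (nat_lit 26295148608) (.lf (nat_lit 0x61f502040)) (.lf (nat_lit 0x61f503040)))))) (.nd (nat_lit 26307997760) (.nd (nat_lit 26307735616) (.nd (nat_lit 26307469376) (.nd (nat_lit 26295410752) (.lf (nat_lit 0x61f542040))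 (.lf (nat_lit 0x6200c2040))) (.nd (nat_lit 26307731520) (.lf (nat_lit 0x620102040)) (.lf (nat_lit 0x620103040)))) (.nd (nat_lit 26307735681) (.nd (nat_lit 26307735680) (.lf (nat_lit 0x620103080)) (.lf (nat_lit 0x620103081))) (.nd (nat_lit 26307993664) (.lf (nat_lit 0x620142040)) (.lf (nat_lit 0x620143040))))) (.nd (nat_lit 26308259904) (.nd (nat_lit 26308001856) (.nd (nat_lit 26307997824) (.lf (nat_lit 0x620143080)) (.lf (nat_lit 0x620144040))) (.nd (nat_lit 26308255808) (.lf (nat_lit 0x620182040)) (.lf (nat_lit 0x620183040)))) (.nd (nat_lit 26308264000) (.nd (nat_lit 26308259968) (.lf (nat_lit 0x620183080)) (.lf (nat_lit 0x620184040))) (.nd (nat_lit 26308517952) (.lf (nat_lit 0x6201c2040)) (.lf (nat_lit 0x6201c3040))))))))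
noncomputable def jt9_3 : BT := (.nd (nat_lit 26324779072) (.nd (nat_lit 26311139392) (.nd (nat_lit 26310352960) (.nd (nat_lit 26309304384) (.nd (nat_lit 26308784192) (.nd (nat_lit 26308780096) (.lf (nat_lit 0x620202040)) (.lf (nat_lit 0x620203040))) (.nd (nat_lit 26309042240) (.lf (nat_lit 0x620242040)) (.lf (nat_lit 0x620282040)))) (.nd (nat_lit 26309828672) (.nd (nat_lit 26309566528) (.lf (nat_lit 0x6202c2040)) (.lf (nat_lit 0x620302040))) (.nd (nat_lit 26310090816) (.lf (nat_lit 0x620342040)) (.lf (nat_lit 0x620382040))))) (.nd (nat_lit 26310877248) (.nd (nat_lit 26310619200) (.nd (nat_lit 26310615104) (.lf (nat_lit 0x6203c2040)) (.lf (nat_lit 0x6203c3040))) (.nd (nat_lit 26310631488) (.lf (nat_lit 0x6203c6040)) (.lf (nat_lit 0x620402040)))) (.nd (nat_lit 26310885440) (.nd (nat_lit 26310881344) (.lf (nat_lit 0x620403040)) (.lf (nat_lit 0x620404040))) (.nd (nat_lit 26310889536) (.lf (nat_lit 0x620405040)) (.lf (nat_lit 0x620442040))))))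 (.nd (nat_lit 26324508736) (.nd (nat_lit 26311401536) (.nd (nat_lit 26311143552) (.nd (nat_lit 26311143488) (.lf (nat_lit 0x620443040)) (.lf (nat_lit 0x620443080))) (.nd (nat_lit 26311147584) (.lf (nat_lit 0x620444040)) (.lf (nat_lit 0x620482040)))) (.nd (nat_lit 26311663680) (.nd (nat_lit 26311405632) (.lf (nat_lit 0x620483040)) (.lf (nat_lit 0x6204c2040))) (.nd (nat_lit 26324246592) (.lf (nat_lit 0x6210c2040)) (.lf (nat_lit 0x621102040))))) (.nd (nat_lit 26324770880) (.nd (nat_lit 26324512896) (.nd (nat_lit 26324512832) (.lf (nat_lit 0x621103040)) (.lf (nat_lit 0x621103080))) (.nd (nat_lit 26324512897) (.lf (nat_lit 0x621103081)) (.lf (nat_lit 0x621142040)))) (.nd (nat_lit 26324775040) (.nd (nat_lit 26324774976) (.lf (nat_lit 0x621143040)) (.lf (nat_lit 0x621143080))) (.nd (nat_lit 26324775041) (.lf (nat_lit 0x621143081)) (.lf (nat_lit 0x621144040))))))) (.nd (nat_lit 26326085696) (.nd (nat_lit 26325299264) (.nd (nat_lit 26325037184)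 (.nd (nat_lit 26325033024) (.nd (nat_lit 26324779136) (.lf (nat_lit 0x621144080)) (.lf (nat_lit 0x621182040))) (.nd (nat_lit 26325037120) (.lf (nat_lit 0x621183040)) (.lf (nat_lit 0x621183080)))) (.nd (nat_lit 26325045312) (.nd (nat_lit 26325041216) (.lf (nat_lit 0x621184040)) (.lf (nat_lit 0x621185040))) (.nd (nat_lit 26325295168) (.lf (nat_lit 0x6211c2040)) (.lf (nat_lit 0x6211c3040))))) (.nd (nat_lit 26325561408) (.nd (nat_lit 26325303360) (.nd (nat_lit 26325299328) (.lf (nat_lit 0x6211c3080)) (.lf (nat_lit 0x6211c4040))) (.nd (nat_lit 26325557312) (.lf (nat_lit 0x621202040)) (.lf (nat_lit 0x621203040)))) (.nd (nat_lit 26325823552) (.nd (nat_lit 26325819456) (.lf (nat_lit 0x621242040)) (.lf (nat_lit 0x621243040))) (.nd (nat_lit 26326081600) (.lf (nat_lit 0x621282040)) (.lf (nat_lit 0x621283040)))))) (.nd (nat_lit 26326884416) (.nd (nat_lit 26326609984) (.nd (nat_lit 26326347840) (.nd (nat_lit 26326343744) (.lf (nat_lit 0x6212c2040))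 (.lf (nat_lit 0x6212c3040))) (.nd (nat_lit 26326605888) (.lf (nat_lit 0x621302040)) (.lf (nat_lit 0x621303040)))) (.nd (nat_lit 26326872128) (.nd (nat_lit 26326868032) (.lf (nat_lit 0x621342040)) (.lf (nat_lit 0x621343040))) (.nd (nat_lit 26326876224) (.lf (nat_lit 0x621344040)) (.lf (nat_lit 0x621346040))))) (.nd (nat_lit 26327138368) (.nd (nat_lit 26327134272) (.nd (nat_lit 26327130176) (.lf (nat_lit 0x621382040)) (.lf (nat_lit 0x621383040))) (.nd (nat_lit 26327134336) (.lf (nat_lit 0x621383080)) (.lf (nat_lit 0x621384040)))) (.nd (nat_lit 26327142464) (.nd (nat_lit 26327138432) (.lf (nat_lit 0x621384080)) (.lf (nat_lit 0x621385040))) (.nd (nat_lit 26327392320) (.lf (nat_lit 0x6213c2040)) (.lf (nat_lit 0x6213c3040))))))))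
noncomputable def jt9_4 : BT := (.nd (nat_lit 26342346816) (.nd (nat_lit 26341556352) (.nd (nat_lit 26341290048) (.nd (nat_lit 26327658560) (.nd (nat_lit 26327400512) (.nd (nat_lit 26327396480) (.lf (nat_lit 0x6213c3080)) (.lf (nat_lit 0x6213c4040))) (.nd (nat_lit 26327654464) (.lf (nat_lit 0x621402040)) (.lf (nat_lit 0x621403040)))) (.nd (nat_lit 26341023808) (.nd (nat_lit 26327916608) (.lf (nat_lit 0x621442040)) (.lf (nat_lit 0x6220c2040))) (.nd (nat_lit 26341285952) (.lf (nat_lit 0x622102040)) (.lf (nat_lit 0x622103040))))) (.nd (nat_lit 26341552192) (.nd (nat_lit 26341290113) (.nd (nat_lit 26341290112) (.lf (nat_lit 0x622103080)) (.lf (nat_lit 0x622103081))) (.nd (nat_lit 26341548096) (.lf (nat_lit 0x622142040)) (.lf (nat_lit 0x622143040)))) (.nd (nat_lit 26341552257) (.nd (nat_lit 26341552256) (.lf (nat_lit 0x622143080)) (.lf (nat_lit 0x622143081))) (.nd (nat_lit 26341556288) (.lf (nat_lit 0x622144040)) (.lf (nat_lit 0x622144080))))))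 (.nd (nat_lit 26342076480) (.nd (nat_lit 26341818432) (.nd (nat_lit 26341814336) (.nd (nat_lit 26341810240) (.lf (nat_lit 0x622182040)) (.lf (nat_lit 0x622183040))) (.nd (nat_lit 26341814400) (.lf (nat_lit 0x622183080)) (.lf (nat_lit 0x622184040)))) (.nd (nat_lit 26341822528) (.nd (nat_lit 26341818496) (.lf (nat_lit 0x622184080)) (.lf (nat_lit 0x622185040))) (.nd (nat_lit 26342072384) (.lf (nat_lit 0x6221c2040)) (.lf (nat_lit 0x6221c3040))))) (.nd (nat_lit 26342334528) (.nd (nat_lit 26342080576) (.nd (nat_lit 26342076544) (.lf (nat_lit 0x6221c3080)) (.lf (nat_lit 0x6221c4040))) (.nd (nat_lit 26342084672) (.lf (nat_lit 0x6221c5040)) (.lf (nat_lit 0x622202040)))) (.nd (nat_lit 26342338688) (.nd (nat_lit 26342338624) (.lf (nat_lit 0x622203040)) (.lf (nat_lit 0x622203080))) (.nd (nat_lit 26342342720) (.lf (nat_lit 0x622204040)) (.lf (nat_lit 0x622205040))))))) (.nd (nat_lit 26343125120) (.nd (nat_lit 26342862912) (.nd (nat_lit 26342604864)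 (.nd (nat_lit 26342600768) (.nd (nat_lit 26342596672) (.lf (nat_lit 0x622242040)) (.lf (nat_lit 0x622243040))) (.nd (nat_lit 26342600832) (.lf (nat_lit 0x622243080)) (.lf (nat_lit 0x622244040)))) (.nd (nat_lit 26342621248) (.nd (nat_lit 26342608960) (.lf (nat_lit 0x622245040)) (.lf (nat_lit 0x622248040))) (.nd (nat_lit 26342858816) (.lf (nat_lit 0x622282040)) (.lf (nat_lit 0x622283040))))) (.nd (nat_lit 26342875200) (.nd (nat_lit 26342867008) (.nd (nat_lit 26342862976) (.lf (nat_lit 0x622283080)) (.lf (nat_lit 0x622284040))) (.nd (nat_lit 26342871104) (.lf (nat_lit 0x622285040)) (.lf (nat_lit 0x622286040)))) (.nd (nat_lit 26343120960) (.nd (nat_lit 26342879296) (.lf (nat_lit 0x622287040)) (.lf (nat_lit 0x6222c2040))) (.nd (nat_lit 26343125056) (.lf (nat_lit 0x6222c3040)) (.lf (nat_lit 0x6222c3080)))))) (.nd (nat_lit 26343391296) (.nd (nat_lit 26343137344) (.nd (nat_lit 26343133248) (.nd (nat_lit 26343129152) (.lf (nat_lit 0x6222c4040))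 (.lf (nat_lit 0x6222c5040))) (.nd (nat_lit 26343133312) (.lf (nat_lit 0x6222c5080)) (.lf (nat_lit 0x6222c6040)))) (.nd (nat_lit 26343387200) (.nd (nat_lit 26343383104) (.lf (nat_lit 0x622302040)) (.lf (nat_lit 0x622303040))) (.nd (nat_lit 26343387264) (.lf (nat_lit 0x622303080)) (.lf (nat_lit 0x622304040))))) (.nd (nat_lit 26343649344) (.nd (nat_lit 26343395392) (.nd (nat_lit 26343391360) (.lf (nat_lit 0x622304080)) (.lf (nat_lit 0x622305040))) (.nd (nat_lit 26343645248) (.lf (nat_lit 0x622342040)) (.lf (nat_lit 0x622343040)))) (.nd (nat_lit 26343653440) (.nd (nat_lit 26343649408) (.lf (nat_lit 0x622343080)) (.lf (nat_lit 0x622344040))) (.nd (nat_lit 26343907392) (.lf (nat_lit 0x622382040)) (.lf (nat_lit 0x622383040))))))))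
noncomputable def jt9_5 : BT := (.nd (nat_lit 26359111744) (.nd (nat_lit 26358591616) (.nd (nat_lit 26358329408) (.nd (nat_lit 26358067264) (.nd (nat_lit 26357801024) (.nd (nat_lit 26344169536) (.lf (nat_lit 0x6223c2040)) (.lf (nat_lit 0x6230c2040))) (.nd (nat_lit 26358063168) (.lf (nat_lit 0x623102040)) (.lf (nat_lit 0x623103040)))) (.nd (nat_lit 26358067329) (.nd (nat_lit 26358067328) (.lf (nat_lit 0x623103080)) (.lf (nat_lit 0x623103081))) (.nd (nat_lit 26358325312) (.lf (nat_lit 0x623142040)) (.lf (nat_lit 0x623143040))))) (.nd (nat_lit 26358333568) (.nd (nat_lit 26358329473) (.nd (nat_lit 26358329472) (.lf (nat_lit 0x623143080)) (.lf (nat_lit 0x623143081))) (.nd (nat_lit 26358333504) (.lf (nat_lit 0x623144040)) (.lf (nat_lit 0x623144080)))) (.nd (nat_lit 26358587456) (.nd (nat_lit 26358333632) (.lf (nat_lit 0x6231440c0)) (.lf (nat_lit 0x623182040))) (.nd (nat_lit 26358591552) (.lf (nat_lit 0x623183040)) (.lf (nat_lit 0x623183080))))))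 (.nd (nat_lit 26358853760) (.nd (nat_lit 26358599744) (.nd (nat_lit 26358595648) (.nd (nat_lit 26358591617) (.lf (nat_lit 0x623183081)) (.lf (nat_lit 0x623184040))) (.nd (nat_lit 26358595712) (.lf (nat_lit 0x623184080)) (.lf (nat_lit 0x623185040)))) (.nd (nat_lit 26358849600) (.nd (nat_lit 26358599808) (.lf (nat_lit 0x623185080)) (.lf (nat_lit 0x6231c2040))) (.nd (nat_lit 26358853696) (.lf (nat_lit 0x6231c3040)) (.lf (nat_lit 0x6231c3080))))) (.nd (nat_lit 26358861952) (.nd (nat_lit 26358857856) (.nd (nat_lit 26358857792) (.lf (nat_lit 0x6231c4040)) (.lf (nat_lit 0x6231c4080))) (.nd (nat_lit 26358861888) (.lf (nat_lit 0x6231c5040)) (.lf (nat_lit 0x6231c5080)))) (.nd (nat_lit 26358866048) (.nd (nat_lit 26358865984) (.lf (nat_lit 0x6231c6040)) (.lf (nat_lit 0x6231c6080))) (.nd (nat_lit 26358866112) (.lf (nat_lit 0x6231c60c0)) (.lf (nat_lit 0x623202040))))))) (.nd (nat_lit 26359382208) (.nd (nat_lit 26359128128) (.nd (nat_lit 26359120000)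 (.nd (nat_lit 26359115904) (.nd (nat_lit 26359115840) (.lf (nat_lit 0x623203040)) (.lf (nat_lit 0x623203080))) (.nd (nat_lit 26359119936) (.lf (nat_lit 0x623204040)) (.lf (nat_lit 0x623204080)))) (.nd (nat_lit 26359124096) (.nd (nat_lit 26359124032) (.lf (nat_lit 0x623205040)) (.lf (nat_lit 0x623205080))) (.nd (nat_lit 26359124160) (.lf (nat_lit 0x6232050c0)) (.lf (nat_lit 0x623206040))))) (.nd (nat_lit 26359377984) (.nd (nat_lit 26359132224) (.nd (nat_lit 26359128192) (.lf (nat_lit 0x623206080)) (.lf (nat_lit 0x623207040))) (.nd (nat_lit 26359373888) (.lf (nat_lit 0x623242040)) (.lf (nat_lit 0x623243040)))) (.nd (nat_lit 26359382080) (.nd (nat_lit 26359378048) (.lf (nat_lit 0x623243080)) (.lf (nat_lit 0x623244040))) (.nd (nat_lit 26359382144) (.lf (nat_lit 0x623244080)) (.lf (nat_lit 0x6232440c0)))))) (.nd (nat_lit 26359644224) (.nd (nat_lit 26359636032) (.nd (nat_lit 26359386240) (.nd (nat_lit 26359386176) (.lf (nat_lit 0x623245040))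 (.lf (nat_lit 0x623245080))) (.nd (nat_lit 26359390272) (.lf (nat_lit 0x623246040)) (.lf (nat_lit 0x623282040)))) (.nd (nat_lit 26359640192) (.nd (nat_lit 26359640128) (.lf (nat_lit 0x623283040)) (.lf (nat_lit 0x623283080))) (.nd (nat_lit 26359640193) (.lf (nat_lit 0x623283081)) (.lf (nat_lit 0x623284040))))) (.nd (nat_lit 26359902272) (.nd (nat_lit 26359648320) (.nd (nat_lit 26359644288) (.lf (nat_lit 0x623284080)) (.lf (nat_lit 0x623285040))) (.nd (nat_lit 26359898176) (.lf (nat_lit 0x6232c2040)) (.lf (nat_lit 0x6232c3040)))) (.nd (nat_lit 26359906368) (.nd (nat_lit 26359902336) (.lf (nat_lit 0x6232c3080)) (.lf (nat_lit 0x6232c4040))) (.nd (nat_lit 26360160320) (.lf (nat_lit 0x623302040)) (.lf (nat_lit 0x623303040))))))))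
noncomputable def jt9_6 : BT := (.nd (nat_lit 26375630977) (.nd (nat_lit 26375364672) (.nd (nat_lit 26375106624) (.nd (nat_lit 26374844480) (.nd (nat_lit 26374578240) (.nd (nat_lit 26360422464) (.lf (nat_lit 0x623342040)) (.lf (nat_lit 0x6240c2040))) (.nd (nat_lit 26374840384) (.lf (nat_lit 0x624102040)) (.lf (nat_lit 0x624103040)))) (.nd (nat_lit 26374844545) (.nd (nat_lit 26374844544) (.lf (nat_lit 0x624103080)) (.lf (nat_lit 0x624103081))) (.nd (nat_lit 26375102528) (.lf (nat_lit 0x624142040)) (.lf (nat_lit 0x624143040))))) (.nd (nat_lit 26375110784) (.nd (nat_lit 26375106689) (.nd (nat_lit 26375106688) (.lf (nat_lit 0x624143080)) (.lf (nat_lit 0x624143081))) (.nd (nat_lit 26375110720) (.lf (nat_lit 0x624144040)) (.lf (nat_lit 0x624144080)))) (.nd (nat_lit 26375110848) (.nd (nat_lit 26375110785) (.lf (nat_lit 0x624144081)) (.lf (nat_lit 0x6241440c0))) (.nd (nat_lit 26375110849) (.lf (nat_lit 0x6241440c1)) (.lf (nat_lit 0x624182040))))))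 (.nd (nat_lit 26375372993) (.nd (nat_lit 26375372864) (.nd (nat_lit 26375368832) (.nd (nat_lit 26375368768) (.lf (nat_lit 0x624183040)) (.lf (nat_lit 0x624183080))) (.nd (nat_lit 26375368833) (.lf (nat_lit 0x624183081)) (.lf (nat_lit 0x624184040)))) (.nd (nat_lit 26375372929) (.nd (nat_lit 26375372928) (.lf (nat_lit 0x624184080)) (.lf (nat_lit 0x624184081))) (.nd (nat_lit 26375372992) (.lf (nat_lit 0x6241840c0)) (.lf (nat_lit 0x6241840c1))))) (.nd (nat_lit 26375377088) (.nd (nat_lit 26375377024) (.nd (nat_lit 26375376960) (.lf (nat_lit 0x624185040)) (.lf (nat_lit 0x624185080))) (.nd (nat_lit 26375377025) (.lf (nat_lit 0x624185081)) (.lf (nat_lit 0x6241850c0)))) (.nd (nat_lit 26375630912) (.nd (nat_lit 26375626816) (.lf (nat_lit 0x6241c2040)) (.lf (nat_lit 0x6241c3040))) (.nd (nat_lit 26375630976) (.lf (nat_lit 0x6241c3080)) (.lf (nat_lit 0x6241c3081))))))) (.nd (nat_lit 26376155200) (.nd (nat_lit 26375888960) (.nd (nat_lit 26375635136)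 (.nd (nat_lit 26375635072) (.nd (nat_lit 26375635008) (.lf (nat_lit 0x6241c4040)) (.lf (nat_lit 0x6241c4080))) (.nd (nat_lit 26375635073) (.lf (nat_lit 0x6241c4081)) (.lf (nat_lit 0x6241c40c0)))) (.nd (nat_lit 26375639168) (.nd (nat_lit 26375639104) (.lf (nat_lit 0x6241c5040)) (.lf (nat_lit 0x6241c5080))) (.nd (nat_lit 26375643200) (.lf (nat_lit 0x6241c6040)) (.lf (nat_lit 0x624202040))))) (.nd (nat_lit 26375897152) (.nd (nat_lit 26375893120) (.nd (nat_lit 26375893056) (.lf (nat_lit 0x624203040)) (.lf (nat_lit 0x624203080))) (.nd (nat_lit 26375893121) (.lf (nat_lit 0x624203081)) (.lf (nat_lit 0x624204040)))) (.nd (nat_lit 26375901248) (.nd (nat_lit 26375897216) (.lf (nat_lit 0x624204080)) (.lf (nat_lit 0x624205040))) (.nd (nat_lit 26376151104) (.lf (nat_lit 0x624242040)) (.lf (nat_lit 0x624243040)))))) (.nd (nat_lit 26391621696) (.nd (nat_lit 26376417344) (.nd (nat_lit 26376159296) (.nd (nat_lit 26376155264) (.lf (nat_lit 0x624243080))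 (.lf (nat_lit 0x624244040))) (.nd (nat_lit 26376413248) (.lf (nat_lit 0x624282040)) (.lf (nat_lit 0x624283040)))) (.nd (nat_lit 26391355456) (.nd (nat_lit 26376675392) (.lf (nat_lit 0x6242c2040)) (.lf (nat_lit 0x6250c2040))) (.nd (nat_lit 26391617600) (.lf (nat_lit 0x625102040)) (.lf (nat_lit 0x625103040))))) (.nd (nat_lit 26391883840) (.nd (nat_lit 26391621761) (.nd (nat_lit 26391621760) (.lf (nat_lit 0x625103080)) (.lf (nat_lit 0x625103081))) (.nd (nat_lit 26391879744) (.lf (nat_lit 0x625142040)) (.lf (nat_lit 0x625143040)))) (.nd (nat_lit 26391883905) (.nd (nat_lit 26391883904) (.lf (nat_lit 0x625143080)) (.lf (nat_lit 0x625143081))) (.nd (nat_lit 26391887936) (.lf (nat_lit 0x625144040)) (.lf (nat_lit 0x625144080))))))))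
noncomputable def jt9_7 : BT := (.nd (nat_lit 26392928320) (.nd (nat_lit 26392150144) (.nd (nat_lit 26392145984) (.nd (nat_lit 26391888064) (.nd (nat_lit 26391888001) (.lf (nat_lit 0x625144081)) (.lf (nat_lit 0x6251440c0))) (.nd (nat_lit 26392141888) (.lf (nat_lit 0x625182040)) (.lf (nat_lit 0x625183040)))) (.nd (nat_lit 26392146049) (.nd (nat_lit 26392146048) (.lf (nat_lit 0x625183080)) (.lf (nat_lit 0x625183081))) (.nd (nat_lit 26392150080) (.lf (nat_lit 0x625184040)) (.lf (nat_lit 0x625184080))))) (.nd (nat_lit 26392408192) (.nd (nat_lit 26392404032) (.nd (nat_lit 26392154176) (.lf (nat_lit 0x625185040)) (.lf (nat_lit 0x6251c2040))) (.nd (nat_lit 26392408128) (.lf (nat_lit 0x6251c3040)) (.lf (nat_lit 0x6251c3080)))) (.nd (nat_lit 26392666176) (.nd (nat_lit 26392412224) (.lf (nat_lit 0x6251c4040)) (.lf (nat_lit 0x625202040))) (.nd (nat_lit 26392670272) (.lf (nat_lit 0x625203040)) (.lf (nat_lit 0x625242040)))))) (.nd (nat_lit 26408661120)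 (.nd (nat_lit 26408398976) (.nd (nat_lit 26408394816) (.nd (nat_lit 26408132672) (.lf (nat_lit 0x6260c2040)) (.lf (nat_lit 0x626102040))) (.nd (nat_lit 26408398912) (.lf (nat_lit 0x626103040)) (.lf (nat_lit 0x626103080)))) (.nd (nat_lit 26408656960) (.nd (nat_lit 26408398977) (.lf (nat_lit 0x626103081)) (.lf (nat_lit 0x626142040))) (.nd (nat_lit 26408661056) (.lf (nat_lit 0x626143040)) (.lf (nat_lit 0x626143080))))) (.nd (nat_lit 26409181248) (.nd (nat_lit 26408919104) (.nd (nat_lit 26408665152) (.lf (nat_lit 0x626144040)) (.lf (nat_lit 0x626182040))) (.nd (nat_lit 26408923200) (.lf (nat_lit 0x626183040)) (.lf (nat_lit 0x6261c2040)))) (.nd (nat_lit 26425172032) (.nd (nat_lit 26424909888) (.lf (nat_lit 0x6270c2040)) (.lf (nat_lit 0x627102040))) (.nd (nat_lit 26425176128) (.lf (nat_lit 0x627103040)) (.nd (nat_lit 26425434176) (.lf (nat_lit 0x627142040)) (.lf (nat_lit 0x6280c2040))))))))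
noncomputable def jt9 : BT := (.nd (nat_lit 26327396416) (.nd (nat_lit 26274447424) (.nd (nat_lit 26240360512) jt9_0 jt9_1) (.nd (nat_lit 26308522048) jt9_2 jt9_3)) (.nd (nat_lit 26360164416) (.nd (nat_lit 26343911488) jt9_4 jt9_5) (.nd (nat_lit 26391888000) jt9_6 jt9_7)))
def jg9 : Cfg := ⟨85, 76, 28, 12, 44⟩
noncomputable def jX9 : F3 := XRc 12 99 99 99 0
noncomputable def jt10_0 : BT := (.nd (nat_lit 28371333248) (.nd (nat_lit 28320997440) (.nd (nat_lit 28270669888) (.nd (nat_lit 28253626432) (.nd (nat_lit 28236849216) (.nd (nat_lit 28220072000) (.lf (nat_lit 0x6920c2040)) (.lf (nat_lit 0x6930c2040))) (.nd (nat_lit 28237111360) (.lf (nat_lit 0x693102040)) (.lf (nat_lit 0x6940c2040)))) (.nd (nat_lit 28270403648) (.nd (nat_lit 28253888576) (.lf (nat_lit 0x694102040)) (.lf (nat_lit 0x6950c2040))) (.nd (nat_lit 28270665792) (.lf (nat_lit 0x695102040)) (.lf (nat_lit 0x695103040))))) (.nd (nat_lit 28303958080) (.nd (nat_lit 28287443008)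 (.nd (nat_lit 28287180864) (.lf (nat_lit 0x6960c2040)) (.lf (nat_lit 0x696102040))) (.nd (nat_lit 28287447104) (.lf (nat_lit 0x696103040)) (.lf (nat_lit 0x6970c2040)))) (.nd (nat_lit 28304224320) (.nd (nat_lit 28304220224) (.lf (nat_lit 0x697102040)) (.lf (nat_lit 0x697103040))) (.nd (nat_lit 28320735296) (.lf (nat_lit 0x6980c2040)) (.lf (nat_lit 0x698102040)))))) (.nd (nat_lit 28354289728) (.nd (nat_lit 28337774656) (.nd (nat_lit 28321001600) (.nd (nat_lit 28321001536) (.lf (nat_lit 0x698103040)) (.lf (nat_lit 0x698103080))) (.nd (nat_lit 28337512512) (.lf (nat_lit 0x6990c2040)) (.lf (nat_lit 0x699102040)))) (.nd (nat_lit 28337778816) (.nd (nat_lit 28337778752) (.lf (nat_lit 0x699103040)) (.lf (nat_lit 0x699103080))) (.nd (nat_lit 28338036800) (.lf (nat_lit 0x699142040)) (.lf (nat_lit 0x69a0c2040))))) (.nd (nat_lit 28354814016) (.nd (nat_lit 28354555968) (.nd (nat_lit 28354551872) (.lf (nat_lit 0x69a102040)) (.lf (nat_lit 0x69a103040)))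 (.nd (nat_lit 28354556032) (.lf (nat_lit 0x69a103080)) (.lf (nat_lit 0x69a142040)))) (.nd (nat_lit 28371329088) (.nd (nat_lit 28371066944) (.lf (nat_lit 0x69b0c2040)) (.lf (nat_lit 0x69b102040))) (.nd (nat_lit 28371333184) (.lf (nat_lit 0x69b103040)) (.lf (nat_lit 0x69b103080))))))) (.nd (nat_lit 28405407808) (.nd (nat_lit 28388630592) (.nd (nat_lit 28388110400) (.nd (nat_lit 28387844160) (.nd (nat_lit 28371591232) (.lf (nat_lit 0x69b142040)) (.lf (nat_lit 0x69c0c2040))) (.nd (nat_lit 28388106304) (.lf (nat_lit 0x69c102040)) (.lf (nat_lit 0x69c103040)))) (.nd (nat_lit 28388110465) (.nd (nat_lit 28388110464) (.lf (nat_lit 0x69c103080)) (.lf (nat_lit 0x69c103081))) (.nd (nat_lit 28388368448) (.lf (nat_lit 0x69c142040)) (.lf (nat_lit 0x69c182040))))) (.nd (nat_lit 28404887680) (.nd (nat_lit 28404883520) (.nd (nat_lit 28404621376) (.lf (nat_lit 0x69d0c2040)) (.lf (nat_lit 0x69d102040))) (.nd (nat_lit 28404887616) (.lf (nat_lit 0x69d103040))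 (.lf (nat_lit 0x69d103080)))) (.nd (nat_lit 28405145664) (.nd (nat_lit 28404887681) (.lf (nat_lit 0x69d103081)) (.lf (nat_lit 0x69d142040))) (.nd (nat_lit 28405149760) (.lf (nat_lit 0x69d143040)) (.lf (nat_lit 0x69d182040)))))) (.nd (nat_lit 28422185024) (.nd (nat_lit 28421664896) (.nd (nat_lit 28421660736) (.nd (nat_lit 28421398592) (.lf (nat_lit 0x69e0c2040)) (.lf (nat_lit 0x69e102040))) (.nd (nat_lit 28421664832) (.lf (nat_lit 0x69e103040)) (.lf (nat_lit 0x69e103080)))) (.nd (nat_lit 28421922880) (.nd (nat_lit 28421664897) (.lf (nat_lit 0x69e103081)) (.lf (nat_lit 0x69e142040))) (.nd (nat_lit 28421926976) (.lf (nat_lit 0x69e143040)) (.lf (nat_lit 0x69e182040))))) (.nd (nat_lit 28438442112) (.nd (nat_lit 28438437952) (.nd (nat_lit 28438175808) (.lf (nat_lit 0x69f0c2040)) (.lf (nat_lit 0x69f102040))) (.nd (nat_lit 28438442048) (.lf (nat_lit 0x69f103040)) (.lf (nat_lit 0x69f103080)))) (.nd (nat_lit 28438700096) (.nd (nat_lit 28438442113)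 (.lf (nat_lit 0x69f103081)) (.lf (nat_lit 0x69f142040))) (.nd (nat_lit 28438704192) (.lf (nat_lit 0x69f143040)) (.lf (nat_lit 0x69f182040))))))))
noncomputable def jt10_1 : BT := (.nd (nat_lit 28488773761) (.nd (nat_lit 28471996480) (.nd (nat_lit 28455481408) (.nd (nat_lit 28455219264) (.nd (nat_lit 28454953024) (.nd (nat_lit 28439224384) (.lf (nat_lit 0x69f1c2040)) (.lf (nat_lit 0x6a00c2040))) (.nd (nat_lit 28455215168) (.lf (nat_lit 0x6a0102040)) (.lf (nat_lit 0x6a0103040)))) (.nd (nat_lit 28455219329) (.nd (nat_lit 28455219328) (.lf (nat_lit 0x6a0103080)) (.lf (nat_lit 0x6a0103081))) (.nd (nat_lit 28455477312) (.lf (nat_lit 0x6a0142040)) (.lf (nat_lit 0x6a0143040))))) (.nd (nat_lit 28456001600) (.nd (nat_lit 28455739456) (.nd (nat_lit 28455481472) (.lf (nat_lit 0x6a0143080)) (.lf (nat_lit 0x6a0182040))) (.nd (nat_lit 28455743552) (.lf (nat_lit 0x6a0183040)) (.lf (nat_lit 0x6a01c2040)))) (.nd (nat_lit 28471730240) (.nd (nat_lit 28456263744)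 (.lf (nat_lit 0x6a0202040)) (.lf (nat_lit 0x6a10c2040))) (.nd (nat_lit 28471992384) (.lf (nat_lit 0x6a1102040)) (.lf (nat_lit 0x6a1103040)))))) (.nd (nat_lit 28472520768) (.nd (nat_lit 28472258624) (.nd (nat_lit 28471996545) (.nd (nat_lit 28471996544) (.lf (nat_lit 0x6a1103080)) (.lf (nat_lit 0x6a1103081))) (.nd (nat_lit 28472254528) (.lf (nat_lit 0x6a1142040)) (.lf (nat_lit 0x6a1143040)))) (.nd (nat_lit 28472262720) (.nd (nat_lit 28472258688) (.lf (nat_lit 0x6a1143080)) (.lf (nat_lit 0x6a1144040))) (.nd (nat_lit 28472516672) (.lf (nat_lit 0x6a1182040)) (.lf (nat_lit 0x6a1183040))))) (.nd (nat_lit 28488507456) (.nd (nat_lit 28473040960) (.nd (nat_lit 28472778816) (.lf (nat_lit 0x6a11c2040)) (.lf (nat_lit 0x6a1202040))) (.nd (nat_lit 28473303104) (.lf (nat_lit 0x6a1242040)) (.lf (nat_lit 0x6a20c2040)))) (.nd (nat_lit 28488773696) (.nd (nat_lit 28488769600) (.lf (nat_lit 0x6a2102040)) (.lf (nat_lit 0x6a2103040))) (.nd (nat_lit 28488773760)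 (.lf (nat_lit 0x6a2103080)) (.lf (nat_lit 0x6a2103081))))))) (.nd (nat_lit 28505550977) (.nd (nat_lit 28489560128) (.nd (nat_lit 28489039936) (.nd (nat_lit 28489035840) (.nd (nat_lit 28489031744) (.lf (nat_lit 0x6a2142040)) (.lf (nat_lit 0x6a2143040))) (.nd (nat_lit 28489035904) (.lf (nat_lit 0x6a2143080)) (.lf (nat_lit 0x6a2144040)))) (.nd (nat_lit 28489297984) (.nd (nat_lit 28489293888) (.lf (nat_lit 0x6a2182040)) (.lf (nat_lit 0x6a2183040))) (.nd (nat_lit 28489556032) (.lf (nat_lit 0x6a21c2040)) (.lf (nat_lit 0x6a21c3040))))) (.nd (nat_lit 28505284672) (.nd (nat_lit 28490080320) (.nd (nat_lit 28489818176) (.lf (nat_lit 0x6a2202040)) (.lf (nat_lit 0x6a2242040))) (.nd (nat_lit 28490342464) (.lf (nat_lit 0x6a2282040)) (.lf (nat_lit 0x6a30c2040)))) (.nd (nat_lit 28505550912) (.nd (nat_lit 28505546816) (.lf (nat_lit 0x6a3102040)) (.lf (nat_lit 0x6a3103040))) (.nd (nat_lit 28505550976) (.lf (nat_lit 0x6a3103080)) (.lf (nat_lit 0x6a3103081))))))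 (.nd (nat_lit 28506079296) (.nd (nat_lit 28505817152) (.nd (nat_lit 28505813056) (.nd (nat_lit 28505808960) (.lf (nat_lit 0x6a3142040)) (.lf (nat_lit 0x6a3143040))) (.nd (nat_lit 28505813120) (.lf (nat_lit 0x6a3143080)) (.lf (nat_lit 0x6a3144040)))) (.nd (nat_lit 28506075200) (.nd (nat_lit 28506071104) (.lf (nat_lit 0x6a3182040)) (.lf (nat_lit 0x6a3183040))) (.nd (nat_lit 28506075264) (.lf (nat_lit 0x6a3183080)) (.lf (nat_lit 0x6a3184040))))) (.nd (nat_lit 28506599488) (.nd (nat_lit 28506337344) (.nd (nat_lit 28506333248) (.lf (nat_lit 0x6a31c2040)) (.lf (nat_lit 0x6a31c3040))) (.nd (nat_lit 28506595392) (.lf (nat_lit 0x6a3202040)) (.lf (nat_lit 0x6a3203040)))) (.nd (nat_lit 28507119680) (.nd (nat_lit 28506857536) (.lf (nat_lit 0x6a3242040)) (.lf (nat_lit 0x6a3282040))) (.nd (nat_lit 28507381824) (.lf (nat_lit 0x6a32c2040)) (.lf (nat_lit 0x6a3302040))))))))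
noncomputable def jt10_2 : BT := (.nd (nat_lit 28524683328) (.nd (nat_lit 28522856512) (.nd (nat_lit 28522590272) (.nd (nat_lit 28522328128) (.nd (nat_lit 28522061888) (.nd (nat_lit 28507906112) (.lf (nat_lit 0x6a3342040)) (.lf (nat_lit 0x6a40c2040))) (.nd (nat_lit 28522324032) (.lf (nat_lit 0x6a4102040)) (.lf (nat_lit 0x6a4103040)))) (.nd (nat_lit 28522328193) (.nd (nat_lit 28522328192) (.lf (nat_lit 0x6a4103080)) (.lf (nat_lit 0x6a4103081))) (.nd (nat_lit 28522586176) (.lf (nat_lit 0x6a4142040)) (.lf (nat_lit 0x6a4143040))))) (.nd (nat_lit 28522594432) (.nd (nat_lit 28522590337) (.nd (nat_lit 28522590336) (.lf (nat_lit 0x6a4143080)) (.lf (nat_lit 0x6a4143081))) (.nd (nat_lit 28522594368) (.lf (nat_lit 0x6a4144040)) (.lf (nat_lit 0x6a4144080)))) (.nd (nat_lit 28522852416) (.nd (nat_lit 28522848320) (.lf (nat_lit 0x6a4182040)) (.lf (nat_lit 0x6a4183040))) (.nd (nat_lit 28522852480) (.lf (nat_lit 0x6a4183080)) (.lf (nat_lit 0x6a4184040))))))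 (.nd (nat_lit 28523634752) (.nd (nat_lit 28523114624) (.nd (nat_lit 28523110464) (.nd (nat_lit 28522860608) (.lf (nat_lit 0x6a4185040)) (.lf (nat_lit 0x6a41c2040))) (.nd (nat_lit 28523114560) (.lf (nat_lit 0x6a41c3040)) (.lf (nat_lit 0x6a41c3080)))) (.nd (nat_lit 28523372608) (.nd (nat_lit 28523118656) (.lf (nat_lit 0x6a41c4040)) (.lf (nat_lit 0x6a4202040))) (.nd (nat_lit 28523376704) (.lf (nat_lit 0x6a4203040)) (.lf (nat_lit 0x6a4242040))))) (.nd (nat_lit 28524159040) (.nd (nat_lit 28523896896) (.nd (nat_lit 28523638848) (.lf (nat_lit 0x6a4243040)) (.lf (nat_lit 0x6a4282040))) (.nd (nat_lit 28523900992) (.lf (nat_lit 0x6a4283040)) (.lf (nat_lit 0x6a42c2040)))) (.nd (nat_lit 28524421184) (.nd (nat_lit 28524163136) (.lf (nat_lit 0x6a42c3040)) (.lf (nat_lit 0x6a4302040))) (.nd (nat_lit 28524425280) (.lf (nat_lit 0x6a4303040)) (.lf (nat_lit 0x6a4342040))))))) (.nd (nat_lit 28539633728) (.nd (nat_lit 28539367488) (.nd (nat_lit 28539105344)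 (.nd (nat_lit 28538839104) (.nd (nat_lit 28524687424) (.lf (nat_lit 0x6a4343040)) (.lf (nat_lit 0x6a50c2040))) (.nd (nat_lit 28539101248) (.lf (nat_lit 0x6a5102040)) (.lf (nat_lit 0x6a5103040)))) (.nd (nat_lit 28539105409) (.nd (nat_lit 28539105408) (.lf (nat_lit 0x6a5103080)) (.lf (nat_lit 0x6a5103081))) (.nd (nat_lit 28539363392) (.lf (nat_lit 0x6a5142040)) (.lf (nat_lit 0x6a5143040))))) (.nd (nat_lit 28539371648) (.nd (nat_lit 28539367553) (.nd (nat_lit 28539367552) (.lf (nat_lit 0x6a5143080)) (.lf (nat_lit 0x6a5143081))) (.nd (nat_lit 28539371584) (.lf (nat_lit 0x6a5144040)) (.lf (nat_lit 0x6a5144080)))) (.nd (nat_lit 28539629632) (.nd (nat_lit 28539625536) (.lf (nat_lit 0x6a5182040)) (.lf (nat_lit 0x6a5183040))) (.nd (nat_lit 28539629696) (.lf (nat_lit 0x6a5183080)) (.lf (nat_lit 0x6a5184040)))))) (.nd (nat_lit 28540149824) (.nd (nat_lit 28539891776) (.nd (nat_lit 28539637824) (.nd (nat_lit 28539633792) (.lf (nat_lit 0x6a5184080))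 (.lf (nat_lit 0x6a5185040))) (.nd (nat_lit 28539887680) (.lf (nat_lit 0x6a51c2040)) (.lf (nat_lit 0x6a51c3040)))) (.nd (nat_lit 28539895872) (.nd (nat_lit 28539891840) (.lf (nat_lit 0x6a51c3080)) (.lf (nat_lit 0x6a51c4040))) (.nd (nat_lit 28539899968) (.lf (nat_lit 0x6a51c5040)) (.lf (nat_lit 0x6a5202040))))) (.nd (nat_lit 28540162112) (.nd (nat_lit 28540153984) (.nd (nat_lit 28540153920) (.lf (nat_lit 0x6a5203040)) (.lf (nat_lit 0x6a5203080))) (.nd (nat_lit 28540158016) (.lf (nat_lit 0x6a5204040)) (.lf (nat_lit 0x6a5205040)))) (.nd (nat_lit 28540416064) (.nd (nat_lit 28540411968) (.lf (nat_lit 0x6a5242040)) (.lf (nat_lit 0x6a5243040))) (.nd (nat_lit 28540416128) (.lf (nat_lit 0x6a5243080)) (.lf (nat_lit 0x6a5244040))))))))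
noncomputable def jt10_3 : BT := (.nd (nat_lit 28556148864) (.nd (nat_lit 28541206656) (.nd (nat_lit 28540940416) (.nd (nat_lit 28540682304) (.nd (nat_lit 28540674112) (.nd (nat_lit 28540436544) (.lf (nat_lit 0x6a5248040)) (.lf (nat_lit 0x6a5282040))) (.nd (nat_lit 28540678208) (.lf (nat_lit 0x6a5283040)) (.lf (nat_lit 0x6a5284040)))) (.nd (nat_lit 28540936256) (.nd (nat_lit 28540694592) (.lf (nat_lit 0x6a5287040)) (.lf (nat_lit 0x6a52c2040))) (.nd (nat_lit 28540940352) (.lf (nat_lit 0x6a52c3040)) (.lf (nat_lit 0x6a52c3080))))) (.nd (nat_lit 28541198400) (.nd (nat_lit 28540948544) (.nd (nat_lit 28540944448) (.lf (nat_lit 0x6a52c4040)) (.lf (nat_lit 0x6a52c5040))) (.nd (nat_lit 28540952640) (.lf (nat_lit 0x6a52c6040)) (.lf (nat_lit 0x6a5302040)))) (.nd (nat_lit 28541202560) (.nd (nat_lit 28541202496) (.lf (nat_lit 0x6a5303040)) (.lf (nat_lit 0x6a5303080))) (.nd (nat_lit 28541206592) (.lf (nat_lit 0x6a5304040)) (.lf (nat_lit 0x6a5304080))))))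 (.nd (nat_lit 28555882560) (.nd (nat_lit 28541464704) (.nd (nat_lit 28541460544) (.nd (nat_lit 28541210688) (.lf (nat_lit 0x6a5305040)) (.lf (nat_lit 0x6a5342040))) (.nd (nat_lit 28541464640) (.lf (nat_lit 0x6a5343040)) (.lf (nat_lit 0x6a5343080)))) (.nd (nat_lit 28555616320) (.nd (nat_lit 28541468736) (.lf (nat_lit 0x6a5344040)) (.lf (nat_lit 0x6a60c2040))) (.nd (nat_lit 28555878464) (.lf (nat_lit 0x6a6102040)) (.lf (nat_lit 0x6a6103040))))) (.nd (nat_lit 28556144704) (.nd (nat_lit 28555882625) (.nd (nat_lit 28555882624) (.lf (nat_lit 0x6a6103080)) (.lf (nat_lit 0x6a6103081))) (.nd (nat_lit 28556140608) (.lf (nat_lit 0x6a6142040)) (.lf (nat_lit 0x6a6143040)))) (.nd (nat_lit 28556144769) (.nd (nat_lit 28556144768) (.lf (nat_lit 0x6a6143080)) (.lf (nat_lit 0x6a6143081))) (.nd (nat_lit 28556148800) (.lf (nat_lit 0x6a6144040)) (.lf (nat_lit 0x6a6144080))))))) (.nd (nat_lit 28556677248) (.nd (nat_lit 28556415040) (.nd (nat_lit 28556406912)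 (.nd (nat_lit 28556402752) (.nd (nat_lit 28556148928) (.lf (nat_lit 0x6a61440c0)) (.lf (nat_lit 0x6a6182040))) (.nd (nat_lit 28556406848) (.lf (nat_lit 0x6a6183040)) (.lf (nat_lit 0x6a6183080)))) (.nd (nat_lit 28556410944) (.nd (nat_lit 28556406913) (.lf (nat_lit 0x6a6183081)) (.lf (nat_lit 0x6a6184040))) (.nd (nat_lit 28556411008) (.lf (nat_lit 0x6a6184080)) (.lf (nat_lit 0x6a6185040))))) (.nd (nat_lit 28556669056) (.nd (nat_lit 28556664896) (.nd (nat_lit 28556415104) (.lf (nat_lit 0x6a6185080)) (.lf (nat_lit 0x6a61c2040))) (.nd (nat_lit 28556668992) (.lf (nat_lit 0x6a61c3040)) (.lf (nat_lit 0x6a61c3080)))) (.nd (nat_lit 28556673152) (.nd (nat_lit 28556673088) (.lf (nat_lit 0x6a61c4040)) (.lf (nat_lit 0x6a61c4080))) (.nd (nat_lit 28556677184) (.lf (nat_lit 0x6a61c5040)) (.lf (nat_lit 0x6a61c5080)))))) (.nd (nat_lit 28556939328) (.nd (nat_lit 28556931136) (.nd (nat_lit 28556681344) (.nd (nat_lit 28556681280) (.lf (nat_lit 0x6a61c6040))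 (.lf (nat_lit 0x6a61c6080))) (.nd (nat_lit 28556927040) (.lf (nat_lit 0x6a6202040)) (.lf (nat_lit 0x6a6203040)))) (.nd (nat_lit 28556935232) (.nd (nat_lit 28556931200) (.lf (nat_lit 0x6a6203080)) (.lf (nat_lit 0x6a6204040))) (.nd (nat_lit 28556935296) (.lf (nat_lit 0x6a6204080)) (.lf (nat_lit 0x6a6205040))))) (.nd (nat_lit 28556947520) (.nd (nat_lit 28556943424) (.nd (nat_lit 28556939392) (.lf (nat_lit 0x6a6205080)) (.lf (nat_lit 0x6a6206040))) (.nd (nat_lit 28556943488) (.lf (nat_lit 0x6a6206080)) (.lf (nat_lit 0x6a6207040)))) (.nd (nat_lit 28557193280) (.nd (nat_lit 28557189184) (.lf (nat_lit 0x6a6242040)) (.lf (nat_lit 0x6a6243040))) (.nd (nat_lit 28557193344) (.lf (nat_lit 0x6a6243080)) (.lf (nat_lit 0x6a6244040))))))))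
noncomputable def jt10_4 : BT := (.nd (nat_lit 28572926144) (.nd (nat_lit 28557721664) (.nd (nat_lit 28557455488) (.nd (nat_lit 28557201536) (.nd (nat_lit 28557197504) (.nd (nat_lit 28557197440) (.lf (nat_lit 0x6a6244080)) (.lf (nat_lit 0x6a62440c0))) (.nd (nat_lit 28557201472) (.lf (nat_lit 0x6a6245040)) (.lf (nat_lit 0x6a6245080)))) (.nd (nat_lit 28557451328) (.nd (nat_lit 28557205568) (.lf (nat_lit 0x6a6246040)) (.lf (nat_lit 0x6a6282040))) (.nd (nat_lit 28557455424) (.lf (nat_lit 0x6a6283040)) (.lf (nat_lit 0x6a6283080))))) (.nd (nat_lit 28557463616) (.nd (nat_lit 28557459520) (.nd (nat_lit 28557455489) (.lf (nat_lit 0x6a6283081)) (.lf (nat_lit 0x6a6284040))) (.nd (nat_lit 28557459584) (.lf (nat_lit 0x6a6284080)) (.lf (nat_lit 0x6a6285040)))) (.nd (nat_lit 28557717568) (.nd (nat_lit 28557713472) (.lf (nat_lit 0x6a62c2040)) (.lf (nat_lit 0x6a62c3040))) (.nd (nat_lit 28557717632) (.lf (nat_lit 0x6a62c3080)) (.lf (nat_lit 0x6a62c4040))))))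 (.nd (nat_lit 28572659841) (.nd (nat_lit 28572393536) (.nd (nat_lit 28557979712) (.nd (nat_lit 28557975616) (.lf (nat_lit 0x6a6302040)) (.lf (nat_lit 0x6a6303040))) (.nd (nat_lit 28558237760) (.lf (nat_lit 0x6a6342040)) (.lf (nat_lit 0x6a70c2040)))) (.nd (nat_lit 28572659776) (.nd (nat_lit 28572655680) (.lf (nat_lit 0x6a7102040)) (.lf (nat_lit 0x6a7103040))) (.nd (nat_lit 28572659840) (.lf (nat_lit 0x6a7103080)) (.lf (nat_lit 0x6a7103081))))) (.nd (nat_lit 28572921985) (.nd (nat_lit 28572921920) (.nd (nat_lit 28572917824) (.lf (nat_lit 0x6a7142040)) (.lf (nat_lit 0x6a7143040))) (.nd (nat_lit 28572921984) (.lf (nat_lit 0x6a7143080)) (.lf (nat_lit 0x6a7143081)))) (.nd (nat_lit 28572926080) (.nd (nat_lit 28572926016) (.lf (nat_lit 0x6a7144040)) (.lf (nat_lit 0x6a7144080))) (.nd (nat_lit 28572926081) (.lf (nat_lit 0x6a7144081)) (.lf (nat_lit 0x6a71440c0))))))) (.nd (nat_lit 28573446272) (.nd (nat_lit 28573188288) (.nd (nat_lit 28573184129)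 (.nd (nat_lit 28573184064) (.nd (nat_lit 28573179968) (.lf (nat_lit 0x6a7182040)) (.lf (nat_lit 0x6a7183040))) (.nd (nat_lit 28573184128) (.lf (nat_lit 0x6a7183080)) (.lf (nat_lit 0x6a7183081)))) (.nd (nat_lit 28573188224) (.nd (nat_lit 28573188160) (.lf (nat_lit 0x6a7184040)) (.lf (nat_lit 0x6a7184080))) (.nd (nat_lit 28573188225) (.lf (nat_lit 0x6a7184081)) (.lf (nat_lit 0x6a71840c0))))) (.nd (nat_lit 28573192321) (.nd (nat_lit 28573192256) (.nd (nat_lit 28573188289) (.lf (nat_lit 0x6a71840c1)) (.lf (nat_lit 0x6a7185040))) (.nd (nat_lit 28573192320) (.lf (nat_lit 0x6a7185080)) (.lf (nat_lit 0x6a7185081)))) (.nd (nat_lit 28573442112) (.nd (nat_lit 28573192384) (.lf (nat_lit 0x6a71850c0)) (.lf (nat_lit 0x6a71c2040))) (.nd (nat_lit 28573446208) (.lf (nat_lit 0x6a71c3040)) (.lf (nat_lit 0x6a71c3080)))))) (.nd (nat_lit 28573458496) (.nd (nat_lit 28573450369) (.nd (nat_lit 28573450304) (.nd (nat_lit 28573446273) (.lf (nat_lit 0x6a71c3081))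 (.lf (nat_lit 0x6a71c4040))) (.nd (nat_lit 28573450368) (.lf (nat_lit 0x6a71c4080)) (.lf (nat_lit 0x6a71c4081)))) (.nd (nat_lit 28573454400) (.nd (nat_lit 28573450432) (.lf (nat_lit 0x6a71c40c0)) (.lf (nat_lit 0x6a71c5040))) (.nd (nat_lit 28573454464) (.lf (nat_lit 0x6a71c5080)) (.lf (nat_lit 0x6a71c6040))))) (.nd (nat_lit 28573708417) (.nd (nat_lit 28573708352) (.nd (nat_lit 28573704256) (.lf (nat_lit 0x6a7202040)) (.lf (nat_lit 0x6a7203040))) (.nd (nat_lit 28573708416) (.lf (nat_lit 0x6a7203080)) (.lf (nat_lit 0x6a7203081)))) (.nd (nat_lit 28573712512) (.nd (nat_lit 28573712448) (.lf (nat_lit 0x6a7204040)) (.lf (nat_lit 0x6a7204080))) (.nd (nat_lit 28573716544) (.lf (nat_lit 0x6a7205040)) (.lf (nat_lit 0x6a7242040))))))))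
noncomputable def jt10_5 : BT := (.nd (nat_lit 28589965440) (.nd (nat_lit 28589695040) (.nd (nat_lit 28574490688) (.nd (nat_lit 28573974592) (.nd (nat_lit 28573970496) (.lf (nat_lit 0x6a7243040)) (.nd (nat_lit 28573970560) (.lf (nat_lit 0x6a7243080)) (.lf (nat_lit 0x6a7244040)))) (.nd (nat_lit 28574228544) (.lf (nat_lit 0x6a7282040)) (.nd (nat_lit 28574232640) (.lf (nat_lit 0x6a7283040)) (.lf (nat_lit 0x6a72c2040))))) (.nd (nat_lit 28589436992) (.nd (nat_lit 28589170752) (.lf (nat_lit 0x6a80c2040)) (.nd (nat_lit 28589432896) (.lf (nat_lit 0x6a8102040)) (.lf (nat_lit 0x6a8103040)))) (.nd (nat_lit 28589437056) (.lf (nat_lit 0x6a8103080)) (.nd (nat_lit 28589437057) (.lf (nat_lit 0x6a8103081)) (.lf (nat_lit 0x6a8142040)))))) (.nd (nat_lit 28589703297) (.nd (nat_lit 28589699201) (.nd (nat_lit 28589699136) (.lf (nat_lit 0x6a8143040)) (.nd (nat_lit 28589699200) (.lf (nat_lit 0x6a8143080)) (.lf (nat_lit 0x6a8143081)))) (.nd (nat_lit 28589703232)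 (.lf (nat_lit 0x6a8144040)) (.nd (nat_lit 28589703296) (.lf (nat_lit 0x6a8144080)) (.lf (nat_lit 0x6a8144081))))) (.nd (nat_lit 28589961280) (.nd (nat_lit 28589703360) (.lf (nat_lit 0x6a81440c0)) (.nd (nat_lit 28589957184) (.lf (nat_lit 0x6a8182040)) (.lf (nat_lit 0x6a8183040)))) (.nd (nat_lit 28589961345) (.nd (nat_lit 28589961344) (.lf (nat_lit 0x6a8183080)) (.lf (nat_lit 0x6a8183081))) (.nd (nat_lit 28589965376) (.lf (nat_lit 0x6a8184040)) (.lf (nat_lit 0x6a8184080))))))) (.nd (nat_lit 28606214272) (.nd (nat_lit 28590481472) (.nd (nat_lit 28590223424) (.nd (nat_lit 28589969472) (.lf (nat_lit 0x6a8185040)) (.nd (nat_lit 28590219328) (.lf (nat_lit 0x6a81c2040)) (.lf (nat_lit 0x6a81c3040)))) (.nd (nat_lit 28590223488) (.lf (nat_lit 0x6a81c3080)) (.nd (nat_lit 28590227520) (.lf (nat_lit 0x6a81c4040)) (.lf (nat_lit 0x6a8202040))))) (.nd (nat_lit 28605947968) (.nd (nat_lit 28590485568) (.lf (nat_lit 0x6a8203040)) (.nd (nat_lit 28590743616)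 (.lf (nat_lit 0x6a8242040)) (.lf (nat_lit 0x6a90c2040)))) (.nd (nat_lit 28606210112) (.lf (nat_lit 0x6a9102040)) (.nd (nat_lit 28606214208) (.lf (nat_lit 0x6a9103040)) (.lf (nat_lit 0x6a9103080)))))) (.nd (nat_lit 28606734400) (.nd (nat_lit 28606476352) (.nd (nat_lit 28606214273) (.lf (nat_lit 0x6a9103081)) (.nd (nat_lit 28606472256) (.lf (nat_lit 0x6a9142040)) (.lf (nat_lit 0x6a9143040)))) (.nd (nat_lit 28606476416) (.lf (nat_lit 0x6a9143080)) (.nd (nat_lit 28606480448) (.lf (nat_lit 0x6a9144040)) (.lf (nat_lit 0x6a9182040))))) (.nd (nat_lit 28622725184) (.nd (nat_lit 28606738496) (.lf (nat_lit 0x6a9183040)) (.nd (nat_lit 28606996544) (.lf (nat_lit 0x6a91c2040)) (.lf (nat_lit 0x6aa0c2040)))) (.nd (nat_lit 28622991424) (.nd (nat_lit 28622987328) (.lf (nat_lit 0x6aa102040)) (.lf (nat_lit 0x6aa103040))) (.nd (nat_lit 28623249472) (.lf (nat_lit 0x6aa142040)) (.lf (nat_lit 0x6ab0c2040))))))))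
noncomputable def jt10 : BT := (.nd (nat_lit 28540420160) (.nd (nat_lit 28438962240) jt10_0 (.nd (nat_lit 28507643968) jt10_1 jt10_2)) (.nd (nat_lit 28557197376) jt10_3 (.nd (nat_lit 28573966400) jt10_4 jt10_5)))
def jg10 : Cfg := ⟨88, 79, 14, 13, 47⟩
noncomputable def jX10 : F3 := XRc 13 99 99 99 0
noncomputable def jt11_0 : BT := (.nd (nat_lit 28443947136) (.nd (nat_lit 28427432000) (.nd (nat_lit 28411179072) (.nd (nat_lit 28410916928) (.nd (nat_lit 28410650688) (.nd (nat_lit 28394135616) (.lf (nat_lit 0x69c6c2040)) (.lf (nat_lit 0x69d682040))) (.nd (nat_lit 28410912832) (.lf (nat_lit 0x69d6c2040)) (.lf (nat_lit 0x69d6c3040)))) (.nd (nat_lit 28410925120) (.nd (nat_lit 28410921024) (.lf (nat_lit 0x69d6c4040)) (.lf (nat_lit 0x69d6c5040))) (.nd (nat_lit 28411174976) (.lf (nat_lit 0x69d702040)) (.lf (nat_lit 0x69d703040))))) (.nd (nat_lit 28411187264) (.nd (nat_lit 28411179137) (.nd (nat_lit 28411179136) (.lf (nat_lit 0x69d703080)) (.lf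 (nat_lit 0x69d703081))) (.nd (nat_lit 28411183168) (.lf (nat_lit 0x69d704040)) (.lf (nat_lit 0x69d705040)))) (.nd (nat_lit 28427165760) (.nd (nat_lit 28426903616) (.lf (nat_lit 0x69e602040)) (.lf (nat_lit 0x69e642040))) (.nd (nat_lit 28427427904) (.lf (nat_lit 0x69e682040)) (.lf (nat_lit 0x69e683040)))))) (.nd (nat_lit 28427956288) (.nd (nat_lit 28427694144) (.nd (nat_lit 28427440192) (.nd (nat_lit 28427436096) (.lf (nat_lit 0x69e684040)) (.lf (nat_lit 0x69e685040))) (.nd (nat_lit 28427690048) (.lf (nat_lit 0x69e6c2040)) (.lf (nat_lit 0x69e6c3040)))) (.nd (nat_lit 28427698240) (.nd (nat_lit 28427694208) (.lf (nat_lit 0x69e6c3080)) (.lf (nat_lit 0x69e6c4040))) (.nd (nat_lit 28427952192) (.lf (nat_lit 0x69e702040)) (.lf (nat_lit 0x69e703040))))) (.nd (nat_lit 28443684928) (.nd (nat_lit 28443418688) (.nd (nat_lit 28428214336) (.lf (nat_lit 0x69e742040)) (.lf (nat_lit 0x69f5c2040))) (.nd (nat_lit 28443680832) (.lf (nat_lit 0x69f602040))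 (.lf (nat_lit 0x69f603040)))) (.nd (nat_lit 28443942976) (.nd (nat_lit 28443693120) (.lf (nat_lit 0x69f605040)) (.lf (nat_lit 0x69f642040))) (.nd (nat_lit 28443947072) (.lf (nat_lit 0x69f643040)) (.lf (nat_lit 0x69f643080))))))) (.nd (nat_lit 28476448832) (.nd (nat_lit 28460200000) (.nd (nat_lit 28444467264) (.nd (nat_lit 28444205120) (.nd (nat_lit 28443951168) (.lf (nat_lit 0x69f644040)) (.lf (nat_lit 0x69f682040))) (.nd (nat_lit 28444209216) (.lf (nat_lit 0x69f683040)) (.lf (nat_lit 0x69f6c2040)))) (.nd (nat_lit 28459933760) (.nd (nat_lit 28459671616) (.lf (nat_lit 0x6a0542040)) (.lf (nat_lit 0x6a0582040))) (.nd (nat_lit 28460195904) (.lf (nat_lit 0x6a05c2040)) (.lf (nat_lit 0x6a05c3040))))) (.nd (nat_lit 28460462144) (.nd (nat_lit 28460204096) (.nd (nat_lit 28460200064) (.lf (nat_lit 0x6a05c3080)) (.lf (nat_lit 0x6a05c4040))) (.nd (nat_lit 28460458048) (.lf (nat_lit 0x6a0602040)) (.lf (nat_lit 0x6a0603040)))) (.nd (nat_lit 28475924544)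 (.nd (nat_lit 28460720192) (.lf (nat_lit 0x6a0642040)) (.lf (nat_lit 0x6a14c2040))) (.nd (nat_lit 28476186688) (.lf (nat_lit 0x6a1502040)) (.lf (nat_lit 0x6a1542040)))))) (.nd (nat_lit 28492177472) (.nd (nat_lit 28476710976) (.nd (nat_lit 28476452992) (.nd (nat_lit 28476452928) (.lf (nat_lit 0x6a1543040)) (.lf (nat_lit 0x6a1543080))) (.nd (nat_lit 28476457024) (.lf (nat_lit 0x6a1544040)) (.lf (nat_lit 0x6a1582040)))) (.nd (nat_lit 28476973120) (.nd (nat_lit 28476715072) (.lf (nat_lit 0x6a1583040)) (.lf (nat_lit 0x6a15c2040))) (.nd (nat_lit 28491915328) (.lf (nat_lit 0x6a2402040)) (.lf (nat_lit 0x6a2442040))))) (.nd (nat_lit 28492705920) (.nd (nat_lit 28492701760) (.nd (nat_lit 28492439616) (.lf (nat_lit 0x6a2482040)) (.lf (nat_lit 0x6a24c2040))) (.nd (nat_lit 28492705856) (.lf (nat_lit 0x6a24c3040)) (.lf (nat_lit 0x6a24c3080)))) (.nd (nat_lit 28492963904) (.nd (nat_lit 28492709952) (.lf (nat_lit 0x6a24c4040)) (.lf (nat_lit 0x6a2502040)))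 (.nd (nat_lit 28492968000) (.lf (nat_lit 0x6a2503040)) (.lf (nat_lit 0x6a2542040))))))))
noncomputable def jt11_1 : BT := (.nd (nat_lit 28524945472) (.nd (nat_lit 28508954688) (.nd (nat_lit 28508692544) (.nd (nat_lit 28508168256) (.lf (nat_lit 0x6a3382040)) (.nd (nat_lit 28508430400) (.lf (nat_lit 0x6a33c2040)) (.lf (nat_lit 0x6a3402040)))) (.nd (nat_lit 28508696640) (.lf (nat_lit 0x6a3403040)) (.nd (nat_lit 28508704832) (.lf (nat_lit 0x6a3405040)) (.lf (nat_lit 0x6a3442040))))) (.nd (nat_lit 28508962880) (.nd (nat_lit 28508958784) (.lf (nat_lit 0x6a3443040)) (.nd (nat_lit 28508958848) (.lf (nat_lit 0x6a3443080)) (.lf (nat_lit 0x6a3444040)))) (.nd (nat_lit 28509220928) (.nd (nat_lit 28509216832) (.lf (nat_lit 0x6a3482040)) (.lf (nat_lit 0x6a3483040))) (.nd (nat_lit 28509478976) (.lf (nat_lit 0x6a34c2040)) (.lf (nat_lit 0x6a4382040)))))) (.nd (nat_lit 28525211776) (.nd (nat_lit 28524957760) (.nd (nat_lit 28524949568) (.lf (nat_lit 0x6a4383040))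 (.nd (nat_lit 28524953664) (.lf (nat_lit 0x6a4384040)) (.lf (nat_lit 0x6a4385040)))) (.nd (nat_lit 28525207616) (.lf (nat_lit 0x6a43c2040)) (.nd (nat_lit 28525211712) (.lf (nat_lit 0x6a43c3040)) (.lf (nat_lit 0x6a43c3080))))) (.nd (nat_lit 28525473856) (.nd (nat_lit 28525215808) (.lf (nat_lit 0x6a43c4040)) (.nd (nat_lit 28525469760) (.lf (nat_lit 0x6a4402040)) (.lf (nat_lit 0x6a4403040)))) (.nd (nat_lit 28541722688) (.nd (nat_lit 28525731904) (.lf (nat_lit 0x6a4442040)) (.lf (nat_lit 0x6a5382040))) (.nd (nat_lit 28541726784) (.lf (nat_lit 0x6a5383040)) (.lf (nat_lit 0x6a53c2040)))))))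
noncomputable def jt11 : BT := (.nd (nat_lit 28493226048) jt11_0 jt11_1)
def jg11 : Cfg := ⟨88, 79, 30, 13, 44⟩
noncomputable def jX11 : F3 := XRc 12 99 99 99 0
noncomputable def jt12_0 : BT := (.nd (nat_lit 30535852096) (.nd (nat_lit 30485258304) (.nd (nat_lit 30434930752) (.nd (nat_lit 30417887296) (.nd (nat_lit 30401110080) (.nd (nat_lit 30384332864) (.lf (nat_lit 0x7130c2040)) (.lf (nat_lit 0x7140c2040))) (.nd (nat_lit 30401372224) (.lf (nat_lit 0x714102040)) (.lf (nat_lit 0x7150c2040)))) (.nd (nat_lit 30434664512) (.nd (nat_lit 30418149440) (.lf (nat_lit 0x715102040)) (.lf (nat_lit 0x7160c2040))) (.nd (nat_lit 30434926656) (.lf (nat_lit 0x716102040)) (.lf (nat_lit 0x716103040))))) (.nd (nat_lit 30468218944) (.nd (nat_lit 30451703872) (.nd (nat_lit 30451441728) (.lf (nat_lit 0x7170c2040)) (.lf (nat_lit 0x717102040))) (.nd (nat_lit 30451707968) (.lf (nat_lit 0x717103040)) (.lf (nat_lit 0x7180c2040)))) (.nd (nat_lit 30468485184) (.nd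 (nat_lit 30468481088) (.lf (nat_lit 0x718102040)) (.lf (nat_lit 0x718103040))) (.nd (nat_lit 30484996160) (.lf (nat_lit 0x7190c2040)) (.lf (nat_lit 0x719102040)))))) (.nd (nat_lit 30518812736) (.nd (nat_lit 30502035520) (.nd (nat_lit 30485262464) (.nd (nat_lit 30485262400) (.lf (nat_lit 0x719103040)) (.lf (nat_lit 0x719103080))) (.nd (nat_lit 30501773376) (.lf (nat_lit 0x71a0c2040)) (.lf (nat_lit 0x71a102040)))) (.nd (nat_lit 30502039680) (.nd (nat_lit 30502039616) (.lf (nat_lit 0x71a103040)) (.lf (nat_lit 0x71a103080))) (.nd (nat_lit 30518550592) (.lf (nat_lit 0x71b0c2040)) (.lf (nat_lit 0x71b102040))))) (.nd (nat_lit 30535327808) (.nd (nat_lit 30518816896) (.nd (nat_lit 30518816832) (.lf (nat_lit 0x71b103040)) (.lf (nat_lit 0x71b103080))) (.nd (nat_lit 30519074880) (.lf (nat_lit 0x71b142040)) (.lf (nat_lit 0x71c0c2040)))) (.nd (nat_lit 30535594048) (.nd (nat_lit 30535589952) (.lf (nat_lit 0x71c102040)) (.lf (nat_lit 0x71c103040)))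 (.nd (nat_lit 30535594112) (.lf (nat_lit 0x71c103080)) (.lf (nat_lit 0x71c142040))))))) (.nd (nat_lit 30585925760) (.nd (nat_lit 30569144384) (.nd (nat_lit 30552371328) (.nd (nat_lit 30552367168) (.nd (nat_lit 30552105024) (.lf (nat_lit 0x71d0c2040)) (.lf (nat_lit 0x71d102040))) (.nd (nat_lit 30552371264) (.lf (nat_lit 0x71d103040)) (.lf (nat_lit 0x71d103080)))) (.nd (nat_lit 30552629312) (.nd (nat_lit 30552371329) (.lf (nat_lit 0x20071d103081)) (.lf (nat_lit 0x71d142040))) (.nd (nat_lit 30568882240) (.lf (nat_lit 0x71e0c2040)) (.lf (nat_lit 0x71e102040))))) (.nd (nat_lit 30569406528) (.nd (nat_lit 30569148544) (.nd (nat_lit 30569148480) (.lf (nat_lit 0x71e103040)) (.lf (nat_lit 0x71e103080))) (.nd (nat_lit 30569148545) (.lf (nat_lit 0x20071e103081)) (.lf (nat_lit 0x71e142040)))) (.nd (nat_lit 30585921600) (.nd (nat_lit 30585659456) (.lf (nat_lit 0x71f0c2040)) (.lf (nat_lit 0x71f102040))) (.nd (nat_lit 30585925696) (.lf (nat_lit 0x71f103040))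 (.lf (nat_lit 0x71f103080)))))) (.nd (nat_lit 30602702976) (.nd (nat_lit 30586445888) (.nd (nat_lit 30586183744) (.nd (nat_lit 30585925761) (.lf (nat_lit 0x20071f103081)) (.lf (nat_lit 0x71f142040))) (.nd (nat_lit 30586187840) (.lf (nat_lit 0x71f143040)) (.lf (nat_lit 0x71f182040)))) (.nd (nat_lit 30602698816) (.nd (nat_lit 30602436672) (.lf (nat_lit 0x7200c2040)) (.lf (nat_lit 0x720102040))) (.nd (nat_lit 30602702912) (.lf (nat_lit 0x720103040)) (.lf (nat_lit 0x720103080))))) (.nd (nat_lit 30603223104) (.nd (nat_lit 30602960960) (.nd (nat_lit 30602702977) (.lf (nat_lit 0x200720103081)) (.lf (nat_lit 0x720142040))) (.nd (nat_lit 30602965056) (.lf (nat_lit 0x720143040)) (.lf (nat_lit 0x720182040)))) (.nd (nat_lit 30619476032) (.nd (nat_lit 30619213888) (.lf (nat_lit 0x7210c2040)) (.lf (nat_lit 0x721102040))) (.nd (nat_lit 30619480128) (.lf (nat_lit 0x721103040)) (.lf (nat_lit 0x721103080))))))))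
noncomputable def jt12_1 : BT := (.nd (nat_lit 30669811841) (.nd (nat_lit 30652768320) (.nd (nat_lit 30636257344) (.nd (nat_lit 30620000320) (.nd (nat_lit 30619738176) (.nd (nat_lit 30619480193) (.lf (nat_lit 0x200721103081)) (.lf (nat_lit 0x721142040))) (.nd (nat_lit 30619742272) (.lf (nat_lit 0x721143040)) (.lf (nat_lit 0x721182040)))) (.nd (nat_lit 30635991104) (.nd (nat_lit 30620262464) (.lf (nat_lit 0x7211c2040)) (.lf (nat_lit 0x7220c2040))) (.nd (nat_lit 30636253248) (.lf (nat_lit 0x722102040)) (.lf (nat_lit 0x722103040))))) (.nd (nat_lit 30636519488) (.nd (nat_lit 30636257409) (.nd (nat_lit 30636257408) (.lf (nat_lit 0x722103080)) (.lf (nat_lit 0x200722103081))) (.nd (nat_lit 30636515392) (.lf (nat_lit 0x722142040)) (.lf (nat_lit 0x722143040)))) (.nd (nat_lit 30636781632) (.nd (nat_lit 30636777536) (.lf (nat_lit 0x722182040)) (.lf (nat_lit 0x722183040))) (.nd (nat_lit 30637039680) (.lf (nat_lit 0x7221c2040)) (.lf (nat_lit 0x7230c2040))))))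 (.nd (nat_lit 30653554752) (.nd (nat_lit 30653034625) (.nd (nat_lit 30653034560) (.nd (nat_lit 30653030464) (.lf (nat_lit 0x723102040)) (.lf (nat_lit 0x723103040))) (.nd (nat_lit 30653034624) (.lf (nat_lit 0x723103080)) (.lf (nat_lit 0x200723103081)))) (.nd (nat_lit 30653296704) (.nd (nat_lit 30653292608) (.lf (nat_lit 0x723142040)) (.lf (nat_lit 0x723143040))) (.nd (nat_lit 30653296768) (.lf (nat_lit 0x723143080)) (.lf (nat_lit 0x723182040))))) (.nd (nat_lit 30669545536) (.nd (nat_lit 30653816896) (.nd (nat_lit 30653558848) (.lf (nat_lit 0x723183040)) (.lf (nat_lit 0x7231c2040))) (.nd (nat_lit 30654079040) (.lf (nat_lit 0x723202040)) (.lf (nat_lit 0x7240c2040)))) (.nd (nat_lit 30669811776) (.nd (nat_lit 30669807680) (.lf (nat_lit 0x724102040)) (.lf (nat_lit 0x724103040))) (.nd (nat_lit 30669811840) (.lf (nat_lit 0x724103080)) (.lf (nat_lit 0x200724103081))))))) (.nd (nat_lit 30686847040) (.nd (nat_lit 30670598208) (.nd (nat_lit 30670078016)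 (.nd (nat_lit 30670073920) (.nd (nat_lit 30670069824) (.lf (nat_lit 0x724142040)) (.lf (nat_lit 0x724143040))) (.nd (nat_lit 30670073984) (.lf (nat_lit 0x724143080)) (.lf (nat_lit 0x724144040)))) (.nd (nat_lit 30670336064) (.nd (nat_lit 30670331968) (.lf (nat_lit 0x724182040)) (.lf (nat_lit 0x724183040))) (.nd (nat_lit 30670594112) (.lf (nat_lit 0x7241c2040)) (.lf (nat_lit 0x7241c3040))))) (.nd (nat_lit 30686584896) (.nd (nat_lit 30671118400) (.nd (nat_lit 30670856256) (.lf (nat_lit 0x724202040)) (.lf (nat_lit 0x724242040))) (.nd (nat_lit 30686322752) (.lf (nat_lit 0x7250c2040)) (.lf (nat_lit 0x725102040)))) (.nd (nat_lit 30686589056) (.nd (nat_lit 30686588992) (.lf (nat_lit 0x725103040)) (.lf (nat_lit 0x725103080))) (.nd (nat_lit 30686589057) (.lf (nat_lit 0x200725103081)) (.lf (nat_lit 0x725142040)))))) (.nd (nat_lit 30687375424) (.nd (nat_lit 30687109184) (.nd (nat_lit 30686851200) (.nd (nat_lit 30686851136) (.lf (nat_lit 0x725143040))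 (.lf (nat_lit 0x725143080))) (.nd (nat_lit 30686855232) (.lf (nat_lit 0x725144040)) (.lf (nat_lit 0x725182040)))) (.nd (nat_lit 30687117376) (.nd (nat_lit 30687113280) (.lf (nat_lit 0x725183040)) (.lf (nat_lit 0x725184040))) (.nd (nat_lit 30687371328) (.lf (nat_lit 0x7251c2040)) (.lf (nat_lit 0x7251c3040))))) (.nd (nat_lit 30703099968) (.nd (nat_lit 30687895616) (.nd (nat_lit 30687633472) (.lf (nat_lit 0x725202040)) (.lf (nat_lit 0x725242040))) (.nd (nat_lit 30688157760) (.lf (nat_lit 0x725282040)) (.lf (nat_lit 0x7260c2040)))) (.nd (nat_lit 30703366208) (.nd (nat_lit 30703362112) (.lf (nat_lit 0x726102040)) (.lf (nat_lit 0x726103040))) (.nd (nat_lit 30703366272) (.lf (nat_lit 0x726103080)) (.lf (nat_lit 0x200726103081))))))))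
noncomputable def jt12_2 : BT := (.nd (nat_lit 30720671808) (.nd (nat_lit 30705459264) (.nd (nat_lit 30703894592) (.nd (nat_lit 30703632448) (.nd (nat_lit 30703628352) (.nd (nat_lit 30703624256) (.lf (nat_lit 0x726142040)) (.lf (nat_lit 0x726143040))) (.nd (nat_lit 30703628416) (.lf (nat_lit 0x726143080)) (.lf (nat_lit 0x726144040)))) (.nd (nat_lit 30703890496) (.nd (nat_lit 30703886400) (.lf (nat_lit 0x726182040)) (.lf (nat_lit 0x726183040))) (.nd (nat_lit 30703890560) (.lf (nat_lit 0x726183080)) (.lf (nat_lit 0x726184040))))) (.nd (nat_lit 30704414784) (.nd (nat_lit 30704152640) (.nd (nat_lit 30704148544) (.lf (nat_lit 0x7261c2040)) (.lf (nat_lit 0x7261c3040))) (.nd (nat_lit 30704410688) (.lf (nat_lit 0x726202040)) (.lf (nat_lit 0x726203040)))) (.nd (nat_lit 30704934976) (.nd (nat_lit 30704672832) (.lf (nat_lit 0x726242040)) (.lf (nat_lit 0x726282040))) (.nd (nat_lit 30705197120) (.lf (nat_lit 0x7262c2040)) (.lf (nat_lit 0x726302040))))))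 (.nd (nat_lit 30720405568) (.nd (nat_lit 30720143424) (.nd (nat_lit 30719877184) (.nd (nat_lit 30705721408) (.lf (nat_lit 0x726342040)) (.lf (nat_lit 0x7270c2040))) (.nd (nat_lit 30720139328) (.lf (nat_lit 0x727102040)) (.lf (nat_lit 0x727103040)))) (.nd (nat_lit 30720143489) (.nd (nat_lit 30720143488) (.lf (nat_lit 0x727103080)) (.lf (nat_lit 0x200727103081))) (.nd (nat_lit 30720401472) (.lf (nat_lit 0x727142040)) (.lf (nat_lit 0x727143040))))) (.nd (nat_lit 30720409728) (.nd (nat_lit 30720405633) (.nd (nat_lit 30720405632) (.lf (nat_lit 0x727143080)) (.lf (nat_lit 0x200727143081))) (.nd (nat_lit 30720409664) (.lf (nat_lit 0x727144040)) (.lf (nat_lit 0x727144080)))) (.nd (nat_lit 30720667712) (.nd (nat_lit 30720663616) (.lf (nat_lit 0x727182040)) (.lf (nat_lit 0x727183040))) (.nd (nat_lit 30720667776) (.lf (nat_lit 0x727183080)) (.lf (nat_lit 0x727184040))))))) (.nd (nat_lit 30722498624) (.nd (nat_lit 30721450048) (.nd (nat_lit 30720929920)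 (.nd (nat_lit 30720925760) (.nd (nat_lit 30720675904) (.lf (nat_lit 0x727185040)) (.lf (nat_lit 0x7271c2040))) (.nd (nat_lit 30720929856) (.lf (nat_lit 0x7271c3040)) (.lf (nat_lit 0x7271c3080)))) (.nd (nat_lit 30721187904) (.nd (nat_lit 30720933952) (.lf (nat_lit 0x7271c4040)) (.lf (nat_lit 0x727202040))) (.nd (nat_lit 30721192000) (.lf (nat_lit 0x727203040)) (.lf (nat_lit 0x727242040))))) (.nd (nat_lit 30721974336) (.nd (nat_lit 30721712192) (.nd (nat_lit 30721454144) (.lf (nat_lit 0x727243040)) (.lf (nat_lit 0x727282040))) (.nd (nat_lit 30721716288) (.lf (nat_lit 0x727283040)) (.lf (nat_lit 0x7272c2040)))) (.nd (nat_lit 30722236480) (.nd (nat_lit 30721978432) (.lf (nat_lit 0x7272c3040)) (.lf (nat_lit 0x727302040))) (.nd (nat_lit 30722240576) (.lf (nat_lit 0x727303040)) (.lf (nat_lit 0x727342040)))))) (.nd (nat_lit 30737182784) (.nd (nat_lit 30736920640) (.nd (nat_lit 30736654400) (.nd (nat_lit 30722502720) (.lf (nat_lit 0x727343040))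 (.lf (nat_lit 0x7280c2040))) (.nd (nat_lit 30736916544) (.lf (nat_lit 0x728102040)) (.lf (nat_lit 0x728103040)))) (.nd (nat_lit 30736920705) (.nd (nat_lit 30736920704) (.lf (nat_lit 0x728103080)) (.lf (nat_lit 0x200728103081))) (.nd (nat_lit 30737178688) (.lf (nat_lit 0x728142040)) (.lf (nat_lit 0x728143040))))) (.nd (nat_lit 30737186944) (.nd (nat_lit 30737182849) (.nd (nat_lit 30737182848) (.lf (nat_lit 0x728143080)) (.lf (nat_lit 0x200728143081))) (.nd (nat_lit 30737186880) (.lf (nat_lit 0x728144040)) (.lf (nat_lit 0x728144080)))) (.nd (nat_lit 30737444928) (.nd (nat_lit 30737440832) (.lf (nat_lit 0x728182040)) (.lf (nat_lit 0x728183040))) (.nd (nat_lit 30737444992) (.lf (nat_lit 0x728183080)) (.lf (nat_lit 0x728184040))))))))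
noncomputable def jt12_3 : BT := (.nd (nat_lit 30739279936) (.nd (nat_lit 30738489408) (.nd (nat_lit 30737965120) (.nd (nat_lit 30737707072) (.nd (nat_lit 30737453120) (.nd (nat_lit 30737449088) (.lf (nat_lit 0x728184080)) (.lf (nat_lit 0x728185040))) (.nd (nat_lit 30737702976) (.lf (nat_lit 0x7281c2040)) (.lf (nat_lit 0x7281c3040)))) (.nd (nat_lit 30737711168) (.nd (nat_lit 30737707136) (.lf (nat_lit 0x7281c3080)) (.lf (nat_lit 0x7281c4040))) (.nd (nat_lit 30737715264) (.lf (nat_lit 0x7281c5040)) (.lf (nat_lit 0x728202040))))) (.nd (nat_lit 30738227264) (.nd (nat_lit 30737969280) (.nd (nat_lit 30737969216) (.lf (nat_lit 0x728203040)) (.lf (nat_lit 0x728203080))) (.nd (nat_lit 30737973312) (.lf (nat_lit 0x728204040)) (.lf (nat_lit 0x728242040)))) (.nd (nat_lit 30738231424) (.nd (nat_lit 30738231360) (.lf (nat_lit 0x728243040)) (.lf (nat_lit 0x728243080))) (.nd (nat_lit 30738235456) (.lf (nat_lit 0x728244040)) (.lf (nat_lit 0x728282040))))))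 (.nd (nat_lit 30738767936) (.nd (nat_lit 30738751552) (.nd (nat_lit 30738497600) (.nd (nat_lit 30738493504) (.lf (nat_lit 0x728283040)) (.lf (nat_lit 0x728284040))) (.nd (nat_lit 30738509888) (.lf (nat_lit 0x728287040)) (.lf (nat_lit 0x7282c2040)))) (.nd (nat_lit 30738759744) (.nd (nat_lit 30738755648) (.lf (nat_lit 0x7282c3040)) (.lf (nat_lit 0x7282c4040))) (.nd (nat_lit 30738763840) (.lf (nat_lit 0x7282c5040)) (.lf (nat_lit 0x7282c6040))))) (.nd (nat_lit 30739021888) (.nd (nat_lit 30739017792) (.nd (nat_lit 30739013696) (.lf (nat_lit 0x728302040)) (.lf (nat_lit 0x728303040))) (.nd (nat_lit 30739017856) (.lf (nat_lit 0x728303080)) (.lf (nat_lit 0x728304040)))) (.nd (nat_lit 30739025984) (.nd (nat_lit 30739021952) (.lf (nat_lit 0x728304080)) (.lf (nat_lit 0x728305040))) (.nd (nat_lit 30739275840) (.lf (nat_lit 0x728342040)) (.lf (nat_lit 0x728343040))))))) (.nd (nat_lit 30754222144) (.nd (nat_lit 30753955904) (.nd (nat_lit 30753693760)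 (.nd (nat_lit 30739284032) (.nd (nat_lit 30739280000) (.lf (nat_lit 0x728343080)) (.lf (nat_lit 0x728344040))) (.nd (nat_lit 30753431616) (.lf (nat_lit 0x7290c2040)) (.lf (nat_lit 0x729102040)))) (.nd (nat_lit 30753697920) (.nd (nat_lit 30753697856) (.lf (nat_lit 0x729103040)) (.lf (nat_lit 0x729103080))) (.nd (nat_lit 30753697921) (.lf (nat_lit 0x200729103081)) (.lf (nat_lit 0x729142040))))) (.nd (nat_lit 30753964096) (.nd (nat_lit 30753960064) (.nd (nat_lit 30753960000) (.lf (nat_lit 0x729143040)) (.lf (nat_lit 0x729143080))) (.nd (nat_lit 30753960065) (.lf (nat_lit 0x200729143081)) (.lf (nat_lit 0x729144040)))) (.nd (nat_lit 30753964224) (.nd (nat_lit 30753964160) (.lf (nat_lit 0x729144080)) (.lf (nat_lit 0x2007291440c0))) (.nd (nat_lit 30754218048) (.lf (nat_lit 0x729182040)) (.lf (nat_lit 0x729183040)))))) (.nd (nat_lit 30754484288) (.nd (nat_lit 30754226304) (.nd (nat_lit 30754222209) (.nd (nat_lit 30754222208) (.lf (nat_lit 0x729183080))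 (.lf (nat_lit 0x200729183081))) (.nd (nat_lit 30754226240) (.lf (nat_lit 0x729184040)) (.lf (nat_lit 0x729184080)))) (.nd (nat_lit 30754230400) (.nd (nat_lit 30754230336) (.lf (nat_lit 0x729185040)) (.lf (nat_lit 0x729185080))) (.nd (nat_lit 30754480192) (.lf (nat_lit 0x7291c2040)) (.lf (nat_lit 0x7291c3040))))) (.nd (nat_lit 30754492480) (.nd (nat_lit 30754488384) (.nd (nat_lit 30754484352) (.lf (nat_lit 0x7291c3080)) (.lf (nat_lit 0x7291c4040))) (.nd (nat_lit 30754488448) (.lf (nat_lit 0x7291c4080)) (.lf (nat_lit 0x7291c5040)))) (.nd (nat_lit 30754496576) (.nd (nat_lit 30754492544) (.lf (nat_lit 0x7291c5080)) (.lf (nat_lit 0x7291c6040))) (.nd (nat_lit 30754742336) (.lf (nat_lit 0x729202040)) (.lf (nat_lit 0x729203040))))))))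
noncomputable def jt12_4 : BT := (.nd (nat_lit 30770208832) (.nd (nat_lit 30755016832) (.nd (nat_lit 30754762816) (.nd (nat_lit 30754754624) (.nd (nat_lit 30754750528) (.nd (nat_lit 30754746496) (.lf (nat_lit 0x729203080)) (.lf (nat_lit 0x729204040))) (.nd (nat_lit 30754750592) (.lf (nat_lit 0x729204080)) (.lf (nat_lit 0x729205040)))) (.nd (nat_lit 30754758720) (.nd (nat_lit 30754754688) (.lf (nat_lit 0x729205080)) (.lf (nat_lit 0x729206040))) (.nd (nat_lit 30754758784) (.lf (nat_lit 0x729206080)) (.lf (nat_lit 0x729207040))))) (.nd (nat_lit 30755012672) (.nd (nat_lit 30755008576) (.nd (nat_lit 30755004480) (.lf (nat_lit 0x729242040)) (.lf (nat_lit 0x729243040))) (.nd (nat_lit 30755008640) (.lf (nat_lit 0x729243080)) (.lf (nat_lit 0x729244040)))) (.nd (nat_lit 30755012800) (.nd (nat_lit 30755012736) (.lf (nat_lit 0x729244080)) (.lf (nat_lit 0x2007292440c0))) (.nd (nat_lit 30755016768) (.lf (nat_lit 0x729245040)) (.lf (nat_lit 0x729245080))))))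 (.nd (nat_lit 30755278912) (.nd (nat_lit 30755270784) (.nd (nat_lit 30755266624) (.nd (nat_lit 30755020864) (.lf (nat_lit 0x729246040)) (.lf (nat_lit 0x729282040))) (.nd (nat_lit 30755270720) (.lf (nat_lit 0x729283040)) (.lf (nat_lit 0x729283080)))) (.nd (nat_lit 30755274816) (.nd (nat_lit 30755270785) (.lf (nat_lit 0x200729283081)) (.lf (nat_lit 0x729284040))) (.nd (nat_lit 30755274880) (.lf (nat_lit 0x729284080)) (.lf (nat_lit 0x729285040))))) (.nd (nat_lit 30755536960) (.nd (nat_lit 30755532864) (.nd (nat_lit 30755528768) (.lf (nat_lit 0x7292c2040)) (.lf (nat_lit 0x7292c3040))) (.nd (nat_lit 30755532928) (.lf (nat_lit 0x7292c3080)) (.lf (nat_lit 0x7292c4040)))) (.nd (nat_lit 30755795008) (.nd (nat_lit 30755790912) (.lf (nat_lit 0x729302040)) (.lf (nat_lit 0x729303040))) (.nd (nat_lit 30756053056) (.lf (nat_lit 0x729342040)) (.lf (nat_lit 0x72a0c2040))))))) (.nd (nat_lit 30770999425) (.nd (nat_lit 30770737281) (.nd (nat_lit 30770475137)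 (.nd (nat_lit 30770475072) (.nd (nat_lit 30770470976) (.lf (nat_lit 0x72a102040)) (.lf (nat_lit 0x72a103040))) (.nd (nat_lit 30770475136) (.lf (nat_lit 0x72a103080)) (.lf (nat_lit 0x20072a103081)))) (.nd (nat_lit 30770737216) (.nd (nat_lit 30770733120) (.lf (nat_lit 0x72a142040)) (.lf (nat_lit 0x72a143040))) (.nd (nat_lit 30770737280) (.lf (nat_lit 0x72a143080)) (.lf (nat_lit 0x20072a143081))))) (.nd (nat_lit 30770741440) (.nd (nat_lit 30770741376) (.nd (nat_lit 30770741312) (.lf (nat_lit 0x72a144040)) (.lf (nat_lit 0x72a144080))) (.nd (nat_lit 30770741377) (.lf (nat_lit 0x20072a144081)) (.lf (nat_lit 0x20072a1440c0)))) (.nd (nat_lit 30770999360) (.nd (nat_lit 30770995264) (.lf (nat_lit 0x72a182040)) (.lf (nat_lit 0x72a183040))) (.nd (nat_lit 30770999424) (.lf (nat_lit 0x72a183080)) (.lf (nat_lit 0x20072a183081)))))) (.nd (nat_lit 30771007680) (.nd (nat_lit 30771003584) (.nd (nat_lit 30771003520) (.nd (nat_lit 30771003456) (.lf (nat_lit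 0x72a184040)) (.lf (nat_lit 0x72a184080))) (.nd (nat_lit 30771003521) (.lf (nat_lit 0x20072a184081)) (.lf (nat_lit 0x20072a1840c0)))) (.nd (nat_lit 30771007616) (.nd (nat_lit 30771007552) (.lf (nat_lit 0x72a185040)) (.lf (nat_lit 0x72a185080))) (.nd (nat_lit 30771007617) (.lf (nat_lit 0x20072a185081)) (.lf (nat_lit 0x20072a1850c0))))) (.nd (nat_lit 30771261569) (.nd (nat_lit 30771261504) (.nd (nat_lit 30771257408) (.lf (nat_lit 0x72a1c2040)) (.lf (nat_lit 0x72a1c3040))) (.nd (nat_lit 30771261568) (.lf (nat_lit 0x72a1c3080)) (.lf (nat_lit 0x20072a1c3081)))) (.nd (nat_lit 30771265664) (.nd (nat_lit 30771265600) (.lf (nat_lit 0x72a1c4040)) (.lf (nat_lit 0x72a1c4080))) (.nd (nat_lit 30771265665) (.lf (nat_lit 0x20072a1c4081)) (.lf (nat_lit 0x20072a1c40c0))))))))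
noncomputable def jt12_5 : BT := (.nd (nat_lit 30787518656) (.nd (nat_lit 30772043840) (.nd (nat_lit 30771523713) (.nd (nat_lit 30771273792) (.nd (nat_lit 30771269696) (.lf (nat_lit 0x72a1c5040)) (.nd (nat_lit 30771269760) (.lf (nat_lit 0x72a1c5080)) (.lf (nat_lit 0x72a1c6040)))) (.nd (nat_lit 30771523648) (.nd (nat_lit 30771519552) (.lf (nat_lit 0x72a202040)) (.lf (nat_lit 0x72a203040))) (.nd (nat_lit 30771523712) (.lf (nat_lit 0x72a203080)) (.lf (nat_lit 0x20072a203081))))) (.nd (nat_lit 30771781696) (.nd (nat_lit 30771527808) (.nd (nat_lit 30771527744) (.lf (nat_lit 0x72a204040)) (.lf (nat_lit 0x72a204080))) (.nd (nat_lit 30771531840) (.lf (nat_lit 0x72a205040)) (.lf (nat_lit 0x72a242040)))) (.nd (nat_lit 30771785856) (.nd (nat_lit 30771785792) (.lf (nat_lit 0x72a243040)) (.lf (nat_lit 0x72a243080))) (.nd (nat_lit 30771789888) (.lf (nat_lit 0x72a244040)) (.lf (nat_lit 0x72a282040)))))) (.nd (nat_lit 30787252353) (.nd (nat_lit 30786986048)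 (.nd (nat_lit 30772047936) (.lf (nat_lit 0x72a283040)) (.nd (nat_lit 30772305984) (.lf (nat_lit 0x72a2c2040)) (.lf (nat_lit 0x72b0c2040)))) (.nd (nat_lit 30787252288) (.nd (nat_lit 30787248192) (.lf (nat_lit 0x72b102040)) (.lf (nat_lit 0x72b103040))) (.nd (nat_lit 30787252352) (.lf (nat_lit 0x72b103080)) (.lf (nat_lit 0x20072b103081))))) (.nd (nat_lit 30787514497) (.nd (nat_lit 30787514432) (.nd (nat_lit 30787510336) (.lf (nat_lit 0x72b142040)) (.lf (nat_lit 0x72b143040))) (.nd (nat_lit 30787514496) (.lf (nat_lit 0x72b143080)) (.lf (nat_lit 0x20072b143081)))) (.nd (nat_lit 30787518592) (.nd (nat_lit 30787518528) (.lf (nat_lit 0x72b144040)) (.lf (nat_lit 0x72b144080))) (.nd (nat_lit 30787518593) (.lf (nat_lit 0x20072b144081)) (.lf (nat_lit 0x20072b1440c0))))))) (.nd (nat_lit 30803763264) (.nd (nat_lit 30787784768) (.nd (nat_lit 30787776640) (.nd (nat_lit 30787772480) (.lf (nat_lit 0x72b182040)) (.nd (nat_lit 30787776576) (.lf (nat_lit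 0x72b183040)) (.lf (nat_lit 0x72b183080)))) (.nd (nat_lit 30787780672) (.nd (nat_lit 30787776641) (.lf (nat_lit 0x20072b183081)) (.lf (nat_lit 0x72b184040))) (.nd (nat_lit 30787780736) (.lf (nat_lit 0x72b184080)) (.lf (nat_lit 0x72b185040))))) (.nd (nat_lit 30788042816) (.nd (nat_lit 30788038720) (.nd (nat_lit 30788034624) (.lf (nat_lit 0x72b1c2040)) (.lf (nat_lit 0x72b1c3040))) (.nd (nat_lit 30788038784) (.lf (nat_lit 0x72b1c3080)) (.lf (nat_lit 0x72b1c4040)))) (.nd (nat_lit 30788300864) (.nd (nat_lit 30788296768) (.lf (nat_lit 0x72b202040)) (.lf (nat_lit 0x72b203040))) (.nd (nat_lit 30788558912) (.lf (nat_lit 0x72b242040)) (.lf (nat_lit 0x72c0c2040)))))) (.nd (nat_lit 30804295744) (.nd (nat_lit 30804029569) (.nd (nat_lit 30804029504) (.nd (nat_lit 30804025408) (.lf (nat_lit 0x72c102040)) (.lf (nat_lit 0x72c103040))) (.nd (nat_lit 30804029568) (.lf (nat_lit 0x72c103080)) (.lf (nat_lit 0x20072c103081)))) (.nd (nat_lit 30804291648) (.nd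 (nat_lit 30804287552) (.lf (nat_lit 0x72c142040)) (.lf (nat_lit 0x72c143040))) (.nd (nat_lit 30804291712) (.lf (nat_lit 0x72c143080)) (.lf (nat_lit 0x72c144040))))) (.nd (nat_lit 30820540480) (.nd (nat_lit 30804553792) (.nd (nat_lit 30804549696) (.lf (nat_lit 0x72c182040)) (.lf (nat_lit 0x72c183040))) (.nd (nat_lit 30804811840) (.lf (nat_lit 0x72c1c2040)) (.lf (nat_lit 0x72d0c2040)))) (.nd (nat_lit 30820806720) (.nd (nat_lit 30820802624) (.lf (nat_lit 0x72d102040)) (.lf (nat_lit 0x72d103040))) (.nd (nat_lit 30821064768) (.lf (nat_lit 0x72d142040)) (.lf (nat_lit 0x72e0c2040))))))))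
noncomputable def jt12 : BT := (.nd (nat_lit 30737449024) (.nd (nat_lit 30619480192) jt12_0 (.nd (nat_lit 30703366273) jt12_1 jt12_2)) (.nd (nat_lit 30754746432) jt12_3 (.nd (nat_lit 30771265728) jt12_4 jt12_5)))
def jg12 : Cfg := ⟨91, 82, 14, 14, 50⟩
noncomputable def jX12 : F3 := XRc 14 99 99 99 0
noncomputable def jt13_0 : BT := (.nd (nat_lit 30642282560) (.nd (nat_lit 30609518656) (.nd (nat_lit 30608990272) (.nd (nat_lit 30592741504) (.nd (nat_lit 30592737344) (.nd (nat_lit 30592475200) (.lf (nat_lit 0x71f742040)) (.lf (nat_lit 0x20071f782040))) (.nd (nat_lit 30592741440) (.lf (nat_lit 0x20071f783040)) (.lf (nat_lit 0x20071f783080)))) (.nd (nat_lit 30592749632) (.nd (nat_lit 30592745536) (.lf (nat_lit 0x20071f784040)) (.lf (nat_lit 0x20071f785040))) (.nd (nat_lit 30608728128) (.lf (nat_lit 0x7206c2040)) (.lf (nat_lit 0x720702040))))) (.nd (nat_lit 30609256512) (.nd (nat_lit 30609002560) (.nd (nat_lit 30608994368) (.lf (nat_lit 0x720703040))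 (.lf (nat_lit 0x720705040))) (.nd (nat_lit 30609252416) (.lf (nat_lit 0x720742040)) (.lf (nat_lit 0x720743040)))) (.nd (nat_lit 30609260608) (.nd (nat_lit 30609256576) (.lf (nat_lit 0x720743080)) (.lf (nat_lit 0x720744040))) (.nd (nat_lit 30609514560) (.lf (nat_lit 0x200720782040)) (.lf (nat_lit 0x200720783040)))))) (.nd (nat_lit 30625771584) (.nd (nat_lit 30625509440) (.nd (nat_lit 30625243200) (.nd (nat_lit 30609776704) (.lf (nat_lit 0x2007207c2040)) (.lf (nat_lit 0x721682040))) (.nd (nat_lit 30625505344) (.lf (nat_lit 0x7216c2040)) (.lf (nat_lit 0x7216c3040)))) (.nd (nat_lit 30625513536) (.nd (nat_lit 30625509504) (.lf (nat_lit 0x7216c3080)) (.lf (nat_lit 0x7216c4040))) (.nd (nat_lit 30625767488) (.lf (nat_lit 0x721702040)) (.lf (nat_lit 0x721703040))))) (.nd (nat_lit 30641762368) (.nd (nat_lit 30641496128) (.nd (nat_lit 30626029632) (.lf (nat_lit 0x721742040)) (.lf (nat_lit 0x722602040))) (.nd (nat_lit 30641758272) (.lf (nat_lit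 0x722642040)) (.lf (nat_lit 0x722643040)))) (.nd (nat_lit 30642020416) (.nd (nat_lit 30641766464) (.lf (nat_lit 0x722644040)) (.lf (nat_lit 0x722682040))) (.nd (nat_lit 30642024512) (.lf (nat_lit 0x722683040)) (.lf (nat_lit 0x7226c2040))))))) (.nd (nat_lit 30690517056) (.nd (nat_lit 30674001984) (.nd (nat_lit 30658019392) (.nd (nat_lit 30658011200) (.nd (nat_lit 30657749056) (.lf (nat_lit 0x723582040)) (.lf (nat_lit 0x7235c2040))) (.nd (nat_lit 30658015296) (.lf (nat_lit 0x7235c3040)) (.lf (nat_lit 0x7235c4040)))) (.nd (nat_lit 30658277440) (.nd (nat_lit 30658273344) (.lf (nat_lit 0x723602040)) (.lf (nat_lit 0x723603040))) (.nd (nat_lit 30658535488) (.lf (nat_lit 0x723642040)) (.lf (nat_lit 0x724502040))))) (.nd (nat_lit 30674526272) (.nd (nat_lit 30674268224) (.nd (nat_lit 30674264128) (.lf (nat_lit 0x724542040)) (.lf (nat_lit 0x724543040))) (.nd (nat_lit 30674272320) (.lf (nat_lit 0x724544040)) (.lf (nat_lit 0x724582040)))) (.nd (nat_lit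 30674788416) (.nd (nat_lit 30674530368) (.lf (nat_lit 0x724583040)) (.lf (nat_lit 0x7245c2040))) (.nd (nat_lit 30690254912) (.lf (nat_lit 0x725482040)) (.lf (nat_lit 0x7254c2040)))))) (.nd (nat_lit 30706507840) (.nd (nat_lit 30690783296) (.nd (nat_lit 30690525248) (.nd (nat_lit 30690521152) (.lf (nat_lit 0x7254c3040)) (.lf (nat_lit 0x7254c4040))) (.nd (nat_lit 30690779200) (.lf (nat_lit 0x725502040)) (.lf (nat_lit 0x725503040)))) (.nd (nat_lit 30705983552) (.nd (nat_lit 30691041344) (.lf (nat_lit 0x725542040)) (.lf (nat_lit 0x726382040))) (.nd (nat_lit 30706245696) (.lf (nat_lit 0x7263c2040)) (.lf (nat_lit 0x726402040))))) (.nd (nat_lit 30707032128) (.nd (nat_lit 30706774080) (.nd (nat_lit 30706769984) (.lf (nat_lit 0x726442040)) (.lf (nat_lit 0x726443040))) (.nd (nat_lit 30706778176) (.lf (nat_lit 0x726444040)) (.lf (nat_lit 0x726482040)))) (.nd (nat_lit 30707294272) (.nd (nat_lit 30707036224) (.lf (nat_lit 0x726483040)) (.lf (nat_lit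 0x7264c2040))) (.nd (nat_lit 30722760768) (.lf (nat_lit 0x727382040)) (.lf (nat_lit 0x727383040))))))))
noncomputable def jt13_1 : BT := (.nd (nat_lit 30723031104) (.nd (nat_lit 30723022912) (.nd (nat_lit 30722773056) (.lf (nat_lit 0x727385040)) (.lf (nat_lit 0x7273c2040))) (.nd (nat_lit 30723027008) (.lf (nat_lit 0x7273c3040)) (.nd (nat_lit 30723027072) (.lf (nat_lit 0x7273c3080)) (.lf (nat_lit 0x7273c4040))))) (.nd (nat_lit 30723547200) (.nd (nat_lit 30723285056) (.lf (nat_lit 0x727402040)) (.nd (nat_lit 30723289152) (.lf (nat_lit 0x727403040)) (.lf (nat_lit 0x727442040)))) (.nd (nat_lit 30739537984) (.lf (nat_lit 0x728382040)) (.nd (nat_lit 30739542080) (.lf (nat_lit 0x728383040)) (.lf (nat_lit 0x7283c2040))))))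
noncomputable def jt13 : BT := (.nd (nat_lit 30722764864) jt13_0 jt13_1)
def jg13 : Cfg := ⟨91, 82, 32, 14, 47⟩
noncomputable def jX13 : F3 := XRc 13 99 99 99 0
noncomputable def jt14_0 : BT := (.nd (nat_lit 32716365888) (.nd (nat_lit 32649519168) (.nd (nat_lit 32599191616) (.nd (nat_lit 32582148160) (.nd (nat_lit 32565370944) (.nd (nat_lit 32548593728) (.lf (nat_lit 0x7940c2040)) (.lf (nat_lit 0x7950c2040))) (.nd (nat_lit 32565633088) (.lf (nat_lit 0x795102040)) (.lf (nat_lit 0x7960c2040)))) (.nd (nat_lit 32598925376) (.nd (nat_lit 32582410304) (.lf (nat_lit 0x796102040)) (.lf (nat_lit 0x7970c2040))) (.nd (nat_lit 32599187520) (.lf (nat_lit 0x797102040)) (.lf (nat_lit 0x797103040))))) (.nd (nat_lit 32632479808) (.nd (nat_lit 32615964736) (.nd (nat_lit 32615702592) (.lf (nat_lit 0x7980c2040)) (.lf (nat_lit 0x798102040))) (.nd (nat_lit 32615968832) (.lf (nat_lit 0x798103040)) (.lf (nat_lit 0x7990c2040)))) (.nd (nat_lit 32632746048) (.nd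 (nat_lit 32632741952) (.lf (nat_lit 0x799102040)) (.lf (nat_lit 0x799103040))) (.nd (nat_lit 32649257024) (.lf (nat_lit 0x79a0c2040)) (.lf (nat_lit 0x79a102040)))))) (.nd (nat_lit 32683073600) (.nd (nat_lit 32666296384) (.nd (nat_lit 32649523328) (.nd (nat_lit 32649523264) (.lf (nat_lit 0x79a103040)) (.lf (nat_lit 0x79a103080))) (.nd (nat_lit 32666034240) (.lf (nat_lit 0x79b0c2040)) (.lf (nat_lit 0x79b102040)))) (.nd (nat_lit 32666300544) (.nd (nat_lit 32666300480) (.lf (nat_lit 0x79b103040)) (.lf (nat_lit 0x79b103080))) (.nd (nat_lit 32682811456) (.lf (nat_lit 0x79c0c2040)) (.lf (nat_lit 0x79c102040))))) (.nd (nat_lit 32699850816) (.nd (nat_lit 32683077760) (.nd (nat_lit 32683077696) (.lf (nat_lit 0x79c103040)) (.lf (nat_lit 0x79c103080))) (.nd (nat_lit 32699588672) (.lf (nat_lit 0x79d0c2040)) (.lf (nat_lit 0x79d102040)))) (.nd (nat_lit 32699854976) (.nd (nat_lit 32699854912) (.lf (nat_lit 0x79d103040)) (.lf (nat_lit 0x79d103080)))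 (.nd (nat_lit 32700112960) (.lf (nat_lit 0x79d142040)) (.lf (nat_lit 0x79e0c2040))))))) (.nd (nat_lit 32750186625) (.nd (nat_lit 32733409344) (.nd (nat_lit 32716632193) (.nd (nat_lit 32716632128) (.nd (nat_lit 32716628032) (.lf (nat_lit 0x79e102040)) (.lf (nat_lit 0x79e103040))) (.nd (nat_lit 32716632192) (.lf (nat_lit 0x79e103080)) (.lf (nat_lit 0x20079e103081)))) (.nd (nat_lit 32733143104) (.nd (nat_lit 32716890176) (.lf (nat_lit 0x79e142040)) (.lf (nat_lit 0x79f0c2040))) (.nd (nat_lit 32733405248) (.lf (nat_lit 0x79f102040)) (.lf (nat_lit 0x79f103040))))) (.nd (nat_lit 32749920320) (.nd (nat_lit 32733409409) (.nd (nat_lit 32733409408) (.lf (nat_lit 0x79f103080)) (.lf (nat_lit 0x20079f103081))) (.nd (nat_lit 32733667392) (.lf (nat_lit 0x79f142040)) (.lf (nat_lit 0x7a00c2040)))) (.nd (nat_lit 32750186560) (.nd (nat_lit 32750182464) (.lf (nat_lit 0x7a0102040)) (.lf (nat_lit 0x7a0103040))) (.nd (nat_lit 32750186624) (.lf (nat_lit 0x7a0103080))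 (.lf (nat_lit 0x2007a0103081)))))) (.nd (nat_lit 32767225920) (.nd (nat_lit 32766963776) (.nd (nat_lit 32766697536) (.nd (nat_lit 32750444608) (.lf (nat_lit 0x7a0142040)) (.lf (nat_lit 0x7a10c2040))) (.nd (nat_lit 32766959680) (.lf (nat_lit 0x7a1102040)) (.lf (nat_lit 0x7a1103040)))) (.nd (nat_lit 32766963841) (.nd (nat_lit 32766963840) (.lf (nat_lit 0x7a1103080)) (.lf (nat_lit 0x2007a1103081))) (.nd (nat_lit 32767221824) (.lf (nat_lit 0x7a1142040)) (.lf (nat_lit 0x7a1143040))))) (.nd (nat_lit 32783740992) (.nd (nat_lit 32783474752) (.nd (nat_lit 32767483968) (.lf (nat_lit 0x7a1182040)) (.lf (nat_lit 0x7a20c2040))) (.nd (nat_lit 32783736896) (.lf (nat_lit 0x7a2102040)) (.lf (nat_lit 0x7a2103040)))) (.nd (nat_lit 32783741057) (.nd (nat_lit 32783741056) (.lf (nat_lit 0x7a2103080)) (.lf (nat_lit 0x2007a2103081))) (.nd (nat_lit 32783999040) (.lf (nat_lit 0x7a2142040)) (.lf (nat_lit 0x7a2143040))))))))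
noncomputable def jt14_1 : BT := (.nd (nat_lit 32850849856) (.nd (nat_lit 32817557568) (.nd (nat_lit 32800780352) (.nd (nat_lit 32800518208) (.nd (nat_lit 32800251968) (.nd (nat_lit 32784261184) (.lf (nat_lit 0x7a2182040)) (.lf (nat_lit 0x7a30c2040))) (.nd (nat_lit 32800514112) (.lf (nat_lit 0x7a3102040)) (.lf (nat_lit 0x7a3103040)))) (.nd (nat_lit 32800518273) (.nd (nat_lit 32800518272) (.lf (nat_lit 0x7a3103080)) (.lf (nat_lit 0x2007a3103081))) (.nd (nat_lit 32800776256) (.lf (nat_lit 0x7a3142040)) (.lf (nat_lit 0x7a3143040))))) (.nd (nat_lit 32817295424) (.nd (nat_lit 32817029184) (.nd (nat_lit 32801038400) (.lf (nat_lit 0x7a3182040)) (.lf (nat_lit 0x7a40c2040))) (.nd (nat_lit 32817291328) (.lf (nat_lit 0x7a4102040)) (.lf (nat_lit 0x7a4103040)))) (.nd (nat_lit 32817295489) (.nd (nat_lit 32817295488) (.lf (nat_lit 0x7a4103080)) (.lf (nat_lit 0x2007a4103081))) (.nd (nat_lit 32817553472) (.lf (nat_lit 0x7a4142040)) (.lf (nat_lit 0x7a4143040))))))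 (.nd (nat_lit 32834330688) (.nd (nat_lit 32834068544) (.nd (nat_lit 32818077760) (.nd (nat_lit 32817815616) (.lf (nat_lit 0x7a4182040)) (.lf (nat_lit 0x7a41c2040))) (.nd (nat_lit 32833806400) (.lf (nat_lit 0x7a50c2040)) (.lf (nat_lit 0x7a5102040)))) (.nd (nat_lit 32834072704) (.nd (nat_lit 32834072640) (.lf (nat_lit 0x7a5103040)) (.lf (nat_lit 0x7a5103080))) (.nd (nat_lit 32834072705) (.lf (nat_lit 0x2007a5103081)) (.lf (nat_lit 0x7a5142040))))) (.nd (nat_lit 32834596928) (.nd (nat_lit 32834334848) (.nd (nat_lit 32834334784) (.lf (nat_lit 0x7a5143040)) (.lf (nat_lit 0x7a5143080))) (.nd (nat_lit 32834592832) (.lf (nat_lit 0x7a5182040)) (.lf (nat_lit 0x7a5183040)))) (.nd (nat_lit 32850583616) (.nd (nat_lit 32834854976) (.lf (nat_lit 0x7a51c2040)) (.lf (nat_lit 0x7a60c2040))) (.nd (nat_lit 32850845760) (.lf (nat_lit 0x7a6102040)) (.lf (nat_lit 0x7a6103040))))))) (.nd (nat_lit 32867885120) (.nd (nat_lit 32851374144) (.nd (nat_lit 32851112000)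 (.nd (nat_lit 32850849921) (.nd (nat_lit 32850849920) (.lf (nat_lit 0x7a6103080)) (.lf (nat_lit 0x2007a6103081))) (.nd (nat_lit 32851107904) (.lf (nat_lit 0x7a6142040)) (.lf (nat_lit 0x7a6143040)))) (.nd (nat_lit 32851116096) (.nd (nat_lit 32851112064) (.lf (nat_lit 0x7a6143080)) (.lf (nat_lit 0x7a6144040))) (.nd (nat_lit 32851370048) (.lf (nat_lit 0x7a6182040)) (.lf (nat_lit 0x7a6183040))))) (.nd (nat_lit 32867622976) (.nd (nat_lit 32851894336) (.nd (nat_lit 32851632192) (.lf (nat_lit 0x7a61c2040)) (.lf (nat_lit 0x7a6202040))) (.nd (nat_lit 32867360832) (.lf (nat_lit 0x7a70c2040)) (.lf (nat_lit 0x7a7102040)))) (.nd (nat_lit 32867627136) (.nd (nat_lit 32867627072) (.lf (nat_lit 0x7a7103040)) (.lf (nat_lit 0x7a7103080))) (.nd (nat_lit 32867627137) (.lf (nat_lit 0x2007a7103081)) (.lf (nat_lit 0x7a7142040)))))) (.nd (nat_lit 32868671552) (.nd (nat_lit 32868147264) (.nd (nat_lit 32867889280) (.nd (nat_lit 32867889216) (.lf (nat_lit 0x7a7143040))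 (.lf (nat_lit 0x7a7143080))) (.nd (nat_lit 32867893312) (.lf (nat_lit 0x7a7144040)) (.lf (nat_lit 0x7a7182040)))) (.nd (nat_lit 32868409408) (.nd (nat_lit 32868151360) (.lf (nat_lit 0x7a7183040)) (.lf (nat_lit 0x7a71c2040))) (.nd (nat_lit 32868413504) (.lf (nat_lit 0x7a71c3040)) (.lf (nat_lit 0x7a7202040))))) (.nd (nat_lit 32884404288) (.nd (nat_lit 32884138048) (.nd (nat_lit 32868933696) (.lf (nat_lit 0x7a7242040)) (.lf (nat_lit 0x7a80c2040))) (.nd (nat_lit 32884400192) (.lf (nat_lit 0x7a8102040)) (.lf (nat_lit 0x7a8103040)))) (.nd (nat_lit 32884404353) (.nd (nat_lit 32884404352) (.lf (nat_lit 0x7a8103080)) (.lf (nat_lit 0x2007a8103081))) (.nd (nat_lit 32884662336) (.lf (nat_lit 0x7a8142040)) (.lf (nat_lit 0x7a8143040))))))))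
noncomputable def jt14_2 : BT := (.nd (nat_lit 32903012416) (.nd (nat_lit 32901181569) (.nd (nat_lit 32885190720) (.nd (nat_lit 32884928576) (.nd (nat_lit 32884670528) (.nd (nat_lit 32884666496) (.lf (nat_lit 0x7a8143080)) (.lf (nat_lit 0x7a8144040))) (.nd (nat_lit 32884924480) (.lf (nat_lit 0x7a8182040)) (.lf (nat_lit 0x7a8183040)))) (.nd (nat_lit 32884932672) (.nd (nat_lit 32884928640) (.lf (nat_lit 0x7a8183080)) (.lf (nat_lit 0x7a8184040))) (.nd (nat_lit 32885186624) (.lf (nat_lit 0x7a81c2040)) (.lf (nat_lit 0x7a81c3040))))) (.nd (nat_lit 32900915264) (.nd (nat_lit 32885710912) (.nd (nat_lit 32885448768) (.lf (nat_lit 0x7a8202040)) (.lf (nat_lit 0x7a8242040))) (.nd (nat_lit 32885973056) (.lf (nat_lit 0x7a8282040)) (.lf (nat_lit 0x7a90c2040)))) (.nd (nat_lit 32901181504) (.nd (nat_lit 32901177408) (.lf (nat_lit 0x7a9102040)) (.lf (nat_lit 0x7a9103040))) (.nd (nat_lit 32901181568) (.lf (nat_lit 0x7a9103080)) (.lf (nat_lit 0x2007a9103081))))))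 (.nd (nat_lit 32901705856) (.nd (nat_lit 32901443713) (.nd (nat_lit 32901443648) (.nd (nat_lit 32901439552) (.lf (nat_lit 0x7a9142040)) (.lf (nat_lit 0x7a9143040))) (.nd (nat_lit 32901443712) (.lf (nat_lit 0x7a9143080)) (.lf (nat_lit 0x2007a9143081)))) (.nd (nat_lit 32901701696) (.nd (nat_lit 32901447744) (.lf (nat_lit 0x7a9144040)) (.lf (nat_lit 0x7a9182040))) (.nd (nat_lit 32901705792) (.lf (nat_lit 0x7a9183040)) (.lf (nat_lit 0x7a9183080))))) (.nd (nat_lit 32902225984) (.nd (nat_lit 32901963840) (.nd (nat_lit 32901709888) (.lf (nat_lit 0x7a9184040)) (.lf (nat_lit 0x7a91c2040))) (.nd (nat_lit 32901967936) (.lf (nat_lit 0x7a91c3040)) (.lf (nat_lit 0x7a9202040)))) (.nd (nat_lit 32902488128) (.nd (nat_lit 32902230080) (.lf (nat_lit 0x7a9203040)) (.lf (nat_lit 0x7a9242040))) (.nd (nat_lit 32902750272) (.lf (nat_lit 0x7a9282040)) (.lf (nat_lit 0x7a92c2040))))))) (.nd (nat_lit 32918483072) (.nd (nat_lit 32918216768) (.nd (nat_lit 32917954624)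 (.nd (nat_lit 32903536704) (.nd (nat_lit 32903274560) (.lf (nat_lit 0x7a9302040)) (.lf (nat_lit 0x7a9342040))) (.nd (nat_lit 32917692480) (.lf (nat_lit 0x7aa0c2040)) (.lf (nat_lit 0x7aa102040)))) (.nd (nat_lit 32917958784) (.nd (nat_lit 32917958720) (.lf (nat_lit 0x7aa103040)) (.lf (nat_lit 0x7aa103080))) (.nd (nat_lit 32917958785) (.lf (nat_lit 0x2007aa103081)) (.lf (nat_lit 0x7aa142040))))) (.nd (nat_lit 32918224960) (.nd (nat_lit 32918220928) (.nd (nat_lit 32918220864) (.lf (nat_lit 0x7aa143040)) (.lf (nat_lit 0x7aa143080))) (.nd (nat_lit 32918220929) (.lf (nat_lit 0x2007aa143081)) (.lf (nat_lit 0x7aa144040)))) (.nd (nat_lit 32918478912) (.nd (nat_lit 32918225024) (.lf (nat_lit 0x7aa144080)) (.lf (nat_lit 0x7aa182040))) (.nd (nat_lit 32918483008) (.lf (nat_lit 0x7aa183040)) (.lf (nat_lit 0x7aa183080)))))) (.nd (nat_lit 32919007296) (.nd (nat_lit 32918745152) (.nd (nat_lit 32918491200) (.nd (nat_lit 32918487104) (.lf (nat_lit 0x7aa184040))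 (.lf (nat_lit 0x7aa185040))) (.nd (nat_lit 32918741056) (.lf (nat_lit 0x7aa1c2040)) (.lf (nat_lit 0x7aa1c3040)))) (.nd (nat_lit 32918749248) (.nd (nat_lit 32918745216) (.lf (nat_lit 0x7aa1c3080)) (.lf (nat_lit 0x7aa1c4040))) (.nd (nat_lit 32919003200) (.lf (nat_lit 0x7aa202040)) (.lf (nat_lit 0x7aa203040))))) (.nd (nat_lit 32919531584) (.nd (nat_lit 32919269440) (.nd (nat_lit 32919265344) (.lf (nat_lit 0x7aa242040)) (.lf (nat_lit 0x7aa243040))) (.nd (nat_lit 32919527488) (.lf (nat_lit 0x7aa282040)) (.lf (nat_lit 0x7aa283040)))) (.nd (nat_lit 32919793728) (.nd (nat_lit 32919789632) (.lf (nat_lit 0x7aa2c2040)) (.lf (nat_lit 0x7aa2c3040))) (.nd (nat_lit 32920051776) (.lf (nat_lit 0x7aa302040)) (.lf (nat_lit 0x7aa342040))))))))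
noncomputable def jt14_3 : BT := (.nd (nat_lit 32936308800) (.nd (nat_lit 32935264320) (.nd (nat_lit 32934998080) (.nd (nat_lit 32934735936) (.nd (nat_lit 32934469696) (.nd (nat_lit 32920318016) (.lf (nat_lit 0x7aa343040)) (.lf (nat_lit 0x7ab0c2040))) (.nd (nat_lit 32934731840) (.lf (nat_lit 0x7ab102040)) (.lf (nat_lit 0x7ab103040)))) (.nd (nat_lit 32934736001) (.nd (nat_lit 32934736000) (.lf (nat_lit 0x7ab103080)) (.lf (nat_lit 0x2007ab103081))) (.nd (nat_lit 32934993984) (.lf (nat_lit 0x7ab142040)) (.lf (nat_lit 0x7ab143040))))) (.nd (nat_lit 32935002240) (.nd (nat_lit 32934998145) (.nd (nat_lit 32934998144) (.lf (nat_lit 0x7ab143080)) (.lf (nat_lit 0x2007ab143081))) (.nd (nat_lit 32935002176) (.lf (nat_lit 0x7ab144040)) (.lf (nat_lit 0x7ab144080)))) (.nd (nat_lit 32935260224) (.nd (nat_lit 32935256128) (.lf (nat_lit 0x7ab182040)) (.lf (nat_lit 0x7ab183040))) (.nd (nat_lit 32935260288) (.lf (nat_lit 0x7ab183080)) (.lf (nat_lit 0x7ab184040))))))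 (.nd (nat_lit 32935780416) (.nd (nat_lit 32935522368) (.nd (nat_lit 32935268416) (.nd (nat_lit 32935264384) (.lf (nat_lit 0x7ab184080)) (.lf (nat_lit 0x7ab185040))) (.nd (nat_lit 32935518272) (.lf (nat_lit 0x7ab1c2040)) (.lf (nat_lit 0x7ab1c3040)))) (.nd (nat_lit 32935526464) (.nd (nat_lit 32935522432) (.lf (nat_lit 0x7ab1c3080)) (.lf (nat_lit 0x7ab1c4040))) (.nd (nat_lit 32935530560) (.lf (nat_lit 0x7ab1c5040)) (.lf (nat_lit 0x7ab202040))))) (.nd (nat_lit 32936042560) (.nd (nat_lit 32935784576) (.nd (nat_lit 32935784512) (.lf (nat_lit 0x7ab203040)) (.lf (nat_lit 0x7ab203080))) (.nd (nat_lit 32935788608) (.lf (nat_lit 0x7ab204040)) (.lf (nat_lit 0x7ab242040)))) (.nd (nat_lit 32936050752) (.nd (nat_lit 32936046656) (.lf (nat_lit 0x7ab243040)) (.lf (nat_lit 0x7ab244040))) (.nd (nat_lit 32936304704) (.lf (nat_lit 0x7ab282040)) (.lf (nat_lit 0x7ab283040))))))) (.nd (nat_lit 32951509056) (.nd (nat_lit 32936833152) (.nd (nat_lit 32936575040)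 (.nd (nat_lit 32936566848) (.nd (nat_lit 32936312896) (.lf (nat_lit 0x7ab284040)) (.lf (nat_lit 0x7ab2c2040))) (.nd (nat_lit 32936570944) (.lf (nat_lit 0x7ab2c3040)) (.lf (nat_lit 0x7ab2c4040)))) (.nd (nat_lit 32936828992) (.nd (nat_lit 32936583232) (.lf (nat_lit 0x7ab2c6040)) (.lf (nat_lit 0x7ab302040))) (.nd (nat_lit 32936833088) (.lf (nat_lit 0x7ab303040)) (.lf (nat_lit 0x7ab303080))))) (.nd (nat_lit 32937095232) (.nd (nat_lit 32936841280) (.nd (nat_lit 32936837184) (.lf (nat_lit 0x7ab304040)) (.lf (nat_lit 0x7ab305040))) (.nd (nat_lit 32937091136) (.lf (nat_lit 0x7ab342040)) (.lf (nat_lit 0x7ab343040)))) (.nd (nat_lit 32937099328) (.nd (nat_lit 32937095296) (.lf (nat_lit 0x7ab343080)) (.lf (nat_lit 0x7ab344040))) (.nd (nat_lit 32951246912) (.lf (nat_lit 0x7ac0c2040)) (.lf (nat_lit 0x7ac102040)))))) (.nd (nat_lit 32951779392) (.nd (nat_lit 32951771200) (.nd (nat_lit 32951513216) (.nd (nat_lit 32951513152) (.lf (nat_lit 0x7ac103040))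 (.lf (nat_lit 0x7ac103080))) (.nd (nat_lit 32951513217) (.lf (nat_lit 0x2007ac103081)) (.lf (nat_lit 0x7ac142040)))) (.nd (nat_lit 32951775360) (.nd (nat_lit 32951775296) (.lf (nat_lit 0x7ac143040)) (.lf (nat_lit 0x7ac143080))) (.nd (nat_lit 32951775361) (.lf (nat_lit 0x2007ac143081)) (.lf (nat_lit 0x7ac144040))))) (.nd (nat_lit 32952033344) (.nd (nat_lit 32951779457) (.nd (nat_lit 32951779456) (.lf (nat_lit 0x7ac144080)) (.lf (nat_lit 0x2007ac144081))) (.nd (nat_lit 32951779520) (.lf (nat_lit 0x2007ac1440c0)) (.lf (nat_lit 0x7ac182040)))) (.nd (nat_lit 32952037504) (.nd (nat_lit 32952037440) (.lf (nat_lit 0x7ac183040)) (.lf (nat_lit 0x7ac183080))) (.nd (nat_lit 32952037505) (.lf (nat_lit 0x2007ac183081)) (.lf (nat_lit 0x7ac184040))))))))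
noncomputable def jt14_4 : BT := (.nd (nat_lit 32953086080) (.nd (nat_lit 32952565888) (.nd (nat_lit 32952303744) (.nd (nat_lit 32952295488) (.nd (nat_lit 32952045632) (.nd (nat_lit 32952041600) (.lf (nat_lit 0x7ac184080)) (.lf (nat_lit 0x7ac185040))) (.nd (nat_lit 32952045696) (.lf (nat_lit 0x7ac185080)) (.lf (nat_lit 0x7ac1c2040)))) (.nd (nat_lit 32952299648) (.nd (nat_lit 32952299584) (.lf (nat_lit 0x7ac1c3040)) (.lf (nat_lit 0x7ac1c3080))) (.nd (nat_lit 32952303680) (.lf (nat_lit 0x7ac1c4040)) (.lf (nat_lit 0x7ac1c4080))))) (.nd (nat_lit 32952557632) (.nd (nat_lit 32952307840) (.nd (nat_lit 32952307776) (.lf (nat_lit 0x7ac1c5040)) (.lf (nat_lit 0x7ac1c5080))) (.nd (nat_lit 32952311872) (.lf (nat_lit 0x7ac1c6040)) (.lf (nat_lit 0x7ac202040)))) (.nd (nat_lit 32952561792) (.nd (nat_lit 32952561728) (.lf (nat_lit 0x7ac203040)) (.lf (nat_lit 0x7ac203080))) (.nd (nat_lit 32952565824) (.lf (nat_lit 0x7ac204040)) (.lf (nat_lit 0x7ac204080))))))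 (.nd (nat_lit 32952827968) (.nd (nat_lit 32952578112) (.nd (nat_lit 32952574016) (.nd (nat_lit 32952569920) (.lf (nat_lit 0x7ac205040)) (.lf (nat_lit 0x7ac206040))) (.nd (nat_lit 32952574080) (.lf (nat_lit 0x7ac206080)) (.lf (nat_lit 0x7ac207040)))) (.nd (nat_lit 32952823872) (.nd (nat_lit 32952819776) (.lf (nat_lit 0x7ac242040)) (.lf (nat_lit 0x7ac243040))) (.nd (nat_lit 32952823936) (.lf (nat_lit 0x7ac243080)) (.lf (nat_lit 0x7ac244040))))) (.nd (nat_lit 32952832128) (.nd (nat_lit 32952828096) (.nd (nat_lit 32952828032) (.lf (nat_lit 0x7ac244080)) (.lf (nat_lit 0x2007ac2440c0))) (.nd (nat_lit 32952832064) (.lf (nat_lit 0x7ac245040)) (.lf (nat_lit 0x7ac245080)))) (.nd (nat_lit 32953081920) (.nd (nat_lit 32952836160) (.lf (nat_lit 0x7ac246040)) (.lf (nat_lit 0x7ac282040))) (.nd (nat_lit 32953086016) (.lf (nat_lit 0x7ac283040)) (.lf (nat_lit 0x7ac283080))))))) (.nd (nat_lit 32968548416) (.nd (nat_lit 32953606208) (.nd (nat_lit 32953344064)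 (.nd (nat_lit 32953090176) (.nd (nat_lit 32953090112) (.lf (nat_lit 0x7ac284040)) (.lf (nat_lit 0x7ac284080))) (.nd (nat_lit 32953094208) (.lf (nat_lit 0x7ac285040)) (.lf (nat_lit 0x7ac2c2040)))) (.nd (nat_lit 32953348224) (.nd (nat_lit 32953348160) (.lf (nat_lit 0x7ac2c3040)) (.lf (nat_lit 0x7ac2c3080))) (.nd (nat_lit 32953352256) (.lf (nat_lit 0x7ac2c4040)) (.lf (nat_lit 0x7ac302040))))) (.nd (nat_lit 32968286272) (.nd (nat_lit 32953868352) (.nd (nat_lit 32953610304) (.lf (nat_lit 0x7ac303040)) (.lf (nat_lit 0x7ac342040))) (.nd (nat_lit 32968024128) (.lf (nat_lit 0x7ad0c2040)) (.lf (nat_lit 0x7ad102040)))) (.nd (nat_lit 32968290432) (.nd (nat_lit 32968290368) (.lf (nat_lit 0x7ad103040)) (.lf (nat_lit 0x7ad103080))) (.nd (nat_lit 32968290433) (.lf (nat_lit 0x2007ad103081)) (.lf (nat_lit 0x7ad142040)))))) (.nd (nat_lit 32968810560) (.nd (nat_lit 32968556608) (.nd (nat_lit 32968552576) (.nd (nat_lit 32968552512) (.lf (nat_lit 0x7ad143040))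 (.lf (nat_lit 0x7ad143080))) (.nd (nat_lit 32968552577) (.lf (nat_lit 0x2007ad143081)) (.lf (nat_lit 0x7ad144040)))) (.nd (nat_lit 32968556673) (.nd (nat_lit 32968556672) (.lf (nat_lit 0x7ad144080)) (.lf (nat_lit 0x2007ad144081))) (.nd (nat_lit 32968556736) (.lf (nat_lit 0x2007ad1440c0)) (.lf (nat_lit 0x7ad182040))))) (.nd (nat_lit 32968818752) (.nd (nat_lit 32968814720) (.nd (nat_lit 32968814656) (.lf (nat_lit 0x7ad183040)) (.lf (nat_lit 0x7ad183080))) (.nd (nat_lit 32968814721) (.lf (nat_lit 0x2007ad183081)) (.lf (nat_lit 0x7ad184040)))) (.nd (nat_lit 32968818817) (.nd (nat_lit 32968818816) (.lf (nat_lit 0x7ad184080)) (.lf (nat_lit 0x2007ad184081))) (.nd (nat_lit 32968818880) (.lf (nat_lit 0x2007ad1840c0)) (.lf (nat_lit 0x7ad185040))))))))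
noncomputable def jt14_5 : BT := (.nd (nat_lit 32985067648) (.nd (nat_lit 32969338944) (.nd (nat_lit 32969080896) (.nd (nat_lit 32969072704) (.nd (nat_lit 32968822913) (.nd (nat_lit 32968822912) (.lf (nat_lit 0x7ad185080)) (.lf (nat_lit 0x2007ad185081))) (.nd (nat_lit 32968822976) (.lf (nat_lit 0x2007ad1850c0)) (.lf (nat_lit 0x7ad1c2040)))) (.nd (nat_lit 32969076864) (.nd (nat_lit 32969076800) (.lf (nat_lit 0x7ad1c3040)) (.lf (nat_lit 0x7ad1c3080))) (.nd (nat_lit 32969076865) (.lf (nat_lit 0x2007ad1c3081)) (.lf (nat_lit 0x7ad1c4040))))) (.nd (nat_lit 32969084992) (.nd (nat_lit 32969080961) (.nd (nat_lit 32969080960) (.lf (nat_lit 0x7ad1c4080)) (.lf (nat_lit 0x2007ad1c4081))) (.nd (nat_lit 32969081024) (.lf (nat_lit 0x2007ad1c40c0)) (.lf (nat_lit 0x7ad1c5040)))) (.nd (nat_lit 32969089088) (.nd (nat_lit 32969085056) (.lf (nat_lit 0x7ad1c5080)) (.lf (nat_lit 0x7ad1c6040))) (.nd (nat_lit 32969334848) (.lf (nat_lit 0x7ad202040)) (.lf (nat_lit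 0x7ad203040)))))) (.nd (nat_lit 32969601152) (.nd (nat_lit 32969343104) (.nd (nat_lit 32969339009) (.nd (nat_lit 32969339008) (.lf (nat_lit 0x7ad203080)) (.lf (nat_lit 0x2007ad203081))) (.nd (nat_lit 32969343040) (.lf (nat_lit 0x7ad204040)) (.lf (nat_lit 0x7ad204080)))) (.nd (nat_lit 32969596992) (.nd (nat_lit 32969347136) (.lf (nat_lit 0x7ad205040)) (.lf (nat_lit 0x7ad242040))) (.nd (nat_lit 32969601088) (.lf (nat_lit 0x7ad243040)) (.lf (nat_lit 0x7ad243080))))) (.nd (nat_lit 32970121280) (.nd (nat_lit 32969859136) (.nd (nat_lit 32969605184) (.lf (nat_lit 0x7ad244040)) (.lf (nat_lit 0x7ad282040))) (.nd (nat_lit 32969863232) (.lf (nat_lit 0x7ad283040)) (.lf (nat_lit 0x7ad2c2040)))) (.nd (nat_lit 32985063488) (.nd (nat_lit 32984801344) (.lf (nat_lit 0x7ae0c2040)) (.lf (nat_lit 0x7ae102040))) (.nd (nat_lit 32985067584) (.lf (nat_lit 0x7ae103040)) (.lf (nat_lit 0x7ae103080))))))) (.nd (nat_lit 32985600064) (.nd (nat_lit 32985333889) (.nd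 (nat_lit 32985329792) (.nd (nat_lit 32985325632) (.nd (nat_lit 32985067649) (.lf (nat_lit 0x2007ae103081)) (.lf (nat_lit 0x7ae142040))) (.nd (nat_lit 32985329728) (.lf (nat_lit 0x7ae143040)) (.lf (nat_lit 0x7ae143080)))) (.nd (nat_lit 32985333824) (.nd (nat_lit 32985329793) (.lf (nat_lit 0x2007ae143081)) (.lf (nat_lit 0x7ae144040))) (.nd (nat_lit 32985333888) (.lf (nat_lit 0x7ae144080)) (.lf (nat_lit 0x2007ae144081))))) (.nd (nat_lit 32985591936) (.nd (nat_lit 32985587776) (.nd (nat_lit 32985333952) (.lf (nat_lit 0x2007ae1440c0)) (.lf (nat_lit 0x7ae182040))) (.nd (nat_lit 32985591872) (.lf (nat_lit 0x7ae183040)) (.lf (nat_lit 0x7ae183080)))) (.nd (nat_lit 32985595968) (.nd (nat_lit 32985591937) (.lf (nat_lit 0x2007ae183081)) (.lf (nat_lit 0x7ae184040))) (.nd (nat_lit 32985596032) (.lf (nat_lit 0x7ae184080)) (.lf (nat_lit 0x7ae185040)))))) (.nd (nat_lit 33001578560) (.nd (nat_lit 32985858112) (.nd (nat_lit 32985854016) (.nd (nat_lit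 32985849920) (.lf (nat_lit 0x7ae1c2040)) (.lf (nat_lit 0x7ae1c3040))) (.nd (nat_lit 32985854080) (.lf (nat_lit 0x7ae1c3080)) (.lf (nat_lit 0x7ae1c4040)))) (.nd (nat_lit 32986116160) (.nd (nat_lit 32986112064) (.lf (nat_lit 0x7ae202040)) (.lf (nat_lit 0x7ae203040))) (.nd (nat_lit 32986374208) (.lf (nat_lit 0x7ae242040)) (.lf (nat_lit 0x7af0c2040))))) (.nd (nat_lit 33001844865) (.nd (nat_lit 33001844800) (.nd (nat_lit 33001840704) (.lf (nat_lit 0x7af102040)) (.lf (nat_lit 0x7af103040))) (.nd (nat_lit 33001844864) (.lf (nat_lit 0x7af103080)) (.lf (nat_lit 0x7af103081)))) (.nd (nat_lit 33002106944) (.nd (nat_lit 33002102848) (.lf (nat_lit 0x7af142040)) (.lf (nat_lit 0x7af143040))) (.nd (nat_lit 33002107008) (.lf (nat_lit 0x7af143080)) (.lf (nat_lit 0x7af144040))))))))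
noncomputable def jt14_6 : BT := (.nd (nat_lit 33018355776) (.nd (nat_lit 33002369088) (.nd (nat_lit 33002364992) (.lf (nat_lit 0x7af182040)) (.lf (nat_lit 0x7af183040))) (.nd (nat_lit 33002627136) (.lf (nat_lit 0x7af1c2040)) (.lf (nat_lit 0x7b00c2040)))) (.nd (nat_lit 33018622016) (.nd (nat_lit 33018617920) (.lf (nat_lit 0x7b0102040)) (.lf (nat_lit 0x7b0103040))) (.nd (nat_lit 33018880064) (.lf (nat_lit 0x7b0142040)) (.lf (nat_lit 0x7b10c2040)))))
noncomputable def jt14 : BT := (.nd (nat_lit 32920313920) (.nd (nat_lit 32784003136) jt14_0 (.nd (nat_lit 32884666432) jt14_1 jt14_2)) (.nd (nat_lit 32968822848) (.nd (nat_lit 32952041536) jt14_3 jt14_4) (.nd (nat_lit 33002111040) jt14_5 jt14_6)))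
def jg14 : Cfg := ⟨93, 84, 14, 15, 53⟩
noncomputable def jX14 : F3 := XRc 15 99 99 99 0
noncomputable def jt15 : BT := (.nd (nat_lit 32856350784) (.nd (nat_lit 32807075904) (.nd (nat_lit 32790818880) (.nd (nat_lit 32774303808) (.nd (nat_lit 32774037568) (.lf (nat_lit 0x2007a17c2040)) (.nd (nat_lit 32774299712) (.lf (nat_lit 0x2007a1802040)) (.lf (nat_lit 0x2007a1803040)))) (.nd (nat_lit 32790552640) (.nd (nat_lit 32774307904) (.lf (nat_lit 0x2007a1804040)) (.lf (nat_lit 0x2007a2782040))) (.nd (nat_lit 32790814784) (.lf (nat_lit 0x2007a27c2040)) (.lf (nat_lit 0x2007a27c3040))))) (.nd (nat_lit 32791081024) (.nd (nat_lit 32790822976) (.lf (nat_lit 0x2007a27c4040)) (.nd (nat_lit 32791076928) (.lf (nat_lit 0x2007a2802040)) (.lf (nat_lit 0x2007a2803040)))) (.nd (nat_lit 32807067712) (.nd (nat_lit 32791339072) (.lf (nat_lit 0x2007a2842040)) (.lf (nat_lit 0x7a3742040))) (.nd (nat_lit 32807071808) (.lf (nat_lit 0x7a3743040)) (.lf (nat_lit 0x7a3744040))))))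 (.nd (nat_lit 32823844928) (.nd (nat_lit 32807592000) (.nd (nat_lit 32807329856) (.lf (nat_lit 0x2007a3782040)) (.nd (nat_lit 32807333952) (.lf (nat_lit 0x2007a3783040)) (.lf (nat_lit 0x2007a37c2040)))) (.nd (nat_lit 32823582784) (.nd (nat_lit 32823320640) (.lf (nat_lit 0x7a46c2040)) (.lf (nat_lit 0x7a4702040))) (.nd (nat_lit 32823586880) (.lf (nat_lit 0x7a4703040)) (.lf (nat_lit 0x7a4742040))))) (.nd (nat_lit 32840097856) (.nd (nat_lit 32839835712) (.nd (nat_lit 32839573568) (.lf (nat_lit 0x7a5642040)) (.lf (nat_lit 0x7a5682040))) (.nd (nat_lit 32839839808) (.lf (nat_lit 0x7a5683040)) (.lf (nat_lit 0x7a56c2040)))) (.nd (nat_lit 32856088640) (.nd (nat_lit 32855826496) (.lf (nat_lit 0x7a65c2040)) (.lf (nat_lit 0x7a6602040))) (.nd (nat_lit 32856092736) (.lf (nat_lit 0x7a6603040)) (.lf (nat_lit 0x7a6642040))))))) (.nd (nat_lit 32904593472) (.nd (nat_lit 32888598592) (.nd (nat_lit 32872345664) (.nd (nat_lit 32872079424) (.lf (nat_lit 0x7a7542040))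 (.nd (nat_lit 32872341568) (.lf (nat_lit 0x7a7582040)) (.lf (nat_lit 0x7a7583040)))) (.nd (nat_lit 32888332352) (.nd (nat_lit 32872603712) (.lf (nat_lit 0x7a75c2040)) (.lf (nat_lit 0x7a84c2040))) (.nd (nat_lit 32888594496) (.lf (nat_lit 0x7a8502040)) (.lf (nat_lit 0x7a8503040))))) (.nd (nat_lit 32904060992) (.nd (nat_lit 32888856640) (.lf (nat_lit 0x7a8542040)) (.nd (nat_lit 32903798848) (.lf (nat_lit 0x7a9382040)) (.lf (nat_lit 0x7a93c2040)))) (.nd (nat_lit 32904585280) (.nd (nat_lit 32904323136) (.lf (nat_lit 0x7a9402040)) (.lf (nat_lit 0x7a9442040))) (.nd (nat_lit 32904589376) (.lf (nat_lit 0x7a9443040)) (.lf (nat_lit 0x7a9444040)))))) (.nd (nat_lit 32920842304) (.nd (nat_lit 32905109568) (.nd (nat_lit 32904847424) (.lf (nat_lit 0x7a9482040)) (.nd (nat_lit 32904851520) (.lf (nat_lit 0x7a9483040)) (.lf (nat_lit 0x7a94c2040)))) (.nd (nat_lit 32920580160) (.nd (nat_lit 32920576064) (.lf (nat_lit 0x7aa382040)) (.lf (nat_lit 0x7aa383040)))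 (.nd (nat_lit 32920838208) (.lf (nat_lit 0x7aa3c2040)) (.lf (nat_lit 0x7aa3c3040))))) (.nd (nat_lit 32921104448) (.nd (nat_lit 32920846400) (.nd (nat_lit 32920842368) (.lf (nat_lit 0x7aa3c3080)) (.lf (nat_lit 0x7aa3c4040))) (.nd (nat_lit 32921100352) (.lf (nat_lit 0x7aa402040)) (.lf (nat_lit 0x7aa403040)))) (.nd (nat_lit 32937353280) (.nd (nat_lit 32921362496) (.lf (nat_lit 0x7aa442040)) (.lf (nat_lit 0x7ab382040))) (.nd (nat_lit 32937357376) (.lf (nat_lit 0x7ab383040)) (.lf (nat_lit 0x7ab3c2040))))))))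
def jg15 : Cfg := ⟨93, 84, 34, 15, 50⟩
noncomputable def jX15 : F3 := XRc 14 99 99 99 0
noncomputable def jt16_0 : BT := (.nd (nat_lit 34880888896) (.nd (nat_lit 34813780032) (.nd (nat_lit 34763452480) (.nd (nat_lit 34746409024) (.nd (nat_lit 34729631808) (.nd (nat_lit 34712854592) (.lf (nat_lit 0x2008150c2040)) (.lf (nat_lit 0x2008160c2040))) (.nd (nat_lit 34729893952) (.lf (nat_lit 0x200816102040)) (.lf (nat_lit 0x2008170c2040)))) (.nd (nat_lit 34763186240) (.nd (nat_lit 34746671168) (.lf (nat_lit 0x200817102040)) (.lf (nat_lit 0x2008180c2040))) (.nd (nat_lit 34763448384) (.lf (nat_lit 0x200818102040)) (.lf (nat_lit 0x200818103040))))) (.nd (nat_lit 34796740672) (.nd (nat_lit 34780225600) (.nd (nat_lit 34779963456) (.lf (nat_lit 0x2008190c2040)) (.lf (nat_lit 0x200819102040))) (.nd (nat_lit 34780229696) (.lf (nat_lit 0x200819103040)) (.lf (nat_lit 0x20081a0c2040)))) (.nd (nat_lit 34797006912) (.nd (nat_lit 34797002816) (.lf (nat_lit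 0x20081a102040)) (.lf (nat_lit 0x20081a103040))) (.nd (nat_lit 34813517888) (.lf (nat_lit 0x20081b0c2040)) (.lf (nat_lit 0x20081b102040)))))) (.nd (nat_lit 34847334464) (.nd (nat_lit 34830557248) (.nd (nat_lit 34813784192) (.nd (nat_lit 34813784128) (.lf (nat_lit 0x20081b103040)) (.lf (nat_lit 0x20081b103080))) (.nd (nat_lit 34830295104) (.lf (nat_lit 0x20081c0c2040)) (.lf (nat_lit 0x20081c102040)))) (.nd (nat_lit 34830561408) (.nd (nat_lit 34830561344) (.lf (nat_lit 0x20081c103040)) (.lf (nat_lit 0x20081c103080))) (.nd (nat_lit 34847072320) (.lf (nat_lit 0x20081d0c2040)) (.lf (nat_lit 0x20081d102040))))) (.nd (nat_lit 34864111680) (.nd (nat_lit 34847338624) (.nd (nat_lit 34847338560) (.lf (nat_lit 0x20081d103040)) (.lf (nat_lit 0x20081d103080))) (.nd (nat_lit 34863849536) (.lf (nat_lit 0x20081e0c2040)) (.lf (nat_lit 0x20081e102040)))) (.nd (nat_lit 34864115840) (.nd (nat_lit 34864115776) (.lf (nat_lit 0x20081e103040)) (.lf (nat_lit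 0x20081e103080))) (.nd (nat_lit 34880626752) (.lf (nat_lit 0x20081f0c2040)) (.lf (nat_lit 0x20081f102040))))))) (.nd (nat_lit 34914705472) (.nd (nat_lit 34897670272) (.nd (nat_lit 34881151040) (.nd (nat_lit 34880893056) (.nd (nat_lit 34880892992) (.lf (nat_lit 0x20081f103040)) (.lf (nat_lit 0x20081f103080))) (.nd (nat_lit 34880893057) (.lf (nat_lit 0x20081f103081)) (.lf (nat_lit 0x20081f142040)))) (.nd (nat_lit 34897666112) (.nd (nat_lit 34897403968) (.lf (nat_lit 0x2008200c2040)) (.lf (nat_lit 0x200820102040))) (.nd (nat_lit 34897670208) (.lf (nat_lit 0x200820103040)) (.lf (nat_lit 0x200820103080))))) (.nd (nat_lit 34914443328) (.nd (nat_lit 34897928256) (.nd (nat_lit 34897670273) (.lf (nat_lit 0x200820103081)) (.lf (nat_lit 0x200820142040))) (.nd (nat_lit 34914181184) (.lf (nat_lit 0x2008210c2040)) (.lf (nat_lit 0x200821102040)))) (.nd (nat_lit 34914447488) (.nd (nat_lit 34914447424) (.lf (nat_lit 0x200821103040)) (.lf (nat_lit 0x200821103080)))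 (.nd (nat_lit 34914447489) (.lf (nat_lit 0x200821103081)) (.lf (nat_lit 0x200821142040)))))) (.nd (nat_lit 34947997760) (.nd (nat_lit 34931224704) (.nd (nat_lit 34931220544) (.nd (nat_lit 34930958400) (.lf (nat_lit 0x2008220c2040)) (.lf (nat_lit 0x200822102040))) (.nd (nat_lit 34931224640) (.lf (nat_lit 0x200822103040)) (.lf (nat_lit 0x200822103080)))) (.nd (nat_lit 34931482688) (.nd (nat_lit 34931224705) (.lf (nat_lit 0x200822103081)) (.lf (nat_lit 0x200822142040))) (.nd (nat_lit 34947735616) (.lf (nat_lit 0x2008230c2040)) (.lf (nat_lit 0x200823102040))))) (.nd (nat_lit 34948259904) (.nd (nat_lit 34948001920) (.nd (nat_lit 34948001856) (.lf (nat_lit 0x200823103040)) (.lf (nat_lit 0x200823103080))) (.nd (nat_lit 34948001921) (.lf (nat_lit 0x200823103081)) (.lf (nat_lit 0x200823142040)))) (.nd (nat_lit 34964512832) (.nd (nat_lit 34948522048) (.lf (nat_lit 0x200823182040)) (.lf (nat_lit 0x2008240c2040))) (.nd (nat_lit 34964774976) (.lf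 (nat_lit 0x200824102040)) (.lf (nat_lit 0x200824103040))))))))
noncomputable def jt16_1 : BT := (.nd (nat_lit 35031621696) (.nd (nat_lit 34998333504) (.nd (nat_lit 34981556288) (.nd (nat_lit 34965041216) (.nd (nat_lit 34964779137) (.nd (nat_lit 34964779136) (.lf (nat_lit 0x200824103080)) (.lf (nat_lit 0x200824103081))) (.nd (nat_lit 34965037120) (.lf (nat_lit 0x200824142040)) (.lf (nat_lit 0x200824143040)))) (.nd (nat_lit 34981290048) (.nd (nat_lit 34965299264) (.lf (nat_lit 0x200824182040)) (.lf (nat_lit 0x2008250c2040))) (.nd (nat_lit 34981552192) (.lf (nat_lit 0x200825102040)) (.lf (nat_lit 0x200825103040))))) (.nd (nat_lit 34981818432) (.nd (nat_lit 34981556353) (.nd (nat_lit 34981556352) (.lf (nat_lit 0x200825103080)) (.lf (nat_lit 0x200825103081))) (.nd (nat_lit 34981814336) (.lf (nat_lit 0x200825142040)) (.lf (nat_lit 0x200825143040)))) (.nd (nat_lit 34998067264) (.nd (nat_lit 34982076480) (.lf (nat_lit 0x200825182040)) (.lf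 (nat_lit 0x2008260c2040))) (.nd (nat_lit 34998329408) (.lf (nat_lit 0x200826102040)) (.lf (nat_lit 0x200826103040)))))) (.nd (nat_lit 35015110720) (.nd (nat_lit 34998595648) (.nd (nat_lit 34998333569) (.nd (nat_lit 34998333568) (.lf (nat_lit 0x200826103080)) (.lf (nat_lit 0x200826103081))) (.nd (nat_lit 34998591552) (.lf (nat_lit 0x200826142040)) (.lf (nat_lit 0x200826143040)))) (.nd (nat_lit 35014844480) (.nd (nat_lit 34998853696) (.lf (nat_lit 0x200826182040)) (.lf (nat_lit 0x2008270c2040))) (.nd (nat_lit 35015106624) (.lf (nat_lit 0x200827102040)) (.lf (nat_lit 0x200827103040))))) (.nd (nat_lit 35015372864) (.nd (nat_lit 35015110785) (.nd (nat_lit 35015110784) (.lf (nat_lit 0x200827103080)) (.lf (nat_lit 0x200827103081))) (.nd (nat_lit 35015368768) (.lf (nat_lit 0x200827142040)) (.lf (nat_lit 0x200827143040)))) (.nd (nat_lit 35015635008) (.nd (nat_lit 35015630912) (.lf (nat_lit 0x200827182040)) (.lf (nat_lit 0x200827183040))) (.nd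 (nat_lit 35015893056) (.lf (nat_lit 0x2008271c2040)) (.lf (nat_lit 0x2008280c2040))))))) (.nd (nat_lit 35048923200) (.nd (nat_lit 35032408128) (.nd (nat_lit 35031888001) (.nd (nat_lit 35031887936) (.nd (nat_lit 35031883840) (.lf (nat_lit 0x200828102040)) (.lf (nat_lit 0x200828103040))) (.nd (nat_lit 35031888000) (.lf (nat_lit 0x200828103080)) (.lf (nat_lit 0x200828103081)))) (.nd (nat_lit 35032150080) (.nd (nat_lit 35032145984) (.lf (nat_lit 0x200828142040)) (.lf (nat_lit 0x200828143040))) (.nd (nat_lit 35032150144) (.lf (nat_lit 0x200828143080)) (.lf (nat_lit 0x200828182040))))) (.nd (nat_lit 35048661056) (.nd (nat_lit 35032670272) (.nd (nat_lit 35032412224) (.lf (nat_lit 0x200828183040)) (.lf (nat_lit 0x2008281c2040))) (.nd (nat_lit 35048398912) (.lf (nat_lit 0x2008290c2040)) (.lf (nat_lit 0x200829102040)))) (.nd (nat_lit 35048665216) (.nd (nat_lit 35048665152) (.lf (nat_lit 0x200829103040)) (.lf (nat_lit 0x200829103080))) (.nd (nat_lit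 35048665217) (.lf (nat_lit 0x200829103081)) (.lf (nat_lit 0x200829142040)))))) (.nd (nat_lit 35065176128) (.nd (nat_lit 35049185344) (.nd (nat_lit 35048927360) (.nd (nat_lit 35048927296) (.lf (nat_lit 0x200829143040)) (.lf (nat_lit 0x200829143080))) (.nd (nat_lit 35048931392) (.lf (nat_lit 0x200829144040)) (.lf (nat_lit 0x200829182040)))) (.nd (nat_lit 35049447488) (.nd (nat_lit 35049189440) (.lf (nat_lit 0x200829183040)) (.lf (nat_lit 0x2008291c2040))) (.nd (nat_lit 35049709632) (.lf (nat_lit 0x200829202040)) (.lf (nat_lit 0x20082a0c2040))))) (.nd (nat_lit 35065442433) (.nd (nat_lit 35065442368) (.nd (nat_lit 35065438272) (.lf (nat_lit 0x20082a102040)) (.lf (nat_lit 0x20082a103040))) (.nd (nat_lit 35065442432) (.lf (nat_lit 0x20082a103080)) (.lf (nat_lit 0x20082a103081)))) (.nd (nat_lit 35065704512) (.nd (nat_lit 35065700416) (.lf (nat_lit 0x20082a142040)) (.lf (nat_lit 0x20082a143040))) (.nd (nat_lit 35065704576) (.lf (nat_lit 0x20082a143080))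 (.lf (nat_lit 0x20082a144040))))))))
noncomputable def jt16_2 : BT := (.nd (nat_lit 35099259008) (.nd (nat_lit 35082739776) (.nd (nat_lit 35082215488) (.nd (nat_lit 35066228800) (.nd (nat_lit 35065966656) (.nd (nat_lit 35065962560) (.lf (nat_lit 0x20082a182040)) (.lf (nat_lit 0x20082a183040))) (.nd (nat_lit 35066224704) (.lf (nat_lit 0x20082a1c2040)) (.lf (nat_lit 0x20082a1c3040)))) (.nd (nat_lit 35066748992) (.nd (nat_lit 35066486848) (.lf (nat_lit 0x20082a202040)) (.lf (nat_lit 0x20082a242040))) (.nd (nat_lit 35081953344) (.lf (nat_lit 0x20082b0c2040)) (.lf (nat_lit 0x20082b102040))))) (.nd (nat_lit 35082477632) (.nd (nat_lit 35082219648) (.nd (nat_lit 35082219584) (.lf (nat_lit 0x20082b103040)) (.lf (nat_lit 0x20082b103080))) (.nd (nat_lit 35082219649) (.lf (nat_lit 0x20082b103081)) (.lf (nat_lit 0x20082b142040)))) (.nd (nat_lit 35082481792) (.nd (nat_lit 35082481728) (.lf (nat_lit 0x20082b143040)) (.lf (nat_lit 0x20082b143080)))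 (.nd (nat_lit 35082485824) (.lf (nat_lit 0x20082b144040)) (.lf (nat_lit 0x20082b182040)))))) (.nd (nat_lit 35083788352) (.nd (nat_lit 35083001920) (.nd (nat_lit 35082743936) (.nd (nat_lit 35082743872) (.lf (nat_lit 0x20082b183040)) (.lf (nat_lit 0x20082b183080))) (.nd (nat_lit 35082747968) (.lf (nat_lit 0x20082b184040)) (.lf (nat_lit 0x20082b1c2040)))) (.nd (nat_lit 35083264064) (.nd (nat_lit 35083006016) (.lf (nat_lit 0x20082b1c3040)) (.lf (nat_lit 0x20082b202040))) (.nd (nat_lit 35083526208) (.lf (nat_lit 0x20082b242040)) (.lf (nat_lit 0x20082b282040))))) (.nd (nat_lit 35098996864) (.nd (nat_lit 35098992704) (.nd (nat_lit 35098730560) (.lf (nat_lit 0x20082c0c2040)) (.lf (nat_lit 0x20082c102040))) (.nd (nat_lit 35098996800) (.lf (nat_lit 0x20082c103040)) (.lf (nat_lit 0x20082c103080)))) (.nd (nat_lit 35099254848) (.nd (nat_lit 35098996865) (.lf (nat_lit 0x20082c103081)) (.lf (nat_lit 0x20082c142040))) (.nd (nat_lit 35099258944) (.lf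 (nat_lit 0x20082c143040)) (.lf (nat_lit 0x20082c143080))))))) (.nd (nat_lit 35101352000) (.nd (nat_lit 35099779136) (.nd (nat_lit 35099516992) (.nd (nat_lit 35099263040) (.nd (nat_lit 35099259009) (.lf (nat_lit 0x20082c143081)) (.lf (nat_lit 0x20082c144040))) (.nd (nat_lit 35099263104) (.lf (nat_lit 0x20082c144080)) (.lf (nat_lit 0x20082c182040)))) (.nd (nat_lit 35099521152) (.nd (nat_lit 35099521088) (.lf (nat_lit 0x20082c183040)) (.lf (nat_lit 0x20082c183080))) (.nd (nat_lit 35099525184) (.lf (nat_lit 0x20082c184040)) (.lf (nat_lit 0x20082c1c2040))))) (.nd (nat_lit 35100303424) (.nd (nat_lit 35100041280) (.nd (nat_lit 35099783232) (.lf (nat_lit 0x20082c1c3040)) (.lf (nat_lit 0x20082c202040))) (.nd (nat_lit 35100045376) (.lf (nat_lit 0x20082c203040)) (.lf (nat_lit 0x20082c242040)))) (.nd (nat_lit 35100827712) (.nd (nat_lit 35100565568) (.lf (nat_lit 0x20082c282040)) (.lf (nat_lit 0x20082c2c2040))) (.nd (nat_lit 35101089856) (.lf (nat_lit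 0x20082c302040)) (.lf (nat_lit 0x20082c342040)))))) (.nd (nat_lit 35116036224) (.nd (nat_lit 35115774080) (.nd (nat_lit 35115769920) (.nd (nat_lit 35115507776) (.lf (nat_lit 0x20082d0c2040)) (.lf (nat_lit 0x20082d102040))) (.nd (nat_lit 35115774016) (.lf (nat_lit 0x20082d103040)) (.lf (nat_lit 0x20082d103080)))) (.nd (nat_lit 35116032064) (.nd (nat_lit 35115774081) (.lf (nat_lit 0x20082d103081)) (.lf (nat_lit 0x20082d142040))) (.nd (nat_lit 35116036160) (.lf (nat_lit 0x20082d143040)) (.lf (nat_lit 0x20082d143080))))) (.nd (nat_lit 35116294208) (.nd (nat_lit 35116040256) (.nd (nat_lit 35116036225) (.lf (nat_lit 0x20082d143081)) (.lf (nat_lit 0x20082d144040))) (.nd (nat_lit 35116040320) (.lf (nat_lit 0x20082d144080)) (.lf (nat_lit 0x20082d182040)))) (.nd (nat_lit 35116298368) (.nd (nat_lit 35116298304) (.lf (nat_lit 0x20082d183040)) (.lf (nat_lit 0x20082d183080))) (.nd (nat_lit 35116302400) (.lf (nat_lit 0x20082d184040)) (.lf (nat_lit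 0x20082d185040))))))))
noncomputable def jt16_3 : BT := (.nd (nat_lit 35133337664) (.nd (nat_lit 35132551232) (.nd (nat_lit 35117084736) (.nd (nat_lit 35116564544) (.nd (nat_lit 35116560448) (.nd (nat_lit 35116556352) (.lf (nat_lit 0x20082d1c2040)) (.lf (nat_lit 0x20082d1c3040))) (.nd (nat_lit 35116560512) (.lf (nat_lit 0x20082d1c3080)) (.lf (nat_lit 0x20082d1c4040)))) (.nd (nat_lit 35116822592) (.nd (nat_lit 35116818496) (.lf (nat_lit 0x20082d202040)) (.lf (nat_lit 0x20082d203040))) (.nd (nat_lit 35117080640) (.lf (nat_lit 0x20082d242040)) (.lf (nat_lit 0x20082d243040))))) (.nd (nat_lit 35117867072) (.nd (nat_lit 35117346880) (.nd (nat_lit 35117342784) (.lf (nat_lit 0x20082d282040)) (.lf (nat_lit 0x20082d283040))) (.nd (nat_lit 35117604928) (.lf (nat_lit 0x20082d2c2040)) (.lf (nat_lit 0x20082d302040)))) (.nd (nat_lit 35132284992) (.nd (nat_lit 35118129216) (.lf (nat_lit 0x20082d342040)) (.lf (nat_lit 0x20082e0c2040))) (.nd (nat_lit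 35132547136) (.lf (nat_lit 0x20082e102040)) (.lf (nat_lit 0x20082e103040)))))) (.nd (nat_lit 35132817536) (.nd (nat_lit 35132813376) (.nd (nat_lit 35132551297) (.nd (nat_lit 35132551296) (.lf (nat_lit 0x20082e103080)) (.lf (nat_lit 0x20082e103081))) (.nd (nat_lit 35132809280) (.lf (nat_lit 0x20082e142040)) (.lf (nat_lit 0x20082e143040)))) (.nd (nat_lit 35132813441) (.nd (nat_lit 35132813440) (.lf (nat_lit 0x20082e143080)) (.lf (nat_lit 0x20082e143081))) (.nd (nat_lit 35132817472) (.lf (nat_lit 0x20082e144040)) (.lf (nat_lit 0x20082e144080))))) (.nd (nat_lit 35133079616) (.nd (nat_lit 35133075520) (.nd (nat_lit 35133071424) (.lf (nat_lit 0x20082e182040)) (.lf (nat_lit 0x20082e183040))) (.nd (nat_lit 35133075584) (.lf (nat_lit 0x20082e183080)) (.lf (nat_lit 0x20082e184040)))) (.nd (nat_lit 35133083712) (.nd (nat_lit 35133079680) (.lf (nat_lit 0x20082e184080)) (.lf (nat_lit 0x20082e185040))) (.nd (nat_lit 35133333568) (.lf (nat_lit 0x20082e1c2040))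 (.lf (nat_lit 0x20082e1c3040))))))) (.nd (nat_lit 35134386240) (.nd (nat_lit 35133603904) (.nd (nat_lit 35133350208) (.nd (nat_lit 35133341760) (.nd (nat_lit 35133337728) (.lf (nat_lit 0x20082e1c3080)) (.lf (nat_lit 0x20082e1c4040))) (.nd (nat_lit 35133345856) (.lf (nat_lit 0x20082e1c5040)) (.lf (nat_lit 0xc200082e1c6140)))) (.nd (nat_lit 35133599808) (.nd (nat_lit 35133595712) (.lf (nat_lit 0x20082e202040)) (.lf (nat_lit 0x20082e203040))) (.nd (nat_lit 35133599872) (.lf (nat_lit 0x20082e203080)) (.lf (nat_lit 0x20082e204040))))) (.nd (nat_lit 35134120000) (.nd (nat_lit 35133861952) (.nd (nat_lit 35133857856) (.lf (nat_lit 0x20082e242040)) (.lf (nat_lit 0x20082e243040))) (.nd (nat_lit 35133866048) (.lf (nat_lit 0x20082e244040)) (.lf (nat_lit 0x20082e282040)))) (.nd (nat_lit 35134128192) (.nd (nat_lit 35134124096) (.lf (nat_lit 0x20082e283040)) (.lf (nat_lit 0x20082e284040))) (.nd (nat_lit 35134382144) (.lf (nat_lit 0x20082e2c2040))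 (.lf (nat_lit 0x20082e2c3040)))))) (.nd (nat_lit 35134910528) (.nd (nat_lit 35134648384) (.nd (nat_lit 35134398528) (.nd (nat_lit 35134390336) (.lf (nat_lit 0x20082e2c4040)) (.lf (nat_lit 0x20082e2c6040))) (.nd (nat_lit 35134644288) (.lf (nat_lit 0x20082e302040)) (.lf (nat_lit 0x20082e303040)))) (.nd (nat_lit 35134656576) (.nd (nat_lit 35134652480) (.lf (nat_lit 0x20082e304040)) (.lf (nat_lit 0x20082e305040))) (.nd (nat_lit 35134906432) (.lf (nat_lit 0x20082e342040)) (.lf (nat_lit 0x20082e343040))))) (.nd (nat_lit 35149324352) (.nd (nat_lit 35134914624) (.nd (nat_lit 35134910592) (.lf (nat_lit 0x20082e343080)) (.lf (nat_lit 0x20082e344040))) (.nd (nat_lit 35149062208) (.lf (nat_lit 0x20082f0c2040)) (.lf (nat_lit 0x20082f102040)))) (.nd (nat_lit 35149328512) (.nd (nat_lit 35149328448) (.lf (nat_lit 0x20082f103040)) (.lf (nat_lit 0x20082f103080))) (.nd (nat_lit 35149328513) (.lf (nat_lit 0x20082f103081)) (.lf (nat_lit 0x20082f142040))))))))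
noncomputable def jt16_4 : BT := (.nd (nat_lit 35150635072) (.nd (nat_lit 35150110784) (.nd (nat_lit 35149848640) (.nd (nat_lit 35149594688) (.nd (nat_lit 35149590656) (.nd (nat_lit 35149590592) (.lf (nat_lit 0x20082f143040)) (.lf (nat_lit 0x20082f143080))) (.nd (nat_lit 35149590657) (.lf (nat_lit 0x20082f143081)) (.lf (nat_lit 0x20082f144040)))) (.nd (nat_lit 35149594753) (.nd (nat_lit 35149594752) (.lf (nat_lit 0x20082f144080)) (.lf (nat_lit 0x20082f144081))) (.nd (nat_lit 35149594816) (.lf (nat_lit 0x20082f1440c0)) (.lf (nat_lit 0x20082f182040))))) (.nd (nat_lit 35149856832) (.nd (nat_lit 35149852800) (.nd (nat_lit 35149852736) (.lf (nat_lit 0x20082f183040)) (.lf (nat_lit 0x20082f183080))) (.nd (nat_lit 35149852801) (.lf (nat_lit 0x20082f183081)) (.lf (nat_lit 0x20082f184040)))) (.nd (nat_lit 35149860928) (.nd (nat_lit 35149856896) (.lf (nat_lit 0x20082f184080)) (.lf (nat_lit 0x20082f185040))) (.nd (nat_lit 35149860992) (.lf (nat_lit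 0x20082f185080)) (.lf (nat_lit 0x20082f1c2040)))))) (.nd (nat_lit 35150377024) (.nd (nat_lit 35150119040) (.nd (nat_lit 35150114944) (.nd (nat_lit 35150114880) (.lf (nat_lit 0x20082f1c3040)) (.lf (nat_lit 0x20082f1c3080))) (.nd (nat_lit 35150118976) (.lf (nat_lit 0x20082f1c4040)) (.lf (nat_lit 0x20082f1c4080)))) (.nd (nat_lit 35150127168) (.nd (nat_lit 35150123072) (.lf (nat_lit 0x20082f1c5040)) (.lf (nat_lit 0x20082f1c6040))) (.nd (nat_lit 35150372928) (.lf (nat_lit 0x20082f202040)) (.lf (nat_lit 0x20082f203040))))) (.nd (nat_lit 35150385216) (.nd (nat_lit 35150381120) (.nd (nat_lit 35150377088) (.lf (nat_lit 0x20082f203080)) (.lf (nat_lit 0x20082f204040))) (.nd (nat_lit 35150381184) (.lf (nat_lit 0x20082f204080)) (.lf (nat_lit 0x20082f205040)))) (.nd (nat_lit 35150389376) (.nd (nat_lit 35150389312) (.lf (nat_lit 0x20082f206040)) (.lf (nat_lit 0x20082f206080))) (.nd (nat_lit 35150393408) (.lf (nat_lit 0x20082f207040)) (.lf (nat_lit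 0x20082f242040))))))) (.nd (nat_lit 35151163520) (.nd (nat_lit 35150897216) (.nd (nat_lit 35150643328) (.nd (nat_lit 35150639232) (.nd (nat_lit 35150639168) (.lf (nat_lit 0x20082f243040)) (.lf (nat_lit 0x20082f243080))) (.nd (nat_lit 35150643264) (.lf (nat_lit 0x20082f244040)) (.lf (nat_lit 0x20082f244080)))) (.nd (nat_lit 35150647424) (.nd (nat_lit 35150647360) (.lf (nat_lit 0x20082f245040)) (.lf (nat_lit 0x20082f245080))) (.nd (nat_lit 35150651456) (.lf (nat_lit 0x20082f246040)) (.lf (nat_lit 0x20082f282040))))) (.nd (nat_lit 35150905472) (.nd (nat_lit 35150901376) (.nd (nat_lit 35150901312) (.lf (nat_lit 0x20082f283040)) (.lf (nat_lit 0x20082f283080))) (.nd (nat_lit 35150905408) (.lf (nat_lit 0x20082f284040)) (.lf (nat_lit 0x20082f284080)))) (.nd (nat_lit 35151159360) (.nd (nat_lit 35150909504) (.lf (nat_lit 0x20082f285040)) (.lf (nat_lit 0x20082f2c2040))) (.nd (nat_lit 35151163456) (.lf (nat_lit 0x20082f2c3040)) (.lf (nat_lit 0x20082f2c3080))))))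 (.nd (nat_lit 35166105728) (.nd (nat_lit 35151683648) (.nd (nat_lit 35151421504) (.nd (nat_lit 35151167552) (.lf (nat_lit 0x20082f2c4040)) (.lf (nat_lit 0x20082f302040))) (.nd (nat_lit 35151425600) (.lf (nat_lit 0x20082f303040)) (.lf (nat_lit 0x20082f342040)))) (.nd (nat_lit 35166101568) (.nd (nat_lit 35165839424) (.lf (nat_lit 0x2008300c2040)) (.lf (nat_lit 0x200830102040))) (.nd (nat_lit 35166105664) (.lf (nat_lit 0x200830103040)) (.lf (nat_lit 0x200830103080))))) (.nd (nat_lit 35166367872) (.nd (nat_lit 35166363712) (.nd (nat_lit 35166105729) (.lf (nat_lit 0x200830103081)) (.lf (nat_lit 0x200830142040))) (.nd (nat_lit 35166367808) (.lf (nat_lit 0x200830143040)) (.lf (nat_lit 0x200830143080)))) (.nd (nat_lit 35166371904) (.nd (nat_lit 35166367873) (.lf (nat_lit 0x200830143081)) (.lf (nat_lit 0x200830144040))) (.nd (nat_lit 35166371968) (.lf (nat_lit 0x200830144080)) (.lf (nat_lit 0x200830144081))))))))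
noncomputable def jt16_5 : BT := (.nd (nat_lit 35167412288) (.nd (nat_lit 35166892160) (.nd (nat_lit 35166634113) (.nd (nat_lit 35166630016) (.nd (nat_lit 35166625856) (.nd (nat_lit 35166372032) (.lf (nat_lit 0x2008301440c0)) (.lf (nat_lit 0x200830182040))) (.nd (nat_lit 35166629952) (.lf (nat_lit 0x200830183040)) (.lf (nat_lit 0x200830183080)))) (.nd (nat_lit 35166634048) (.nd (nat_lit 35166630017) (.lf (nat_lit 0x200830183081)) (.lf (nat_lit 0x200830184040))) (.nd (nat_lit 35166634112) (.lf (nat_lit 0x200830184080)) (.lf (nat_lit 0x200830184081))))) (.nd (nat_lit 35166638209) (.nd (nat_lit 35166638144) (.nd (nat_lit 35166634176) (.lf (nat_lit 0x2008301840c0)) (.lf (nat_lit 0x200830185040))) (.nd (nat_lit 35166638208) (.lf (nat_lit 0x200830185080)) (.lf (nat_lit 0x200830185081)))) (.nd (nat_lit 35166888000) (.nd (nat_lit 35166638272) (.lf (nat_lit 0x2008301850c0)) (.lf (nat_lit 0x2008301c2040))) (.nd (nat_lit 35166892096) (.lf (nat_lit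 0x2008301c3040)) (.lf (nat_lit 0x2008301c3080)))))) (.nd (nat_lit 35166904384) (.nd (nat_lit 35166896257) (.nd (nat_lit 35166896192) (.nd (nat_lit 35166892161) (.lf (nat_lit 0x2008301c3081)) (.lf (nat_lit 0x2008301c4040))) (.nd (nat_lit 35166896256) (.lf (nat_lit 0x2008301c4080)) (.lf (nat_lit 0x2008301c4081)))) (.nd (nat_lit 35166900288) (.nd (nat_lit 35166896320) (.lf (nat_lit 0x2008301c40c0)) (.lf (nat_lit 0x2008301c5040))) (.nd (nat_lit 35166900352) (.lf (nat_lit 0x2008301c5080)) (.lf (nat_lit 0x2008301c6040))))) (.nd (nat_lit 35167154305) (.nd (nat_lit 35167154240) (.nd (nat_lit 35167150144) (.lf (nat_lit 0x200830202040)) (.lf (nat_lit 0x200830203040))) (.nd (nat_lit 35167154304) (.lf (nat_lit 0x200830203080)) (.lf (nat_lit 0x200830203081)))) (.nd (nat_lit 35167158400) (.nd (nat_lit 35167158336) (.lf (nat_lit 0x200830204040)) (.lf (nat_lit 0x200830204080))) (.nd (nat_lit 35167162432) (.lf (nat_lit 0x200830205040)) (.lf (nat_lit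 0x200830242040))))))) (.nd (nat_lit 35183149120) (.nd (nat_lit 35182878784) (.nd (nat_lit 35167674432) (.nd (nat_lit 35167416448) (.nd (nat_lit 35167416384) (.lf (nat_lit 0x200830243040)) (.lf (nat_lit 0x200830243080))) (.nd (nat_lit 35167420480) (.lf (nat_lit 0x200830244040)) (.lf (nat_lit 0x200830282040)))) (.nd (nat_lit 35167936576) (.nd (nat_lit 35167678528) (.lf (nat_lit 0x200830283040)) (.lf (nat_lit 0x2008302c2040))) (.nd (nat_lit 35182616640) (.lf (nat_lit 0x2008310c2040)) (.lf (nat_lit 0x200831102040))))) (.nd (nat_lit 35183140928) (.nd (nat_lit 35182882944) (.nd (nat_lit 35182882880) (.lf (nat_lit 0x200831103040)) (.lf (nat_lit 0x200831103080))) (.nd (nat_lit 35182882945) (.lf (nat_lit 0x200831103081)) (.lf (nat_lit 0x200831142040)))) (.nd (nat_lit 35183145088) (.nd (nat_lit 35183145024) (.lf (nat_lit 0x200831143040)) (.lf (nat_lit 0x200831143080))) (.nd (nat_lit 35183145089) (.lf (nat_lit 0x200831143081)) (.lf (nat_lit 0x200831144040))))))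 (.nd (nat_lit 35183411264) (.nd (nat_lit 35183403072) (.nd (nat_lit 35183149185) (.nd (nat_lit 35183149184) (.lf (nat_lit 0x200831144080)) (.lf (nat_lit 0x200831144081))) (.nd (nat_lit 35183149248) (.lf (nat_lit 0x2008311440c0)) (.lf (nat_lit 0x200831182040)))) (.nd (nat_lit 35183407232) (.nd (nat_lit 35183407168) (.lf (nat_lit 0x200831183040)) (.lf (nat_lit 0x200831183080))) (.nd (nat_lit 35183407233) (.lf (nat_lit 0x200831183081)) (.lf (nat_lit 0x200831184040))))) (.nd (nat_lit 35183669312) (.nd (nat_lit 35183415360) (.nd (nat_lit 35183411328) (.lf (nat_lit 0x200831184080)) (.lf (nat_lit 0x200831185040))) (.nd (nat_lit 35183665216) (.lf (nat_lit 0x2008311c2040)) (.lf (nat_lit 0x2008311c3040)))) (.nd (nat_lit 35183673408) (.nd (nat_lit 35183669376) (.lf (nat_lit 0x2008311c3080)) (.lf (nat_lit 0x2008311c4040))) (.nd (nat_lit 35183927360) (.lf (nat_lit 0x200831202040)) (.lf (nat_lit 0x200831203040))))))))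
noncomputable def jt16_6 : BT := (.nd (nat_lit 35199922304) (.nd (nat_lit 35199660096) (.nd (nat_lit 35199393856) (.nd (nat_lit 35184189504) (.lf (nat_lit 0x200831242040)) (.lf (nat_lit 0x2008320c2040))) (.nd (nat_lit 35199656000) (.lf (nat_lit 0x200832102040)) (.lf (nat_lit 0x200832103040)))) (.nd (nat_lit 35199660161) (.nd (nat_lit 35199660160) (.lf (nat_lit 0x200832103080)) (.lf (nat_lit 0x200832103081))) (.nd (nat_lit 35199918144) (.lf (nat_lit 0x200832142040)) (.nd (nat_lit 35199922240) (.lf (nat_lit 0x200832143040)) (.lf (nat_lit 0x200832143080)))))) (.nd (nat_lit 35200442432) (.nd (nat_lit 35200180288) (.nd (nat_lit 35199926336) (.lf (nat_lit 0x200832144040)) (.lf (nat_lit 0x200832182040))) (.nd (nat_lit 35200184384) (.lf (nat_lit 0x200832183040)) (.lf (nat_lit 0x2008321c2040)))) (.nd (nat_lit 35216433216) (.nd (nat_lit 35216171072) (.lf (nat_lit 0x2008330c2040)) (.lf (nat_lit 0x200833102040))) (.nd (nat_lit 35216437312) (.lf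 (nat_lit 0x200833103040)) (.nd (nat_lit 35216695360) (.lf (nat_lit 0x200833142040)) (.lf (nat_lit 0x2008340c2040)))))))
noncomputable def jt16 : BT := (.nd (nat_lit 35116306496) (.nd (nat_lit 34964779072) jt16_0 (.nd (nat_lit 35065708608) jt16_1 jt16_2)) (.nd (nat_lit 35166371969) (.nd (nat_lit 35149586496) jt16_3 jt16_4) (.nd (nat_lit 35183931456) jt16_5 jt16_6)))
def jg16 : Cfg := ⟨95, 86, 14, 16, 56⟩
noncomputable def jX16 : F3 := XRc 16 99 99 99 0
noncomputable def jt17 : BT := (.nd (nat_lit 35054166080) (.nd (nat_lit 34989154368) (.nd (nat_lit 34972639296) (.nd (nat_lit 34972377152) (.nd (nat_lit 34955862080) (.lf (nat_lit 0x200823882040)) (.nd (nat_lit 34955866176) (.lf (nat_lit 0x200823883040)) (.lf (nat_lit 0x200824842040)))) (.nd (nat_lit 34972381248) (.lf (nat_lit 0x200824843040)) (.nd (nat_lit 34972385344) (.lf (nat_lit 0x200824844040)) (.lf (nat_lit 0x200824882040))))) (.nd (nat_lit 34988630080) (.nd (nat_lit 34972643392)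 (.lf (nat_lit 0x200824883040)) (.nd (nat_lit 34972901440) (.lf (nat_lit 0x2008248c2040)) (.lf (nat_lit 0x2008257c2040)))) (.nd (nat_lit 34988892224) (.lf (nat_lit 0x200825802040)) (.nd (nat_lit 34988896320) (.lf (nat_lit 0x200825803040)) (.lf (nat_lit 0x200825842040)))))) (.nd (nat_lit 35021660224) (.nd (nat_lit 35005407296) (.nd (nat_lit 35005145152) (.lf (nat_lit 0x200826782040)) (.nd (nat_lit 35005149248) (.lf (nat_lit 0x200826783040)) (.lf (nat_lit 0x2008267c2040)))) (.nd (nat_lit 35021398080) (.lf (nat_lit 0x200827702040)) (.nd (nat_lit 35021402176) (.lf (nat_lit 0x200827703040)) (.lf (nat_lit 0x200827742040))))) (.nd (nat_lit 35037913152) (.nd (nat_lit 35037651008) (.lf (nat_lit 0x200828682040)) (.nd (nat_lit 35037655104) (.lf (nat_lit 0x200828683040)) (.lf (nat_lit 0x2008286c2040)))) (.nd (nat_lit 35053903936) (.lf (nat_lit 0x200829602040)) (.nd (nat_lit 35053908032) (.lf (nat_lit 0x200829603040)) (.lf (nat_lit 0x200829642040)))))))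 (.nd (nat_lit 35102662720) (.nd (nat_lit 35086413888) (.nd (nat_lit 35070419008) (.nd (nat_lit 35070156864) (.lf (nat_lit 0x20082a582040)) (.nd (nat_lit 35070160960) (.lf (nat_lit 0x20082a583040)) (.lf (nat_lit 0x20082a5c2040)))) (.nd (nat_lit 35086147648) (.lf (nat_lit 0x20082b4c2040)) (.nd (nat_lit 35086409792) (.lf (nat_lit 0x20082b502040)) (.lf (nat_lit 0x20082b503040))))) (.nd (nat_lit 35101876288) (.nd (nat_lit 35086671936) (.lf (nat_lit 0x20082b542040)) (.nd (nat_lit 35101614144) (.lf (nat_lit 0x20082c382040)) (.lf (nat_lit 0x20082c3c2040)))) (.nd (nat_lit 35102138432) (.lf (nat_lit 0x20082c402040)) (.nd (nat_lit 35102400576) (.lf (nat_lit 0x20082c442040)) (.lf (nat_lit 0x20082c482040)))))) (.nd (nat_lit 35118657600) (.nd (nat_lit 35118391360) (.nd (nat_lit 35102666816) (.lf (nat_lit 0x20082c483040)) (.nd (nat_lit 35102924864) (.lf (nat_lit 0x20082c4c2040)) (.lf (nat_lit 0x20082d382040)))) (.nd (nat_lit 35118395456) (.lf (nat_lit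 0x20082d383040)) (.nd (nat_lit 35118653504) (.lf (nat_lit 0x20082d3c2040)) (.lf (nat_lit 0x20082d3c3040))))) (.nd (nat_lit 35118919744) (.nd (nat_lit 35118661696) (.lf (nat_lit 0x20082d3c4040)) (.nd (nat_lit 35118915648) (.lf (nat_lit 0x20082d402040)) (.lf (nat_lit 0x20082d403040)))) (.nd (nat_lit 35135168576) (.nd (nat_lit 35119177792) (.lf (nat_lit 0x20082d442040)) (.lf (nat_lit 0x20082e382040))) (.nd (nat_lit 35135172672) (.lf (nat_lit 0x20082e383040)) (.lf (nat_lit 0x20082e3c2040))))))))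
def jg17 : Cfg := ⟨95, 86, 36, 16, 53⟩
noncomputable def jX17 : F3 := XRc 15 99 99 99 0
noncomputable def jt18_0 : BT := (.nd (nat_lit 37045149760) (.nd (nat_lit 36978040896) (.nd (nat_lit 36927713344) (.nd (nat_lit 36910669888) (.nd (nat_lit 36893892672) (.nd (nat_lit 36877115456) (.lf (nat_lit 0x2008960c2040)) (.lf (nat_lit 0x2008970c2040))) (.nd (nat_lit 36894154816) (.lf (nat_lit 0x200897102040)) (.lf (nat_lit 0x2008980c2040)))) (.nd (nat_lit 36927447104) (.nd (nat_lit 36910932032) (.lf (nat_lit 0x200898102040)) (.lf (nat_lit 0x2008990c2040))) (.nd (nat_lit 36927709248) (.lf (nat_lit 0x200899102040)) (.lf (nat_lit 0x200899103040))))) (.nd (nat_lit 36961001536) (.nd (nat_lit 36944486464) (.nd (nat_lit 36944224320) (.lf (nat_lit 0x20089a0c2040)) (.lf (nat_lit 0x20089a102040))) (.nd (nat_lit 36944490560) (.lf (nat_lit 0x20089a103040)) (.lf (nat_lit 0x20089b0c2040)))) (.nd (nat_lit 36961267776) (.nd (nat_lit 36961263680) (.lf (nat_lit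 0x20089b102040)) (.lf (nat_lit 0x20089b103040))) (.nd (nat_lit 36977778752) (.lf (nat_lit 0x20089c0c2040)) (.lf (nat_lit 0x20089c102040)))))) (.nd (nat_lit 37011595328) (.nd (nat_lit 36994818112) (.nd (nat_lit 36978045056) (.nd (nat_lit 36978044992) (.lf (nat_lit 0x20089c103040)) (.lf (nat_lit 0x20089c103080))) (.nd (nat_lit 36994555968) (.lf (nat_lit 0x20089d0c2040)) (.lf (nat_lit 0x20089d102040)))) (.nd (nat_lit 36994822272) (.nd (nat_lit 36994822208) (.lf (nat_lit 0x20089d103040)) (.lf (nat_lit 0x20089d103080))) (.nd (nat_lit 37011333184) (.lf (nat_lit 0x20089e0c2040)) (.lf (nat_lit 0x20089e102040))))) (.nd (nat_lit 37028372544) (.nd (nat_lit 37011599488) (.nd (nat_lit 37011599424) (.lf (nat_lit 0x20089e103040)) (.lf (nat_lit 0x20089e103080))) (.nd (nat_lit 37028110400) (.lf (nat_lit 0x20089f0c2040)) (.lf (nat_lit 0x20089f102040)))) (.nd (nat_lit 37028376704) (.nd (nat_lit 37028376640) (.lf (nat_lit 0x20089f103040)) (.lf (nat_lit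 0x20089f103080))) (.nd (nat_lit 37044887616) (.lf (nat_lit 0x2008a00c2040)) (.lf (nat_lit 0x2008a0102040))))))) (.nd (nat_lit 37095219264) (.nd (nat_lit 37061931137) (.nd (nat_lit 37061664832) (.nd (nat_lit 37045153920) (.nd (nat_lit 37045153856) (.lf (nat_lit 0x2008a0103040)) (.lf (nat_lit 0x2008a0103080))) (.nd (nat_lit 37045153921) (.lf (nat_lit 0x2008a0103081)) (.lf (nat_lit 0x2008a10c2040)))) (.nd (nat_lit 37061931072) (.nd (nat_lit 37061926976) (.lf (nat_lit 0x2008a1102040)) (.lf (nat_lit 0x2008a1103040))) (.nd (nat_lit 37061931136) (.lf (nat_lit 0x2008a1103080)) (.lf (nat_lit 0x2008a1103081))))) (.nd (nat_lit 37078708288) (.nd (nat_lit 37078442048) (.nd (nat_lit 37062189120) (.lf (nat_lit 0x2008a1142040)) (.lf (nat_lit 0x2008a20c2040))) (.nd (nat_lit 37078704192) (.lf (nat_lit 0x2008a2102040)) (.lf (nat_lit 0x2008a2103040)))) (.nd (nat_lit 37078708353) (.nd (nat_lit 37078708352) (.lf (nat_lit 0x2008a2103080)) (.lf (nat_lit 0x2008a2103081)))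 (.nd (nat_lit 37078966336) (.lf (nat_lit 0x2008a2142040)) (.lf (nat_lit 0x2008a30c2040)))))) (.nd (nat_lit 37112262720) (.nd (nat_lit 37095485569) (.nd (nat_lit 37095485504) (.nd (nat_lit 37095481408) (.lf (nat_lit 0x2008a3102040)) (.lf (nat_lit 0x2008a3103040))) (.nd (nat_lit 37095485568) (.lf (nat_lit 0x2008a3103080)) (.lf (nat_lit 0x2008a3103081)))) (.nd (nat_lit 37111996480) (.nd (nat_lit 37095743552) (.lf (nat_lit 0x2008a3142040)) (.lf (nat_lit 0x2008a40c2040))) (.nd (nat_lit 37112258624) (.lf (nat_lit 0x2008a4102040)) (.lf (nat_lit 0x2008a4103040))))) (.nd (nat_lit 37128773696) (.nd (nat_lit 37112262785) (.nd (nat_lit 37112262784) (.lf (nat_lit 0x2008a4103080)) (.lf (nat_lit 0x2008a4103081))) (.nd (nat_lit 37112520768) (.lf (nat_lit 0x2008a4142040)) (.lf (nat_lit 0x2008a50c2040)))) (.nd (nat_lit 37129039936) (.nd (nat_lit 37129035840) (.lf (nat_lit 0x2008a5102040)) (.lf (nat_lit 0x2008a5103040))) (.nd (nat_lit 37129040000) (.lf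 (nat_lit 0x2008a5103080)) (.lf (nat_lit 0x2008a5103081))))))))
noncomputable def jt18_1 : BT := (.nd (nat_lit 37196410944) (.nd (nat_lit 37162856512) (.nd (nat_lit 37146079296) (.nd (nat_lit 37145817152) (.nd (nat_lit 37145550912) (.nd (nat_lit 37129297984) (.lf (nat_lit 0x2008a5142040)) (.lf (nat_lit 0x2008a60c2040))) (.nd (nat_lit 37145813056) (.lf (nat_lit 0x2008a6102040)) (.lf (nat_lit 0x2008a6103040)))) (.nd (nat_lit 37145817217) (.nd (nat_lit 37145817216) (.lf (nat_lit 0x2008a6103080)) (.lf (nat_lit 0x2008a6103081))) (.nd (nat_lit 37146075200) (.lf (nat_lit 0x2008a6142040)) (.lf (nat_lit 0x2008a6143040))))) (.nd (nat_lit 37162594368) (.nd (nat_lit 37162328128) (.nd (nat_lit 37146337344) (.lf (nat_lit 0x2008a6182040)) (.lf (nat_lit 0x2008a70c2040))) (.nd (nat_lit 37162590272) (.lf (nat_lit 0x2008a7102040)) (.lf (nat_lit 0x2008a7103040)))) (.nd (nat_lit 37162594433) (.nd (nat_lit 37162594432) (.lf (nat_lit 0x2008a7103080)) (.lf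 (nat_lit 0x2008a7103081))) (.nd (nat_lit 37162852416) (.lf (nat_lit 0x2008a7142040)) (.lf (nat_lit 0x2008a7143040)))))) (.nd (nat_lit 37179633728) (.nd (nat_lit 37179371584) (.nd (nat_lit 37179105344) (.nd (nat_lit 37163114560) (.lf (nat_lit 0x2008a7182040)) (.lf (nat_lit 0x2008a80c2040))) (.nd (nat_lit 37179367488) (.lf (nat_lit 0x2008a8102040)) (.lf (nat_lit 0x2008a8103040)))) (.nd (nat_lit 37179371649) (.nd (nat_lit 37179371648) (.lf (nat_lit 0x2008a8103080)) (.lf (nat_lit 0x2008a8103081))) (.nd (nat_lit 37179629632) (.lf (nat_lit 0x2008a8142040)) (.lf (nat_lit 0x2008a8143040))))) (.nd (nat_lit 37196148800) (.nd (nat_lit 37195882560) (.nd (nat_lit 37179891776) (.lf (nat_lit 0x2008a8182040)) (.lf (nat_lit 0x2008a90c2040))) (.nd (nat_lit 37196144704) (.lf (nat_lit 0x2008a9102040)) (.lf (nat_lit 0x2008a9103040)))) (.nd (nat_lit 37196148865) (.nd (nat_lit 37196148864) (.lf (nat_lit 0x2008a9103080)) (.lf (nat_lit 0x2008a9103081))) (.nd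 (nat_lit 37196406848) (.lf (nat_lit 0x2008a9142040)) (.lf (nat_lit 0x2008a9143040))))))) (.nd (nat_lit 37229703232) (.nd (nat_lit 37213184064) (.nd (nat_lit 37212921920) (.nd (nat_lit 37196931136) (.nd (nat_lit 37196668992) (.lf (nat_lit 0x2008a9182040)) (.lf (nat_lit 0x2008a91c2040))) (.nd (nat_lit 37212659776) (.lf (nat_lit 0x2008aa0c2040)) (.lf (nat_lit 0x2008aa102040)))) (.nd (nat_lit 37212926080) (.nd (nat_lit 37212926016) (.lf (nat_lit 0x2008aa103040)) (.lf (nat_lit 0x2008aa103080))) (.nd (nat_lit 37212926081) (.lf (nat_lit 0x2008aa103081)) (.lf (nat_lit 0x2008aa142040))))) (.nd (nat_lit 37213450304) (.nd (nat_lit 37213188224) (.nd (nat_lit 37213188160) (.lf (nat_lit 0x2008aa143040)) (.lf (nat_lit 0x2008aa143080))) (.nd (nat_lit 37213446208) (.lf (nat_lit 0x2008aa182040)) (.lf (nat_lit 0x2008aa183040)))) (.nd (nat_lit 37229436992) (.nd (nat_lit 37213708352) (.lf (nat_lit 0x2008aa1c2040)) (.lf (nat_lit 0x2008ab0c2040))) (.nd (nat_lit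 37229699136) (.lf (nat_lit 0x2008ab102040)) (.lf (nat_lit 0x2008ab103040)))))) (.nd (nat_lit 37230227520) (.nd (nat_lit 37229965376) (.nd (nat_lit 37229703297) (.nd (nat_lit 37229703296) (.lf (nat_lit 0x2008ab103080)) (.lf (nat_lit 0x2008ab103081))) (.nd (nat_lit 37229961280) (.lf (nat_lit 0x2008ab142040)) (.lf (nat_lit 0x2008ab143040)))) (.nd (nat_lit 37229969472) (.nd (nat_lit 37229965440) (.lf (nat_lit 0x2008ab143080)) (.lf (nat_lit 0x2008ab144040))) (.nd (nat_lit 37230223424) (.lf (nat_lit 0x2008ab182040)) (.lf (nat_lit 0x2008ab183040))))) (.nd (nat_lit 37246476352) (.nd (nat_lit 37230747712) (.nd (nat_lit 37230485568) (.lf (nat_lit 0x2008ab1c2040)) (.lf (nat_lit 0x2008ab202040))) (.nd (nat_lit 37246214208) (.lf (nat_lit 0x2008ac0c2040)) (.lf (nat_lit 0x2008ac102040)))) (.nd (nat_lit 37246480512) (.nd (nat_lit 37246480448) (.lf (nat_lit 0x2008ac103040)) (.lf (nat_lit 0x2008ac103080))) (.nd (nat_lit 37246480513) (.lf (nat_lit 0x2008ac103081))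 (.lf (nat_lit 0x2008ac142040))))))))
noncomputable def jt18_2 : BT := (.nd (nat_lit 37280555072) (.nd (nat_lit 37263523904) (.nd (nat_lit 37262991424) (.nd (nat_lit 37247000640) (.nd (nat_lit 37246742656) (.nd (nat_lit 37246742592) (.lf (nat_lit 0x2008ac143040)) (.lf (nat_lit 0x2008ac143080))) (.nd (nat_lit 37246746688) (.lf (nat_lit 0x2008ac144040)) (.lf (nat_lit 0x2008ac182040)))) (.nd (nat_lit 37247262784) (.nd (nat_lit 37247004736) (.lf (nat_lit 0x2008ac183040)) (.lf (nat_lit 0x2008ac1c2040))) (.nd (nat_lit 37247524928) (.lf (nat_lit 0x2008ac202040)) (.lf (nat_lit 0x2008ad0c2040))))) (.nd (nat_lit 37263257729) (.nd (nat_lit 37263257664) (.nd (nat_lit 37263253568) (.lf (nat_lit 0x2008ad102040)) (.lf (nat_lit 0x2008ad103040))) (.nd (nat_lit 37263257728) (.lf (nat_lit 0x2008ad103080)) (.lf (nat_lit 0x2008ad103081)))) (.nd (nat_lit 37263519808) (.nd (nat_lit 37263515712) (.lf (nat_lit 0x2008ad142040)) (.lf (nat_lit 0x2008ad143040)))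 (.nd (nat_lit 37263519872) (.lf (nat_lit 0x2008ad143080)) (.lf (nat_lit 0x2008ad144040)))))) (.nd (nat_lit 37280030784) (.nd (nat_lit 37264044096) (.nd (nat_lit 37263781952) (.nd (nat_lit 37263777856) (.lf (nat_lit 0x2008ad182040)) (.lf (nat_lit 0x2008ad183040))) (.nd (nat_lit 37264040000) (.lf (nat_lit 0x2008ad1c2040)) (.lf (nat_lit 0x2008ad1c3040)))) (.nd (nat_lit 37264564288) (.nd (nat_lit 37264302144) (.lf (nat_lit 0x2008ad202040)) (.lf (nat_lit 0x2008ad242040))) (.nd (nat_lit 37279768640) (.lf (nat_lit 0x2008ae0c2040)) (.lf (nat_lit 0x2008ae102040))))) (.nd (nat_lit 37280292928) (.nd (nat_lit 37280034944) (.nd (nat_lit 37280034880) (.lf (nat_lit 0x2008ae103040)) (.lf (nat_lit 0x2008ae103080))) (.nd (nat_lit 37280034945) (.lf (nat_lit 0x2008ae103081)) (.lf (nat_lit 0x2008ae142040)))) (.nd (nat_lit 37280297088) (.nd (nat_lit 37280297024) (.lf (nat_lit 0x2008ae143040)) (.lf (nat_lit 0x2008ae143080))) (.nd (nat_lit 37280301120) (.lf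 (nat_lit 0x2008ae144040)) (.lf (nat_lit 0x2008ae182040))))))) (.nd (nat_lit 37297074240) (.nd (nat_lit 37281341504) (.nd (nat_lit 37280817216) (.nd (nat_lit 37280559232) (.nd (nat_lit 37280559168) (.lf (nat_lit 0x2008ae183040)) (.lf (nat_lit 0x2008ae183080))) (.nd (nat_lit 37280563264) (.lf (nat_lit 0x2008ae184040)) (.lf (nat_lit 0x2008ae1c2040)))) (.nd (nat_lit 37281079360) (.nd (nat_lit 37280821312) (.lf (nat_lit 0x2008ae1c3040)) (.lf (nat_lit 0x2008ae202040))) (.nd (nat_lit 37281083456) (.lf (nat_lit 0x2008ae203040)) (.lf (nat_lit 0x2008ae242040))))) (.nd (nat_lit 37296812096) (.nd (nat_lit 37296545856) (.nd (nat_lit 37281603648) (.lf (nat_lit 0x2008ae282040)) (.lf (nat_lit 0x2008af0c2040))) (.nd (nat_lit 37296808000) (.lf (nat_lit 0x2008af102040)) (.lf (nat_lit 0x2008af103040)))) (.nd (nat_lit 37296812161) (.nd (nat_lit 37296812160) (.lf (nat_lit 0x2008af103080)) (.lf (nat_lit 0x2008af103081))) (.nd (nat_lit 37297070144) (.lf (nat_lit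 0x2008af142040)) (.lf (nat_lit 0x2008af143040)))))) (.nd (nat_lit 37297340480) (.nd (nat_lit 37297078400) (.nd (nat_lit 37297074305) (.nd (nat_lit 37297074304) (.lf (nat_lit 0x2008af143080)) (.lf (nat_lit 0x2008af143081))) (.nd (nat_lit 37297078336) (.lf (nat_lit 0x2008af144040)) (.lf (nat_lit 0x2008af144080)))) (.nd (nat_lit 37297336384) (.nd (nat_lit 37297332288) (.lf (nat_lit 0x2008af182040)) (.lf (nat_lit 0x2008af183040))) (.nd (nat_lit 37297336448) (.lf (nat_lit 0x2008af183080)) (.lf (nat_lit 0x2008af184040))))) (.nd (nat_lit 37297856576) (.nd (nat_lit 37297598528) (.nd (nat_lit 37297594432) (.lf (nat_lit 0x2008af1c2040)) (.lf (nat_lit 0x2008af1c3040))) (.nd (nat_lit 37297602624) (.lf (nat_lit 0x2008af1c4040)) (.lf (nat_lit 0x2008af202040)))) (.nd (nat_lit 37298118720) (.nd (nat_lit 37297860672) (.lf (nat_lit 0x2008af203040)) (.lf (nat_lit 0x2008af242040))) (.nd (nat_lit 37298122816) (.lf (nat_lit 0x2008af243040)) (.lf (nat_lit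 0x2008af282040))))))))
noncomputable def jt18_3 : BT := (.nd (nat_lit 37330100288) (.nd (nat_lit 37314113664) (.nd (nat_lit 37313847360) (.nd (nat_lit 37313585216) (.nd (nat_lit 37298905152) (.nd (nat_lit 37298643008) (.lf (nat_lit 0x2008af2c2040)) (.lf (nat_lit 0x2008af302040))) (.nd (nat_lit 37313323072) (.lf (nat_lit 0x2008b00c2040)) (.lf (nat_lit 0x2008b0102040)))) (.nd (nat_lit 37313589376) (.nd (nat_lit 37313589312) (.lf (nat_lit 0x2008b0103040)) (.lf (nat_lit 0x2008b0103080))) (.nd (nat_lit 37313589377) (.lf (nat_lit 0x2008b0103081)) (.lf (nat_lit 0x2008b0142040))))) (.nd (nat_lit 37313855552) (.nd (nat_lit 37313851520) (.nd (nat_lit 37313851456) (.lf (nat_lit 0x2008b0143040)) (.lf (nat_lit 0x2008b0143080))) (.nd (nat_lit 37313851521) (.lf (nat_lit 0x2008b0143081)) (.lf (nat_lit 0x2008b0144040)))) (.nd (nat_lit 37314109504) (.nd (nat_lit 37313855616) (.lf (nat_lit 0x2008b0144080)) (.lf (nat_lit 0x2008b0182040))) (.nd (nat_lit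 37314113600) (.lf (nat_lit 0x2008b0183040)) (.lf (nat_lit 0x2008b0183080)))))) (.nd (nat_lit 37314637888) (.nd (nat_lit 37314375744) (.nd (nat_lit 37314121792) (.nd (nat_lit 37314117696) (.lf (nat_lit 0x2008b0184040)) (.lf (nat_lit 0x2008b0185040))) (.nd (nat_lit 37314371648) (.lf (nat_lit 0x2008b01c2040)) (.lf (nat_lit 0x2008b01c3040)))) (.nd (nat_lit 37314379840) (.nd (nat_lit 37314375808) (.lf (nat_lit 0x2008b01c3080)) (.lf (nat_lit 0x2008b01c4040))) (.nd (nat_lit 37314633792) (.lf (nat_lit 0x2008b0202040)) (.lf (nat_lit 0x2008b0203040))))) (.nd (nat_lit 37315162176) (.nd (nat_lit 37314900032) (.nd (nat_lit 37314895936) (.lf (nat_lit 0x2008b0242040)) (.lf (nat_lit 0x2008b0243040))) (.nd (nat_lit 37315158080) (.lf (nat_lit 0x2008b0282040)) (.lf (nat_lit 0x2008b0283040)))) (.nd (nat_lit 37315682368) (.nd (nat_lit 37315420224) (.lf (nat_lit 0x2008b02c2040)) (.lf (nat_lit 0x2008b0302040))) (.nd (nat_lit 37315944512) (.lf (nat_lit 0x2008b0342040))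 (.lf (nat_lit 0x2008b10c2040))))))) (.nd (nat_lit 37330899008) (.nd (nat_lit 37330628737) (.nd (nat_lit 37330366593) (.nd (nat_lit 37330366528) (.nd (nat_lit 37330362432) (.lf (nat_lit 0x2008b1102040)) (.lf (nat_lit 0x2008b1103040))) (.nd (nat_lit 37330366592) (.lf (nat_lit 0x2008b1103080)) (.lf (nat_lit 0x2008b1103081)))) (.nd (nat_lit 37330628672) (.nd (nat_lit 37330624576) (.lf (nat_lit 0x2008b1142040)) (.lf (nat_lit 0x2008b1143040))) (.nd (nat_lit 37330628736) (.lf (nat_lit 0x2008b1143080)) (.lf (nat_lit 0x2008b1143081))))) (.nd (nat_lit 37330890816) (.nd (nat_lit 37330632832) (.nd (nat_lit 37330632768) (.lf (nat_lit 0x2008b1144040)) (.lf (nat_lit 0x2008b1144080))) (.nd (nat_lit 37330886720) (.lf (nat_lit 0x2008b1182040)) (.lf (nat_lit 0x2008b1183040)))) (.nd (nat_lit 37330894912) (.nd (nat_lit 37330890880) (.lf (nat_lit 0x2008b1183080)) (.lf (nat_lit 0x2008b1184040))) (.nd (nat_lit 37330894976) (.lf (nat_lit 0x2008b1184080)) (.lf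 (nat_lit 0x2008b1185040)))))) (.nd (nat_lit 37331415168) (.nd (nat_lit 37331157056) (.nd (nat_lit 37331152960) (.nd (nat_lit 37331148864) (.lf (nat_lit 0x2008b11c2040)) (.lf (nat_lit 0x2008b11c3040))) (.nd (nat_lit 37331153024) (.lf (nat_lit 0x2008b11c3080)) (.lf (nat_lit 0x2008b11c4040)))) (.nd (nat_lit 37331411008) (.nd (nat_lit 37331161152) (.lf (nat_lit 0x2008b11c5040)) (.lf (nat_lit 0x2008b1202040))) (.nd (nat_lit 37331415104) (.lf (nat_lit 0x2008b1203040)) (.lf (nat_lit 0x2008b1203080))))) (.nd (nat_lit 37331681344) (.nd (nat_lit 37331673152) (.nd (nat_lit 37331419200) (.lf (nat_lit 0x2008b1204040)) (.lf (nat_lit 0x2008b1242040))) (.nd (nat_lit 37331677248) (.lf (nat_lit 0x2008b1243040)) (.lf (nat_lit 0x2008b1244040)))) (.nd (nat_lit 37331939392) (.nd (nat_lit 37331935296) (.lf (nat_lit 0x2008b1282040)) (.lf (nat_lit 0x2008b1283040))) (.nd (nat_lit 37331943488) (.lf (nat_lit 0x2008b1284040)) (.lf (nat_lit 0x2008b12c2040))))))))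
noncomputable def jt18_4 : BT := (.nd (nat_lit 37347926080) (.nd (nat_lit 37347401792) (.nd (nat_lit 37332725824) (.nd (nat_lit 37332463680) (.nd (nat_lit 37332205632) (.nd (nat_lit 37332201536) (.lf (nat_lit 0x2008b12c3040)) (.lf (nat_lit 0x2008b12c4040))) (.nd (nat_lit 37332459584) (.lf (nat_lit 0x2008b1302040)) (.lf (nat_lit 0x2008b1303040)))) (.nd (nat_lit 37332471872) (.nd (nat_lit 37332467776) (.lf (nat_lit 0x2008b1304040)) (.lf (nat_lit 0x2008b1305040))) (.nd (nat_lit 37332721728) (.lf (nat_lit 0x2008b1342040)) (.lf (nat_lit 0x2008b1343040))))) (.nd (nat_lit 37347139648) (.nd (nat_lit 37332729920) (.nd (nat_lit 37332725888) (.lf (nat_lit 0x2008b1343080)) (.lf (nat_lit 0x2008b1344040))) (.nd (nat_lit 37346877504) (.lf (nat_lit 0x2008b20c2040)) (.lf (nat_lit 0x2008b2102040)))) (.nd (nat_lit 37347143808) (.nd (nat_lit 37347143744) (.lf (nat_lit 0x2008b2103040)) (.lf (nat_lit 0x2008b2103080))) (.nd (nat_lit 37347143809) (.lf (nat_lit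 0x2008b2103081)) (.lf (nat_lit 0x2008b2142040)))))) (.nd (nat_lit 37347663936) (.nd (nat_lit 37347409984) (.nd (nat_lit 37347405952) (.nd (nat_lit 37347405888) (.lf (nat_lit 0x2008b2143040)) (.lf (nat_lit 0x2008b2143080))) (.nd (nat_lit 37347405953) (.lf (nat_lit 0x2008b2143081)) (.lf (nat_lit 0x2008b2144040)))) (.nd (nat_lit 37347410049) (.nd (nat_lit 37347410048) (.lf (nat_lit 0x2008b2144080)) (.lf (nat_lit 0x2008b2144081))) (.nd (nat_lit 37347410112) (.lf (nat_lit 0x2008b21440c0)) (.lf (nat_lit 0x2008b2182040))))) (.nd (nat_lit 37347672128) (.nd (nat_lit 37347668096) (.nd (nat_lit 37347668032) (.lf (nat_lit 0x2008b2183040)) (.lf (nat_lit 0x2008b2183080))) (.nd (nat_lit 37347668097) (.lf (nat_lit 0x2008b2183081)) (.lf (nat_lit 0x2008b2184040)))) (.nd (nat_lit 37347676224) (.nd (nat_lit 37347672192) (.lf (nat_lit 0x2008b2184080)) (.lf (nat_lit 0x2008b2185040))) (.nd (nat_lit 37347676288) (.lf (nat_lit 0x2008b2185080)) (.lf (nat_lit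 0x2008b21c2040))))))) (.nd (nat_lit 37348450368) (.nd (nat_lit 37348192320) (.nd (nat_lit 37347934336) (.nd (nat_lit 37347930240) (.nd (nat_lit 37347930176) (.lf (nat_lit 0x2008b21c3040)) (.lf (nat_lit 0x2008b21c3080))) (.nd (nat_lit 37347934272) (.lf (nat_lit 0x2008b21c4040)) (.lf (nat_lit 0x2008b21c4080)))) (.nd (nat_lit 37347942464) (.nd (nat_lit 37347938368) (.lf (nat_lit 0x2008b21c5040)) (.lf (nat_lit 0x2008b21c6040))) (.nd (nat_lit 37348188224) (.lf (nat_lit 0x2008b2202040)) (.lf (nat_lit 0x2008b2203040))))) (.nd (nat_lit 37348200512) (.nd (nat_lit 37348196416) (.nd (nat_lit 37348192384) (.lf (nat_lit 0x2008b2203080)) (.lf (nat_lit 0x2008b2204040))) (.nd (nat_lit 37348196480) (.lf (nat_lit 0x2008b2204080)) (.lf (nat_lit 0x2008b2205040)))) (.nd (nat_lit 37348204672) (.nd (nat_lit 37348204608) (.lf (nat_lit 0x2008b2206040)) (.lf (nat_lit 0x2008b2206080))) (.nd (nat_lit 37348208704) (.lf (nat_lit 0x2008b2207040)) (.lf (nat_lit 0x2008b2242040))))))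 (.nd (nat_lit 37348712512) (.nd (nat_lit 37348458624) (.nd (nat_lit 37348454528) (.nd (nat_lit 37348454464) (.lf (nat_lit 0x2008b2243040)) (.lf (nat_lit 0x2008b2243080))) (.nd (nat_lit 37348458560) (.lf (nat_lit 0x2008b2244040)) (.lf (nat_lit 0x2008b2244080)))) (.nd (nat_lit 37348462720) (.nd (nat_lit 37348462656) (.lf (nat_lit 0x2008b2245040)) (.lf (nat_lit 0x2008b2245080))) (.nd (nat_lit 37348466752) (.lf (nat_lit 0x2008b2246040)) (.lf (nat_lit 0x2008b2282040))))) (.nd (nat_lit 37348720768) (.nd (nat_lit 37348716672) (.nd (nat_lit 37348716608) (.lf (nat_lit 0x2008b2283040)) (.lf (nat_lit 0x2008b2283080))) (.nd (nat_lit 37348720704) (.lf (nat_lit 0x2008b2284040)) (.lf (nat_lit 0x2008b2284080)))) (.nd (nat_lit 37348974656) (.nd (nat_lit 37348724800) (.lf (nat_lit 0x2008b2285040)) (.lf (nat_lit 0x2008b22c2040))) (.nd (nat_lit 37348978752) (.lf (nat_lit 0x2008b22c3040)) (.lf (nat_lit 0x2008b22c3080))))))))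
noncomputable def jt18_5 : BT := (.nd (nat_lit 37364707456) (.nd (nat_lit 37364187265) (.nd (nat_lit 37363921024) (.nd (nat_lit 37349498944) (.nd (nat_lit 37349236800) (.nd (nat_lit 37348982848) (.lf (nat_lit 0x2008b22c4040)) (.lf (nat_lit 0x2008b2302040))) (.nd (nat_lit 37349240896) (.lf (nat_lit 0x2008b2303040)) (.lf (nat_lit 0x2008b2342040)))) (.nd (nat_lit 37363916864) (.nd (nat_lit 37363654720) (.lf (nat_lit 0x2008b30c2040)) (.lf (nat_lit 0x2008b3102040))) (.nd (nat_lit 37363920960) (.lf (nat_lit 0x2008b3103040)) (.lf (nat_lit 0x2008b3103080))))) (.nd (nat_lit 37364183168) (.nd (nat_lit 37364179008) (.nd (nat_lit 37363921025) (.lf (nat_lit 0x2008b3103081)) (.lf (nat_lit 0x2008b3142040))) (.nd (nat_lit 37364183104) (.lf (nat_lit 0x2008b3143040)) (.lf (nat_lit 0x2008b3143080)))) (.nd (nat_lit 37364187200) (.nd (nat_lit 37364183169) (.lf (nat_lit 0x2008b3143081)) (.lf (nat_lit 0x2008b3144040))) (.nd (nat_lit 37364187264) (.lf (nat_lit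 0x2008b3144080)) (.lf (nat_lit 0x2008b3144081)))))) (.nd (nat_lit 37364449409) (.nd (nat_lit 37364445312) (.nd (nat_lit 37364441152) (.nd (nat_lit 37364187328) (.lf (nat_lit 0x2008b31440c0)) (.lf (nat_lit 0x2008b3182040))) (.nd (nat_lit 37364445248) (.lf (nat_lit 0x2008b3183040)) (.lf (nat_lit 0x2008b3183080)))) (.nd (nat_lit 37364449344) (.nd (nat_lit 37364445313) (.lf (nat_lit 0x2008b3183081)) (.lf (nat_lit 0x2008b3184040))) (.nd (nat_lit 37364449408) (.lf (nat_lit 0x2008b3184080)) (.lf (nat_lit 0x2008b3184081))))) (.nd (nat_lit 37364453505) (.nd (nat_lit 37364453440) (.nd (nat_lit 37364449472) (.lf (nat_lit 0x2008b31840c0)) (.lf (nat_lit 0x2008b3185040))) (.nd (nat_lit 37364453504) (.lf (nat_lit 0x2008b3185080)) (.lf (nat_lit 0x2008b3185081)))) (.nd (nat_lit 37364703296) (.nd (nat_lit 37364453568) (.lf (nat_lit 0x2008b31850c0)) (.lf (nat_lit 0x2008b31c2040))) (.nd (nat_lit 37364707392) (.lf (nat_lit 0x2008b31c3040)) (.lf (nat_lit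 0x2008b31c3080))))))) (.nd (nat_lit 37365227584) (.nd (nat_lit 37364719680) (.nd (nat_lit 37364711553) (.nd (nat_lit 37364711488) (.nd (nat_lit 37364707457) (.lf (nat_lit 0x2008b31c3081)) (.lf (nat_lit 0x2008b31c4040))) (.nd (nat_lit 37364711552) (.lf (nat_lit 0x2008b31c4080)) (.lf (nat_lit 0x2008b31c4081)))) (.nd (nat_lit 37364715584) (.nd (nat_lit 37364711616) (.lf (nat_lit 0x2008b31c40c0)) (.lf (nat_lit 0x2008b31c5040))) (.nd (nat_lit 37364715648) (.lf (nat_lit 0x2008b31c5080)) (.lf (nat_lit 0x2008b31c6040))))) (.nd (nat_lit 37364969601) (.nd (nat_lit 37364969536) (.nd (nat_lit 37364965440) (.lf (nat_lit 0x2008b3202040)) (.lf (nat_lit 0x2008b3203040))) (.nd (nat_lit 37364969600) (.lf (nat_lit 0x2008b3203080)) (.lf (nat_lit 0x2008b3203081)))) (.nd (nat_lit 37364973696) (.nd (nat_lit 37364973632) (.lf (nat_lit 0x2008b3204040)) (.lf (nat_lit 0x2008b3204080))) (.nd (nat_lit 37364977728) (.lf (nat_lit 0x2008b3205040)) (.lf (nat_lit 0x2008b3242040))))))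 (.nd (nat_lit 37380694080) (.nd (nat_lit 37365489728) (.nd (nat_lit 37365231744) (.nd (nat_lit 37365231680) (.lf (nat_lit 0x2008b3243040)) (.lf (nat_lit 0x2008b3243080))) (.nd (nat_lit 37365235776) (.lf (nat_lit 0x2008b3244040)) (.lf (nat_lit 0x2008b3282040)))) (.nd (nat_lit 37365751872) (.nd (nat_lit 37365493824) (.lf (nat_lit 0x2008b3283040)) (.lf (nat_lit 0x2008b32c2040))) (.nd (nat_lit 37380431936) (.lf (nat_lit 0x2008b40c2040)) (.lf (nat_lit 0x2008b4102040))))) (.nd (nat_lit 37380956224) (.nd (nat_lit 37380698240) (.nd (nat_lit 37380698176) (.lf (nat_lit 0x2008b4103040)) (.lf (nat_lit 0x2008b4103080))) (.nd (nat_lit 37380698241) (.lf (nat_lit 0x2008b4103081)) (.lf (nat_lit 0x2008b4142040)))) (.nd (nat_lit 37380960384) (.nd (nat_lit 37380960320) (.lf (nat_lit 0x2008b4143040)) (.lf (nat_lit 0x2008b4143080))) (.nd (nat_lit 37380960385) (.lf (nat_lit 0x2008b4143081)) (.lf (nat_lit 0x2008b4144040))))))))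
noncomputable def jt18_6 : BT := (.nd (nat_lit 37382004800) (.nd (nat_lit 37381226560) (.nd (nat_lit 37381218368) (.nd (nat_lit 37380964481) (.nd (nat_lit 37380964480) (.lf (nat_lit 0x2008b4144080)) (.lf (nat_lit 0x2008b4144081))) (.nd (nat_lit 37380964544) (.lf (nat_lit 0x2008b41440c0)) (.lf (nat_lit 0x2008b4182040)))) (.nd (nat_lit 37381222528) (.nd (nat_lit 37381222464) (.lf (nat_lit 0x2008b4183040)) (.lf (nat_lit 0x2008b4183080))) (.nd (nat_lit 37381222529) (.lf (nat_lit 0x2008b4183081)) (.lf (nat_lit 0x2008b4184040))))) (.nd (nat_lit 37381484608) (.nd (nat_lit 37381230656) (.nd (nat_lit 37381226624) (.lf (nat_lit 0x2008b4184080)) (.lf (nat_lit 0x2008b4185040))) (.nd (nat_lit 37381480512) (.lf (nat_lit 0x2008b41c2040)) (.lf (nat_lit 0x2008b41c3040)))) (.nd (nat_lit 37381488704) (.nd (nat_lit 37381484672) (.lf (nat_lit 0x2008b41c3080)) (.lf (nat_lit 0x2008b41c4040))) (.nd (nat_lit 37381742656) (.lf (nat_lit 0x2008b4202040)) (.nd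 (nat_lit 37381746752) (.lf (nat_lit 0x2008b4203040)) (.lf (nat_lit 0x2008b4242040))))))) (.nd (nat_lit 37397737600) (.nd (nat_lit 37397475456) (.nd (nat_lit 37397471296) (.nd (nat_lit 37397209152) (.lf (nat_lit 0x2008b50c2040)) (.lf (nat_lit 0x2008b5102040))) (.nd (nat_lit 37397475392) (.lf (nat_lit 0x2008b5103040)) (.lf (nat_lit 0x2008b5103080)))) (.nd (nat_lit 37397733440) (.nd (nat_lit 37397475457) (.lf (nat_lit 0x8b5103081)) (.lf (nat_lit 0x2008b5142040))) (.nd (nat_lit 37397737536) (.lf (nat_lit 0x2008b5143040)) (.lf (nat_lit 0x2008b5143080))))) (.nd (nat_lit 37398257728) (.nd (nat_lit 37397995584) (.nd (nat_lit 37397741632) (.lf (nat_lit 0x2008b5144040)) (.lf (nat_lit 0x2008b5182040))) (.nd (nat_lit 37397999680) (.lf (nat_lit 0x2008b5183040)) (.lf (nat_lit 0x2008b51c2040)))) (.nd (nat_lit 37414248512) (.nd (nat_lit 37413986368) (.lf (nat_lit 0x2008b60c2040)) (.lf (nat_lit 0x2008b6102040))) (.nd (nat_lit 37414252608) (.lf (nat_lit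 0x2008b6103040)) (.nd (nat_lit 37414510656) (.lf (nat_lit 0x2008b6142040)) (.lf (nat_lit 0x2008b70c2040))))))))
noncomputable def jt18 : BT := (.nd (nat_lit 37298380864) (.nd (nat_lit 37129040001) jt18_0 (.nd (nat_lit 37246738496) jt18_1 jt18_2)) (.nd (nat_lit 37348978816) (.nd (nat_lit 37332197440) jt18_3 jt18_4) (.nd (nat_lit 37380964416) jt18_5 jt18_6)))
def jg18 : Cfg := ⟨98, 89, 14, 17, 59⟩
noncomputable def jX18 : F3 := XRc 17 99 99 99 0
noncomputable def jt19 : BT := (.nd (nat_lit 37267972160) (.nd (nat_lit 37170716736) (.nd (nat_lit 37154201664) (.nd (nat_lit 37153939520) (.nd (nat_lit 37137424448) (.lf (nat_lit 0x2008a5902040)) (.lf (nat_lit 0x2008a68c2040))) (.nd (nat_lit 37153947712) (.lf (nat_lit 0x2008a68c4040)) (.lf (nat_lit 0x2008a6902040)))) (.nd (nat_lit 37154463808) (.nd (nat_lit 37154205760) (.lf (nat_lit 0x2008a6903040)) (.lf (nat_lit 0x2008a6942040))) (.nd (nat_lit 37170454592) (.lf (nat_lit 0x2008a7882040)) (.nd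 (nat_lit 37170458688) (.lf (nat_lit 0x2008a7883040)) (.lf (nat_lit 0x2008a78c2040)))))) (.nd (nat_lit 37202960448) (.nd (nat_lit 37186711616) (.nd (nat_lit 37186707520) (.lf (nat_lit 0x2008a8802040)) (.lf (nat_lit 0x2008a8803040))) (.nd (nat_lit 37186969664) (.lf (nat_lit 0x2008a8842040)) (.lf (nat_lit 0x2008a9782040)))) (.nd (nat_lit 37219475520) (.nd (nat_lit 37203222592) (.lf (nat_lit 0x2008a97c2040)) (.lf (nat_lit 0x2008aa742040))) (.nd (nat_lit 37235728448) (.lf (nat_lit 0x2008ab6c2040)) (.nd (nat_lit 37251981376) (.lf (nat_lit 0x2008ac642040)) (.lf (nat_lit 0x2008ad582040))))))) (.nd (nat_lit 37300740160) (.nd (nat_lit 37284487232) (.nd (nat_lit 37284225088) (.nd (nat_lit 37268234304) (.lf (nat_lit 0x2008ad5c2040)) (.lf (nat_lit 0x2008ae502040))) (.nd (nat_lit 37284229184) (.lf (nat_lit 0x2008ae503040)) (.lf (nat_lit 0x2008ae542040)))) (.nd (nat_lit 37300215872) (.nd (nat_lit 37299953728) (.lf (nat_lit 0x2008af402040)) (.lf (nat_lit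 0x2008af442040))) (.nd (nat_lit 37300478016) (.lf (nat_lit 0x2008af482040)) (.nd (nat_lit 37300482112) (.lf (nat_lit 0x2008af483040)) (.lf (nat_lit 0x2008af4c2040)))))) (.nd (nat_lit 37316730944) (.nd (nat_lit 37316468800) (.nd (nat_lit 37316206656) (.lf (nat_lit 0x2008b0382040)) (.lf (nat_lit 0x2008b03c2040))) (.nd (nat_lit 37316472896) (.lf (nat_lit 0x2008b03c3040)) (.nd (nat_lit 37316476992) (.lf (nat_lit 0x2008b03c4040)) (.lf (nat_lit 0x2008b0402040))))) (.nd (nat_lit 37316993088) (.nd (nat_lit 37316735040) (.lf (nat_lit 0x2008b0403040)) (.lf (nat_lit 0x2008b0442040))) (.nd (nat_lit 37332983872) (.lf (nat_lit 0x2008b1382040)) (.nd (nat_lit 37332987968) (.lf (nat_lit 0x2008b1383040)) (.lf (nat_lit 0x2008b13c2040))))))))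
def jg19 : Cfg := ⟨98, 89, 38, 17, 56⟩
noncomputable def jX19 : F3 := XRc 16 99 99 99 0
noncomputable def jt20_0 : BT := (.nd (nat_lit 39209410624) (.nd (nat_lit 39142301760) (.nd (nat_lit 39091974208) (.nd (nat_lit 39074930752) (.nd (nat_lit 39058153536) (.nd (nat_lit 39041376320) (.lf (nat_lit 0x2009170c2040)) (.lf (nat_lit 0x2009180c2040))) (.nd (nat_lit 39058415680) (.lf (nat_lit 0x200918102040)) (.lf (nat_lit 0x2009190c2040)))) (.nd (nat_lit 39091707968) (.nd (nat_lit 39075192896) (.lf (nat_lit 0x200919102040)) (.lf (nat_lit 0x20091a0c2040))) (.nd (nat_lit 39091970112) (.lf (nat_lit 0x20091a102040)) (.lf (nat_lit 0x20091a103040))))) (.nd (nat_lit 39125262400) (.nd (nat_lit 39108747328) (.nd (nat_lit 39108485184) (.lf (nat_lit 0x20091b0c2040)) (.lf (nat_lit 0x20091b102040))) (.nd (nat_lit 39108751424) (.lf (nat_lit 0x20091b103040)) (.lf (nat_lit 0x20091c0c2040)))) (.nd (nat_lit 39125528640) (.nd (nat_lit 39125524544) (.lf (nat_lit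 0x20091c102040)) (.lf (nat_lit 0x20091c103040))) (.nd (nat_lit 39142039616) (.lf (nat_lit 0x20091d0c2040)) (.lf (nat_lit 0x20091d102040)))))) (.nd (nat_lit 39175856192) (.nd (nat_lit 39159078976) (.nd (nat_lit 39142305920) (.nd (nat_lit 39142305856) (.lf (nat_lit 0x20091d103040)) (.lf (nat_lit 0x20091d103080))) (.nd (nat_lit 39158816832) (.lf (nat_lit 0x20091e0c2040)) (.lf (nat_lit 0x20091e102040)))) (.nd (nat_lit 39159083136) (.nd (nat_lit 39159083072) (.lf (nat_lit 0x20091e103040)) (.lf (nat_lit 0x20091e103080))) (.nd (nat_lit 39175594048) (.lf (nat_lit 0x20091f0c2040)) (.lf (nat_lit 0x20091f102040))))) (.nd (nat_lit 39192633408) (.nd (nat_lit 39175860352) (.nd (nat_lit 39175860288) (.lf (nat_lit 0x20091f103040)) (.lf (nat_lit 0x20091f103080))) (.nd (nat_lit 39192371264) (.lf (nat_lit 0x2009200c2040)) (.lf (nat_lit 0x200920102040)))) (.nd (nat_lit 39192637568) (.nd (nat_lit 39192637504) (.lf (nat_lit 0x200920103040)) (.lf (nat_lit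 0x200920103080))) (.nd (nat_lit 39209148480) (.lf (nat_lit 0x2009210c2040)) (.lf (nat_lit 0x200921102040))))))) (.nd (nat_lit 39259742272) (.nd (nat_lit 39226192001) (.nd (nat_lit 39225925696) (.nd (nat_lit 39209414784) (.nd (nat_lit 39209414720) (.lf (nat_lit 0x200921103040)) (.lf (nat_lit 0x200921103080))) (.nd (nat_lit 39209414785) (.lf (nat_lit 0x200921103081)) (.lf (nat_lit 0x2009220c2040)))) (.nd (nat_lit 39226191936) (.nd (nat_lit 39226187840) (.lf (nat_lit 0x200922102040)) (.lf (nat_lit 0x200922103040))) (.nd (nat_lit 39226192000) (.lf (nat_lit 0x200922103080)) (.lf (nat_lit 0x200922103081))))) (.nd (nat_lit 39242969216) (.nd (nat_lit 39242965056) (.nd (nat_lit 39242702912) (.lf (nat_lit 0x2009230c2040)) (.lf (nat_lit 0x200923102040))) (.nd (nat_lit 39242969152) (.lf (nat_lit 0x200923103040)) (.lf (nat_lit 0x200923103080)))) (.nd (nat_lit 39243227200) (.nd (nat_lit 39242969217) (.lf (nat_lit 0x200923103081)) (.lf (nat_lit 0x200923142040)))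 (.nd (nat_lit 39259480128) (.lf (nat_lit 0x2009240c2040)) (.lf (nat_lit 0x200924102040)))))) (.nd (nat_lit 39276523648) (.nd (nat_lit 39260004416) (.nd (nat_lit 39259746432) (.nd (nat_lit 39259746368) (.lf (nat_lit 0x200924103040)) (.lf (nat_lit 0x200924103080))) (.nd (nat_lit 39259746433) (.lf (nat_lit 0x200924103081)) (.lf (nat_lit 0x200924142040)))) (.nd (nat_lit 39276519488) (.nd (nat_lit 39276257344) (.lf (nat_lit 0x2009250c2040)) (.lf (nat_lit 0x200925102040))) (.nd (nat_lit 39276523584) (.lf (nat_lit 0x200925103040)) (.lf (nat_lit 0x200925103080))))) (.nd (nat_lit 39293296704) (.nd (nat_lit 39276781632) (.nd (nat_lit 39276523649) (.lf (nat_lit 0x200925103081)) (.lf (nat_lit 0x200925142040))) (.nd (nat_lit 39293034560) (.lf (nat_lit 0x2009260c2040)) (.lf (nat_lit 0x200926102040)))) (.nd (nat_lit 39293300864) (.nd (nat_lit 39293300800) (.lf (nat_lit 0x200926103040)) (.lf (nat_lit 0x200926103080))) (.nd (nat_lit 39293300865) (.lf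 (nat_lit 0x200926103081)) (.lf (nat_lit 0x200926142040))))))))
noncomputable def jt20_1 : BT := (.nd (nat_lit 39377182784) (.nd (nat_lit 39343628352) (.nd (nat_lit 39326851136) (.nd (nat_lit 39310078080) (.nd (nat_lit 39310073920) (.nd (nat_lit 39309811776) (.lf (nat_lit 0x2009270c2040)) (.lf (nat_lit 0x200927102040))) (.nd (nat_lit 39310078016) (.lf (nat_lit 0x200927103040)) (.lf (nat_lit 0x200927103080)))) (.nd (nat_lit 39310336064) (.nd (nat_lit 39310078081) (.lf (nat_lit 0x200927103081)) (.lf (nat_lit 0x200927142040))) (.nd (nat_lit 39326588992) (.lf (nat_lit 0x2009280c2040)) (.lf (nat_lit 0x200928102040))))) (.nd (nat_lit 39327113280) (.nd (nat_lit 39326855296) (.nd (nat_lit 39326855232) (.lf (nat_lit 0x200928103040)) (.lf (nat_lit 0x200928103080))) (.nd (nat_lit 39326855297) (.lf (nat_lit 0x200928103081)) (.lf (nat_lit 0x200928142040)))) (.nd (nat_lit 39327375424) (.nd (nat_lit 39327117376) (.lf (nat_lit 0x200928143040)) (.lf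 (nat_lit 0x200928182040))) (.nd (nat_lit 39343366208) (.lf (nat_lit 0x2009290c2040)) (.lf (nat_lit 0x200929102040)))))) (.nd (nat_lit 39360405568) (.nd (nat_lit 39343890496) (.nd (nat_lit 39343632512) (.nd (nat_lit 39343632448) (.lf (nat_lit 0x200929103040)) (.lf (nat_lit 0x200929103080))) (.nd (nat_lit 39343632513) (.lf (nat_lit 0x200929103081)) (.lf (nat_lit 0x200929142040)))) (.nd (nat_lit 39344152640) (.nd (nat_lit 39343894592) (.lf (nat_lit 0x200929143040)) (.lf (nat_lit 0x200929182040))) (.nd (nat_lit 39360143424) (.lf (nat_lit 0x20092a0c2040)) (.lf (nat_lit 0x20092a102040))))) (.nd (nat_lit 39360667712) (.nd (nat_lit 39360409728) (.nd (nat_lit 39360409664) (.lf (nat_lit 0x20092a103040)) (.lf (nat_lit 0x20092a103080))) (.nd (nat_lit 39360409729) (.lf (nat_lit 0x20092a103081)) (.lf (nat_lit 0x20092a142040)))) (.nd (nat_lit 39360929856) (.nd (nat_lit 39360671808) (.lf (nat_lit 0x20092a143040)) (.lf (nat_lit 0x20092a182040))) (.nd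 (nat_lit 39376920640) (.lf (nat_lit 0x20092b0c2040)) (.lf (nat_lit 0x20092b102040))))))) (.nd (nat_lit 39394488384) (.nd (nat_lit 39393960000) (.nd (nat_lit 39377444928) (.nd (nat_lit 39377186944) (.nd (nat_lit 39377186880) (.lf (nat_lit 0x20092b103040)) (.lf (nat_lit 0x20092b103080))) (.nd (nat_lit 39377186945) (.lf (nat_lit 0x20092b103081)) (.lf (nat_lit 0x20092b142040)))) (.nd (nat_lit 39377707072) (.nd (nat_lit 39377449024) (.lf (nat_lit 0x20092b143040)) (.lf (nat_lit 0x20092b182040))) (.nd (nat_lit 39393697856) (.lf (nat_lit 0x20092c0c2040)) (.lf (nat_lit 0x20092c102040))))) (.nd (nat_lit 39394222144) (.nd (nat_lit 39393964160) (.nd (nat_lit 39393964096) (.lf (nat_lit 0x20092c103040)) (.lf (nat_lit 0x20092c103080))) (.nd (nat_lit 39393964161) (.lf (nat_lit 0x20092c103081)) (.lf (nat_lit 0x20092c142040)))) (.nd (nat_lit 39394226304) (.nd (nat_lit 39394226240) (.lf (nat_lit 0x20092c143040)) (.lf (nat_lit 0x20092c143080))) (.nd (nat_lit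 39394484288) (.lf (nat_lit 0x20092c182040)) (.lf (nat_lit 0x20092c183040)))))) (.nd (nat_lit 39411003456) (.nd (nat_lit 39410741312) (.nd (nat_lit 39410475072) (.nd (nat_lit 39394746432) (.lf (nat_lit 0x20092c1c2040)) (.lf (nat_lit 0x20092d0c2040))) (.nd (nat_lit 39410737216) (.lf (nat_lit 0x20092d102040)) (.lf (nat_lit 0x20092d103040)))) (.nd (nat_lit 39410741377) (.nd (nat_lit 39410741376) (.lf (nat_lit 0x20092d103080)) (.lf (nat_lit 0x20092d103081))) (.nd (nat_lit 39410999360) (.lf (nat_lit 0x20092d142040)) (.lf (nat_lit 0x20092d143040))))) (.nd (nat_lit 39411523648) (.nd (nat_lit 39411261504) (.nd (nat_lit 39411003520) (.lf (nat_lit 0x20092d143080)) (.lf (nat_lit 0x20092d182040))) (.nd (nat_lit 39411265600) (.lf (nat_lit 0x20092d183040)) (.lf (nat_lit 0x20092d1c2040)))) (.nd (nat_lit 39427514432) (.nd (nat_lit 39427252288) (.lf (nat_lit 0x20092e0c2040)) (.lf (nat_lit 0x20092e102040))) (.nd (nat_lit 39427518528) (.lf (nat_lit 0x20092e103040))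 (.lf (nat_lit 0x20092e103080))))))))
noncomputable def jt20_2 : BT := (.nd (nat_lit 39461339200) (.nd (nat_lit 39444557888) (.nd (nat_lit 39428300864) (.nd (nat_lit 39427780736) (.nd (nat_lit 39427776576) (.nd (nat_lit 39427518593) (.lf (nat_lit 0x20092e103081)) (.lf (nat_lit 0x20092e142040))) (.nd (nat_lit 39427780672) (.lf (nat_lit 0x20092e143040)) (.lf (nat_lit 0x20092e143080)))) (.nd (nat_lit 39428038720) (.nd (nat_lit 39427784768) (.lf (nat_lit 0x20092e144040)) (.lf (nat_lit 0x20092e182040))) (.nd (nat_lit 39428042816) (.lf (nat_lit 0x20092e183040)) (.lf (nat_lit 0x20092e1c2040))))) (.nd (nat_lit 39444295744) (.nd (nat_lit 39444029504) (.nd (nat_lit 39428563008) (.lf (nat_lit 0x20092e202040)) (.lf (nat_lit 0x20092f0c2040))) (.nd (nat_lit 39444291648) (.lf (nat_lit 0x20092f102040)) (.lf (nat_lit 0x20092f103040)))) (.nd (nat_lit 39444295809) (.nd (nat_lit 39444295808) (.lf (nat_lit 0x20092f103080)) (.lf (nat_lit 0x20092f103081)))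 (.nd (nat_lit 39444553792) (.lf (nat_lit 0x20092f142040)) (.lf (nat_lit 0x20092f143040)))))) (.nd (nat_lit 39460806720) (.nd (nat_lit 39444820032) (.nd (nat_lit 39444561984) (.nd (nat_lit 39444557952) (.lf (nat_lit 0x20092f143080)) (.lf (nat_lit 0x20092f144040))) (.nd (nat_lit 39444815936) (.lf (nat_lit 0x20092f182040)) (.lf (nat_lit 0x20092f183040)))) (.nd (nat_lit 39445082176) (.nd (nat_lit 39445078080) (.lf (nat_lit 0x20092f1c2040)) (.lf (nat_lit 0x20092f1c3040))) (.nd (nat_lit 39445340224) (.lf (nat_lit 0x20092f202040)) (.lf (nat_lit 0x2009300c2040))))) (.nd (nat_lit 39461073025) (.nd (nat_lit 39461072960) (.nd (nat_lit 39461068864) (.lf (nat_lit 0x200930102040)) (.lf (nat_lit 0x200930103040))) (.nd (nat_lit 39461073024) (.lf (nat_lit 0x200930103080)) (.lf (nat_lit 0x200930103081)))) (.nd (nat_lit 39461335104) (.nd (nat_lit 39461331008) (.lf (nat_lit 0x200930142040)) (.lf (nat_lit 0x200930143040))) (.nd (nat_lit 39461335168) (.lf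 (nat_lit 0x200930143080)) (.lf (nat_lit 0x200930144040))))))) (.nd (nat_lit 39478112384) (.nd (nat_lit 39462379584) (.nd (nat_lit 39461601344) (.nd (nat_lit 39461597248) (.nd (nat_lit 39461593152) (.lf (nat_lit 0x200930182040)) (.lf (nat_lit 0x200930183040))) (.nd (nat_lit 39461597312) (.lf (nat_lit 0x200930183080)) (.lf (nat_lit 0x200930184040)))) (.nd (nat_lit 39461859392) (.nd (nat_lit 39461855296) (.lf (nat_lit 0x2009301c2040)) (.lf (nat_lit 0x2009301c3040))) (.nd (nat_lit 39462117440) (.lf (nat_lit 0x200930202040)) (.lf (nat_lit 0x200930242040))))) (.nd (nat_lit 39477850240) (.nd (nat_lit 39477846080) (.nd (nat_lit 39477583936) (.lf (nat_lit 0x2009310c2040)) (.lf (nat_lit 0x200931102040))) (.nd (nat_lit 39477850176) (.lf (nat_lit 0x200931103040)) (.lf (nat_lit 0x200931103080)))) (.nd (nat_lit 39478108224) (.nd (nat_lit 39477850241) (.lf (nat_lit 0x200931103081)) (.lf (nat_lit 0x200931142040))) (.nd (nat_lit 39478112320) (.lf (nat_lit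 0x200931143040)) (.lf (nat_lit 0x200931143080)))))) (.nd (nat_lit 39478636608) (.nd (nat_lit 39478374464) (.nd (nat_lit 39478116416) (.nd (nat_lit 39478112385) (.lf (nat_lit 0x200931143081)) (.lf (nat_lit 0x200931144040))) (.nd (nat_lit 39478370368) (.lf (nat_lit 0x200931182040)) (.lf (nat_lit 0x200931183040)))) (.nd (nat_lit 39478378560) (.nd (nat_lit 39478374528) (.lf (nat_lit 0x200931183080)) (.lf (nat_lit 0x200931184040))) (.nd (nat_lit 39478632512) (.lf (nat_lit 0x2009311c2040)) (.lf (nat_lit 0x2009311c3040))))) (.nd (nat_lit 39479418944) (.nd (nat_lit 39478898752) (.nd (nat_lit 39478894656) (.lf (nat_lit 0x200931202040)) (.lf (nat_lit 0x200931203040))) (.nd (nat_lit 39479156800) (.lf (nat_lit 0x200931242040)) (.lf (nat_lit 0x200931282040)))) (.nd (nat_lit 39494623296) (.nd (nat_lit 39494361152) (.lf (nat_lit 0x2009320c2040)) (.lf (nat_lit 0x200932102040))) (.nd (nat_lit 39494627392) (.lf (nat_lit 0x200932103040)) (.lf (nat_lit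 0x200932103080))))))))
noncomputable def jt20_3 : BT := (.nd (nat_lit 39511670912) (.nd (nat_lit 39495675968) (.nd (nat_lit 39495147584) (.nd (nat_lit 39494889600) (.nd (nat_lit 39494885440) (.nd (nat_lit 39494627457) (.lf (nat_lit 0x200932103081)) (.lf (nat_lit 0x200932142040))) (.nd (nat_lit 39494889536) (.lf (nat_lit 0x200932143040)) (.lf (nat_lit 0x200932143080)))) (.nd (nat_lit 39494893632) (.nd (nat_lit 39494889601) (.lf (nat_lit 0x200932143081)) (.lf (nat_lit 0x200932144040))) (.nd (nat_lit 39494893696) (.lf (nat_lit 0x200932144080)) (.lf (nat_lit 0x200932182040))))) (.nd (nat_lit 39495409728) (.nd (nat_lit 39495151744) (.nd (nat_lit 39495151680) (.lf (nat_lit 0x200932183040)) (.lf (nat_lit 0x200932183080))) (.nd (nat_lit 39495155776) (.lf (nat_lit 0x200932184040)) (.lf (nat_lit 0x2009321c2040)))) (.nd (nat_lit 39495417920) (.nd (nat_lit 39495413824) (.lf (nat_lit 0x2009321c3040)) (.lf (nat_lit 0x2009321c4040))) (.nd (nat_lit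 39495671872) (.lf (nat_lit 0x200932202040)) (.lf (nat_lit 0x200932203040)))))) (.nd (nat_lit 39511404608) (.nd (nat_lit 39496458304) (.nd (nat_lit 39495938112) (.nd (nat_lit 39495934016) (.lf (nat_lit 0x200932242040)) (.lf (nat_lit 0x200932243040))) (.nd (nat_lit 39496196160) (.lf (nat_lit 0x200932282040)) (.lf (nat_lit 0x2009322c2040)))) (.nd (nat_lit 39511138368) (.nd (nat_lit 39496720448) (.lf (nat_lit 0x200932302040)) (.lf (nat_lit 0x2009330c2040))) (.nd (nat_lit 39511400512) (.lf (nat_lit 0x200933102040)) (.lf (nat_lit 0x200933103040))))) (.nd (nat_lit 39511666752) (.nd (nat_lit 39511404673) (.nd (nat_lit 39511404672) (.lf (nat_lit 0x200933103080)) (.lf (nat_lit 0x200933103081))) (.nd (nat_lit 39511662656) (.lf (nat_lit 0x200933142040)) (.lf (nat_lit 0x200933143040)))) (.nd (nat_lit 39511666817) (.nd (nat_lit 39511666816) (.lf (nat_lit 0x200933143080)) (.lf (nat_lit 0x200933143081))) (.nd (nat_lit 39511670848) (.lf (nat_lit 0x200933144040))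 (.lf (nat_lit 0x200933144080))))))) (.nd (nat_lit 39512735936) (.nd (nat_lit 39512191104) (.nd (nat_lit 39511932992) (.nd (nat_lit 39511928896) (.nd (nat_lit 39511924800) (.lf (nat_lit 0x200933182040)) (.lf (nat_lit 0x200933183040))) (.nd (nat_lit 39511928960) (.lf (nat_lit 0x200933183080)) (.lf (nat_lit 0x200933184040)))) (.nd (nat_lit 39512186944) (.nd (nat_lit 39511937088) (.lf (nat_lit 0x200933185040)) (.lf (nat_lit 0x2009331c2040))) (.nd (nat_lit 39512191040) (.lf (nat_lit 0x2009331c3040)) (.lf (nat_lit 0x2009331c3080))))) (.nd (nat_lit 39512457280) (.nd (nat_lit 39512449088) (.nd (nat_lit 39512195136) (.lf (nat_lit 0x2009331c4040)) (.lf (nat_lit 0x200933202040))) (.nd (nat_lit 39512453184) (.lf (nat_lit 0x200933203040)) (.lf (nat_lit 0x200933204040)))) (.nd (nat_lit 39512715328) (.nd (nat_lit 39512711232) (.lf (nat_lit 0x200933242040)) (.lf (nat_lit 0x200933243040))) (.nd (nat_lit 39512731904) (.lf (nat_lit 0x123000933247100))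 (.lf (nat_lit 0x1230009332480c0)))))) (.nd (nat_lit 39528181824) (.nd (nat_lit 39513497664) (.nd (nat_lit 39512977472) (.nd (nat_lit 39512973376) (.lf (nat_lit 0x200933282040)) (.lf (nat_lit 0x200933283040))) (.nd (nat_lit 39513235520) (.lf (nat_lit 0x2009332c2040)) (.lf (nat_lit 0x200933302040)))) (.nd (nat_lit 39527915584) (.nd (nat_lit 39513759808) (.lf (nat_lit 0x200933342040)) (.lf (nat_lit 0x2009340c2040))) (.nd (nat_lit 39528177728) (.lf (nat_lit 0x200934102040)) (.lf (nat_lit 0x200934103040))))) (.nd (nat_lit 39528443968) (.nd (nat_lit 39528181889) (.nd (nat_lit 39528181888) (.lf (nat_lit 0x200934103080)) (.lf (nat_lit 0x200934103081))) (.nd (nat_lit 39528439872) (.lf (nat_lit 0x200934142040)) (.lf (nat_lit 0x200934143040)))) (.nd (nat_lit 39528444033) (.nd (nat_lit 39528444032) (.lf (nat_lit 0x200934143080)) (.lf (nat_lit 0x200934143081))) (.nd (nat_lit 39528448064) (.lf (nat_lit 0x200934144040)) (.lf (nat_lit 0x200934144080))))))))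
noncomputable def jt20_4 : BT := (.nd (nat_lit 39530537024) (.nd (nat_lit 39529230464) (.nd (nat_lit 39528964160) (.nd (nat_lit 39528706177) (.nd (nat_lit 39528706112) (.nd (nat_lit 39528702016) (.lf (nat_lit 0x200934182040)) (.lf (nat_lit 0x200934183040))) (.nd (nat_lit 39528706176) (.lf (nat_lit 0x200934183080)) (.lf (nat_lit 0x200934183081)))) (.nd (nat_lit 39528710272) (.nd (nat_lit 39528710208) (.lf (nat_lit 0x200934184040)) (.lf (nat_lit 0x200934184080))) (.nd (nat_lit 39528714304) (.lf (nat_lit 0x200934185040)) (.lf (nat_lit 0x2009341c2040))))) (.nd (nat_lit 39528976448) (.nd (nat_lit 39528968320) (.nd (nat_lit 39528968256) (.lf (nat_lit 0x2009341c3040)) (.lf (nat_lit 0x2009341c3080))) (.nd (nat_lit 39528972352) (.lf (nat_lit 0x2009341c4040)) (.lf (nat_lit 0x2009341c5040)))) (.nd (nat_lit 39529226304) (.nd (nat_lit 39528980800) (.lf (nat_lit 0x1230009341c6140)) (.lf (nat_lit 0x200934202040))) (.nd (nat_lit 39529230400) (.lf (nat_lit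 0x200934203040)) (.lf (nat_lit 0x200934203080)))))) (.nd (nat_lit 39529758784) (.nd (nat_lit 39529492608) (.nd (nat_lit 39529488448) (.nd (nat_lit 39529234496) (.lf (nat_lit 0x200934204040)) (.lf (nat_lit 0x200934242040))) (.nd (nat_lit 39529492544) (.lf (nat_lit 0x200934243040)) (.lf (nat_lit 0x200934243080)))) (.nd (nat_lit 39529750592) (.nd (nat_lit 39529496640) (.lf (nat_lit 0x200934244040)) (.lf (nat_lit 0x200934282040))) (.nd (nat_lit 39529754688) (.lf (nat_lit 0x200934283040)) (.lf (nat_lit 0x200934284040))))) (.nd (nat_lit 39530274880) (.nd (nat_lit 39530016832) (.nd (nat_lit 39530012736) (.lf (nat_lit 0x2009342c2040)) (.lf (nat_lit 0x2009342c3040))) (.nd (nat_lit 39530020928) (.lf (nat_lit 0x2009342c4040)) (.lf (nat_lit 0x200934302040)))) (.nd (nat_lit 39530283072) (.nd (nat_lit 39530278976) (.lf (nat_lit 0x200934303040)) (.lf (nat_lit 0x200934304040))) (.nd (nat_lit 39530287168) (.lf (nat_lit 0x200934305040)) (.lf (nat_lit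 0x200934342040))))))) (.nd (nat_lit 39545225408) (.nd (nat_lit 39544959105) (.nd (nat_lit 39544692800) (.nd (nat_lit 39530541184) (.nd (nat_lit 39530541120) (.lf (nat_lit 0x200934343040)) (.lf (nat_lit 0x200934343080))) (.nd (nat_lit 39530545216) (.lf (nat_lit 0x200934344040)) (.lf (nat_lit 0x2009350c2040)))) (.nd (nat_lit 39544959040) (.nd (nat_lit 39544954944) (.lf (nat_lit 0x200935102040)) (.lf (nat_lit 0x200935103040))) (.nd (nat_lit 39544959104) (.lf (nat_lit 0x200935103080)) (.lf (nat_lit 0x200935103081))))) (.nd (nat_lit 39545221249) (.nd (nat_lit 39545221184) (.nd (nat_lit 39545217088) (.lf (nat_lit 0x200935142040)) (.lf (nat_lit 0x200935143040))) (.nd (nat_lit 39545221248) (.lf (nat_lit 0x200935143080)) (.lf (nat_lit 0x200935143081)))) (.nd (nat_lit 39545225344) (.nd (nat_lit 39545225280) (.lf (nat_lit 0x200935144040)) (.lf (nat_lit 0x200935144080))) (.nd (nat_lit 39545225345) (.lf (nat_lit 0x200935144081)) (.lf (nat_lit 0x2009351440c0))))))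 (.nd (nat_lit 39545491584) (.nd (nat_lit 39545483393) (.nd (nat_lit 39545483328) (.nd (nat_lit 39545479232) (.lf (nat_lit 0x200935182040)) (.lf (nat_lit 0x200935183040))) (.nd (nat_lit 39545483392) (.lf (nat_lit 0x200935183080)) (.lf (nat_lit 0x200935183081)))) (.nd (nat_lit 39545487488) (.nd (nat_lit 39545487424) (.lf (nat_lit 0x200935184040)) (.lf (nat_lit 0x200935184080))) (.nd (nat_lit 39545491520) (.lf (nat_lit 0x200935185040)) (.lf (nat_lit 0x200935185080))))) (.nd (nat_lit 39545745537) (.nd (nat_lit 39545745472) (.nd (nat_lit 39545741376) (.lf (nat_lit 0x2009351c2040)) (.lf (nat_lit 0x2009351c3040))) (.nd (nat_lit 39545745536) (.lf (nat_lit 0x2009351c3080)) (.lf (nat_lit 0x2009351c3081)))) (.nd (nat_lit 39545749632) (.nd (nat_lit 39545749568) (.lf (nat_lit 0x2009351c4040)) (.lf (nat_lit 0x2009351c4080))) (.nd (nat_lit 39545753664) (.lf (nat_lit 0x2009351c5040)) (.lf (nat_lit 0x2009351c6040))))))))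
noncomputable def jt20_5 : BT := (.nd (nat_lit 39561732160) (.nd (nat_lit 39546278016) (.nd (nat_lit 39546019968) (.nd (nat_lit 39546011712) (.nd (nat_lit 39546007616) (.nd (nat_lit 39546003520) (.lf (nat_lit 0x200935202040)) (.lf (nat_lit 0x200935203040))) (.nd (nat_lit 39546007680) (.lf (nat_lit 0x200935203080)) (.lf (nat_lit 0x200935204040)))) (.nd (nat_lit 39546015808) (.nd (nat_lit 39546011776) (.lf (nat_lit 0x200935204080)) (.lf (nat_lit 0x200935205040))) (.nd (nat_lit 39546019904) (.lf (nat_lit 0x200935206040)) (.lf (nat_lit 0x200935206080))))) (.nd (nat_lit 39546269824) (.nd (nat_lit 39546265664) (.nd (nat_lit 39546024000) (.lf (nat_lit 0x200935207040)) (.lf (nat_lit 0x200935242040))) (.nd (nat_lit 39546269760) (.lf (nat_lit 0x200935243040)) (.lf (nat_lit 0x200935243080)))) (.nd (nat_lit 39546273920) (.nd (nat_lit 39546273856) (.lf (nat_lit 0x200935244040)) (.lf (nat_lit 0x200935244080))) (.nd (nat_lit 39546277952) (.lf (nat_lit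 0x200935245040)) (.lf (nat_lit 0x200935245080)))))) (.nd (nat_lit 39546789952) (.nd (nat_lit 39546531968) (.nd (nat_lit 39546527808) (.nd (nat_lit 39546282048) (.lf (nat_lit 0x200935246040)) (.lf (nat_lit 0x200935282040))) (.nd (nat_lit 39546531904) (.lf (nat_lit 0x200935283040)) (.lf (nat_lit 0x200935283080)))) (.nd (nat_lit 39546536064) (.nd (nat_lit 39546536000) (.lf (nat_lit 0x200935284040)) (.lf (nat_lit 0x200935284080))) (.nd (nat_lit 39546540096) (.lf (nat_lit 0x200935285040)) (.lf (nat_lit 0x2009352c2040))))) (.nd (nat_lit 39547052096) (.nd (nat_lit 39546794112) (.nd (nat_lit 39546794048) (.lf (nat_lit 0x2009352c3040)) (.lf (nat_lit 0x2009352c3080))) (.nd (nat_lit 39546798144) (.lf (nat_lit 0x2009352c4040)) (.lf (nat_lit 0x200935302040)))) (.nd (nat_lit 39547314240) (.nd (nat_lit 39547056192) (.lf (nat_lit 0x200935303040)) (.lf (nat_lit 0x200935342040))) (.nd (nat_lit 39561470016) (.lf (nat_lit 0x2009360c2040)) (.lf (nat_lit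 0x200936102040))))))) (.nd (nat_lit 39562264640) (.nd (nat_lit 39562002496) (.nd (nat_lit 39561994304) (.nd (nat_lit 39561736320) (.nd (nat_lit 39561736256) (.lf (nat_lit 0x200936103040)) (.lf (nat_lit 0x200936103080))) (.nd (nat_lit 39561736321) (.lf (nat_lit 0x200936103081)) (.lf (nat_lit 0x200936142040)))) (.nd (nat_lit 39561998464) (.nd (nat_lit 39561998400) (.lf (nat_lit 0x200936143040)) (.lf (nat_lit 0x200936143080))) (.nd (nat_lit 39561998465) (.lf (nat_lit 0x200936143081)) (.lf (nat_lit 0x200936144040))))) (.nd (nat_lit 39562256448) (.nd (nat_lit 39562002561) (.nd (nat_lit 39562002560) (.lf (nat_lit 0x200936144080)) (.lf (nat_lit 0x200936144081))) (.nd (nat_lit 39562002624) (.lf (nat_lit 0x2009361440c0)) (.lf (nat_lit 0x200936182040)))) (.nd (nat_lit 39562260608) (.nd (nat_lit 39562260544) (.lf (nat_lit 0x200936183040)) (.lf (nat_lit 0x200936183080))) (.nd (nat_lit 39562260609) (.lf (nat_lit 0x200936183081)) (.lf (nat_lit 0x200936184040))))))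 (.nd (nat_lit 39562518592) (.nd (nat_lit 39562268736) (.nd (nat_lit 39562264705) (.nd (nat_lit 39562264704) (.lf (nat_lit 0x200936184080)) (.lf (nat_lit 0x200936184081))) (.nd (nat_lit 39562264768) (.lf (nat_lit 0x2009361840c0)) (.lf (nat_lit 0x200936185040)))) (.nd (nat_lit 39562268801) (.nd (nat_lit 39562268800) (.lf (nat_lit 0x200936185080)) (.lf (nat_lit 0x200936185081))) (.nd (nat_lit 39562268864) (.lf (nat_lit 0x2009361850c0)) (.lf (nat_lit 0x2009361c2040))))) (.nd (nat_lit 39562526784) (.nd (nat_lit 39562522752) (.nd (nat_lit 39562522688) (.lf (nat_lit 0x2009361c3040)) (.lf (nat_lit 0x2009361c3080))) (.nd (nat_lit 39562522753) (.lf (nat_lit 0x2009361c3081)) (.lf (nat_lit 0x2009361c4040)))) (.nd (nat_lit 39562526849) (.nd (nat_lit 39562526848) (.lf (nat_lit 0x2009361c4080)) (.lf (nat_lit 0x2009361c4081))) (.nd (nat_lit 39562526912) (.lf (nat_lit 0x2009361c40c0)) (.lf (nat_lit 0x2009361c5040))))))))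
noncomputable def jt20_6 : BT := (.nd (nat_lit 39579033664) (.nd (nat_lit 39563309120) (.nd (nat_lit 39562788928) (.nd (nat_lit 39562780736) (.nd (nat_lit 39562530944) (.lf (nat_lit 0x2009361c5080)) (.nd (nat_lit 39562534976) (.lf (nat_lit 0x2009361c6040)) (.lf (nat_lit 0x200936202040)))) (.nd (nat_lit 39562784896) (.nd (nat_lit 39562784832) (.lf (nat_lit 0x200936203040)) (.lf (nat_lit 0x200936203080))) (.nd (nat_lit 39562784897) (.lf (nat_lit 0x200936203081)) (.lf (nat_lit 0x200936204040))))) (.nd (nat_lit 39563046976) (.nd (nat_lit 39562793024) (.nd (nat_lit 39562788992) (.lf (nat_lit 0x200936204080)) (.lf (nat_lit 0x200936205040))) (.nd (nat_lit 39563042880) (.lf (nat_lit 0x200936242040)) (.lf (nat_lit 0x200936243040)))) (.nd (nat_lit 39563051072) (.nd (nat_lit 39563047040) (.lf (nat_lit 0x200936243080)) (.lf (nat_lit 0x200936244040))) (.nd (nat_lit 39563305024) (.lf (nat_lit 0x200936282040)) (.lf (nat_lit 0x200936283040)))))) (.nd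 (nat_lit 39578771520) (.nd (nat_lit 39578509376) (.nd (nat_lit 39563567168) (.lf (nat_lit 0x2009362c2040)) (.nd (nat_lit 39578247232) (.lf (nat_lit 0x2009370c2040)) (.lf (nat_lit 0x200937102040)))) (.nd (nat_lit 39578513536) (.nd (nat_lit 39578513472) (.lf (nat_lit 0x200937103040)) (.lf (nat_lit 0x200937103080))) (.nd (nat_lit 39578513537) (.lf (nat_lit 0x200937103081)) (.lf (nat_lit 0x200937142040))))) (.nd (nat_lit 39578779712) (.nd (nat_lit 39578775680) (.nd (nat_lit 39578775616) (.lf (nat_lit 0x200937143040)) (.lf (nat_lit 0x200937143080))) (.nd (nat_lit 39578775681) (.lf (nat_lit 0x200937143081)) (.lf (nat_lit 0x200937144040)))) (.nd (nat_lit 39578779777) (.nd (nat_lit 39578779776) (.lf (nat_lit 0x200937144080)) (.lf (nat_lit 0x200937144081))) (.nd (nat_lit 39578779840) (.lf (nat_lit 0x2009371440c0)) (.lf (nat_lit 0x200937182040))))))) (.nd (nat_lit 39595286592) (.nd (nat_lit 39579295808) (.nd (nat_lit 39579037825) (.nd (nat_lit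 39579037760) (.lf (nat_lit 0x200937183040)) (.nd (nat_lit 39579037824) (.lf (nat_lit 0x200937183080)) (.lf (nat_lit 0x200937183081)))) (.nd (nat_lit 39579041920) (.nd (nat_lit 39579041856) (.lf (nat_lit 0x200937184040)) (.lf (nat_lit 0x200937184080))) (.nd (nat_lit 39579045952) (.lf (nat_lit 0x200937185040)) (.lf (nat_lit 0x2009371c2040))))) (.nd (nat_lit 39579557952) (.nd (nat_lit 39579299968) (.nd (nat_lit 39579299904) (.lf (nat_lit 0x2009371c3040)) (.lf (nat_lit 0x2009371c3080))) (.nd (nat_lit 39579304000) (.lf (nat_lit 0x2009371c4040)) (.lf (nat_lit 0x200937202040)))) (.nd (nat_lit 39579820096) (.nd (nat_lit 39579562048) (.lf (nat_lit 0x200937203040)) (.lf (nat_lit 0x200937242040))) (.nd (nat_lit 39595024448) (.lf (nat_lit 0x2009380c2040)) (.lf (nat_lit 0x200938102040)))))) (.nd (nat_lit 39595556928) (.nd (nat_lit 39595290753) (.nd (nat_lit 39595290688) (.lf (nat_lit 0x200938103040)) (.nd (nat_lit 39595290752) (.lf (nat_lit 0x200938103080))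 (.lf (nat_lit 0x200938103081)))) (.nd (nat_lit 39595552832) (.nd (nat_lit 39595548736) (.lf (nat_lit 0x200938142040)) (.lf (nat_lit 0x200938143040))) (.nd (nat_lit 39595552896) (.lf (nat_lit 0x200938143080)) (.lf (nat_lit 0x200938144040))))) (.nd (nat_lit 39611801664) (.nd (nat_lit 39595814976) (.nd (nat_lit 39595810880) (.lf (nat_lit 0x200938182040)) (.lf (nat_lit 0x200938183040))) (.nd (nat_lit 39596073024) (.lf (nat_lit 0x2009381c2040)) (.lf (nat_lit 0x2009390c2040)))) (.nd (nat_lit 39612067904) (.nd (nat_lit 39612063808) (.lf (nat_lit 0x200939102040)) (.lf (nat_lit 0x200939103040))) (.nd (nat_lit 39612325952) (.lf (nat_lit 0x200939142040)) (.lf (nat_lit 0x20093a0c2040))))))))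
noncomputable def jt20 : BT := (.nd (nat_lit 39494627456) (.nd (nat_lit 39293558848) jt20_0 (.nd (nat_lit 39427518592) jt20_1 jt20_2)) (.nd (nat_lit 39545757760) (.nd (nat_lit 39528448128) jt20_3 jt20_4) (.nd (nat_lit 39562530880) jt20_5 jt20_6)))
def jg20 : Cfg := ⟨100, 91, 14, 18, 62⟩
noncomputable def jX20 : F3 := XRc 18 99 99 99 0
noncomputable def jt21 : BT := (.nd (nat_lit 39482040384) (.nd (nat_lit 39368532032) (.nd (nat_lit 39336026176) (.nd (nat_lit 39335764032) (.lf (nat_lit 0x200928982040)) (.nd (nat_lit 39335768128) (.lf (nat_lit 0x200928983040)) (.lf (nat_lit 0x2009289c2040)))) (.nd (nat_lit 39352021056) (.nd (nat_lit 39352016960) (.lf (nat_lit 0x200929902040)) (.lf (nat_lit 0x200929903040))) (.nd (nat_lit 39352279104) (.lf (nat_lit 0x200929942040)) (.lf (nat_lit 0x20092a8c2040))))) (.nd (nat_lit 39417290816) (.nd (nat_lit 39384784960) (.lf (nat_lit 0x20092b842040)) (.nd (nat_lit 39401037888) (.lf (nat_lit 0x20092c7c2040))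 (.lf (nat_lit 0x20092d742040)))) (.nd (nat_lit 39449796672) (.nd (nat_lit 39433543744) (.lf (nat_lit 0x20092e6c2040)) (.lf (nat_lit 0x20092f642040))) (.nd (nat_lit 39466049600) (.lf (nat_lit 0x2009305c2040)) (.lf (nat_lit 0x200931502040)))))) (.nd (nat_lit 39514284096) (.nd (nat_lit 39498293312) (.nd (nat_lit 39482302528) (.lf (nat_lit 0x200931542040)) (.nd (nat_lit 39498031168) (.lf (nat_lit 0x200932442040)) (.lf (nat_lit 0x200932482040)))) (.nd (nat_lit 39498555456) (.nd (nat_lit 39498297408) (.lf (nat_lit 0x200932483040)) (.lf (nat_lit 0x2009324c2040))) (.nd (nat_lit 39514021952) (.lf (nat_lit 0x200933382040)) (.lf (nat_lit 0x2009333c2040))))) (.nd (nat_lit 39514550336) (.nd (nat_lit 39514292288) (.nd (nat_lit 39514288192) (.lf (nat_lit 0x2009333c3040)) (.lf (nat_lit 0x2009333c4040))) (.nd (nat_lit 39514546240) (.lf (nat_lit 0x200933402040)) (.lf (nat_lit 0x200933403040)))) (.nd (nat_lit 39530799168) (.nd (nat_lit 39514808384) (.lf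 (nat_lit 0x200933442040)) (.lf (nat_lit 0x200934382040))) (.nd (nat_lit 39530803264) (.lf (nat_lit 0x200934383040)) (.lf (nat_lit 0x2009343c2040)))))))
def jg21 : Cfg := ⟨100, 91, 40, 18, 59⟩
noncomputable def jX21 : F3 := XRc 17 99 99 99 0
noncomputable def jt22_0 : BT := (.nd (nat_lit 41373671488) (.nd (nat_lit 41306562624) (.nd (nat_lit 41256235072) (.nd (nat_lit 41239191616) (.nd (nat_lit 41222414400) (.nd (nat_lit 41205637184) (.lf (nat_lit 0x4009980c2040)) (.lf (nat_lit 0x4009990c2040))) (.nd (nat_lit 41222676544) (.lf (nat_lit 0x400999102040)) (.lf (nat_lit 0x40099a0c2040)))) (.nd (nat_lit 41255968832) (.nd (nat_lit 41239453760) (.lf (nat_lit 0x40099a102040)) (.lf (nat_lit 0x40099b0c2040))) (.nd (nat_lit 41256230976) (.lf (nat_lit 0x40099b102040)) (.lf (nat_lit 0x40099b103040))))) (.nd (nat_lit 41289523264) (.nd (nat_lit 41273008192) (.nd (nat_lit 41272746048) (.lf (nat_lit 0x40099c0c2040)) (.lf (nat_lit 0x40099c102040))) (.nd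 (nat_lit 41273012288) (.lf (nat_lit 0x40099c103040)) (.lf (nat_lit 0x40099d0c2040)))) (.nd (nat_lit 41289789504) (.nd (nat_lit 41289785408) (.lf (nat_lit 0x40099d102040)) (.lf (nat_lit 0x40099d103040))) (.nd (nat_lit 41306300480) (.lf (nat_lit 0x40099e0c2040)) (.lf (nat_lit 0x40099e102040)))))) (.nd (nat_lit 41340117056) (.nd (nat_lit 41323339840) (.nd (nat_lit 41306566784) (.nd (nat_lit 41306566720) (.lf (nat_lit 0x40099e103040)) (.lf (nat_lit 0x40099e103080))) (.nd (nat_lit 41323077696) (.lf (nat_lit 0x40099f0c2040)) (.lf (nat_lit 0x40099f102040)))) (.nd (nat_lit 41323344000) (.nd (nat_lit 41323343936) (.lf (nat_lit 0x40099f103040)) (.lf (nat_lit 0x40099f103080))) (.nd (nat_lit 41339854912) (.lf (nat_lit 0x4009a00c2040)) (.lf (nat_lit 0x4009a0102040))))) (.nd (nat_lit 41356894272) (.nd (nat_lit 41340121216) (.nd (nat_lit 41340121152) (.lf (nat_lit 0x4009a0103040)) (.lf (nat_lit 0x4009a0103080))) (.nd (nat_lit 41356632128) (.lf (nat_lit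 0x4009a10c2040)) (.lf (nat_lit 0x4009a1102040)))) (.nd (nat_lit 41356898432) (.nd (nat_lit 41356898368) (.lf (nat_lit 0x4009a1103040)) (.lf (nat_lit 0x4009a1103080))) (.nd (nat_lit 41373409344) (.lf (nat_lit 0x4009a20c2040)) (.lf (nat_lit 0x4009a2102040))))))) (.nd (nat_lit 41424007232) (.nd (nat_lit 41390452865) (.nd (nat_lit 41390186560) (.nd (nat_lit 41373675648) (.nd (nat_lit 41373675584) (.lf (nat_lit 0x4009a2103040)) (.lf (nat_lit 0x4009a2103080))) (.nd (nat_lit 41373675649) (.lf (nat_lit 0x4009a2103081)) (.lf (nat_lit 0x4009a30c2040)))) (.nd (nat_lit 41390452800) (.nd (nat_lit 41390448704) (.lf (nat_lit 0x4009a3102040)) (.lf (nat_lit 0x4009a3103040))) (.nd (nat_lit 41390452864) (.lf (nat_lit 0x4009a3103080)) (.lf (nat_lit 0x4009a3103081))))) (.nd (nat_lit 41407230080) (.nd (nat_lit 41407225920) (.nd (nat_lit 41406963776) (.lf (nat_lit 0x4009a40c2040)) (.lf (nat_lit 0x4009a4102040))) (.nd (nat_lit 41407230016) (.lf (nat_lit 0x4009a4103040))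 (.lf (nat_lit 0x4009a4103080)))) (.nd (nat_lit 41423740992) (.nd (nat_lit 41407230081) (.lf (nat_lit 0x4009a4103081)) (.lf (nat_lit 0x4009a50c2040))) (.nd (nat_lit 41424003136) (.lf (nat_lit 0x4009a5102040)) (.lf (nat_lit 0x4009a5103040)))))) (.nd (nat_lit 41440784513) (.nd (nat_lit 41440518208) (.nd (nat_lit 41424007297) (.nd (nat_lit 41424007296) (.lf (nat_lit 0x4009a5103080)) (.lf (nat_lit 0x4009a5103081))) (.nd (nat_lit 41424265280) (.lf (nat_lit 0x4009a5142040)) (.lf (nat_lit 0x4009a60c2040)))) (.nd (nat_lit 41440784448) (.nd (nat_lit 41440780352) (.lf (nat_lit 0x4009a6102040)) (.lf (nat_lit 0x4009a6103040))) (.nd (nat_lit 41440784512) (.lf (nat_lit 0x4009a6103080)) (.lf (nat_lit 0x4009a6103081))))) (.nd (nat_lit 41457561664) (.nd (nat_lit 41457295424) (.nd (nat_lit 41441042496) (.lf (nat_lit 0x4009a6142040)) (.lf (nat_lit 0x4009a70c2040))) (.nd (nat_lit 41457557568) (.lf (nat_lit 0x4009a7102040)) (.lf (nat_lit 0x4009a7103040))))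 (.nd (nat_lit 41457561729) (.nd (nat_lit 41457561728) (.lf (nat_lit 0x4009a7103080)) (.lf (nat_lit 0x4009a7103081))) (.nd (nat_lit 41457819712) (.lf (nat_lit 0x4009a7142040)) (.lf (nat_lit 0x4009a80c2040))))))))
noncomputable def jt22_1 : BT := (.nd (nat_lit 41541447809) (.nd (nat_lit 41507893377) (.nd (nat_lit 41491116096) (.nd (nat_lit 41474338945) (.nd (nat_lit 41474338880) (.nd (nat_lit 41474334784) (.lf (nat_lit 0x4009a8102040)) (.lf (nat_lit 0x4009a8103040))) (.nd (nat_lit 41474338944) (.lf (nat_lit 0x4009a8103080)) (.lf (nat_lit 0x4009a8103081)))) (.nd (nat_lit 41490849856) (.nd (nat_lit 41474596928) (.lf (nat_lit 0x4009a8142040)) (.lf (nat_lit 0x4009a90c2040))) (.nd (nat_lit 41491112000) (.lf (nat_lit 0x4009a9102040)) (.lf (nat_lit 0x4009a9103040))))) (.nd (nat_lit 41507627072) (.nd (nat_lit 41491116161) (.nd (nat_lit 41491116160) (.lf (nat_lit 0x4009a9103080)) (.lf (nat_lit 0x4009a9103081))) (.nd (nat_lit 41491374144) (.lf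 (nat_lit 0x4009a9142040)) (.lf (nat_lit 0x4009aa0c2040)))) (.nd (nat_lit 41507893312) (.nd (nat_lit 41507889216) (.lf (nat_lit 0x4009aa102040)) (.lf (nat_lit 0x4009aa103040))) (.nd (nat_lit 41507893376) (.lf (nat_lit 0x4009aa103080)) (.lf (nat_lit 0x4009aa103081)))))) (.nd (nat_lit 41524670593) (.nd (nat_lit 41524404288) (.nd (nat_lit 41508155456) (.nd (nat_lit 41508151360) (.lf (nat_lit 0x4009aa142040)) (.lf (nat_lit 0x4009aa143040))) (.nd (nat_lit 41508413504) (.lf (nat_lit 0x4009aa182040)) (.lf (nat_lit 0x4009ab0c2040)))) (.nd (nat_lit 41524670528) (.nd (nat_lit 41524666432) (.lf (nat_lit 0x4009ab102040)) (.lf (nat_lit 0x4009ab103040))) (.nd (nat_lit 41524670592) (.lf (nat_lit 0x4009ab103080)) (.lf (nat_lit 0x4009ab103081))))) (.nd (nat_lit 41541181504) (.nd (nat_lit 41524932672) (.nd (nat_lit 41524928576) (.lf (nat_lit 0x4009ab142040)) (.lf (nat_lit 0x4009ab143040))) (.nd (nat_lit 41525190720) (.lf (nat_lit 0x4009ab182040)) (.lf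 (nat_lit 0x4009ac0c2040)))) (.nd (nat_lit 41541447744) (.nd (nat_lit 41541443648) (.lf (nat_lit 0x4009ac102040)) (.lf (nat_lit 0x4009ac103040))) (.nd (nat_lit 41541447808) (.lf (nat_lit 0x4009ac103080)) (.lf (nat_lit 0x4009ac103081))))))) (.nd (nat_lit 41575002241) (.nd (nat_lit 41558225025) (.nd (nat_lit 41557958720) (.nd (nat_lit 41541709888) (.nd (nat_lit 41541705792) (.lf (nat_lit 0x4009ac142040)) (.lf (nat_lit 0x4009ac143040))) (.nd (nat_lit 41541967936) (.lf (nat_lit 0x4009ac182040)) (.lf (nat_lit 0x4009ad0c2040)))) (.nd (nat_lit 41558224960) (.nd (nat_lit 41558220864) (.lf (nat_lit 0x4009ad102040)) (.lf (nat_lit 0x4009ad103040))) (.nd (nat_lit 41558225024) (.lf (nat_lit 0x4009ad103080)) (.lf (nat_lit 0x4009ad103081))))) (.nd (nat_lit 41574735936) (.nd (nat_lit 41558487104) (.nd (nat_lit 41558483008) (.lf (nat_lit 0x4009ad142040)) (.lf (nat_lit 0x4009ad143040))) (.nd (nat_lit 41558745152) (.lf (nat_lit 0x4009ad182040)) (.lf (nat_lit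 0x4009ae0c2040)))) (.nd (nat_lit 41575002176) (.nd (nat_lit 41574998080) (.lf (nat_lit 0x4009ae102040)) (.lf (nat_lit 0x4009ae103040))) (.nd (nat_lit 41575002240) (.lf (nat_lit 0x4009ae103080)) (.lf (nat_lit 0x4009ae103081)))))) (.nd (nat_lit 41591779456) (.nd (nat_lit 41575784512) (.nd (nat_lit 41575264320) (.nd (nat_lit 41575260224) (.lf (nat_lit 0x4009ae142040)) (.lf (nat_lit 0x4009ae143040))) (.nd (nat_lit 41575522368) (.lf (nat_lit 0x4009ae182040)) (.lf (nat_lit 0x4009ae1c2040)))) (.nd (nat_lit 41591775296) (.nd (nat_lit 41591513152) (.lf (nat_lit 0x4009af0c2040)) (.lf (nat_lit 0x4009af102040))) (.nd (nat_lit 41591779392) (.lf (nat_lit 0x4009af103040)) (.lf (nat_lit 0x4009af103080))))) (.nd (nat_lit 41592041600) (.nd (nat_lit 41592037440) (.nd (nat_lit 41591779457) (.lf (nat_lit 0x4009af103081)) (.lf (nat_lit 0x4009af142040))) (.nd (nat_lit 41592041536) (.lf (nat_lit 0x4009af143040)) (.lf (nat_lit 0x4009af143080)))) (.nd (nat_lit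 41592303680) (.nd (nat_lit 41592299584) (.lf (nat_lit 0x4009af182040)) (.lf (nat_lit 0x4009af183040))) (.nd (nat_lit 41592561728) (.lf (nat_lit 0x4009af1c2040)) (.lf (nat_lit 0x4009b00c2040))))))))
noncomputable def jt22_2 : BT := (.nd (nat_lit 41642377280) (.nd (nat_lit 41625591872) (.nd (nat_lit 41609076800) (.nd (nat_lit 41608556673) (.nd (nat_lit 41608556608) (.nd (nat_lit 41608552512) (.lf (nat_lit 0x4009b0102040)) (.lf (nat_lit 0x4009b0103040))) (.nd (nat_lit 41608556672) (.lf (nat_lit 0x4009b0103080)) (.lf (nat_lit 0x4009b0103081)))) (.nd (nat_lit 41608818752) (.nd (nat_lit 41608814656) (.lf (nat_lit 0x4009b0142040)) (.lf (nat_lit 0x4009b0143040))) (.nd (nat_lit 41608818816) (.lf (nat_lit 0x4009b0143080)) (.lf (nat_lit 0x4009b0182040))))) (.nd (nat_lit 41625329728) (.nd (nat_lit 41609338944) (.nd (nat_lit 41609080896) (.lf (nat_lit 0x4009b0183040)) (.lf (nat_lit 0x4009b01c2040))) (.nd (nat_lit 41625067584) (.lf (nat_lit 0x4009b10c2040))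 (.lf (nat_lit 0x4009b1102040)))) (.nd (nat_lit 41625333888) (.nd (nat_lit 41625333824) (.lf (nat_lit 0x4009b1103040)) (.lf (nat_lit 0x4009b1103080))) (.nd (nat_lit 41625333889) (.lf (nat_lit 0x4009b1103081)) (.lf (nat_lit 0x4009b1142040)))))) (.nd (nat_lit 41641844800) (.nd (nat_lit 41625854016) (.nd (nat_lit 41625596032) (.nd (nat_lit 41625595968) (.lf (nat_lit 0x4009b1143040)) (.lf (nat_lit 0x4009b1143080))) (.nd (nat_lit 41625600064) (.lf (nat_lit 0x4009b1144040)) (.lf (nat_lit 0x4009b1182040)))) (.nd (nat_lit 41626116160) (.nd (nat_lit 41625858112) (.lf (nat_lit 0x4009b1183040)) (.lf (nat_lit 0x4009b11c2040))) (.nd (nat_lit 41626378304) (.lf (nat_lit 0x4009b1202040)) (.lf (nat_lit 0x4009b20c2040))))) (.nd (nat_lit 41642111105) (.nd (nat_lit 41642111040) (.nd (nat_lit 41642106944) (.lf (nat_lit 0x4009b2102040)) (.lf (nat_lit 0x4009b2103040))) (.nd (nat_lit 41642111104) (.lf (nat_lit 0x4009b2103080)) (.lf (nat_lit 0x4009b2103081))))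 (.nd (nat_lit 41642373184) (.nd (nat_lit 41642369088) (.lf (nat_lit 0x4009b2142040)) (.lf (nat_lit 0x4009b2143040))) (.nd (nat_lit 41642373248) (.lf (nat_lit 0x4009b2143080)) (.lf (nat_lit 0x4009b2144040))))))) (.nd (nat_lit 41659412544) (.nd (nat_lit 41658888256) (.nd (nat_lit 41642897472) (.nd (nat_lit 41642635328) (.nd (nat_lit 41642631232) (.lf (nat_lit 0x4009b2182040)) (.lf (nat_lit 0x4009b2183040))) (.nd (nat_lit 41642893376) (.lf (nat_lit 0x4009b21c2040)) (.lf (nat_lit 0x4009b21c3040)))) (.nd (nat_lit 41658622016) (.nd (nat_lit 41643155520) (.lf (nat_lit 0x4009b2202040)) (.lf (nat_lit 0x4009b30c2040))) (.nd (nat_lit 41658884160) (.lf (nat_lit 0x4009b3102040)) (.lf (nat_lit 0x4009b3103040))))) (.nd (nat_lit 41659150400) (.nd (nat_lit 41658888321) (.nd (nat_lit 41658888320) (.lf (nat_lit 0x4009b3103080)) (.lf (nat_lit 0x4009b3103081))) (.nd (nat_lit 41659146304) (.lf (nat_lit 0x4009b3142040)) (.lf (nat_lit 0x4009b3143040)))) (.nd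 (nat_lit 41659154496) (.nd (nat_lit 41659150464) (.lf (nat_lit 0x4009b3143080)) (.lf (nat_lit 0x4009b3144040))) (.nd (nat_lit 41659408448) (.lf (nat_lit 0x4009b3182040)) (.lf (nat_lit 0x4009b3183040)))))) (.nd (nat_lit 41675661376) (.nd (nat_lit 41659674688) (.nd (nat_lit 41659416640) (.nd (nat_lit 41659412608) (.lf (nat_lit 0x4009b3183080)) (.lf (nat_lit 0x4009b3184040))) (.nd (nat_lit 41659670592) (.lf (nat_lit 0x4009b31c2040)) (.lf (nat_lit 0x4009b31c3040)))) (.nd (nat_lit 41660194880) (.nd (nat_lit 41659932736) (.lf (nat_lit 0x4009b3202040)) (.lf (nat_lit 0x4009b3242040))) (.nd (nat_lit 41675399232) (.lf (nat_lit 0x4009b40c2040)) (.lf (nat_lit 0x4009b4102040))))) (.nd (nat_lit 41675923520) (.nd (nat_lit 41675665536) (.nd (nat_lit 41675665472) (.lf (nat_lit 0x4009b4103040)) (.lf (nat_lit 0x4009b4103080))) (.nd (nat_lit 41675665537) (.lf (nat_lit 0x4009b4103081)) (.lf (nat_lit 0x4009b4142040)))) (.nd (nat_lit 41675927680) (.nd (nat_lit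 41675927616) (.lf (nat_lit 0x4009b4143040)) (.lf (nat_lit 0x4009b4143080))) (.nd (nat_lit 41675927681) (.lf (nat_lit 0x4009b4143081)) (.lf (nat_lit 0x4009b4144040))))))))
noncomputable def jt22_3 : BT := (.nd (nat_lit 41693749312) (.nd (nat_lit 41692700736) (.nd (nat_lit 41676714048) (.nd (nat_lit 41676193856) (.nd (nat_lit 41676189760) (.nd (nat_lit 41676185664) (.lf (nat_lit 0x4009b4182040)) (.lf (nat_lit 0x4009b4183040))) (.nd (nat_lit 41676189824) (.lf (nat_lit 0x4009b4183080)) (.lf (nat_lit 0x4009b4184040)))) (.nd (nat_lit 41676451904) (.nd (nat_lit 41676447808) (.lf (nat_lit 0x4009b41c2040)) (.lf (nat_lit 0x4009b41c3040))) (.nd (nat_lit 41676709952) (.lf (nat_lit 0x4009b4202040)) (.lf (nat_lit 0x4009b4203040))))) (.nd (nat_lit 41692438592) (.nd (nat_lit 41677234240) (.nd (nat_lit 41676972096) (.lf (nat_lit 0x4009b4242040)) (.lf (nat_lit 0x4009b4282040))) (.nd (nat_lit 41692176448) (.lf (nat_lit 0x4009b50c2040)) (.lf (nat_lit 0x4009b5102040))))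 (.nd (nat_lit 41692442752) (.nd (nat_lit 41692442688) (.lf (nat_lit 0x4009b5103040)) (.lf (nat_lit 0x4009b5103080))) (.nd (nat_lit 41692442753) (.lf (nat_lit 0x4009b5103081)) (.lf (nat_lit 0x4009b5142040)))))) (.nd (nat_lit 41692967040) (.nd (nat_lit 41692708928) (.nd (nat_lit 41692704896) (.nd (nat_lit 41692704832) (.lf (nat_lit 0x4009b5143040)) (.lf (nat_lit 0x4009b5143080))) (.nd (nat_lit 41692704897) (.lf (nat_lit 0x4009b5143081)) (.lf (nat_lit 0x4009b5144040)))) (.nd (nat_lit 41692962880) (.nd (nat_lit 41692708992) (.lf (nat_lit 0x4009b5144080)) (.lf (nat_lit 0x4009b5182040))) (.nd (nat_lit 41692966976) (.lf (nat_lit 0x4009b5183040)) (.lf (nat_lit 0x4009b5183080))))) (.nd (nat_lit 41693229184) (.nd (nat_lit 41693225024) (.nd (nat_lit 41692971072) (.lf (nat_lit 0x4009b5184040)) (.lf (nat_lit 0x4009b51c2040))) (.nd (nat_lit 41693229120) (.lf (nat_lit 0x4009b51c3040)) (.lf (nat_lit 0x4009b51c3080)))) (.nd (nat_lit 41693487168) (.nd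 (nat_lit 41693233216) (.lf (nat_lit 0x4009b51c4040)) (.lf (nat_lit 0x4009b5202040))) (.nd (nat_lit 41693491264) (.lf (nat_lit 0x4009b5203040)) (.lf (nat_lit 0x4009b5242040))))))) (.nd (nat_lit 41709740096) (.nd (nat_lit 41709219968) (.nd (nat_lit 41694535744) (.nd (nat_lit 41694011456) (.nd (nat_lit 41693753408) (.lf (nat_lit 0x4009b5243040)) (.lf (nat_lit 0x4009b5282040))) (.nd (nat_lit 41694273600) (.lf (nat_lit 0x4009b52c2040)) (.lf (nat_lit 0x4009b5302040)))) (.nd (nat_lit 41709215808) (.nd (nat_lit 41708953664) (.lf (nat_lit 0x4009b60c2040)) (.lf (nat_lit 0x4009b6102040))) (.nd (nat_lit 41709219904) (.lf (nat_lit 0x4009b6103040)) (.lf (nat_lit 0x4009b6103080))))) (.nd (nat_lit 41709482112) (.nd (nat_lit 41709477952) (.nd (nat_lit 41709219969) (.lf (nat_lit 0x4009b6103081)) (.lf (nat_lit 0x4009b6142040))) (.nd (nat_lit 41709482048) (.lf (nat_lit 0x4009b6143040)) (.lf (nat_lit 0x4009b6143080)))) (.nd (nat_lit 41709486144) (.nd (nat_lit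 41709482113) (.lf (nat_lit 0x4009b6143081)) (.lf (nat_lit 0x4009b6144040))) (.nd (nat_lit 41709486208) (.lf (nat_lit 0x4009b6144080)) (.lf (nat_lit 0x4009b6182040)))))) (.nd (nat_lit 41710010432) (.nd (nat_lit 41709752384) (.nd (nat_lit 41709744256) (.nd (nat_lit 41709744192) (.lf (nat_lit 0x4009b6183040)) (.lf (nat_lit 0x4009b6183080))) (.nd (nat_lit 41709748288) (.lf (nat_lit 0x4009b6184040)) (.lf (nat_lit 0x4009b6185040)))) (.nd (nat_lit 41710006336) (.nd (nat_lit 41710002240) (.lf (nat_lit 0x4009b61c2040)) (.lf (nat_lit 0x4009b61c3040))) (.nd (nat_lit 41710006400) (.lf (nat_lit 0x4009b61c3080)) (.lf (nat_lit 0x4009b61c4040))))) (.nd (nat_lit 41710526528) (.nd (nat_lit 41710268480) (.nd (nat_lit 41710264384) (.lf (nat_lit 0x4009b6202040)) (.lf (nat_lit 0x4009b6203040))) (.nd (nat_lit 41710272576) (.lf (nat_lit 0x4009b6204040)) (.lf (nat_lit 0x4009b6242040)))) (.nd (nat_lit 41710788672) (.nd (nat_lit 41710530624) (.lf (nat_lit 0x4009b6243040))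 (.lf (nat_lit 0x4009b6282040))) (.nd (nat_lit 41710792768) (.lf (nat_lit 0x4009b6283040)) (.lf (nat_lit 0x4009b62c2040))))))))
noncomputable def jt22_4 : BT := (.nd (nat_lit 41727307840) (.nd (nat_lit 41726521472) (.nd (nat_lit 41726255168) (.nd (nat_lit 41725993024) (.nd (nat_lit 41711575104) (.nd (nat_lit 41711312960) (.lf (nat_lit 0x4009b6302040)) (.lf (nat_lit 0x4009b6342040))) (.nd (nat_lit 41725730880) (.lf (nat_lit 0x4009b70c2040)) (.lf (nat_lit 0x4009b7102040)))) (.nd (nat_lit 41725997184) (.nd (nat_lit 41725997120) (.lf (nat_lit 0x4009b7103040)) (.lf (nat_lit 0x4009b7103080))) (.nd (nat_lit 41725997185) (.lf (nat_lit 0x4009b7103081)) (.lf (nat_lit 0x4009b7142040))))) (.nd (nat_lit 41726263360) (.nd (nat_lit 41726259328) (.nd (nat_lit 41726259264) (.lf (nat_lit 0x4009b7143040)) (.lf (nat_lit 0x4009b7143080))) (.nd (nat_lit 41726259329) (.lf (nat_lit 0x4009b7143081)) (.lf (nat_lit 0x4009b7144040)))) (.nd (nat_lit 41726517312)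 (.nd (nat_lit 41726263424) (.lf (nat_lit 0x4009b7144080)) (.lf (nat_lit 0x4009b7182040))) (.nd (nat_lit 41726521408) (.lf (nat_lit 0x4009b7183040)) (.lf (nat_lit 0x4009b7183080)))))) (.nd (nat_lit 41726787648) (.nd (nat_lit 41726529600) (.nd (nat_lit 41726525504) (.nd (nat_lit 41726521473) (.lf (nat_lit 0x4009b7183081)) (.lf (nat_lit 0x4009b7184040))) (.nd (nat_lit 41726525568) (.lf (nat_lit 0x4009b7184080)) (.lf (nat_lit 0x4009b7185040)))) (.nd (nat_lit 41726783552) (.nd (nat_lit 41726779456) (.lf (nat_lit 0x4009b71c2040)) (.lf (nat_lit 0x4009b71c3040))) (.nd (nat_lit 41726783616) (.lf (nat_lit 0x4009b71c3080)) (.lf (nat_lit 0x4009b71c4040))))) (.nd (nat_lit 41727045696) (.nd (nat_lit 41726796096) (.nd (nat_lit 41726791744) (.lf (nat_lit 0x4009b71c5040)) (.lf (nat_lit 0x1230009b71c6140))) (.nd (nat_lit 41727041600) (.lf (nat_lit 0x4009b7202040)) (.lf (nat_lit 0x4009b7203040)))) (.nd (nat_lit 41727049792) (.nd (nat_lit 41727045760)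 (.lf (nat_lit 0x4009b7203080)) (.lf (nat_lit 0x4009b7204040))) (.nd (nat_lit 41727303744) (.lf (nat_lit 0x4009b7242040)) (.lf (nat_lit 0x4009b7243040))))))) (.nd (nat_lit 41728356416) (.nd (nat_lit 41727828032) (.nd (nat_lit 41727565888) (.nd (nat_lit 41727311936) (.nd (nat_lit 41727307904) (.lf (nat_lit 0x4009b7243080)) (.lf (nat_lit 0x4009b7244040))) (.nd (nat_lit 41727328320) (.lf (nat_lit 0x612009b7248040)) (.lf (nat_lit 0x4009b7282040)))) (.nd (nat_lit 41727574080) (.nd (nat_lit 41727569984) (.lf (nat_lit 0x4009b7283040)) (.lf (nat_lit 0x4009b7284040))) (.nd (nat_lit 41727586368) (.lf (nat_lit 0x612009b7287040)) (.lf (nat_lit 0x4009b72c2040))))) (.nd (nat_lit 41728094272) (.nd (nat_lit 41727836224) (.nd (nat_lit 41727832128) (.lf (nat_lit 0x4009b72c3040)) (.lf (nat_lit 0x4009b72c4040))) (.nd (nat_lit 41728090176) (.lf (nat_lit 0x4009b7302040)) (.lf (nat_lit 0x4009b7303040)))) (.nd (nat_lit 41728102464) (.nd (nat_lit 41728098368)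 (.lf (nat_lit 0x4009b7304040)) (.lf (nat_lit 0x4009b7305040))) (.nd (nat_lit 41728352320) (.lf (nat_lit 0x4009b7342040)) (.lf (nat_lit 0x4009b7343040)))))) (.nd (nat_lit 41743032384) (.nd (nat_lit 41742770240) (.nd (nat_lit 41728360512) (.nd (nat_lit 41728356480) (.lf (nat_lit 0x4009b7343080)) (.lf (nat_lit 0x4009b7344040))) (.nd (nat_lit 41742508096) (.lf (nat_lit 0x4009b80c2040)) (.lf (nat_lit 0x4009b8102040)))) (.nd (nat_lit 41742774400) (.nd (nat_lit 41742774336) (.lf (nat_lit 0x4009b8103040)) (.lf (nat_lit 0x4009b8103080))) (.nd (nat_lit 41742774401) (.lf (nat_lit 0x4009b8103081)) (.lf (nat_lit 0x4009b8142040))))) (.nd (nat_lit 41743040576) (.nd (nat_lit 41743036544) (.nd (nat_lit 41743036480) (.lf (nat_lit 0x4009b8143040)) (.lf (nat_lit 0x4009b8143080))) (.nd (nat_lit 41743036545) (.lf (nat_lit 0x4009b8143081)) (.lf (nat_lit 0x4009b8144040)))) (.nd (nat_lit 41743040641) (.nd (nat_lit 41743040640) (.lf (nat_lit 0x4009b8144080))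 (.lf (nat_lit 0x4009b8144081))) (.nd (nat_lit 41743040704) (.lf (nat_lit 0x4009b81440c0)) (.lf (nat_lit 0x4009b8182040))))))))
noncomputable def jt22_5 : BT := (.nd (nat_lit 41744085120) (.nd (nat_lit 41743569024) (.nd (nat_lit 41743306944) (.nd (nat_lit 41743302720) (.nd (nat_lit 41743298688) (.nd (nat_lit 41743298624) (.lf (nat_lit 0x4009b8183040)) (.lf (nat_lit 0x4009b8183080))) (.nd (nat_lit 41743298689) (.lf (nat_lit 0x4009b8183081)) (.lf (nat_lit 0x4009b8184040)))) (.nd (nat_lit 41743306816) (.nd (nat_lit 41743302784) (.lf (nat_lit 0x4009b8184080)) (.lf (nat_lit 0x4009b8185040))) (.nd (nat_lit 41743306880) (.lf (nat_lit 0x4009b8185080)) (.lf (nat_lit 0x612009b81850c0))))) (.nd (nat_lit 41743560833) (.nd (nat_lit 41743560768) (.nd (nat_lit 41743556672) (.lf (nat_lit 0x4009b81c2040)) (.lf (nat_lit 0x4009b81c3040))) (.nd (nat_lit 41743560832) (.lf (nat_lit 0x4009b81c3080)) (.lf (nat_lit 0x4009b81c3081)))) (.nd (nat_lit 41743564928)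 (.nd (nat_lit 41743564864) (.lf (nat_lit 0x4009b81c4040)) (.lf (nat_lit 0x4009b81c4080))) (.nd (nat_lit 41743568960) (.lf (nat_lit 0x4009b81c5040)) (.lf (nat_lit 0x4009b81c5080)))))) (.nd (nat_lit 41743827072) (.nd (nat_lit 41743818816) (.nd (nat_lit 41743573120) (.nd (nat_lit 41743573056) (.lf (nat_lit 0x4009b81c6040)) (.lf (nat_lit 0x612009b81c6080))) (.nd (nat_lit 41743573184) (.lf (nat_lit 0x612009b81c60c0)) (.lf (nat_lit 0x4009b8202040)))) (.nd (nat_lit 41743822976) (.nd (nat_lit 41743822912) (.lf (nat_lit 0x4009b8203040)) (.lf (nat_lit 0x4009b8203080))) (.nd (nat_lit 41743827008) (.lf (nat_lit 0x4009b8204040)) (.lf (nat_lit 0x4009b8204080))))) (.nd (nat_lit 41743835264) (.nd (nat_lit 41743831232) (.nd (nat_lit 41743831104) (.lf (nat_lit 0x4009b8205040)) (.lf (nat_lit 0x612009b82050c0))) (.nd (nat_lit 41743835200) (.lf (nat_lit 0x4009b8206040)) (.lf (nat_lit 0x612009b8206080)))) (.nd (nat_lit 41744080960) (.nd (nat_lit 41743839296)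 (.lf (nat_lit 0x612009b8207040)) (.lf (nat_lit 0x4009b8242040))) (.nd (nat_lit 41744085056) (.lf (nat_lit 0x4009b8243040)) (.lf (nat_lit 0x4009b8243080))))))) (.nd (nat_lit 41744867392) (.nd (nat_lit 41744347264) (.nd (nat_lit 41744093312) (.nd (nat_lit 41744089216) (.nd (nat_lit 41744089152) (.lf (nat_lit 0x4009b8244040)) (.lf (nat_lit 0x4009b8244080))) (.nd (nat_lit 41744093248) (.lf (nat_lit 0x4009b8245040)) (.lf (nat_lit 0x4009b8245080)))) (.nd (nat_lit 41744343104) (.nd (nat_lit 41744097344) (.lf (nat_lit 0x4009b8246040)) (.lf (nat_lit 0x4009b8282040))) (.nd (nat_lit 41744347200) (.lf (nat_lit 0x4009b8283040)) (.lf (nat_lit 0x4009b8283080))))) (.nd (nat_lit 41744605248) (.nd (nat_lit 41744351360) (.nd (nat_lit 41744351296) (.lf (nat_lit 0x4009b8284040)) (.lf (nat_lit 0x4009b8284080))) (.nd (nat_lit 41744355392) (.lf (nat_lit 0x4009b8285040)) (.lf (nat_lit 0x4009b82c2040)))) (.nd (nat_lit 41744609408) (.nd (nat_lit 41744609344)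 (.lf (nat_lit 0x4009b82c3040)) (.lf (nat_lit 0x4009b82c3080))) (.nd (nat_lit 41744613440) (.lf (nat_lit 0x4009b82c4040)) (.lf (nat_lit 0x4009b8302040)))))) (.nd (nat_lit 41759809600) (.nd (nat_lit 41759547456) (.nd (nat_lit 41745129536) (.nd (nat_lit 41744871488) (.lf (nat_lit 0x4009b8303040)) (.lf (nat_lit 0x4009b8342040))) (.nd (nat_lit 41759285312) (.lf (nat_lit 0x4009b90c2040)) (.lf (nat_lit 0x4009b9102040)))) (.nd (nat_lit 41759551616) (.nd (nat_lit 41759551552) (.lf (nat_lit 0x4009b9103040)) (.lf (nat_lit 0x4009b9103080))) (.nd (nat_lit 41759551617) (.lf (nat_lit 0x4009b9103081)) (.lf (nat_lit 0x4009b9142040))))) (.nd (nat_lit 41759817792) (.nd (nat_lit 41759813760) (.nd (nat_lit 41759813696) (.lf (nat_lit 0x4009b9143040)) (.lf (nat_lit 0x4009b9143080))) (.nd (nat_lit 41759813761) (.lf (nat_lit 0x4009b9143081)) (.lf (nat_lit 0x4009b9144040)))) (.nd (nat_lit 41759817857) (.nd (nat_lit 41759817856) (.lf (nat_lit 0x4009b9144080))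 (.lf (nat_lit 0x4009b9144081))) (.nd (nat_lit 41759817920) (.lf (nat_lit 0x4009b91440c0)) (.lf (nat_lit 0x612009b91440c1))))))))
noncomputable def jt22_6 : BT := (.nd (nat_lit 41760858176) (.nd (nat_lit 41760338048) (.nd (nat_lit 41760080064) (.nd (nat_lit 41760075905) (.nd (nat_lit 41760075840) (.nd (nat_lit 41760071744) (.lf (nat_lit 0x4009b9182040)) (.lf (nat_lit 0x4009b9183040))) (.nd (nat_lit 41760075904) (.lf (nat_lit 0x4009b9183080)) (.lf (nat_lit 0x4009b9183081)))) (.nd (nat_lit 41760080000) (.nd (nat_lit 41760079936) (.lf (nat_lit 0x4009b9184040)) (.lf (nat_lit 0x4009b9184080))) (.nd (nat_lit 41760080001) (.lf (nat_lit 0x4009b9184081)) (.lf (nat_lit 0x4009b91840c0))))) (.nd (nat_lit 41760084097) (.nd (nat_lit 41760084032) (.nd (nat_lit 41760080065) (.lf (nat_lit 0x612009b91840c1)) (.lf (nat_lit 0x4009b9185040))) (.nd (nat_lit 41760084096) (.lf (nat_lit 0x4009b9185080)) (.lf (nat_lit 0x612009b9185081)))) (.nd (nat_lit 41760333888)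 (.nd (nat_lit 41760084160) (.lf (nat_lit 0x612009b91850c0)) (.lf (nat_lit 0x4009b91c2040))) (.nd (nat_lit 41760337984) (.lf (nat_lit 0x4009b91c3040)) (.lf (nat_lit 0x4009b91c3080)))))) (.nd (nat_lit 41760350272) (.nd (nat_lit 41760342145) (.nd (nat_lit 41760342080) (.nd (nat_lit 41760338049) (.lf (nat_lit 0x4009b91c3081)) (.lf (nat_lit 0x4009b91c4040))) (.nd (nat_lit 41760342144) (.lf (nat_lit 0x4009b91c4080)) (.lf (nat_lit 0x4009b91c4081)))) (.nd (nat_lit 41760346176) (.nd (nat_lit 41760342208) (.lf (nat_lit 0x4009b91c40c0)) (.lf (nat_lit 0x4009b91c5040))) (.nd (nat_lit 41760346240) (.lf (nat_lit 0x4009b91c5080)) (.lf (nat_lit 0x4009b91c6040))))) (.nd (nat_lit 41760600193) (.nd (nat_lit 41760600128) (.nd (nat_lit 41760596032) (.lf (nat_lit 0x4009b9202040)) (.lf (nat_lit 0x4009b9203040))) (.nd (nat_lit 41760600192) (.lf (nat_lit 0x4009b9203080)) (.lf (nat_lit 0x4009b9203081)))) (.nd (nat_lit 41760604288) (.nd (nat_lit 41760604224) (.lf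 (nat_lit 0x4009b9204040)) (.lf (nat_lit 0x4009b9204080))) (.nd (nat_lit 41760608320) (.lf (nat_lit 0x4009b9205040)) (.lf (nat_lit 0x4009b9242040))))))) (.nd (nat_lit 41776595008) (.nd (nat_lit 41776324672) (.nd (nat_lit 41761120320) (.nd (nat_lit 41760862336) (.nd (nat_lit 41760862272) (.lf (nat_lit 0x4009b9243040)) (.lf (nat_lit 0x4009b9243080))) (.nd (nat_lit 41760866368) (.lf (nat_lit 0x4009b9244040)) (.lf (nat_lit 0x4009b9282040)))) (.nd (nat_lit 41761382464) (.nd (nat_lit 41761124416) (.lf (nat_lit 0x4009b9283040)) (.lf (nat_lit 0x4009b92c2040))) (.nd (nat_lit 41776062528) (.lf (nat_lit 0x4009ba0c2040)) (.lf (nat_lit 0x4009ba102040))))) (.nd (nat_lit 41776586816) (.nd (nat_lit 41776328832) (.nd (nat_lit 41776328768) (.lf (nat_lit 0x4009ba103040)) (.lf (nat_lit 0x4009ba103080))) (.nd (nat_lit 41776328833) (.lf (nat_lit 0x4009ba103081)) (.lf (nat_lit 0x4009ba142040)))) (.nd (nat_lit 41776590976) (.nd (nat_lit 41776590912) (.lf (nat_lit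 0x4009ba143040)) (.lf (nat_lit 0x4009ba143080))) (.nd (nat_lit 41776590977) (.lf (nat_lit 0x4009ba143081)) (.lf (nat_lit 0x4009ba144040)))))) (.nd (nat_lit 41776857152) (.nd (nat_lit 41776848960) (.nd (nat_lit 41776595073) (.nd (nat_lit 41776595072) (.lf (nat_lit 0x4009ba144080)) (.lf (nat_lit 0x4009ba144081))) (.nd (nat_lit 41776595136) (.lf (nat_lit 0x4009ba1440c0)) (.lf (nat_lit 0x4009ba182040)))) (.nd (nat_lit 41776853120) (.nd (nat_lit 41776853056) (.lf (nat_lit 0x4009ba183040)) (.lf (nat_lit 0x4009ba183080))) (.nd (nat_lit 41776853121) (.lf (nat_lit 0x4009ba183081)) (.lf (nat_lit 0x4009ba184040))))) (.nd (nat_lit 41777115200) (.nd (nat_lit 41776861248) (.nd (nat_lit 41776857216) (.lf (nat_lit 0x4009ba184080)) (.lf (nat_lit 0x4009ba185040))) (.nd (nat_lit 41777111104) (.lf (nat_lit 0x4009ba1c2040)) (.lf (nat_lit 0x4009ba1c3040)))) (.nd (nat_lit 41777119296) (.nd (nat_lit 41777115264) (.lf (nat_lit 0x4009ba1c3080)) (.lf (nat_lit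 0x4009ba1c4040))) (.nd (nat_lit 41777373248) (.lf (nat_lit 0x4009ba202040)) (.lf (nat_lit 0x4009ba203040))))))))
noncomputable def jt22_7 : BT := (.nd (nat_lit 41793368192) (.nd (nat_lit 41793105984) (.nd (nat_lit 41792839744) (.nd (nat_lit 41777635392) (.lf (nat_lit 0x4009ba242040)) (.lf (nat_lit 0x4009bb0c2040))) (.nd (nat_lit 41793101888) (.lf (nat_lit 0x4009bb102040)) (.lf (nat_lit 0x4009bb103040)))) (.nd (nat_lit 41793106049) (.nd (nat_lit 41793106048) (.lf (nat_lit 0x4009bb103080)) (.lf (nat_lit 0x9bb103081))) (.nd (nat_lit 41793364032) (.lf (nat_lit 0x4009bb142040)) (.nd (nat_lit 41793368128) (.lf (nat_lit 0x4009bb143040)) (.lf (nat_lit 0x4009bb143080)))))) (.nd (nat_lit 41809616960) (.nd (nat_lit 41793626176) (.nd (nat_lit 41793372224) (.lf (nat_lit 0x4009bb144040)) (.lf (nat_lit 0x4009bb182040))) (.nd (nat_lit 41793630272) (.lf (nat_lit 0x4009bb183040)) (.nd (nat_lit 41793888320) (.lf (nat_lit 0x4009bb1c2040)) (.lf (nat_lit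 0x4009bc0c2040))))) (.nd (nat_lit 41809883200) (.nd (nat_lit 41809879104) (.lf (nat_lit 0x4009bc102040)) (.lf (nat_lit 0x4009bc103040))) (.nd (nat_lit 41810141248) (.lf (nat_lit 0x4009bc142040)) (.nd (nat_lit 41826394176) (.lf (nat_lit 0x4009bd0c2040)) (.lf (nat_lit 0xc2200abf1440c2)))))))
noncomputable def jt22 : BT := (.nd (nat_lit 41711050816) (.nd (nat_lit 41608290368) (.nd (nat_lit 41474072640) jt22_0 jt22_1) (.nd (nat_lit 41675931712) jt22_2 jt22_3)) (.nd (nat_lit 41759817921) (.nd (nat_lit 41743294528) jt22_4 jt22_5) (.nd (nat_lit 41777377344) jt22_6 jt22_7)))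
def jg22 : Cfg := ⟨102, 93, 14, 19, 65⟩
noncomputable def jX22 : F3 := XRc 19 99 99 99 0
noncomputable def jt23_0 : BT := (.nd (nat_lit 41533325376) (.nd (nat_lit 41516810304) (.nd (nat_lit 41500553280) (.nd (nat_lit 41500287040) (.nd (nat_lit 41499762752) (.nd (nat_lit 41483509824) (.lf (nat_lit 0x3061a009a89c2040)) (.lf (nat_lit 0x3061a009a9942040))) (.nd (nat_lit 41500024896) (.lf (nat_lit 0x3061a009a9982040)) (.lf (nat_lit 0x3061a009a99c2040)))) (.nd (nat_lit 41500295232) (.nd (nat_lit 41500291136) (.lf (nat_lit 0x3061a009a99c3040)) (.lf (nat_lit 0x3061a009a99c4040))) (.nd (nat_lit 41500549184) (.lf (nat_lit 0x3061a009a9a02040)) (.lf (nat_lit 0x3061a009a9a03040))))) (.nd (nat_lit 41516277824) (.nd (nat_lit 41500557376) (.nd (nat_lit 41500553344) (.lf (nat_lit 0x3061a009a9a03080)) (.lf (nat_lit 0x3061a009a9a04040))) (.nd (nat_lit 41500561472) (.lf (nat_lit 0x3061a009a9a05040)) (.lf (nat_lit 0x3061a009aa902040)))) (.nd (nat_lit 41516802112)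 (.nd (nat_lit 41516539968) (.lf (nat_lit 0x3061a009aa942040)) (.lf (nat_lit 0x3061a009aa982040))) (.nd (nat_lit 41516806208) (.lf (nat_lit 0x3061a009aa983040)) (.lf (nat_lit 0x3061a009aa984040)))))) (.nd (nat_lit 41517588544) (.nd (nat_lit 41517068416) (.nd (nat_lit 41517064256) (.nd (nat_lit 41516814400) (.lf (nat_lit 0x3061a009aa985040)) (.lf (nat_lit 0x3061a009aa9c2040))) (.nd (nat_lit 41517068352) (.lf (nat_lit 0x3061a009aa9c3040)) (.lf (nat_lit 0x3061a009aa9c3080)))) (.nd (nat_lit 41517326400) (.nd (nat_lit 41517072448) (.lf (nat_lit 0x3061a009aa9c4040)) (.lf (nat_lit 0x3061a009aaa02040))) (.nd (nat_lit 41517330496) (.lf (nat_lit 0x3061a009aaa03040)) (.lf (nat_lit 0x3061a009aaa42040))))) (.nd (nat_lit 41533059136) (.nd (nat_lit 41532792896) (.nd (nat_lit 41532530752) (.lf (nat_lit 0x3061a009ab882040)) (.lf (nat_lit 0x3061a009ab8c2040))) (.nd (nat_lit 41533055040) (.lf (nat_lit 0x3061a009ab902040)) (.lf (nat_lit 0x3061a009ab903040))))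 (.nd (nat_lit 41533321280) (.nd (nat_lit 41533317184) (.lf (nat_lit 0x3061a009ab942040)) (.lf (nat_lit 0x3061a009ab943040))) (.nd (nat_lit 41533321344) (.lf (nat_lit 0x3061a009ab943080)) (.lf (nat_lit 0x3061a009ab944040))))))) (.nd (nat_lit 41565827136) (.nd (nat_lit 41549574208) (.nd (nat_lit 41549045824) (.nd (nat_lit 41533583424) (.nd (nat_lit 41533579328) (.lf (nat_lit 0x3061a009ab982040)) (.lf (nat_lit 0x3061a009ab983040))) (.nd (nat_lit 41533841472) (.lf (nat_lit 0x3061a009ab9c2040)) (.lf (nat_lit 0x3061a009ac842040)))) (.nd (nat_lit 41549312064) (.nd (nat_lit 41549307968) (.lf (nat_lit 0x3061a009ac882040)) (.lf (nat_lit 0x3061a009ac883040))) (.nd (nat_lit 41549570112) (.lf (nat_lit 0x3061a009ac8c2040)) (.lf (nat_lit 0x3061a009ac8c3040))))) (.nd (nat_lit 41549836352) (.nd (nat_lit 41549578304) (.nd (nat_lit 41549574272) (.lf (nat_lit 0x3061a009ac8c3080)) (.lf (nat_lit 0x3061a009ac8c4040))) (.nd (nat_lit 41549832256) (.lf (nat_lit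 0x3061a009ac902040)) (.lf (nat_lit 0x3061a009ac903040)))) (.nd (nat_lit 41565560896) (.nd (nat_lit 41550094400) (.lf (nat_lit 0x3061a009ac942040)) (.lf (nat_lit 0x612009ad802040))) (.nd (nat_lit 41565823040) (.lf (nat_lit 0x3061a009ad842040)) (.lf (nat_lit 0x3061a009ad843040)))))) (.nd (nat_lit 41582080064) (.nd (nat_lit 41566089280) (.nd (nat_lit 41565831232) (.nd (nat_lit 41565827200) (.lf (nat_lit 0x3061a009ad843080)) (.lf (nat_lit 0x3061a009ad844040))) (.nd (nat_lit 41566085184) (.lf (nat_lit 0x3061a009ad882040)) (.lf (nat_lit 0x3061a009ad883040)))) (.nd (nat_lit 41581813824) (.nd (nat_lit 41566347328) (.lf (nat_lit 0x3061a009ad8c2040)) (.lf (nat_lit 0x612009ae782040))) (.nd (nat_lit 41582075968) (.lf (nat_lit 0x612009ae7c2040)) (.lf (nat_lit 0x612009ae7c3040))))) (.nd (nat_lit 41582600256) (.nd (nat_lit 41582338112) (.nd (nat_lit 41582084160) (.lf (nat_lit 0x612009ae7c4040)) (.lf (nat_lit 0x612009ae802040))) (.nd (nat_lit 41582342208)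 (.lf (nat_lit 0x612009ae803040)) (.lf (nat_lit 0x3061a009ae842040)))) (.nd (nat_lit 41598591040) (.nd (nat_lit 41598328896) (.lf (nat_lit 0x612009af742040)) (.lf (nat_lit 0x612009af782040))) (.nd (nat_lit 41598595136) (.lf (nat_lit 0x612009af783040)) (.lf (nat_lit 0x612009af7c2040))))))))
noncomputable def jt23_1 : BT := (.nd (nat_lit 41679593536) (.nd (nat_lit 41647349824) (.nd (nat_lit 41630834752) (.nd (nat_lit 41614843968) (.nd (nat_lit 41614581824) (.lf (nat_lit 0x612009b06c2040)) (.lf (nat_lit 0x612009b0702040))) (.nd (nat_lit 41614848064) (.lf (nat_lit 0x612009b0703040)) (.nd (nat_lit 41615106112) (.lf (nat_lit 0x612009b0742040)) (.lf (nat_lit 0x612009b1642040))))) (.nd (nat_lit 41631100992) (.nd (nat_lit 41631096896) (.lf (nat_lit 0x612009b1682040)) (.lf (nat_lit 0x612009b1683040))) (.nd (nat_lit 41631359040) (.lf (nat_lit 0x612009b16c2040)) (.nd (nat_lit 41647087680) (.lf (nat_lit 0x612009b25c2040)) (.lf (nat_lit 0x612009b2602040))))))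 (.nd (nat_lit 41663602752) (.nd (nat_lit 41647611968) (.nd (nat_lit 41647353920) (.lf (nat_lit 0x612009b2603040)) (.lf (nat_lit 0x612009b2642040))) (.nd (nat_lit 41663078464) (.lf (nat_lit 0x612009b3502040)) (.nd (nat_lit 41663340608) (.lf (nat_lit 0x612009b3542040)) (.lf (nat_lit 0x612009b3582040))))) (.nd (nat_lit 41678807104) (.nd (nat_lit 41663606848) (.lf (nat_lit 0x612009b3583040)) (.nd (nat_lit 41663864896) (.lf (nat_lit 0x612009b35c2040)) (.lf (nat_lit 0x612009b4402040)))) (.nd (nat_lit 41679069248) (.lf (nat_lit 0x612009b4442040)) (.nd (nat_lit 41679331392) (.lf (nat_lit 0x612009b4482040)) (.lf (nat_lit 0x612009b44c2040))))))) (.nd (nat_lit 41696108608) (.nd (nat_lit 41695584320) (.nd (nat_lit 41679855680) (.nd (nat_lit 41679597632) (.lf (nat_lit 0x612009b44c3040)) (.lf (nat_lit 0x612009b4502040))) (.nd (nat_lit 41679859776) (.lf (nat_lit 0x612009b4503040)) (.nd (nat_lit 41680117824) (.lf (nat_lit 0x612009b4542040)) (.lf (nat_lit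 0x612009b5402040))))) (.nd (nat_lit 41695846464) (.nd (nat_lit 41695588416) (.lf (nat_lit 0x612009b5403040)) (.lf (nat_lit 0x612009b5442040))) (.nd (nat_lit 41695850560) (.lf (nat_lit 0x612009b5443040)) (.nd (nat_lit 41695854656) (.lf (nat_lit 0x612009b5444040)) (.lf (nat_lit 0x612009b5482040)))))) (.nd (nat_lit 41712103488) (.nd (nat_lit 41696370752) (.nd (nat_lit 41696112704) (.lf (nat_lit 0x612009b5483040)) (.lf (nat_lit 0x612009b54c2040))) (.nd (nat_lit 41711837248) (.lf (nat_lit 0x4009b6382040)) (.nd (nat_lit 41712099392) (.lf (nat_lit 0x4009b63c2040)) (.lf (nat_lit 0x4009b63c3040))))) (.nd (nat_lit 41712623680) (.nd (nat_lit 41712361536) (.lf (nat_lit 0x612009b6402040)) (.nd (nat_lit 41712365632) (.lf (nat_lit 0x612009b6403040)) (.lf (nat_lit 0x612009b6442040)))) (.nd (nat_lit 41728614464) (.lf (nat_lit 0x4009b7382040)) (.nd (nat_lit 41728618560) (.lf (nat_lit 0x4009b7383040)) (.lf (nat_lit 0x4009b73c2040))))))))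
noncomputable def jt23 : BT := (.nd (nat_lit 41598853184) jt23_0 jt23_1)
def jg23 : Cfg := ⟨102, 93, 42, 19, 62⟩
noncomputable def jX23 : F3 := XRc 18 99 99 99 0
noncomputable def jt24_0 : BT := (.nd (nat_lit 43537932352) (.nd (nat_lit 43470823488) (.nd (nat_lit 43420495936) (.nd (nat_lit 43403452480) (.nd (nat_lit 43386675264) (.nd (nat_lit 43369898048) (.lf (nat_lit 0x400a190c2040)) (.lf (nat_lit 0x400a1a0c2040))) (.nd (nat_lit 43386937408) (.lf (nat_lit 0x400a1a102040)) (.lf (nat_lit 0x400a1b0c2040)))) (.nd (nat_lit 43420229696) (.nd (nat_lit 43403714624) (.lf (nat_lit 0x400a1b102040)) (.lf (nat_lit 0x400a1c0c2040))) (.nd (nat_lit 43420491840) (.lf (nat_lit 0x400a1c102040)) (.lf (nat_lit 0x400a1c103040))))) (.nd (nat_lit 43453784128) (.nd (nat_lit 43437269056) (.nd (nat_lit 43437006912) (.lf (nat_lit 0x400a1d0c2040)) (.lf (nat_lit 0x400a1d102040))) (.nd (nat_lit 43437273152) (.lf (nat_lit 0x400a1d103040)) (.lf (nat_lit 0x400a1e0c2040))))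 (.nd (nat_lit 43454050368) (.nd (nat_lit 43454046272) (.lf (nat_lit 0x400a1e102040)) (.lf (nat_lit 0x400a1e103040))) (.nd (nat_lit 43470561344) (.lf (nat_lit 0x400a1f0c2040)) (.lf (nat_lit 0x400a1f102040)))))) (.nd (nat_lit 43504377920) (.nd (nat_lit 43487600704) (.nd (nat_lit 43470827648) (.nd (nat_lit 43470827584) (.lf (nat_lit 0x400a1f103040)) (.lf (nat_lit 0x400a1f103080))) (.nd (nat_lit 43487338560) (.lf (nat_lit 0x400a200c2040)) (.lf (nat_lit 0x400a20102040)))) (.nd (nat_lit 43487604864) (.nd (nat_lit 43487604800) (.lf (nat_lit 0x400a20103040)) (.lf (nat_lit 0x400a20103080))) (.nd (nat_lit 43504115776) (.lf (nat_lit 0x400a210c2040)) (.lf (nat_lit 0x400a21102040))))) (.nd (nat_lit 43521155136) (.nd (nat_lit 43504382080) (.nd (nat_lit 43504382016) (.lf (nat_lit 0x400a21103040)) (.lf (nat_lit 0x400a21103080))) (.nd (nat_lit 43520892992) (.lf (nat_lit 0x400a220c2040)) (.lf (nat_lit 0x400a22102040)))) (.nd (nat_lit 43521159296) (.nd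 (nat_lit 43521159232) (.lf (nat_lit 0x400a22103040)) (.lf (nat_lit 0x400a22103080))) (.nd (nat_lit 43537670208) (.lf (nat_lit 0x400a230c2040)) (.lf (nat_lit 0x400a23102040))))))) (.nd (nat_lit 43588268096) (.nd (nat_lit 43554713729) (.nd (nat_lit 43554447424) (.nd (nat_lit 43537936512) (.nd (nat_lit 43537936448) (.lf (nat_lit 0x400a23103040)) (.lf (nat_lit 0x400a23103080))) (.nd (nat_lit 43537936513) (.lf (nat_lit 0x400a23103081)) (.lf (nat_lit 0x400a240c2040)))) (.nd (nat_lit 43554713664) (.nd (nat_lit 43554709568) (.lf (nat_lit 0x400a24102040)) (.lf (nat_lit 0x400a24103040))) (.nd (nat_lit 43554713728) (.lf (nat_lit 0x400a24103080)) (.lf (nat_lit 0x400a24103081))))) (.nd (nat_lit 43571490944) (.nd (nat_lit 43571486784) (.nd (nat_lit 43571224640) (.lf (nat_lit 0x400a250c2040)) (.lf (nat_lit 0x400a25102040))) (.nd (nat_lit 43571490880) (.lf (nat_lit 0x400a25103040)) (.lf (nat_lit 0x400a25103080)))) (.nd (nat_lit 43588001856) (.nd (nat_lit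 43571490945) (.lf (nat_lit 0x400a25103081)) (.lf (nat_lit 0x400a260c2040))) (.nd (nat_lit 43588264000) (.lf (nat_lit 0x400a26102040)) (.lf (nat_lit 0x400a26103040)))))) (.nd (nat_lit 43605303360) (.nd (nat_lit 43605041216) (.nd (nat_lit 43588268161) (.nd (nat_lit 43588268160) (.lf (nat_lit 0x400a26103080)) (.lf (nat_lit 0x400a26103081))) (.nd (nat_lit 43604779072) (.lf (nat_lit 0x400a270c2040)) (.lf (nat_lit 0x400a27102040)))) (.nd (nat_lit 43605045376) (.nd (nat_lit 43605045312) (.lf (nat_lit 0x400a27103040)) (.lf (nat_lit 0x400a27103080))) (.nd (nat_lit 43605045377) (.lf (nat_lit 0x400a27103081)) (.lf (nat_lit 0x400a27142040))))) (.nd (nat_lit 43621822592) (.nd (nat_lit 43621818432) (.nd (nat_lit 43621556288) (.lf (nat_lit 0x400a280c2040)) (.lf (nat_lit 0x400a28102040))) (.nd (nat_lit 43621822528) (.lf (nat_lit 0x400a28103040)) (.lf (nat_lit 0x400a28103080)))) (.nd (nat_lit 43622080576) (.nd (nat_lit 43621822593) (.lf (nat_lit 0x400a28103081))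 (.lf (nat_lit 0x400a28142040))) (.nd (nat_lit 43638333504) (.lf (nat_lit 0x400a290c2040)) (.lf (nat_lit 0x400a29102040))))))))
noncomputable def jt24_1 : BT := (.nd (nat_lit 43706228800) (.nd (nat_lit 43672412224) (.nd (nat_lit 43655377024) (.nd (nat_lit 43638857792) (.nd (nat_lit 43638599808) (.nd (nat_lit 43638599744) (.lf (nat_lit 0x400a29103040)) (.lf (nat_lit 0x400a29103080))) (.nd (nat_lit 43638599809) (.lf (nat_lit 0x400a29103081)) (.lf (nat_lit 0x400a29142040)))) (.nd (nat_lit 43655372864) (.nd (nat_lit 43655110720) (.lf (nat_lit 0x400a2a0c2040)) (.lf (nat_lit 0x400a2a102040))) (.nd (nat_lit 43655376960) (.lf (nat_lit 0x400a2a103040)) (.lf (nat_lit 0x400a2a103080))))) (.nd (nat_lit 43672150080) (.nd (nat_lit 43655635008) (.nd (nat_lit 43655377025) (.lf (nat_lit 0x400a2a103081)) (.lf (nat_lit 0x400a2a142040))) (.nd (nat_lit 43671887936) (.lf (nat_lit 0x400a2b0c2040)) (.lf (nat_lit 0x400a2b102040)))) (.nd (nat_lit 43672154240)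 (.nd (nat_lit 43672154176) (.lf (nat_lit 0x400a2b103040)) (.lf (nat_lit 0x400a2b103080))) (.nd (nat_lit 43672154241) (.lf (nat_lit 0x400a2b103081)) (.lf (nat_lit 0x400a2b142040)))))) (.nd (nat_lit 43689451584) (.nd (nat_lit 43688931456) (.nd (nat_lit 43688927296) (.nd (nat_lit 43688665152) (.lf (nat_lit 0x400a2c0c2040)) (.lf (nat_lit 0x400a2c102040))) (.nd (nat_lit 43688931392) (.lf (nat_lit 0x400a2c103040)) (.lf (nat_lit 0x400a2c103080)))) (.nd (nat_lit 43689189440) (.nd (nat_lit 43688931457) (.lf (nat_lit 0x400a2c103081)) (.lf (nat_lit 0x400a2c142040))) (.nd (nat_lit 43689193536) (.lf (nat_lit 0x400a2c143040)) (.lf (nat_lit 0x400a2c182040))))) (.nd (nat_lit 43705708672) (.nd (nat_lit 43705704512) (.nd (nat_lit 43705442368) (.lf (nat_lit 0x400a2d0c2040)) (.lf (nat_lit 0x400a2d102040))) (.nd (nat_lit 43705708608) (.lf (nat_lit 0x400a2d103040)) (.lf (nat_lit 0x400a2d103080)))) (.nd (nat_lit 43705966656) (.nd (nat_lit 43705708673) (.lf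 (nat_lit 0x400a2d103081)) (.lf (nat_lit 0x400a2d142040))) (.nd (nat_lit 43705970752) (.lf (nat_lit 0x400a2d143040)) (.lf (nat_lit 0x400a2d182040))))))) (.nd (nat_lit 43739783232) (.nd (nat_lit 43723006016) (.nd (nat_lit 43722485888) (.nd (nat_lit 43722481728) (.nd (nat_lit 43722219584) (.lf (nat_lit 0x400a2e0c2040)) (.lf (nat_lit 0x400a2e102040))) (.nd (nat_lit 43722485824) (.lf (nat_lit 0x400a2e103040)) (.lf (nat_lit 0x400a2e103080)))) (.nd (nat_lit 43722743872) (.nd (nat_lit 43722485889) (.lf (nat_lit 0x400a2e103081)) (.lf (nat_lit 0x400a2e142040))) (.nd (nat_lit 43722747968) (.lf (nat_lit 0x400a2e143040)) (.lf (nat_lit 0x400a2e182040))))) (.nd (nat_lit 43739263104) (.nd (nat_lit 43739258944) (.nd (nat_lit 43738996800) (.lf (nat_lit 0x400a2f0c2040)) (.lf (nat_lit 0x400a2f102040))) (.nd (nat_lit 43739263040) (.lf (nat_lit 0x400a2f103040)) (.lf (nat_lit 0x400a2f103080)))) (.nd (nat_lit 43739521088) (.nd (nat_lit 43739263105) (.lf (nat_lit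 0x400a2f103081)) (.lf (nat_lit 0x400a2f142040))) (.nd (nat_lit 43739525184) (.lf (nat_lit 0x400a2f143040)) (.lf (nat_lit 0x400a2f182040)))))) (.nd (nat_lit 43756560448) (.nd (nat_lit 43756040320) (.nd (nat_lit 43756036160) (.nd (nat_lit 43755774016) (.lf (nat_lit 0x400a300c2040)) (.lf (nat_lit 0x400a30102040))) (.nd (nat_lit 43756040256) (.lf (nat_lit 0x400a30103040)) (.lf (nat_lit 0x400a30103080)))) (.nd (nat_lit 43756298304) (.nd (nat_lit 43756040321) (.lf (nat_lit 0x400a30103081)) (.lf (nat_lit 0x400a30142040))) (.nd (nat_lit 43756302400) (.lf (nat_lit 0x400a30143040)) (.lf (nat_lit 0x400a30182040))))) (.nd (nat_lit 43772817536) (.nd (nat_lit 43772813376) (.nd (nat_lit 43772551232) (.lf (nat_lit 0x400a310c2040)) (.lf (nat_lit 0x400a31102040))) (.nd (nat_lit 43772817472) (.lf (nat_lit 0x400a31103040)) (.lf (nat_lit 0x400a31103080)))) (.nd (nat_lit 43773075520) (.nd (nat_lit 43772817537) (.lf (nat_lit 0x400a31103081)) (.lf (nat_lit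 0x400a31142040))) (.nd (nat_lit 43773079616) (.lf (nat_lit 0x400a31143040)) (.lf (nat_lit 0x400a31143080))))))))
noncomputable def jt24_2 : BT := (.nd (nat_lit 43823149185) (.nd (nat_lit 43806367808) (.nd (nat_lit 43789594753) (.nd (nat_lit 43789328448) (.nd (nat_lit 43773341760) (.nd (nat_lit 43773337664) (.lf (nat_lit 0x400a31182040)) (.lf (nat_lit 0x400a31183040))) (.nd (nat_lit 43773599808) (.lf (nat_lit 0x400a311c2040)) (.lf (nat_lit 0x400a320c2040)))) (.nd (nat_lit 43789594688) (.nd (nat_lit 43789590592) (.lf (nat_lit 0x400a32102040)) (.lf (nat_lit 0x400a32103040))) (.nd (nat_lit 43789594752) (.lf (nat_lit 0x400a32103080)) (.lf (nat_lit 0x400a32103081))))) (.nd (nat_lit 43790114880) (.nd (nat_lit 43789856832) (.nd (nat_lit 43789852736) (.lf (nat_lit 0x400a32142040)) (.lf (nat_lit 0x400a32143040))) (.nd (nat_lit 43789856896) (.lf (nat_lit 0x400a32143080)) (.lf (nat_lit 0x400a32182040)))) (.nd (nat_lit 43790377024) (.nd (nat_lit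 43790118976) (.lf (nat_lit 0x400a32183040)) (.lf (nat_lit 0x400a321c2040))) (.nd (nat_lit 43806105664) (.lf (nat_lit 0x400a330c2040)) (.lf (nat_lit 0x400a33102040)))))) (.nd (nat_lit 43806892096) (.nd (nat_lit 43806629952) (.nd (nat_lit 43806371968) (.nd (nat_lit 43806371904) (.lf (nat_lit 0x400a33103040)) (.lf (nat_lit 0x400a33103080))) (.nd (nat_lit 43806371969) (.lf (nat_lit 0x400a33103081)) (.lf (nat_lit 0x400a33142040)))) (.nd (nat_lit 43806634112) (.nd (nat_lit 43806634048) (.lf (nat_lit 0x400a33143040)) (.lf (nat_lit 0x400a33143080))) (.nd (nat_lit 43806638144) (.lf (nat_lit 0x400a33144040)) (.lf (nat_lit 0x400a33182040))))) (.nd (nat_lit 43822882880) (.nd (nat_lit 43807154240) (.nd (nat_lit 43806896192) (.lf (nat_lit 0x400a33183040)) (.lf (nat_lit 0x400a331c2040))) (.nd (nat_lit 43807416384) (.lf (nat_lit 0x400a33202040)) (.lf (nat_lit 0x400a340c2040)))) (.nd (nat_lit 43823149120) (.nd (nat_lit 43823145024) (.lf (nat_lit 0x400a34102040))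 (.lf (nat_lit 0x400a34103040))) (.nd (nat_lit 43823149184) (.lf (nat_lit 0x400a34103080)) (.lf (nat_lit 0x400a34103081))))))) (.nd (nat_lit 43840188544) (.nd (nat_lit 43824193600) (.nd (nat_lit 43823415360) (.nd (nat_lit 43823411264) (.nd (nat_lit 43823407168) (.lf (nat_lit 0x400a34142040)) (.lf (nat_lit 0x400a34143040))) (.nd (nat_lit 43823411328) (.lf (nat_lit 0x400a34143080)) (.lf (nat_lit 0x400a34144040)))) (.nd (nat_lit 43823673408) (.nd (nat_lit 43823669312) (.lf (nat_lit 0x400a34182040)) (.lf (nat_lit 0x400a34183040))) (.nd (nat_lit 43823931456) (.lf (nat_lit 0x400a341c2040)) (.lf (nat_lit 0x400a34202040))))) (.nd (nat_lit 43839926400) (.nd (nat_lit 43839922240) (.nd (nat_lit 43839660096) (.lf (nat_lit 0x400a350c2040)) (.lf (nat_lit 0x400a35102040))) (.nd (nat_lit 43839926336) (.lf (nat_lit 0x400a35103040)) (.lf (nat_lit 0x400a35103080)))) (.nd (nat_lit 43840184384) (.nd (nat_lit 43839926401) (.lf (nat_lit 0x400a35103081)) (.lf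 (nat_lit 0x400a35142040))) (.nd (nat_lit 43840188480) (.lf (nat_lit 0x400a35143040)) (.lf (nat_lit 0x400a35143080)))))) (.nd (nat_lit 43856437312) (.nd (nat_lit 43840708672) (.nd (nat_lit 43840446528) (.nd (nat_lit 43840192576) (.lf (nat_lit 0x400a35144040)) (.lf (nat_lit 0x400a35182040))) (.nd (nat_lit 43840450624) (.lf (nat_lit 0x400a35183040)) (.lf (nat_lit 0x400a351c2040)))) (.nd (nat_lit 43840970816) (.nd (nat_lit 43840712768) (.lf (nat_lit 0x400a351c3040)) (.lf (nat_lit 0x400a35202040))) (.nd (nat_lit 43841232960) (.lf (nat_lit 0x400a35242040)) (.lf (nat_lit 0x400a360c2040))))) (.nd (nat_lit 43856703617) (.nd (nat_lit 43856703552) (.nd (nat_lit 43856699456) (.lf (nat_lit 0x400a36102040)) (.lf (nat_lit 0x400a36103040))) (.nd (nat_lit 43856703616) (.lf (nat_lit 0x400a36103080)) (.lf (nat_lit 0x400a36103081)))) (.nd (nat_lit 43856965696) (.nd (nat_lit 43856961600) (.lf (nat_lit 0x400a36142040)) (.lf (nat_lit 0x400a36143040))) (.nd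 (nat_lit 43856965760) (.lf (nat_lit 0x400a36143080)) (.lf (nat_lit 0x400a36144040))))))))
noncomputable def jt24_3 : BT := (.nd (nat_lit 43890257984) (.nd (nat_lit 43873742976) (.nd (nat_lit 43858010176) (.nd (nat_lit 43857231936) (.nd (nat_lit 43857227840) (.nd (nat_lit 43857223744) (.lf (nat_lit 0x400a36182040)) (.lf (nat_lit 0x400a36183040))) (.nd (nat_lit 43857227904) (.lf (nat_lit 0x400a36183080)) (.lf (nat_lit 0x400a36184040)))) (.nd (nat_lit 43857489984) (.nd (nat_lit 43857485888) (.lf (nat_lit 0x400a361c2040)) (.lf (nat_lit 0x400a361c3040))) (.nd (nat_lit 43857748032) (.lf (nat_lit 0x400a36202040)) (.lf (nat_lit 0x400a36242040))))) (.nd (nat_lit 43873480832) (.nd (nat_lit 43873476672) (.nd (nat_lit 43873214528) (.lf (nat_lit 0x400a370c2040)) (.lf (nat_lit 0x400a37102040))) (.nd (nat_lit 43873480768) (.lf (nat_lit 0x400a37103040)) (.lf (nat_lit 0x400a37103080)))) (.nd (nat_lit 43873738816) (.nd (nat_lit 43873480833) (.lf (nat_lit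 0x400a37103081)) (.lf (nat_lit 0x400a37142040))) (.nd (nat_lit 43873742912) (.lf (nat_lit 0x400a37143040)) (.lf (nat_lit 0x400a37143080)))))) (.nd (nat_lit 43874263104) (.nd (nat_lit 43874000960) (.nd (nat_lit 43873747008) (.nd (nat_lit 43873742977) (.lf (nat_lit 0x400a37143081)) (.lf (nat_lit 0x400a37144040))) (.nd (nat_lit 43873747072) (.lf (nat_lit 0x400a37144080)) (.lf (nat_lit 0x400a37182040)))) (.nd (nat_lit 43874005120) (.nd (nat_lit 43874005056) (.lf (nat_lit 0x400a37183040)) (.lf (nat_lit 0x400a37183080))) (.nd (nat_lit 43874009152) (.lf (nat_lit 0x400a37184040)) (.lf (nat_lit 0x400a371c2040))))) (.nd (nat_lit 43874787392) (.nd (nat_lit 43874525248) (.nd (nat_lit 43874267200) (.lf (nat_lit 0x400a371c3040)) (.lf (nat_lit 0x400a37202040))) (.nd (nat_lit 43874529344) (.lf (nat_lit 0x400a37203040)) (.lf (nat_lit 0x400a37242040)))) (.nd (nat_lit 43889991744) (.nd (nat_lit 43875049536) (.lf (nat_lit 0x400a37282040)) (.lf (nat_lit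 0x400a380c2040))) (.nd (nat_lit 43890253888) (.lf (nat_lit 0x400a38102040)) (.lf (nat_lit 0x400a38103040))))))) (.nd (nat_lit 43891044480) (.nd (nat_lit 43890524288) (.nd (nat_lit 43890520128) (.nd (nat_lit 43890258049) (.nd (nat_lit 43890258048) (.lf (nat_lit 0x400a38103080)) (.lf (nat_lit 0x400a38103081))) (.nd (nat_lit 43890516032) (.lf (nat_lit 0x400a38142040)) (.lf (nat_lit 0x400a38143040)))) (.nd (nat_lit 43890520193) (.nd (nat_lit 43890520192) (.lf (nat_lit 0x400a38143080)) (.lf (nat_lit 0x400a38143081))) (.nd (nat_lit 43890524224) (.lf (nat_lit 0x400a38144040)) (.lf (nat_lit 0x400a38144080))))) (.nd (nat_lit 43890786368) (.nd (nat_lit 43890782272) (.nd (nat_lit 43890778176) (.lf (nat_lit 0x400a38182040)) (.lf (nat_lit 0x400a38183040))) (.nd (nat_lit 43890782336) (.lf (nat_lit 0x400a38183080)) (.lf (nat_lit 0x400a38184040)))) (.nd (nat_lit 43891040320) (.nd (nat_lit 43890790464) (.lf (nat_lit 0x400a38185040)) (.lf (nat_lit 0x400a381c2040)))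 (.nd (nat_lit 43891044416) (.lf (nat_lit 0x400a381c3040)) (.lf (nat_lit 0x400a381c3080)))))) (.nd (nat_lit 43892088896) (.nd (nat_lit 43891564608) (.nd (nat_lit 43891302464) (.nd (nat_lit 43891048512) (.lf (nat_lit 0x400a381c4040)) (.lf (nat_lit 0x400a38202040))) (.nd (nat_lit 43891306560) (.lf (nat_lit 0x400a38203040)) (.lf (nat_lit 0x400a38242040)))) (.nd (nat_lit 43891826752) (.nd (nat_lit 43891568704) (.lf (nat_lit 0x400a38243040)) (.lf (nat_lit 0x400a38282040))) (.nd (nat_lit 43891855552) (.lf (nat_lit 0x184000a382890c0)) (.lf (nat_lit 0x400a382c2040))))) (.nd (nat_lit 43907031104) (.nd (nat_lit 43892351040) (.nd (nat_lit 43892121664) (.lf (nat_lit 0x208b2200a382ca040)) (.lf (nat_lit 0x400a38302040))) (.nd (nat_lit 43906768960) (.lf (nat_lit 0x400a390c2040)) (.lf (nat_lit 0x400a39102040)))) (.nd (nat_lit 43907035264) (.nd (nat_lit 43907035200) (.lf (nat_lit 0x400a39103040)) (.lf (nat_lit 0x400a39103080))) (.nd (nat_lit 43907035265)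 (.lf (nat_lit 0x400a39103081)) (.lf (nat_lit 0x400a39142040))))))))
noncomputable def jt24_4 : BT := (.nd (nat_lit 43923812480) (.nd (nat_lit 43908079680) (.nd (nat_lit 43907559552) (.nd (nat_lit 43907301440) (.nd (nat_lit 43907297408) (.nd (nat_lit 43907297344) (.lf (nat_lit 0x400a39143040)) (.lf (nat_lit 0x400a39143080))) (.nd (nat_lit 43907297409) (.lf (nat_lit 0x400a39143081)) (.lf (nat_lit 0x400a39144040)))) (.nd (nat_lit 43907555392) (.nd (nat_lit 43907301504) (.lf (nat_lit 0x400a39144080)) (.lf (nat_lit 0x400a39182040))) (.nd (nat_lit 43907559488) (.lf (nat_lit 0x400a39183040)) (.lf (nat_lit 0x400a39183080))))) (.nd (nat_lit 43907817536) (.nd (nat_lit 43907563648) (.nd (nat_lit 43907563584) (.lf (nat_lit 0x400a39184040)) (.lf (nat_lit 0x400a39184080))) (.nd (nat_lit 43907567680) (.lf (nat_lit 0x400a39185040)) (.lf (nat_lit 0x400a391c2040)))) (.nd (nat_lit 43907821696) (.nd (nat_lit 43907821632) (.lf (nat_lit 0x400a391c3040))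 (.lf (nat_lit 0x400a391c3080))) (.nd (nat_lit 43907825728) (.lf (nat_lit 0x400a391c4040)) (.lf (nat_lit 0x400a39202040)))))) (.nd (nat_lit 43908603968) (.nd (nat_lit 43908341824) (.nd (nat_lit 43908087872) (.nd (nat_lit 43908083776) (.lf (nat_lit 0x400a39203040)) (.lf (nat_lit 0x400a39204040))) (.nd (nat_lit 43908100416) (.lf (nat_lit 0x184000a39207140)) (.lf (nat_lit 0x400a39242040)))) (.nd (nat_lit 43908358464) (.nd (nat_lit 43908345920) (.lf (nat_lit 0x400a39243040)) (.lf (nat_lit 0x184000a39246140))) (.nd (nat_lit 43908366528) (.lf (nat_lit 0x208b2200a392480c0)) (.lf (nat_lit 0x400a39282040))))) (.nd (nat_lit 43909390400) (.nd (nat_lit 43908866112) (.nd (nat_lit 43908608064) (.lf (nat_lit 0x400a39283040)) (.lf (nat_lit 0x400a392c2040))) (.nd (nat_lit 43909128256) (.lf (nat_lit 0x400a39302040)) (.lf (nat_lit 0x400a39342040)))) (.nd (nat_lit 43923808320) (.nd (nat_lit 43923546176) (.lf (nat_lit 0x400a3a0c2040)) (.lf (nat_lit 0x400a3a102040)))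 (.nd (nat_lit 43923812416) (.lf (nat_lit 0x400a3a103040)) (.lf (nat_lit 0x400a3a103080))))))) (.nd (nat_lit 43924598848) (.nd (nat_lit 43924332608) (.nd (nat_lit 43924074624) (.nd (nat_lit 43924070464) (.nd (nat_lit 43923812481) (.lf (nat_lit 0x400a3a103081)) (.lf (nat_lit 0x400a3a142040))) (.nd (nat_lit 43924074560) (.lf (nat_lit 0x400a3a143040)) (.lf (nat_lit 0x400a3a143080)))) (.nd (nat_lit 43924078656) (.nd (nat_lit 43924074625) (.lf (nat_lit 0x400a3a143081)) (.lf (nat_lit 0x400a3a144040))) (.nd (nat_lit 43924078720) (.lf (nat_lit 0x400a3a144080)) (.lf (nat_lit 0x400a3a182040))))) (.nd (nat_lit 43924340800) (.nd (nat_lit 43924336768) (.nd (nat_lit 43924336704) (.lf (nat_lit 0x400a3a183040)) (.lf (nat_lit 0x400a3a183080))) (.nd (nat_lit 43924336769) (.lf (nat_lit 0x400a3a183081)) (.lf (nat_lit 0x400a3a184040)))) (.nd (nat_lit 43924344896) (.nd (nat_lit 43924340864) (.lf (nat_lit 0x400a3a184080)) (.lf (nat_lit 0x400a3a185040))) (.nd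 (nat_lit 43924594752) (.lf (nat_lit 0x400a3a1c2040)) (.lf (nat_lit 0x400a3a1c3040)))))) (.nd (nat_lit 43924861056) (.nd (nat_lit 43924611329) (.nd (nat_lit 43924602944) (.nd (nat_lit 43924598912) (.lf (nat_lit 0x400a3a1c3080)) (.lf (nat_lit 0x400a3a1c4040))) (.nd (nat_lit 43924607040) (.lf (nat_lit 0x400a3a1c5040)) (.lf (nat_lit 0x184000a3a1c6101)))) (.nd (nat_lit 43924856896) (.nd (nat_lit 43924611392) (.lf (nat_lit 0x184000a3a1c6140)) (.lf (nat_lit 0x400a3a202040))) (.nd (nat_lit 43924860992) (.lf (nat_lit 0x400a3a203040)) (.lf (nat_lit 0x400a3a203080))))) (.nd (nat_lit 43925123200) (.nd (nat_lit 43925119040) (.nd (nat_lit 43924865088) (.lf (nat_lit 0x400a3a204040)) (.lf (nat_lit 0x400a3a242040))) (.nd (nat_lit 43925123136) (.lf (nat_lit 0x400a3a243040)) (.lf (nat_lit 0x400a3a243080)))) (.nd (nat_lit 43925143616) (.nd (nat_lit 43925127232) (.lf (nat_lit 0x400a3a244040)) (.lf (nat_lit 0x61200a3a248040))) (.nd (nat_lit 43925381184)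 (.lf (nat_lit 0x400a3a282040)) (.lf (nat_lit 0x400a3a283040))))))))
noncomputable def jt24_5 : BT := (.nd (nat_lit 43941118080) (.nd (nat_lit 43940589632) (.nd (nat_lit 43925913664) (.nd (nat_lit 43925647424) (.nd (nat_lit 43925401664) (.nd (nat_lit 43925389376) (.lf (nat_lit 0x400a3a284040)) (.lf (nat_lit 0x61200a3a287040))) (.nd (nat_lit 43925643328) (.lf (nat_lit 0x400a3a2c2040)) (.lf (nat_lit 0x400a3a2c3040)))) (.nd (nat_lit 43925905472) (.nd (nat_lit 43925651520) (.lf (nat_lit 0x400a3a2c4040)) (.lf (nat_lit 0x400a3a302040))) (.nd (nat_lit 43925909568) (.lf (nat_lit 0x400a3a303040)) (.lf (nat_lit 0x400a3a304040))))) (.nd (nat_lit 43926171776) (.nd (nat_lit 43926167616) (.nd (nat_lit 43925917760) (.lf (nat_lit 0x400a3a305040)) (.lf (nat_lit 0x400a3a342040))) (.nd (nat_lit 43926171712) (.lf (nat_lit 0x400a3a343040)) (.lf (nat_lit 0x400a3a343080)))) (.nd (nat_lit 43940323392) (.nd (nat_lit 43926175808) (.lf (nat_lit 0x400a3a344040))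 (.lf (nat_lit 0x400a3b0c2040))) (.nd (nat_lit 43940585536) (.lf (nat_lit 0x400a3b102040)) (.lf (nat_lit 0x400a3b103040)))))) (.nd (nat_lit 43940855936) (.nd (nat_lit 43940851776) (.nd (nat_lit 43940589697) (.nd (nat_lit 43940589696) (.lf (nat_lit 0x400a3b103080)) (.lf (nat_lit 0x400a3b103081))) (.nd (nat_lit 43940847680) (.lf (nat_lit 0x400a3b142040)) (.lf (nat_lit 0x400a3b143040)))) (.nd (nat_lit 43940851841) (.nd (nat_lit 43940851840) (.lf (nat_lit 0x400a3b143080)) (.lf (nat_lit 0x400a3b143081))) (.nd (nat_lit 43940855872) (.lf (nat_lit 0x400a3b144040)) (.lf (nat_lit 0x400a3b144080))))) (.nd (nat_lit 43941113920) (.nd (nat_lit 43940856000) (.nd (nat_lit 43940855937) (.lf (nat_lit 0x400a3b144081)) (.lf (nat_lit 0x400a3b1440c0))) (.nd (nat_lit 43941109824) (.lf (nat_lit 0x400a3b182040)) (.lf (nat_lit 0x400a3b183040)))) (.nd (nat_lit 43941113985) (.nd (nat_lit 43941113984) (.lf (nat_lit 0x400a3b183080)) (.lf (nat_lit 0x400a3b183081)))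 (.nd (nat_lit 43941118016) (.lf (nat_lit 0x400a3b184040)) (.lf (nat_lit 0x400a3b184080))))))) (.nd (nat_lit 43941638272) (.nd (nat_lit 43941380160) (.nd (nat_lit 43941371968) (.nd (nat_lit 43941122176) (.nd (nat_lit 43941122112) (.lf (nat_lit 0x400a3b185040)) (.lf (nat_lit 0x400a3b185080))) (.nd (nat_lit 43941122240) (.lf (nat_lit 0x61200a3b1850c0)) (.lf (nat_lit 0x400a3b1c2040)))) (.nd (nat_lit 43941376128) (.nd (nat_lit 43941376064) (.lf (nat_lit 0x400a3b1c3040)) (.lf (nat_lit 0x400a3b1c3080))) (.nd (nat_lit 43941376129) (.lf (nat_lit 0x400a3b1c3081)) (.lf (nat_lit 0x400a3b1c4040))))) (.nd (nat_lit 43941388352) (.nd (nat_lit 43941384256) (.nd (nat_lit 43941380224) (.lf (nat_lit 0x400a3b1c4080)) (.lf (nat_lit 0x400a3b1c5040))) (.nd (nat_lit 43941384320) (.lf (nat_lit 0x400a3b1c5080)) (.lf (nat_lit 0x400a3b1c6040)))) (.nd (nat_lit 43941634112) (.nd (nat_lit 43941388416) (.lf (nat_lit 0x61200a3b1c6080)) (.lf (nat_lit 0x400a3b202040)))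 (.nd (nat_lit 43941638208) (.lf (nat_lit 0x400a3b203040)) (.lf (nat_lit 0x400a3b203080)))))) (.nd (nat_lit 43941896256) (.nd (nat_lit 43941646528) (.nd (nat_lit 43941642368) (.nd (nat_lit 43941642304) (.lf (nat_lit 0x400a3b204040)) (.lf (nat_lit 0x400a3b204080))) (.nd (nat_lit 43941646400) (.lf (nat_lit 0x400a3b205040)) (.lf (nat_lit 0x61200a3b2050c0)))) (.nd (nat_lit 43941650560) (.nd (nat_lit 43941650496) (.lf (nat_lit 0x400a3b206040)) (.lf (nat_lit 0x61200a3b206080))) (.nd (nat_lit 43941654592) (.lf (nat_lit 0x61200a3b207040)) (.lf (nat_lit 0x400a3b242040))))) (.nd (nat_lit 43941904512) (.nd (nat_lit 43941900416) (.nd (nat_lit 43941900352) (.lf (nat_lit 0x400a3b243040)) (.lf (nat_lit 0x400a3b243080))) (.nd (nat_lit 43941904448) (.lf (nat_lit 0x400a3b244040)) (.lf (nat_lit 0x400a3b244080)))) (.nd (nat_lit 43941908608) (.nd (nat_lit 43941908544) (.lf (nat_lit 0x400a3b245040)) (.lf (nat_lit 0x400a3b245080))) (.nd (nat_lit 43941912640)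 (.lf (nat_lit 0x400a3b246040)) (.lf (nat_lit 0x400a3b282040))))))))
noncomputable def jt24_6 : BT := (.nd (nat_lit 43957895296) (.nd (nat_lit 43957366912) (.nd (nat_lit 43942424704) (.nd (nat_lit 43942166656) (.nd (nat_lit 43942162560) (.nd (nat_lit 43942162496) (.lf (nat_lit 0x400a3b283040)) (.lf (nat_lit 0x400a3b283080))) (.nd (nat_lit 43942166592) (.lf (nat_lit 0x400a3b284040)) (.lf (nat_lit 0x400a3b284080)))) (.nd (nat_lit 43942420544) (.nd (nat_lit 43942170688) (.lf (nat_lit 0x400a3b285040)) (.lf (nat_lit 0x400a3b2c2040))) (.nd (nat_lit 43942424640) (.lf (nat_lit 0x400a3b2c3040)) (.lf (nat_lit 0x400a3b2c3080))))) (.nd (nat_lit 43942944832) (.nd (nat_lit 43942682688) (.nd (nat_lit 43942428736) (.lf (nat_lit 0x400a3b2c4040)) (.lf (nat_lit 0x400a3b302040))) (.nd (nat_lit 43942686784) (.lf (nat_lit 0x400a3b303040)) (.lf (nat_lit 0x400a3b342040)))) (.nd (nat_lit 43957362752) (.nd (nat_lit 43957100608) (.lf (nat_lit 0x400a3c0c2040))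 (.lf (nat_lit 0x400a3c102040))) (.nd (nat_lit 43957366848) (.lf (nat_lit 0x400a3c103040)) (.lf (nat_lit 0x400a3c103080)))))) (.nd (nat_lit 43957633153) (.nd (nat_lit 43957629056) (.nd (nat_lit 43957624896) (.nd (nat_lit 43957366913) (.lf (nat_lit 0x400a3c103081)) (.lf (nat_lit 0x400a3c142040))) (.nd (nat_lit 43957628992) (.lf (nat_lit 0x400a3c143040)) (.lf (nat_lit 0x400a3c143080)))) (.nd (nat_lit 43957633088) (.nd (nat_lit 43957629057) (.lf (nat_lit 0x400a3c143081)) (.lf (nat_lit 0x400a3c144040))) (.nd (nat_lit 43957633152) (.lf (nat_lit 0x400a3c144080)) (.lf (nat_lit 0x400a3c144081))))) (.nd (nat_lit 43957891136) (.nd (nat_lit 43957633217) (.nd (nat_lit 43957633216) (.lf (nat_lit 0x400a3c1440c0)) (.lf (nat_lit 0x61200a3c1440c1))) (.nd (nat_lit 43957887040) (.lf (nat_lit 0x400a3c182040)) (.lf (nat_lit 0x400a3c183040)))) (.nd (nat_lit 43957891201) (.nd (nat_lit 43957891200) (.lf (nat_lit 0x400a3c183080)) (.lf (nat_lit 0x400a3c183081)))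 (.nd (nat_lit 43957895232) (.lf (nat_lit 0x400a3c184040)) (.lf (nat_lit 0x400a3c184080))))))) (.nd (nat_lit 43958161472) (.nd (nat_lit 43958149184) (.nd (nat_lit 43957899328) (.nd (nat_lit 43957895360) (.nd (nat_lit 43957895297) (.lf (nat_lit 0x400a3c184081)) (.lf (nat_lit 0x400a3c1840c0))) (.nd (nat_lit 43957895361) (.lf (nat_lit 0x61200a3c1840c1)) (.lf (nat_lit 0x400a3c185040)))) (.nd (nat_lit 43957899393) (.nd (nat_lit 43957899392) (.lf (nat_lit 0x400a3c185080)) (.lf (nat_lit 0x61200a3c185081))) (.nd (nat_lit 43957899456) (.lf (nat_lit 0x61200a3c1850c0)) (.lf (nat_lit 0x400a3c1c2040))))) (.nd (nat_lit 43958157376) (.nd (nat_lit 43958153344) (.nd (nat_lit 43958153280) (.lf (nat_lit 0x400a3c1c3040)) (.lf (nat_lit 0x400a3c1c3080))) (.nd (nat_lit 43958153345) (.lf (nat_lit 0x400a3c1c3081)) (.lf (nat_lit 0x400a3c1c4040)))) (.nd (nat_lit 43958157441) (.nd (nat_lit 43958157440) (.lf (nat_lit 0x400a3c1c4080)) (.lf (nat_lit 0x400a3c1c4081)))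 (.nd (nat_lit 43958157504) (.lf (nat_lit 0x400a3c1c40c0)) (.lf (nat_lit 0x400a3c1c5040)))))) (.nd (nat_lit 43958419584) (.nd (nat_lit 43958415424) (.nd (nat_lit 43958165568) (.nd (nat_lit 43958161536) (.lf (nat_lit 0x400a3c1c5080)) (.lf (nat_lit 0x400a3c1c6040))) (.nd (nat_lit 43958411328) (.lf (nat_lit 0x400a3c202040)) (.lf (nat_lit 0x400a3c203040)))) (.nd (nat_lit 43958415489) (.nd (nat_lit 43958415488) (.lf (nat_lit 0x400a3c203080)) (.lf (nat_lit 0x400a3c203081))) (.nd (nat_lit 43958419520) (.lf (nat_lit 0x400a3c204040)) (.lf (nat_lit 0x400a3c204080))))) (.nd (nat_lit 43958677632) (.nd (nat_lit 43958673472) (.nd (nat_lit 43958423616) (.lf (nat_lit 0x400a3c205040)) (.lf (nat_lit 0x400a3c242040))) (.nd (nat_lit 43958677568) (.lf (nat_lit 0x400a3c243040)) (.lf (nat_lit 0x400a3c243080)))) (.nd (nat_lit 43958935616) (.nd (nat_lit 43958681664) (.lf (nat_lit 0x400a3c244040)) (.lf (nat_lit 0x400a3c282040))) (.nd (nat_lit 43958939712) (.lf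 (nat_lit 0x400a3c283040)) (.lf (nat_lit 0x400a3c2c2040))))))))
noncomputable def jt24_7 : BT := (.nd (nat_lit 43974930496) (.nd (nat_lit 43974410368) (.nd (nat_lit 43974144129) (.nd (nat_lit 43974139968) (.nd (nat_lit 43973877824) (.lf (nat_lit 0x400a3d0c2040)) (.lf (nat_lit 0x400a3d102040))) (.nd (nat_lit 43974144064) (.lf (nat_lit 0x400a3d103040)) (.nd (nat_lit 43974144128) (.lf (nat_lit 0x400a3d103080)) (.lf (nat_lit 0x400a3d103081))))) (.nd (nat_lit 43974406272) (.nd (nat_lit 43974402112) (.lf (nat_lit 0x400a3d142040)) (.nd (nat_lit 43974406208) (.lf (nat_lit 0x400a3d143040)) (.lf (nat_lit 0x400a3d143080)))) (.nd (nat_lit 43974406273) (.lf (nat_lit 0x400a3d143081)) (.nd (nat_lit 43974410304) (.lf (nat_lit 0x400a3d144040)) (.lf (nat_lit 0x400a3d144080)))))) (.nd (nat_lit 43974668416) (.nd (nat_lit 43974410432) (.nd (nat_lit 43974410369) (.lf (nat_lit 0x400a3d144081)) (.lf (nat_lit 0x400a3d1440c0))) (.nd (nat_lit 43974664256) (.lf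 (nat_lit 0x400a3d182040)) (.nd (nat_lit 43974668352) (.lf (nat_lit 0x400a3d183040)) (.lf (nat_lit 0x400a3d183080))))) (.nd (nat_lit 43974672512) (.nd (nat_lit 43974668417) (.lf (nat_lit 0x400a3d183081)) (.nd (nat_lit 43974672448) (.lf (nat_lit 0x400a3d184040)) (.lf (nat_lit 0x400a3d184080)))) (.nd (nat_lit 43974676544) (.lf (nat_lit 0x400a3d185040)) (.nd (nat_lit 43974926400) (.lf (nat_lit 0x400a3d1c2040)) (.lf (nat_lit 0x400a3d1c3040))))))) (.nd (nat_lit 43991179328) (.nd (nat_lit 43975450688) (.nd (nat_lit 43974934592) (.nd (nat_lit 43974930560) (.lf (nat_lit 0x400a3d1c3080)) (.lf (nat_lit 0x400a3d1c4040))) (.nd (nat_lit 43975188544) (.lf (nat_lit 0x400a3d202040)) (.nd (nat_lit 43975192640) (.lf (nat_lit 0x400a3d203040)) (.lf (nat_lit 0x400a3d242040))))) (.nd (nat_lit 43990921280) (.nd (nat_lit 43990655040) (.lf (nat_lit 0x400a3e0c2040)) (.nd (nat_lit 43990917184) (.lf (nat_lit 0x400a3e102040)) (.lf (nat_lit 0x400a3e103040)))) (.nd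 (nat_lit 43990921344) (.lf (nat_lit 0x400a3e103080)) (.nd (nat_lit 43990921345) (.lf (nat_lit 0x400a3e103081)) (.lf (nat_lit 0x400a3e142040)))))) (.nd (nat_lit 43991445568) (.nd (nat_lit 43991183488) (.nd (nat_lit 43991183424) (.lf (nat_lit 0x400a3e143040)) (.lf (nat_lit 0x400a3e143080))) (.nd (nat_lit 43991187520) (.lf (nat_lit 0x400a3e144040)) (.nd (nat_lit 43991441472) (.lf (nat_lit 0x400a3e182040)) (.lf (nat_lit 0x400a3e183040))))) (.nd (nat_lit 44007694400) (.nd (nat_lit 43991703616) (.lf (nat_lit 0x400a3e1c2040)) (.nd (nat_lit 44007432256) (.lf (nat_lit 0x400a3f0c2040)) (.lf (nat_lit 0x400a3f102040)))) (.nd (nat_lit 44007698496) (.lf (nat_lit 0x400a3f103040)) (.nd (nat_lit 44007956544) (.lf (nat_lit 0x400a3f142040)) (.lf (nat_lit 0x400a400c2040))))))))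
noncomputable def jt24 : BT := (.nd (nat_lit 43907293248) (.nd (nat_lit 43773079680) (.nd (nat_lit 43638595648) jt24_0 jt24_1) (.nd (nat_lit 43856969792) jt24_2 jt24_3)) (.nd (nat_lit 43942158400) (.nd (nat_lit 43925385280) jt24_4 jt24_5) (.nd (nat_lit 43959197760) jt24_6 jt24_7)))
def jg24 : Cfg := ⟨104, 95, 14, 20, 68⟩
noncomputable def jX24 : F3 := XRc 20 99 99 99 0
noncomputable def jt25_0 : BT := (.nd (nat_lit 43731656768) (.nd (nat_lit 43698892864) (.nd (nat_lit 43698102336) (.nd (nat_lit 43682111552) (.nd (nat_lit 43681587264) (.nd (nat_lit 43665072192) (.lf (nat_lit 0x3061a00a2aa42040)) (.lf (nat_lit 0x3061a00a2ba02040))) (.nd (nat_lit 43681849408) (.lf (nat_lit 0x3061a00a2ba42040)) (.lf (nat_lit 0x3061a00a2ba82040)))) (.nd (nat_lit 43682115712) (.nd (nat_lit 43682115648) (.lf (nat_lit 0x3061a00a2ba83040)) (.lf (nat_lit 0x3061a00a2ba83080))) (.nd (nat_lit 43682119744) (.lf (nat_lit 0x3061a00a2ba84040)) (.lf (nat_lit 0x3061a00a2c9c2040)))))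 (.nd (nat_lit 43698630720) (.nd (nat_lit 43698368576) (.nd (nat_lit 43698364480) (.lf (nat_lit 0x3061a00a2ca02040)) (.lf (nat_lit 0x3061a00a2ca03040))) (.nd (nat_lit 43698626624) (.lf (nat_lit 0x3061a00a2ca42040)) (.lf (nat_lit 0x3061a00a2ca43040)))) (.nd (nat_lit 43698634816) (.nd (nat_lit 43698630784) (.lf (nat_lit 0x3061a00a2ca43080)) (.lf (nat_lit 0x3061a00a2ca44040))) (.nd (nat_lit 43698888768) (.lf (nat_lit 0x3061a00a2ca82040)) (.lf (nat_lit 0x3061a00a2ca83040)))))) (.nd (nat_lit 43715145792) (.nd (nat_lit 43714883648) (.nd (nat_lit 43714617408) (.nd (nat_lit 43699150912) (.lf (nat_lit 0x3061a00a2cac2040)) (.lf (nat_lit 0x3061a00a2d982040))) (.nd (nat_lit 43714879552) (.lf (nat_lit 0x3061a00a2d9c2040)) (.lf (nat_lit 0x3061a00a2d9c3040)))) (.nd (nat_lit 43714887744) (.nd (nat_lit 43714883712) (.lf (nat_lit 0x3061a00a2d9c3080)) (.lf (nat_lit 0x3061a00a2d9c4040))) (.nd (nat_lit 43715141696) (.lf (nat_lit 0x3061a00a2da02040)) (.lf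 (nat_lit 0x3061a00a2da03040))))) (.nd (nat_lit 43731136576) (.nd (nat_lit 43730870336) (.nd (nat_lit 43715403840) (.lf (nat_lit 0x3061a00a2da42040)) (.lf (nat_lit 0x3061a00a2e902040))) (.nd (nat_lit 43731132480) (.lf (nat_lit 0x3061a00a2e942040)) (.lf (nat_lit 0x3061a00a2e943040)))) (.nd (nat_lit 43731394624) (.nd (nat_lit 43731140672) (.lf (nat_lit 0x3061a00a2e944040)) (.lf (nat_lit 0x3061a00a2e982040))) (.nd (nat_lit 43731398720) (.lf (nat_lit 0x3061a00a2e983040)) (.lf (nat_lit 0x3061a00a2e9c2040))))))) (.nd (nat_lit 43796668480) (.nd (nat_lit 43763900480) (.nd (nat_lit 43747647552) (.nd (nat_lit 43747385408) (.nd (nat_lit 43747123264) (.lf (nat_lit 0x3061a00a2f882040)) (.lf (nat_lit 0x3061a00a2f8c2040))) (.nd (nat_lit 43747389504) (.lf (nat_lit 0x3061a00a2f8c3040)) (.lf (nat_lit 0x3061a00a2f902040)))) (.nd (nat_lit 43747909696) (.nd (nat_lit 43747651648) (.lf (nat_lit 0x3061a00a2f903040)) (.lf (nat_lit 0x3061a00a2f942040))) (.nd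 (nat_lit 43763638336) (.lf (nat_lit 0x61200a30842040)) (.lf (nat_lit 0x61200a30882040))))) (.nd (nat_lit 43780157504) (.nd (nat_lit 43764162624) (.nd (nat_lit 43763904576) (.lf (nat_lit 0x61200a30883040)) (.lf (nat_lit 0x3061a00a308c2040))) (.nd (nat_lit 43780153408) (.lf (nat_lit 0x61200a31802040)) (.lf (nat_lit 0x61200a31803040)))) (.nd (nat_lit 43796406336) (.nd (nat_lit 43780415552) (.lf (nat_lit 0x61200a31842040)) (.lf (nat_lit 0x61200a32782040))) (.nd (nat_lit 43796410432) (.lf (nat_lit 0x61200a32783040)) (.lf (nat_lit 0x61200a327c2040)))))) (.nd (nat_lit 43845169216) (.nd (nat_lit 43828912192) (.nd (nat_lit 43812663360) (.nd (nat_lit 43812659264) (.lf (nat_lit 0x61200a33702040)) (.lf (nat_lit 0x61200a33703040))) (.nd (nat_lit 43812921408) (.lf (nat_lit 0x61200a33742040)) (.lf (nat_lit 0x61200a34682040)))) (.nd (nat_lit 43829174336) (.nd (nat_lit 43828916288) (.lf (nat_lit 0x61200a34683040)) (.lf (nat_lit 0x61200a346c2040))) (.nd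 (nat_lit 43845165120) (.lf (nat_lit 0x61200a35602040)) (.lf (nat_lit 0x61200a35603040))))) (.nd (nat_lit 43861422144) (.nd (nat_lit 43861155904) (.nd (nat_lit 43845427264) (.lf (nat_lit 0x61200a35642040)) (.lf (nat_lit 0x61200a36542040))) (.nd (nat_lit 43861418048) (.lf (nat_lit 0x61200a36582040)) (.lf (nat_lit 0x61200a36583040)))) (.nd (nat_lit 43876622400) (.nd (nat_lit 43861680192) (.lf (nat_lit 0x61200a365c2040)) (.lf (nat_lit 0x61200a37402040))) (.nd (nat_lit 43876884544) (.lf (nat_lit 0x61200a37442040)) (.lf (nat_lit 0x61200a37482040))))))))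
noncomputable def jt25_1 : BT := (.nd (nat_lit 43893928000) (.nd (nat_lit 43893399616) (.nd (nat_lit 43877670976) (.nd (nat_lit 43877408832) (.lf (nat_lit 0x61200a374c2040)) (.lf (nat_lit 0x61200a37502040))) (.nd (nat_lit 43877675072) (.lf (nat_lit 0x61200a37503040)) (.nd (nat_lit 43877933120) (.lf (nat_lit 0x61200a37542040)) (.lf (nat_lit 0x61200a38402040))))) (.nd (nat_lit 43893665856) (.nd (nat_lit 43893661760) (.lf (nat_lit 0x61200a38442040)) (.lf (nat_lit 0x61200a38443040))) (.nd (nat_lit 43893669952) (.lf (nat_lit 0x61200a38444040)) (.nd (nat_lit 43893923904) (.lf (nat_lit 0x61200a38482040)) (.lf (nat_lit 0x61200a38483040)))))) (.nd (nat_lit 43910176832) (.nd (nat_lit 43909652544) (.nd (nat_lit 43894186048) (.lf (nat_lit 0x61200a384c2040)) (.lf (nat_lit 0x400a39382040))) (.nd (nat_lit 43909914688) (.lf (nat_lit 0x400a393c2040)) (.nd (nat_lit 43909918784) (.lf (nat_lit 0x400a393c3040)) (.lf (nat_lit 0x61200a39402040))))) (.nd (nat_lit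 43910438976) (.nd (nat_lit 43910180928) (.lf (nat_lit 0x61200a39403040)) (.lf (nat_lit 0x61200a39442040))) (.nd (nat_lit 43926429760) (.lf (nat_lit 0x400a3a382040)) (.nd (nat_lit 43926433856) (.lf (nat_lit 0x400a3a383040)) (.lf (nat_lit 0x400a3a3c2040)))))))
noncomputable def jt25 : BT := (.nd (nat_lit 43877146688) jt25_0 jt25_1)
def jg25 : Cfg := ⟨104, 95, 44, 20, 65⟩
noncomputable def jX25 : F3 := XRc 19 99 99 99 0
noncomputable def jt26_0 : BT := (.nd (nat_lit 45702193216) (.nd (nat_lit 45635084352) (.nd (nat_lit 45584756800) (.nd (nat_lit 45567713344) (.nd (nat_lit 45550936128) (.nd (nat_lit 45534158912) (.lf (nat_lit 0x400a9a0c2040)) (.lf (nat_lit 0x400a9b0c2040))) (.nd (nat_lit 45551198272) (.lf (nat_lit 0x400a9b102040)) (.lf (nat_lit 0x400a9c0c2040)))) (.nd (nat_lit 45584490560) (.nd (nat_lit 45567975488) (.lf (nat_lit 0x400a9c102040)) (.lf (nat_lit 0x400a9d0c2040))) (.nd (nat_lit 45584752704) (.lf (nat_lit 0x400a9d102040)) (.lf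 (nat_lit 0x400a9d103040))))) (.nd (nat_lit 45618044992) (.nd (nat_lit 45601529920) (.nd (nat_lit 45601267776) (.lf (nat_lit 0x400a9e0c2040)) (.lf (nat_lit 0x400a9e102040))) (.nd (nat_lit 45601534016) (.lf (nat_lit 0x400a9e103040)) (.lf (nat_lit 0x400a9f0c2040)))) (.nd (nat_lit 45618311232) (.nd (nat_lit 45618307136) (.lf (nat_lit 0x400a9f102040)) (.lf (nat_lit 0x400a9f103040))) (.nd (nat_lit 45634822208) (.lf (nat_lit 0x400aa00c2040)) (.lf (nat_lit 0x400aa0102040)))))) (.nd (nat_lit 45668638784) (.nd (nat_lit 45651861568) (.nd (nat_lit 45635088512) (.nd (nat_lit 45635088448) (.lf (nat_lit 0x400aa0103040)) (.lf (nat_lit 0x400aa0103080))) (.nd (nat_lit 45651599424) (.lf (nat_lit 0x400aa10c2040)) (.lf (nat_lit 0x400aa1102040)))) (.nd (nat_lit 45651865728) (.nd (nat_lit 45651865664) (.lf (nat_lit 0x400aa1103040)) (.lf (nat_lit 0x400aa1103080))) (.nd (nat_lit 45668376640) (.lf (nat_lit 0x400aa20c2040)) (.lf (nat_lit 0x400aa2102040))))) (.nd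 (nat_lit 45685416000) (.nd (nat_lit 45668642944) (.nd (nat_lit 45668642880) (.lf (nat_lit 0x400aa2103040)) (.lf (nat_lit 0x400aa2103080))) (.nd (nat_lit 45685153856) (.lf (nat_lit 0x400aa30c2040)) (.lf (nat_lit 0x400aa3102040)))) (.nd (nat_lit 45685420160) (.nd (nat_lit 45685420096) (.lf (nat_lit 0x400aa3103040)) (.lf (nat_lit 0x400aa3103080))) (.nd (nat_lit 45701931072) (.lf (nat_lit 0x400aa40c2040)) (.lf (nat_lit 0x400aa4102040))))))) (.nd (nat_lit 45752528960) (.nd (nat_lit 45718974593) (.nd (nat_lit 45718708288) (.nd (nat_lit 45702197376) (.nd (nat_lit 45702197312) (.lf (nat_lit 0x400aa4103040)) (.lf (nat_lit 0x400aa4103080))) (.nd (nat_lit 45702197377) (.lf (nat_lit 0x400aa4103081)) (.lf (nat_lit 0x400aa50c2040)))) (.nd (nat_lit 45718974528) (.nd (nat_lit 45718970432) (.lf (nat_lit 0x400aa5102040)) (.lf (nat_lit 0x400aa5103040))) (.nd (nat_lit 45718974592) (.lf (nat_lit 0x400aa5103080)) (.lf (nat_lit 0x400aa5103081))))) (.nd (nat_lit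 45735751808) (.nd (nat_lit 45735747648) (.nd (nat_lit 45735485504) (.lf (nat_lit 0x400aa60c2040)) (.lf (nat_lit 0x400aa6102040))) (.nd (nat_lit 45735751744) (.lf (nat_lit 0x400aa6103040)) (.lf (nat_lit 0x400aa6103080)))) (.nd (nat_lit 45752262720) (.nd (nat_lit 45735751809) (.lf (nat_lit 0x400aa6103081)) (.lf (nat_lit 0x400aa70c2040))) (.nd (nat_lit 45752524864) (.lf (nat_lit 0x400aa7102040)) (.lf (nat_lit 0x400aa7103040)))))) (.nd (nat_lit 45785817152) (.nd (nat_lit 45769302080) (.nd (nat_lit 45752529025) (.nd (nat_lit 45752529024) (.lf (nat_lit 0x400aa7103080)) (.lf (nat_lit 0x400aa7103081))) (.nd (nat_lit 45769039936) (.lf (nat_lit 0x400aa80c2040)) (.lf (nat_lit 0x400aa8102040)))) (.nd (nat_lit 45769306240) (.nd (nat_lit 45769306176) (.lf (nat_lit 0x400aa8103040)) (.lf (nat_lit 0x400aa8103080))) (.nd (nat_lit 45769306241) (.lf (nat_lit 0x400aa8103081)) (.lf (nat_lit 0x400aa90c2040))))) (.nd (nat_lit 45786083457) (.nd (nat_lit 45786083392)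 (.nd (nat_lit 45786079296) (.lf (nat_lit 0x400aa9102040)) (.lf (nat_lit 0x400aa9103040))) (.nd (nat_lit 45786083456) (.lf (nat_lit 0x400aa9103080)) (.lf (nat_lit 0x400aa9103081)))) (.nd (nat_lit 45802594368) (.nd (nat_lit 45786341440) (.lf (nat_lit 0x400aa9142040)) (.lf (nat_lit 0x400aaa0c2040))) (.nd (nat_lit 45802856512) (.lf (nat_lit 0x400aaa102040)) (.lf (nat_lit 0x400aaa103040))))))))
noncomputable def jt26_1 : BT := (.nd (nat_lit 45886746753) (.nd (nat_lit 45852926016) (.nd (nat_lit 45819637889) (.nd (nat_lit 45819371584) (.nd (nat_lit 45802860673) (.nd (nat_lit 45802860672) (.lf (nat_lit 0x400aaa103080)) (.lf (nat_lit 0x400aaa103081))) (.nd (nat_lit 45803118656) (.lf (nat_lit 0x400aaa142040)) (.lf (nat_lit 0x400aab0c2040)))) (.nd (nat_lit 45819637824) (.nd (nat_lit 45819633728) (.lf (nat_lit 0x400aab102040)) (.lf (nat_lit 0x400aab103040))) (.nd (nat_lit 45819637888) (.lf (nat_lit 0x400aab103080)) (.lf (nat_lit 0x400aab103081)))))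 (.nd (nat_lit 45836415040) (.nd (nat_lit 45836148800) (.nd (nat_lit 45819895872) (.lf (nat_lit 0x400aab142040)) (.lf (nat_lit 0x400aac0c2040))) (.nd (nat_lit 45836410944) (.lf (nat_lit 0x400aac102040)) (.lf (nat_lit 0x400aac103040)))) (.nd (nat_lit 45836415105) (.nd (nat_lit 45836415104) (.lf (nat_lit 0x400aac103080)) (.lf (nat_lit 0x400aac103081))) (.nd (nat_lit 45836673088) (.lf (nat_lit 0x400aac142040)) (.lf (nat_lit 0x400aad0c2040)))))) (.nd (nat_lit 45869969472) (.nd (nat_lit 45853192321) (.nd (nat_lit 45853192256) (.nd (nat_lit 45853188160) (.lf (nat_lit 0x400aad102040)) (.lf (nat_lit 0x400aad103040))) (.nd (nat_lit 45853192320) (.lf (nat_lit 0x400aad103080)) (.lf (nat_lit 0x400aad103081)))) (.nd (nat_lit 45869703232) (.nd (nat_lit 45853450304) (.lf (nat_lit 0x400aad142040)) (.lf (nat_lit 0x400aae0c2040))) (.nd (nat_lit 45869965376) (.lf (nat_lit 0x400aae102040)) (.lf (nat_lit 0x400aae103040))))) (.nd (nat_lit 45886480448) (.nd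 (nat_lit 45869969537) (.nd (nat_lit 45869969536) (.lf (nat_lit 0x400aae103080)) (.lf (nat_lit 0x400aae103081))) (.nd (nat_lit 45870227520) (.lf (nat_lit 0x400aae142040)) (.lf (nat_lit 0x400aaf0c2040)))) (.nd (nat_lit 45886746688) (.nd (nat_lit 45886742592) (.lf (nat_lit 0x400aaf102040)) (.lf (nat_lit 0x400aaf103040))) (.nd (nat_lit 45886746752) (.lf (nat_lit 0x400aaf103080)) (.lf (nat_lit 0x400aaf103081))))))) (.nd (nat_lit 45920301185) (.nd (nat_lit 45903523969) (.nd (nat_lit 45903257664) (.nd (nat_lit 45887008832) (.nd (nat_lit 45887004736) (.lf (nat_lit 0x400aaf142040)) (.lf (nat_lit 0x400aaf143040))) (.nd (nat_lit 45887266880) (.lf (nat_lit 0x400aaf182040)) (.lf (nat_lit 0x400ab00c2040)))) (.nd (nat_lit 45903523904) (.nd (nat_lit 45903519808) (.lf (nat_lit 0x400ab0102040)) (.lf (nat_lit 0x400ab0103040))) (.nd (nat_lit 45903523968) (.lf (nat_lit 0x400ab0103080)) (.lf (nat_lit 0x400ab0103081))))) (.nd (nat_lit 45920034880) (.nd (nat_lit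 45903786048) (.nd (nat_lit 45903781952) (.lf (nat_lit 0x400ab0142040)) (.lf (nat_lit 0x400ab0143040))) (.nd (nat_lit 45904044096) (.lf (nat_lit 0x400ab0182040)) (.lf (nat_lit 0x400ab10c2040)))) (.nd (nat_lit 45920301120) (.nd (nat_lit 45920297024) (.lf (nat_lit 0x400ab1102040)) (.lf (nat_lit 0x400ab1103040))) (.nd (nat_lit 45920301184) (.lf (nat_lit 0x400ab1103080)) (.lf (nat_lit 0x400ab1103081)))))) (.nd (nat_lit 45937078401) (.nd (nat_lit 45936812096) (.nd (nat_lit 45920563264) (.nd (nat_lit 45920559168) (.lf (nat_lit 0x400ab1142040)) (.lf (nat_lit 0x400ab1143040))) (.nd (nat_lit 45920821312) (.lf (nat_lit 0x400ab1182040)) (.lf (nat_lit 0x400ab20c2040)))) (.nd (nat_lit 45937078336) (.nd (nat_lit 45937074240) (.lf (nat_lit 0x400ab2102040)) (.lf (nat_lit 0x400ab2103040))) (.nd (nat_lit 45937078400) (.lf (nat_lit 0x400ab2103080)) (.lf (nat_lit 0x400ab2103081))))) (.nd (nat_lit 45953589312) (.nd (nat_lit 45937340480) (.nd (nat_lit 45937336384)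 (.lf (nat_lit 0x400ab2142040)) (.lf (nat_lit 0x400ab2143040))) (.nd (nat_lit 45937598528) (.lf (nat_lit 0x400ab2182040)) (.lf (nat_lit 0x400ab30c2040)))) (.nd (nat_lit 45953855552) (.nd (nat_lit 45953851456) (.lf (nat_lit 0x400ab3102040)) (.lf (nat_lit 0x400ab3103040))) (.nd (nat_lit 45953855616) (.lf (nat_lit 0x400ab3103080)) (.lf (nat_lit 0x400ab3103081))))))))
noncomputable def jt26_2 : BT := (.nd (nat_lit 46004445248) (.nd (nat_lit 45987143744) (.nd (nat_lit 45970632832) (.nd (nat_lit 45954637888) (.nd (nat_lit 45954117696) (.nd (nat_lit 45954113600) (.lf (nat_lit 0x400ab3142040)) (.lf (nat_lit 0x400ab3143040))) (.nd (nat_lit 45954375744) (.lf (nat_lit 0x400ab3182040)) (.lf (nat_lit 0x400ab31c2040)))) (.nd (nat_lit 45970628672) (.nd (nat_lit 45970366528) (.lf (nat_lit 0x400ab40c2040)) (.lf (nat_lit 0x400ab4102040))) (.nd (nat_lit 45970632768) (.lf (nat_lit 0x400ab4103040)) (.lf (nat_lit 0x400ab4103080))))) (.nd (nat_lit 45970894976)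 (.nd (nat_lit 45970890816) (.nd (nat_lit 45970632833) (.lf (nat_lit 0x400ab4103081)) (.lf (nat_lit 0x400ab4142040))) (.nd (nat_lit 45970894912) (.lf (nat_lit 0x400ab4143040)) (.lf (nat_lit 0x400ab4143080)))) (.nd (nat_lit 45971157056) (.nd (nat_lit 45971152960) (.lf (nat_lit 0x400ab4182040)) (.lf (nat_lit 0x400ab4183040))) (.nd (nat_lit 45971415104) (.lf (nat_lit 0x400ab41c2040)) (.lf (nat_lit 0x400ab50c2040)))))) (.nd (nat_lit 45987930176) (.nd (nat_lit 45987410049) (.nd (nat_lit 45987409984) (.nd (nat_lit 45987405888) (.lf (nat_lit 0x400ab5102040)) (.lf (nat_lit 0x400ab5103040))) (.nd (nat_lit 45987410048) (.lf (nat_lit 0x400ab5103080)) (.lf (nat_lit 0x400ab5103081)))) (.nd (nat_lit 45987672128) (.nd (nat_lit 45987668032) (.lf (nat_lit 0x400ab5142040)) (.lf (nat_lit 0x400ab5143040))) (.nd (nat_lit 45987672192) (.lf (nat_lit 0x400ab5143080)) (.lf (nat_lit 0x400ab5182040))))) (.nd (nat_lit 46004183104) (.nd (nat_lit 45988192320) (.nd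 (nat_lit 45987934272) (.lf (nat_lit 0x400ab5183040)) (.lf (nat_lit 0x400ab51c2040))) (.nd (nat_lit 46003920960) (.lf (nat_lit 0x400ab60c2040)) (.lf (nat_lit 0x400ab6102040)))) (.nd (nat_lit 46004187264) (.nd (nat_lit 46004187200) (.lf (nat_lit 0x400ab6103040)) (.lf (nat_lit 0x400ab6103080))) (.nd (nat_lit 46004187265) (.lf (nat_lit 0x400ab6103081)) (.lf (nat_lit 0x400ab6142040))))))) (.nd (nat_lit 46021230656) (.nd (nat_lit 46020698176) (.nd (nat_lit 46004707392) (.nd (nat_lit 46004449408) (.nd (nat_lit 46004449344) (.lf (nat_lit 0x400ab6143040)) (.lf (nat_lit 0x400ab6143080))) (.nd (nat_lit 46004453440) (.lf (nat_lit 0x400ab6144040)) (.lf (nat_lit 0x400ab6182040)))) (.nd (nat_lit 46004969536) (.nd (nat_lit 46004711488) (.lf (nat_lit 0x400ab6183040)) (.lf (nat_lit 0x400ab61c2040))) (.nd (nat_lit 46005231680) (.lf (nat_lit 0x400ab6202040)) (.lf (nat_lit 0x400ab70c2040))))) (.nd (nat_lit 46020964481) (.nd (nat_lit 46020964416) (.nd (nat_lit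 46020960320) (.lf (nat_lit 0x400ab7102040)) (.lf (nat_lit 0x400ab7103040))) (.nd (nat_lit 46020964480) (.lf (nat_lit 0x400ab7103080)) (.lf (nat_lit 0x400ab7103081)))) (.nd (nat_lit 46021226560) (.nd (nat_lit 46021222464) (.lf (nat_lit 0x400ab7142040)) (.lf (nat_lit 0x400ab7143040))) (.nd (nat_lit 46021226624) (.lf (nat_lit 0x400ab7143080)) (.lf (nat_lit 0x400ab7144040)))))) (.nd (nat_lit 46037741632) (.nd (nat_lit 46021750848) (.nd (nat_lit 46021488704) (.nd (nat_lit 46021484608) (.lf (nat_lit 0x400ab7182040)) (.lf (nat_lit 0x400ab7183040))) (.nd (nat_lit 46021746752) (.lf (nat_lit 0x400ab71c2040)) (.lf (nat_lit 0x400ab71c3040)))) (.nd (nat_lit 46037475392) (.nd (nat_lit 46022008896) (.lf (nat_lit 0x400ab7202040)) (.lf (nat_lit 0x400ab80c2040))) (.nd (nat_lit 46037737536) (.lf (nat_lit 0x400ab8102040)) (.lf (nat_lit 0x400ab8103040))))) (.nd (nat_lit 46038003776) (.nd (nat_lit 46037741697) (.nd (nat_lit 46037741696) (.lf (nat_lit 0x400ab8103080))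 (.lf (nat_lit 0x400ab8103081))) (.nd (nat_lit 46037999680) (.lf (nat_lit 0x400ab8142040)) (.lf (nat_lit 0x400ab8143040)))) (.nd (nat_lit 46038007872) (.nd (nat_lit 46038003840) (.lf (nat_lit 0x400ab8143080)) (.lf (nat_lit 0x400ab8144040))) (.nd (nat_lit 46038261824) (.lf (nat_lit 0x400ab8182040)) (.lf (nat_lit 0x400ab8183040))))))))
noncomputable def jt26_3 : BT := (.nd (nat_lit 46071558273) (.nd (nat_lit 46055039040) (.nd (nat_lit 46054518848) (.nd (nat_lit 46038786112) (.nd (nat_lit 46038523968) (.nd (nat_lit 46038265984) (.lf (nat_lit 0x400ab8183080)) (.lf (nat_lit 0x400ab81c2040))) (.nd (nat_lit 46038528064) (.lf (nat_lit 0x400ab81c3040)) (.lf (nat_lit 0x400ab8202040)))) (.nd (nat_lit 46054252608) (.nd (nat_lit 46039048256) (.lf (nat_lit 0x400ab8242040)) (.lf (nat_lit 0x400ab90c2040))) (.nd (nat_lit 46054514752) (.lf (nat_lit 0x400ab9102040)) (.lf (nat_lit 0x400ab9103040))))) (.nd (nat_lit 46054780992) (.nd (nat_lit 46054518913)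 (.nd (nat_lit 46054518912) (.lf (nat_lit 0x400ab9103080)) (.lf (nat_lit 0x400ab9103081))) (.nd (nat_lit 46054776896) (.lf (nat_lit 0x400ab9142040)) (.lf (nat_lit 0x400ab9143040)))) (.nd (nat_lit 46054781057) (.nd (nat_lit 46054781056) (.lf (nat_lit 0x400ab9143080)) (.lf (nat_lit 0x400ab9143081))) (.nd (nat_lit 46054785088) (.lf (nat_lit 0x400ab9144040)) (.lf (nat_lit 0x400ab9182040)))))) (.nd (nat_lit 46071029824) (.nd (nat_lit 46055301184) (.nd (nat_lit 46055043200) (.nd (nat_lit 46055043136) (.lf (nat_lit 0x400ab9183040)) (.lf (nat_lit 0x400ab9183080))) (.nd (nat_lit 46055047232) (.lf (nat_lit 0x400ab9184040)) (.lf (nat_lit 0x400ab91c2040)))) (.nd (nat_lit 46055563328) (.nd (nat_lit 46055305280) (.lf (nat_lit 0x400ab91c3040)) (.lf (nat_lit 0x400ab9202040))) (.nd (nat_lit 46055825472) (.lf (nat_lit 0x400ab9242040)) (.lf (nat_lit 0x400aba0c2040))))) (.nd (nat_lit 46071296129) (.nd (nat_lit 46071296064) (.nd (nat_lit 46071291968) (.lf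 (nat_lit 0x400aba102040)) (.lf (nat_lit 0x400aba103040))) (.nd (nat_lit 46071296128) (.lf (nat_lit 0x400aba103080)) (.lf (nat_lit 0x400aba103081)))) (.nd (nat_lit 46071558208) (.nd (nat_lit 46071554112) (.lf (nat_lit 0x400aba142040)) (.lf (nat_lit 0x400aba143040))) (.nd (nat_lit 46071558272) (.lf (nat_lit 0x400aba143080)) (.lf (nat_lit 0x400aba143081))))))) (.nd (nat_lit 46088073344) (.nd (nat_lit 46072082496) (.nd (nat_lit 46071820352) (.nd (nat_lit 46071562368) (.nd (nat_lit 46071562304) (.lf (nat_lit 0x400aba144040)) (.lf (nat_lit 0x400aba144080))) (.nd (nat_lit 46071816256) (.lf (nat_lit 0x400aba182040)) (.lf (nat_lit 0x400aba183040)))) (.nd (nat_lit 46071824448) (.nd (nat_lit 46071820416) (.lf (nat_lit 0x400aba183080)) (.lf (nat_lit 0x400aba184040))) (.nd (nat_lit 46072078400) (.lf (nat_lit 0x400aba1c2040)) (.lf (nat_lit 0x400aba1c3040))))) (.nd (nat_lit 46072864832) (.nd (nat_lit 46072344640) (.nd (nat_lit 46072340544) (.lf (nat_lit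 0x400aba202040)) (.lf (nat_lit 0x400aba203040))) (.nd (nat_lit 46072602688) (.lf (nat_lit 0x400aba242040)) (.lf (nat_lit 0x400aba282040)))) (.nd (nat_lit 46088069184) (.nd (nat_lit 46087807040) (.lf (nat_lit 0x400abb0c2040)) (.lf (nat_lit 0x400abb102040))) (.nd (nat_lit 46088073280) (.lf (nat_lit 0x400abb103040)) (.lf (nat_lit 0x400abb103080)))))) (.nd (nat_lit 46088593472) (.nd (nat_lit 46088335488) (.nd (nat_lit 46088331328) (.nd (nat_lit 46088073345) (.lf (nat_lit 0x400abb103081)) (.lf (nat_lit 0x400abb142040))) (.nd (nat_lit 46088335424) (.lf (nat_lit 0x400abb143040)) (.lf (nat_lit 0x400abb143080)))) (.nd (nat_lit 46088339520) (.nd (nat_lit 46088335489) (.lf (nat_lit 0x400abb143081)) (.lf (nat_lit 0x400abb144040))) (.nd (nat_lit 46088339584) (.lf (nat_lit 0x400abb144080)) (.lf (nat_lit 0x400abb182040))))) (.nd (nat_lit 46088605760) (.nd (nat_lit 46088597632) (.nd (nat_lit 46088597568) (.lf (nat_lit 0x400abb183040)) (.lf (nat_lit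 0x400abb183080))) (.nd (nat_lit 46088601664) (.lf (nat_lit 0x400abb184040)) (.lf (nat_lit 0x400abb185040)))) (.nd (nat_lit 46088859712) (.nd (nat_lit 46088855616) (.lf (nat_lit 0x400abb1c2040)) (.lf (nat_lit 0x400abb1c3040))) (.nd (nat_lit 46088859776) (.lf (nat_lit 0x400abb1c3080)) (.lf (nat_lit 0x400abb1c4040))))))))
noncomputable def jt26_4 : BT := (.nd (nat_lit 46106157120) (.nd (nat_lit 46105112705) (.nd (nat_lit 46104584256) (.nd (nat_lit 46089384000) (.nd (nat_lit 46089121856) (.nd (nat_lit 46089117760) (.lf (nat_lit 0x400abb202040)) (.lf (nat_lit 0x400abb203040))) (.nd (nat_lit 46089379904) (.lf (nat_lit 0x400abb242040)) (.lf (nat_lit 0x400abb243040)))) (.nd (nat_lit 46089904192) (.nd (nat_lit 46089642048) (.lf (nat_lit 0x400abb282040)) (.lf (nat_lit 0x400abb2c2040))) (.nd (nat_lit 46090166336) (.lf (nat_lit 0x400abb302040)) (.lf (nat_lit 0x400abc0c2040))))) (.nd (nat_lit 46104850561) (.nd (nat_lit 46104850496) (.nd (nat_lit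 46104846400) (.lf (nat_lit 0x400abc102040)) (.lf (nat_lit 0x400abc103040))) (.nd (nat_lit 46104850560) (.lf (nat_lit 0x400abc103080)) (.lf (nat_lit 0x400abc103081)))) (.nd (nat_lit 46105112640) (.nd (nat_lit 46105108544) (.lf (nat_lit 0x400abc142040)) (.lf (nat_lit 0x400abc143040))) (.nd (nat_lit 46105112704) (.lf (nat_lit 0x400abc143080)) (.lf (nat_lit 0x400abc143081)))))) (.nd (nat_lit 46105382976) (.nd (nat_lit 46105374784) (.nd (nat_lit 46105116800) (.nd (nat_lit 46105116736) (.lf (nat_lit 0x400abc144040)) (.lf (nat_lit 0x400abc144080))) (.nd (nat_lit 46105370688) (.lf (nat_lit 0x400abc182040)) (.lf (nat_lit 0x400abc183040)))) (.nd (nat_lit 46105378880) (.nd (nat_lit 46105374848) (.lf (nat_lit 0x400abc183080)) (.lf (nat_lit 0x400abc184040))) (.nd (nat_lit 46105378944) (.lf (nat_lit 0x400abc184080)) (.lf (nat_lit 0x400abc185040))))) (.nd (nat_lit 46105641024) (.nd (nat_lit 46105636928) (.nd (nat_lit 46105632832) (.lf (nat_lit 0x400abc1c2040))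 (.lf (nat_lit 0x400abc1c3040))) (.nd (nat_lit 46105636992) (.lf (nat_lit 0x400abc1c3080)) (.lf (nat_lit 0x400abc1c4040)))) (.nd (nat_lit 46105899072) (.nd (nat_lit 46105894976) (.lf (nat_lit 0x400abc202040)) (.lf (nat_lit 0x400abc203040))) (.nd (nat_lit 46105903168) (.lf (nat_lit 0x400abc204040)) (.lf (nat_lit 0x400abc242040))))))) (.nd (nat_lit 46121889921) (.nd (nat_lit 46121361472) (.nd (nat_lit 46106681408) (.nd (nat_lit 46106419264) (.nd (nat_lit 46106161216) (.lf (nat_lit 0x400abc243040)) (.lf (nat_lit 0x400abc282040))) (.nd (nat_lit 46106423360) (.lf (nat_lit 0x400abc283040)) (.lf (nat_lit 0x400abc2c2040)))) (.nd (nat_lit 46106964032) (.nd (nat_lit 46106943552) (.lf (nat_lit 0x400abc302040)) (.lf (nat_lit 0xc2200abc307040))) (.nd (nat_lit 46107205696) (.lf (nat_lit 0x400abc342040)) (.lf (nat_lit 0x400abd0c2040))))) (.nd (nat_lit 46121627777) (.nd (nat_lit 46121627712) (.nd (nat_lit 46121623616) (.lf (nat_lit 0x400abd102040))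 (.lf (nat_lit 0x400abd103040))) (.nd (nat_lit 46121627776) (.lf (nat_lit 0x400abd103080)) (.lf (nat_lit 0x400abd103081)))) (.nd (nat_lit 46121889856) (.nd (nat_lit 46121885760) (.lf (nat_lit 0x400abd142040)) (.lf (nat_lit 0x400abd143040))) (.nd (nat_lit 46121889920) (.lf (nat_lit 0x400abd143080)) (.lf (nat_lit 0x400abd143081)))))) (.nd (nat_lit 46122156160) (.nd (nat_lit 46122152000) (.nd (nat_lit 46121894016) (.nd (nat_lit 46121893952) (.lf (nat_lit 0x400abd144040)) (.lf (nat_lit 0x400abd144080))) (.nd (nat_lit 46122147904) (.lf (nat_lit 0x400abd182040)) (.lf (nat_lit 0x400abd183040)))) (.nd (nat_lit 46122152065) (.nd (nat_lit 46122152064) (.lf (nat_lit 0x400abd183080)) (.lf (nat_lit 0x400abd183081))) (.nd (nat_lit 46122156096) (.lf (nat_lit 0x400abd184040)) (.lf (nat_lit 0x400abd184080))))) (.nd (nat_lit 46122414208) (.nd (nat_lit 46122410048) (.nd (nat_lit 46122160192) (.lf (nat_lit 0x400abd185040)) (.lf (nat_lit 0x400abd1c2040)))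 (.nd (nat_lit 46122414144) (.lf (nat_lit 0x400abd1c3040)) (.lf (nat_lit 0x400abd1c3080)))) (.nd (nat_lit 46122422336) (.nd (nat_lit 46122418240) (.lf (nat_lit 0x400abd1c4040)) (.lf (nat_lit 0x400abd1c5040))) (.nd (nat_lit 46122426688) (.lf (nat_lit 0x184000abd1c6140)) (.lf (nat_lit 0x400abd202040))))))))
noncomputable def jt26_5 : BT := (.nd (nat_lit 46138662976) (.nd (nat_lit 46123458624) (.nd (nat_lit 46122942528) (.nd (nat_lit 46122692672) (.nd (nat_lit 46122676352) (.nd (nat_lit 46122676288) (.lf (nat_lit 0x400abd203040)) (.lf (nat_lit 0x400abd203080))) (.nd (nat_lit 46122680384) (.lf (nat_lit 0x400abd204040)) (.lf (nat_lit 0xc2200abd207040)))) (.nd (nat_lit 46122938432) (.nd (nat_lit 46122934336) (.lf (nat_lit 0x400abd242040)) (.lf (nat_lit 0x400abd243040))) (.nd (nat_lit 46122938496) (.lf (nat_lit 0x400abd243080)) (.lf (nat_lit 0x400abd244040))))) (.nd (nat_lit 46123200576) (.nd (nat_lit 46122958912) (.nd (nat_lit 46122954816)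 (.lf (nat_lit 0xc2200abd247040)) (.lf (nat_lit 0xc2200abd248040))) (.nd (nat_lit 46123196480) (.lf (nat_lit 0x400abd282040)) (.lf (nat_lit 0x400abd283040)))) (.nd (nat_lit 46123212928) (.nd (nat_lit 46123204672) (.lf (nat_lit 0x400abd284040)) (.lf (nat_lit 0xc2200abd286080))) (.nd (nat_lit 46123216960) (.lf (nat_lit 0xc2200abd287040)) (.lf (nat_lit 0x400abd2c2040)))))) (.nd (nat_lit 46123987008) (.nd (nat_lit 46123724864) (.nd (nat_lit 46123466816) (.nd (nat_lit 46123462720) (.lf (nat_lit 0x400abd2c3040)) (.lf (nat_lit 0x400abd2c4040))) (.nd (nat_lit 46123720768) (.lf (nat_lit 0x400abd302040)) (.lf (nat_lit 0x400abd303040)))) (.nd (nat_lit 46123733056) (.nd (nat_lit 46123728960) (.lf (nat_lit 0x400abd304040)) (.lf (nat_lit 0x400abd305040))) (.nd (nat_lit 46123982912) (.lf (nat_lit 0x400abd342040)) (.lf (nat_lit 0x400abd343040))))) (.nd (nat_lit 46138400832) (.nd (nat_lit 46123991104) (.nd (nat_lit 46123987072) (.lf (nat_lit 0x400abd343080))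 (.lf (nat_lit 0x400abd344040))) (.nd (nat_lit 46138138688) (.lf (nat_lit 0x400abe0c2040)) (.lf (nat_lit 0x400abe102040)))) (.nd (nat_lit 46138404992) (.nd (nat_lit 46138404928) (.lf (nat_lit 0x400abe103040)) (.lf (nat_lit 0x400abe103080))) (.nd (nat_lit 46138404993) (.lf (nat_lit 0x400abe103081)) (.lf (nat_lit 0x400abe142040))))))) (.nd (nat_lit 46138937473) (.nd (nat_lit 46138925120) (.nd (nat_lit 46138671168) (.nd (nat_lit 46138667136) (.nd (nat_lit 46138667072) (.lf (nat_lit 0x400abe143040)) (.lf (nat_lit 0x400abe143080))) (.nd (nat_lit 46138667137) (.lf (nat_lit 0x400abe143081)) (.lf (nat_lit 0x400abe144040)))) (.nd (nat_lit 46138671233) (.nd (nat_lit 46138671232) (.lf (nat_lit 0x400abe144080)) (.lf (nat_lit 0x400abe144081))) (.nd (nat_lit 46138671296) (.lf (nat_lit 0x400abe1440c0)) (.lf (nat_lit 0x400abe182040))))) (.nd (nat_lit 46138933312) (.nd (nat_lit 46138929280) (.nd (nat_lit 46138929216) (.lf (nat_lit 0x400abe183040)) (.lf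 (nat_lit 0x400abe183080))) (.nd (nat_lit 46138929281) (.lf (nat_lit 0x400abe183081)) (.lf (nat_lit 0x400abe184040)))) (.nd (nat_lit 46138937408) (.nd (nat_lit 46138933376) (.lf (nat_lit 0x400abe184080)) (.lf (nat_lit 0x400abe185040))) (.nd (nat_lit 46138937472) (.lf (nat_lit 0x400abe185080)) (.lf (nat_lit 0xc2200abe185081)))))) (.nd (nat_lit 46139195520) (.nd (nat_lit 46139191360) (.nd (nat_lit 46138937600) (.nd (nat_lit 46138937536) (.lf (nat_lit 0xc2200abe1850c0)) (.lf (nat_lit 0xc2200abe185100))) (.nd (nat_lit 46139187264) (.lf (nat_lit 0x400abe1c2040)) (.lf (nat_lit 0x400abe1c3040)))) (.nd (nat_lit 46139191425) (.nd (nat_lit 46139191424) (.lf (nat_lit 0x400abe1c3080)) (.lf (nat_lit 0x400abe1c3081))) (.nd (nat_lit 46139195456) (.lf (nat_lit 0x400abe1c4040)) (.lf (nat_lit 0x400abe1c4080))))) (.nd (nat_lit 46139199744) (.nd (nat_lit 46139199616) (.nd (nat_lit 46139199552) (.lf (nat_lit 0x400abe1c5040)) (.lf (nat_lit 0x400abe1c5080)))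 (.nd (nat_lit 46139199680) (.lf (nat_lit 0xc2200abe1c50c0)) (.lf (nat_lit 0xc2200abe1c5100)))) (.nd (nat_lit 46139203712) (.nd (nat_lit 46139203648) (.lf (nat_lit 0x400abe1c6040)) (.lf (nat_lit 0xc2200abe1c6080))) (.nd (nat_lit 46139203776) (.lf (nat_lit 0xc2200abe1c60c0)) (.lf (nat_lit 0x400abe202040))))))))
noncomputable def jt26_6 : BT := (.nd (nat_lit 46154915904) (.nd (nat_lit 46139723840) (.nd (nat_lit 46139465792) (.nd (nat_lit 46139457664) (.nd (nat_lit 46139453568) (.nd (nat_lit 46139453504) (.lf (nat_lit 0x400abe203040)) (.lf (nat_lit 0x400abe203080))) (.nd (nat_lit 46139457600) (.lf (nat_lit 0x400abe204040)) (.lf (nat_lit 0x400abe204080)))) (.nd (nat_lit 46139461761) (.nd (nat_lit 46139461696) (.lf (nat_lit 0x400abe205040)) (.lf (nat_lit 0xc2200abe205081))) (.nd (nat_lit 46139461824) (.lf (nat_lit 0xc2200abe2050c0)) (.lf (nat_lit 0x400abe206040))))) (.nd (nat_lit 46139715648) (.nd (nat_lit 46139469888) (.nd (nat_lit 46139465856)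 (.lf (nat_lit 0xc2200abe206080)) (.lf (nat_lit 0xc2200abe207040))) (.nd (nat_lit 46139711552) (.lf (nat_lit 0x400abe242040)) (.lf (nat_lit 0x400abe243040)))) (.nd (nat_lit 46139719744) (.nd (nat_lit 46139715712) (.lf (nat_lit 0x400abe243080)) (.lf (nat_lit 0x400abe244040))) (.nd (nat_lit 46139719808) (.lf (nat_lit 0x400abe244080)) (.lf (nat_lit 0x400abe245040)))))) (.nd (nat_lit 46139985984) (.nd (nat_lit 46139977792) (.nd (nat_lit 46139727936) (.nd (nat_lit 46139723904) (.lf (nat_lit 0x400abe245080)) (.lf (nat_lit 0x400abe246040))) (.nd (nat_lit 46139973696) (.lf (nat_lit 0x400abe282040)) (.lf (nat_lit 0x400abe283040)))) (.nd (nat_lit 46139981888) (.nd (nat_lit 46139977856) (.lf (nat_lit 0x400abe283080)) (.lf (nat_lit 0x400abe284040))) (.nd (nat_lit 46139981952) (.lf (nat_lit 0x400abe284080)) (.lf (nat_lit 0x400abe285040))))) (.nd (nat_lit 46140244032) (.nd (nat_lit 46140239936) (.nd (nat_lit 46140235840) (.lf (nat_lit 0x400abe2c2040))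 (.lf (nat_lit 0x400abe2c3040))) (.nd (nat_lit 46140240000) (.lf (nat_lit 0x400abe2c3080)) (.lf (nat_lit 0x400abe2c4040)))) (.nd (nat_lit 46140502080) (.nd (nat_lit 46140497984) (.lf (nat_lit 0x400abe302040)) (.lf (nat_lit 0x400abe303040))) (.nd (nat_lit 46140760128) (.lf (nat_lit 0x400abe342040)) (.lf (nat_lit 0x400abf0c2040))))))) (.nd (nat_lit 46155706496) (.nd (nat_lit 46155444353) (.nd (nat_lit 46155182209) (.nd (nat_lit 46155182144) (.nd (nat_lit 46155178048) (.lf (nat_lit 0x400abf102040)) (.lf (nat_lit 0x400abf103040))) (.nd (nat_lit 46155182208) (.lf (nat_lit 0x400abf103080)) (.lf (nat_lit 0x400abf103081)))) (.nd (nat_lit 46155444288) (.nd (nat_lit 46155440192) (.lf (nat_lit 0x400abf142040)) (.lf (nat_lit 0x400abf143040))) (.nd (nat_lit 46155444352) (.lf (nat_lit 0x400abf143080)) (.lf (nat_lit 0x400abf143081))))) (.nd (nat_lit 46155448512) (.nd (nat_lit 46155448448) (.nd (nat_lit 46155448384) (.lf (nat_lit 0x400abf144040)) (.lf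 (nat_lit 0x400abf144080))) (.nd (nat_lit 46155448449) (.lf (nat_lit 0x400abf144081)) (.lf (nat_lit 0x400abf1440c0)))) (.nd (nat_lit 46155702336) (.nd (nat_lit 46155448513) (.lf (nat_lit 0xc2200abf1440c1)) (.lf (nat_lit 0x400abf182040))) (.nd (nat_lit 46155706432) (.lf (nat_lit 0x400abf183040)) (.lf (nat_lit 0x400abf183080)))))) (.nd (nat_lit 46155714688) (.nd (nat_lit 46155710593) (.nd (nat_lit 46155710528) (.nd (nat_lit 46155706497) (.lf (nat_lit 0x400abf183081)) (.lf (nat_lit 0x400abf184040))) (.nd (nat_lit 46155710592) (.lf (nat_lit 0x400abf184080)) (.lf (nat_lit 0x400abf184081)))) (.nd (nat_lit 46155710657) (.nd (nat_lit 46155710656) (.lf (nat_lit 0x400abf1840c0)) (.lf (nat_lit 0xc2200abf1840c1))) (.nd (nat_lit 46155714624) (.lf (nat_lit 0x400abf185040)) (.lf (nat_lit 0x400abf185080))))) (.nd (nat_lit 46155968576) (.nd (nat_lit 46155714752) (.nd (nat_lit 46155714689) (.lf (nat_lit 0xc2200abf185081)) (.lf (nat_lit 0xc2200abf1850c0)))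 (.nd (nat_lit 46155964480) (.lf (nat_lit 0x400abf1c2040)) (.lf (nat_lit 0x400abf1c3040)))) (.nd (nat_lit 46155968641) (.nd (nat_lit 46155968640) (.lf (nat_lit 0x400abf1c3080)) (.lf (nat_lit 0x400abf1c3081))) (.nd (nat_lit 46155972672) (.lf (nat_lit 0x400abf1c4040)) (.lf (nat_lit 0x400abf1c4080))))))))
noncomputable def jt26_7 : BT := (.nd (nat_lit 46172225728) (.nd (nat_lit 46156496960) (.nd (nat_lit 46156230784) (.nd (nat_lit 46155976832) (.nd (nat_lit 46155972800) (.nd (nat_lit 46155972737) (.lf (nat_lit 0x400abf1c4081)) (.lf (nat_lit 0x400abf1c40c0))) (.nd (nat_lit 46155976768) (.lf (nat_lit 0x400abf1c5040)) (.lf (nat_lit 0x400abf1c5080)))) (.nd (nat_lit 46156226624) (.nd (nat_lit 46155980864) (.lf (nat_lit 0x400abf1c6040)) (.lf (nat_lit 0x400abf202040))) (.nd (nat_lit 46156230720) (.lf (nat_lit 0x400abf203040)) (.lf (nat_lit 0x400abf203080))))) (.nd (nat_lit 46156238912) (.nd (nat_lit 46156234816) (.nd (nat_lit 46156230785) (.lf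 (nat_lit 0x400abf203081)) (.lf (nat_lit 0x400abf204040))) (.nd (nat_lit 46156234880) (.lf (nat_lit 0x400abf204080)) (.lf (nat_lit 0x400abf205040)))) (.nd (nat_lit 46156492864) (.nd (nat_lit 46156488768) (.lf (nat_lit 0x400abf242040)) (.lf (nat_lit 0x400abf243040))) (.nd (nat_lit 46156492928) (.lf (nat_lit 0x400abf243080)) (.lf (nat_lit 0x400abf244040)))))) (.nd (nat_lit 46171959425) (.nd (nat_lit 46171693120) (.nd (nat_lit 46156755008) (.nd (nat_lit 46156750912) (.lf (nat_lit 0x400abf282040)) (.lf (nat_lit 0x400abf283040))) (.nd (nat_lit 46157013056) (.lf (nat_lit 0x400abf2c2040)) (.lf (nat_lit 0x400ac00c2040)))) (.nd (nat_lit 46171959360) (.nd (nat_lit 46171955264) (.lf (nat_lit 0x400ac0102040)) (.lf (nat_lit 0x400ac0103040))) (.nd (nat_lit 46171959424) (.lf (nat_lit 0x400ac0103080)) (.lf (nat_lit 0x400ac0103081))))) (.nd (nat_lit 46172221569) (.nd (nat_lit 46172221504) (.nd (nat_lit 46172217408) (.lf (nat_lit 0x400ac0142040)) (.lf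 (nat_lit 0x400ac0143040))) (.nd (nat_lit 46172221568) (.lf (nat_lit 0x400ac0143080)) (.lf (nat_lit 0x400ac0143081)))) (.nd (nat_lit 46172225664) (.nd (nat_lit 46172225600) (.lf (nat_lit 0x400ac0144040)) (.lf (nat_lit 0x400ac0144080))) (.nd (nat_lit 46172225665) (.lf (nat_lit 0x400ac0144081)) (.lf (nat_lit 0x400ac01440c0))))))) (.nd (nat_lit 46188732480) (.nd (nat_lit 46172741696) (.nd (nat_lit 46172483713) (.nd (nat_lit 46172483648) (.nd (nat_lit 46172479552) (.lf (nat_lit 0x400ac0182040)) (.lf (nat_lit 0x400ac0183040))) (.nd (nat_lit 46172483712) (.lf (nat_lit 0x400ac0183080)) (.lf (nat_lit 0x400ac0183081)))) (.nd (nat_lit 46172487808) (.nd (nat_lit 46172487744) (.lf (nat_lit 0x400ac0184040)) (.lf (nat_lit 0x400ac0184080))) (.nd (nat_lit 46172491840) (.lf (nat_lit 0x400ac0185040)) (.lf (nat_lit 0x400ac01c2040))))) (.nd (nat_lit 46173003840) (.nd (nat_lit 46172745856) (.nd (nat_lit 46172745792) (.lf (nat_lit 0x400ac01c3040)) (.lf (nat_lit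 0x400ac01c3080))) (.nd (nat_lit 46172749888) (.lf (nat_lit 0x400ac01c4040)) (.lf (nat_lit 0x400ac0202040)))) (.nd (nat_lit 46173265984) (.nd (nat_lit 46173007936) (.lf (nat_lit 0x400ac0203040)) (.lf (nat_lit 0x400ac0242040))) (.nd (nat_lit 46188470336) (.lf (nat_lit 0x400ac10c2040)) (.lf (nat_lit 0x400ac1102040)))))) (.nd (nat_lit 46189256768) (.nd (nat_lit 46188994624) (.nd (nat_lit 46188736640) (.nd (nat_lit 46188736576) (.lf (nat_lit 0x400ac1103040)) (.lf (nat_lit 0x400ac1103080))) (.nd (nat_lit 46188736641) (.lf (nat_lit 0x400ac1103081)) (.lf (nat_lit 0x400ac1142040)))) (.nd (nat_lit 46188998784) (.nd (nat_lit 46188998720) (.lf (nat_lit 0x400ac1143040)) (.lf (nat_lit 0x400ac1143080))) (.nd (nat_lit 46189002816) (.lf (nat_lit 0x400ac1144040)) (.lf (nat_lit 0x400ac1182040))))) (.nd (nat_lit 46205509696) (.nd (nat_lit 46189518912) (.nd (nat_lit 46189260864) (.lf (nat_lit 0x400ac1183040)) (.lf (nat_lit 0x400ac11c2040))) (.nd (nat_lit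 46205247552) (.lf (nat_lit 0x400ac20c2040)) (.lf (nat_lit 0x400ac2102040)))) (.nd (nat_lit 46205771840) (.nd (nat_lit 46205513792) (.lf (nat_lit 0x400ac2103040)) (.lf (nat_lit 0x400ac2142040))) (.nd (nat_lit 46222024768) (.lf (nat_lit 0x400ac30c2040)) (.lf (nat_lit 0x123200bc51440c2))))))))
noncomputable def jt26 : BT := (.nd (nat_lit 46088863808) (.nd (nat_lit 45953855617) (.nd (nat_lit 45802860608) jt26_0 jt26_1) (.nd (nat_lit 46038265920) jt26_2 jt26_3)) (.nd (nat_lit 46139449408) (.nd (nat_lit 46122672192) jt26_4 jt26_5) (.nd (nat_lit 46155972736) jt26_6 jt26_7)))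
def jg26 : Cfg := ⟨106, 97, 14, 21, 71⟩
noncomputable def jX26 : F3 := XRc 21 99 99 99 0
noncomputable def jt27_0 : BT := (.nd (nat_lit 45961715776) (.nd (nat_lit 45896704064) (.nd (nat_lit 45880197184) (.nd (nat_lit 45863682112) (.nd (nat_lit 45863673920) (.nd (nat_lit 45863411776) (.lf (nat_lit 0x3061a00aadac2040)) (.lf (nat_lit 0x3061a00aadb02040))) (.nd (nat_lit 45863678016) (.lf (nat_lit 0x3061a00aadb03040)) (.lf (nat_lit 0x3061a00aadb04040)))) (.nd (nat_lit 45880188992) (.nd (nat_lit 45879926848) (.lf (nat_lit 0x3061a00aaea82040)) (.lf (nat_lit 0x3061a00aaeac2040))) (.nd (nat_lit 45880193088) (.lf (nat_lit 0x3061a00aaeac3040)) (.lf (nat_lit 0x3061a00aaeac4040))))) (.nd (nat_lit 45896179776) (.nd (nat_lit 45880455232) (.nd (nat_lit 45880451136) (.lf (nat_lit 0x3061a00aaeb02040)) (.lf (nat_lit 0x3061a00aaeb03040))) (.nd (nat_lit 45880713280) (.lf (nat_lit 0x3061a00aaeb42040)) (.lf (nat_lit 0x3061a00aafa02040)))) (.nd (nat_lit 45896446016)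 (.nd (nat_lit 45896441920) (.lf (nat_lit 0x3061a00aafa42040)) (.lf (nat_lit 0x3061a00aafa43040))) (.nd (nat_lit 45896450112) (.lf (nat_lit 0x3061a00aafa44040)) (.lf (nat_lit 0x3061a00aafa82040)))))) (.nd (nat_lit 45929209920) (.nd (nat_lit 45912956992) (.nd (nat_lit 45896966208) (.nd (nat_lit 45896708160) (.lf (nat_lit 0x3061a00aafa83040)) (.lf (nat_lit 0x3061a00aafac2040))) (.nd (nat_lit 45912694848) (.lf (nat_lit 0x3061a00ab09c2040)) (.lf (nat_lit 0x3061a00ab0a02040)))) (.nd (nat_lit 45913219136) (.nd (nat_lit 45912961088) (.lf (nat_lit 0x3061a00ab0a03040)) (.lf (nat_lit 0x3061a00ab0a42040))) (.nd (nat_lit 45928947776) (.lf (nat_lit 0x3061a00ab1942040)) (.lf (nat_lit 0x3061a00ab1982040))))) (.nd (nat_lit 45945462848) (.nd (nat_lit 45929472064) (.nd (nat_lit 45929214016) (.lf (nat_lit 0x3061a00ab1983040)) (.lf (nat_lit 0x3061a00ab19c2040))) (.nd (nat_lit 45945200704) (.lf (nat_lit 0x3061a00ab28c2040)) (.lf (nat_lit 0x3061a00ab2902040))))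 (.nd (nat_lit 45945724992) (.nd (nat_lit 45945466944) (.lf (nat_lit 0x3061a00ab2903040)) (.lf (nat_lit 0x3061a00ab2942040))) (.nd (nat_lit 45961453632) (.lf (nat_lit 0x3061a00ab3842040)) (.lf (nat_lit 0x3061a00ab3882040))))))) (.nd (nat_lit 46026465344) (.nd (nat_lit 45994221632) (.nd (nat_lit 45977968704) (.nd (nat_lit 45961977920) (.nd (nat_lit 45961719872) (.lf (nat_lit 0x3061a00ab3883040)) (.lf (nat_lit 0x3061a00ab38c2040))) (.nd (nat_lit 45977706560) (.lf (nat_lit 0x1081a00ab47c2040)) (.lf (nat_lit 0x3061a00ab4802040)))) (.nd (nat_lit 45978230848) (.nd (nat_lit 45977972800) (.lf (nat_lit 0x3061a00ab4803040)) (.lf (nat_lit 0x3061a00ab4842040))) (.nd (nat_lit 45993959488) (.lf (nat_lit 0x1081a00ab5742040)) (.lf (nat_lit 0x1081a00ab5782040))))) (.nd (nat_lit 46010474560) (.nd (nat_lit 45994483776) (.nd (nat_lit 45994225728) (.lf (nat_lit 0x1081a00ab5783040)) (.lf (nat_lit 0x1081a00ab57c2040))) (.nd (nat_lit 46010212416) (.lf (nat_lit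 0x1081a00ab66c2040)) (.lf (nat_lit 0x1081a00ab6702040)))) (.nd (nat_lit 46010736704) (.nd (nat_lit 46010478656) (.lf (nat_lit 0x1081a00ab6703040)) (.lf (nat_lit 0x1081a00ab6742040))) (.nd (nat_lit 46026203200) (.lf (nat_lit 0x1081a00ab7602040)) (.lf (nat_lit 0x1081a00ab7642040)))))) (.nd (nat_lit 46042722368) (.nd (nat_lit 46041931840) (.nd (nat_lit 46026731584) (.nd (nat_lit 46026727488) (.lf (nat_lit 0x1081a00ab7682040)) (.lf (nat_lit 0x1081a00ab7683040))) (.nd (nat_lit 46026989632) (.lf (nat_lit 0x1081a00ab76c2040)) (.lf (nat_lit 0x81a00ab8502040)))) (.nd (nat_lit 46042456128) (.nd (nat_lit 46042193984) (.lf (nat_lit 0x1081a00ab8542040)) (.lf (nat_lit 0x1081a00ab8582040))) (.nd (nat_lit 46042718272) (.lf (nat_lit 0x1081a00ab85c2040)) (.lf (nat_lit 0x1081a00ab85c3040))))) (.nd (nat_lit 46057660480) (.nd (nat_lit 46042984512) (.nd (nat_lit 46042980416) (.lf (nat_lit 0x1081a00ab8602040)) (.lf (nat_lit 0x1081a00ab8603040))) (.nd (nat_lit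 46043242560) (.lf (nat_lit 0x1081a00ab8642040)) (.lf (nat_lit 0x81a00ab9402040)))) (.nd (nat_lit 46058184768) (.nd (nat_lit 46057922624) (.lf (nat_lit 0x81a00ab9442040)) (.lf (nat_lit 0x81a00ab9482040))) (.nd (nat_lit 46058446912) (.lf (nat_lit 0xc2200ab94c2040)) (.lf (nat_lit 0xc2200ab9502040))))))))
noncomputable def jt27_1 : BT := (.nd (nat_lit 46075748416) (.nd (nat_lit 46074699840) (.nd (nat_lit 46058979392) (.nd (nat_lit 46058971200) (.nd (nat_lit 46058713152) (.lf (nat_lit 0xc2200ab9503040)) (.lf (nat_lit 0x1081a00ab9542040))) (.nd (nat_lit 46058975296) (.lf (nat_lit 0x1081a00ab9543040)) (.lf (nat_lit 0x1081a00ab9544040)))) (.nd (nat_lit 46059237440) (.nd (nat_lit 46059233344) (.lf (nat_lit 0x1081a00ab9582040)) (.lf (nat_lit 0x1081a00ab9583040))) (.nd (nat_lit 46059495488) (.lf (nat_lit 0x1081a00ab95c2040)) (.nd (nat_lit 46074437696) (.lf (nat_lit 0xc2200aba402040)) (.lf (nat_lit 0xc2200aba442040)))))) (.nd (nat_lit 46075228224)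 (.nd (nat_lit 46074961984) (.nd (nat_lit 46074703936) (.lf (nat_lit 0xc2200aba443040)) (.lf (nat_lit 0xc2200aba482040))) (.nd (nat_lit 46074966080) (.lf (nat_lit 0xc2200aba483040)) (.nd (nat_lit 46075224128) (.lf (nat_lit 0xc2200aba4c2040)) (.lf (nat_lit 0xc2200aba4c3040))))) (.nd (nat_lit 46075232320) (.nd (nat_lit 46075228288) (.lf (nat_lit 0xc2200aba4c3080)) (.lf (nat_lit 0xc2200aba4c4040))) (.nd (nat_lit 46075486272) (.lf (nat_lit 0xc2200aba502040)) (.nd (nat_lit 46075490368) (.lf (nat_lit 0xc2200aba503040)) (.lf (nat_lit 0x1081a00aba542040))))))) (.nd (nat_lit 46091739200) (.nd (nat_lit 46091227200) (.nd (nat_lit 46091219008) (.nd (nat_lit 46091214912) (.lf (nat_lit 0xc2200abb402040)) (.lf (nat_lit 0xc2200abb403040))) (.nd (nat_lit 46091223104) (.lf (nat_lit 0xc2200abb404040)) (.lf (nat_lit 0xc2200abb405040)))) (.nd (nat_lit 46091481152) (.nd (nat_lit 46091477056) (.lf (nat_lit 0xc2200abb442040)) (.lf (nat_lit 0xc2200abb443040)))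 (.nd (nat_lit 46091481216) (.lf (nat_lit 0xc2200abb443080)) (.nd (nat_lit 46091485248) (.lf (nat_lit 0xc2200abb444040)) (.lf (nat_lit 0xc2200abb482040)))))) (.nd (nat_lit 46107992128) (.nd (nat_lit 46092001344) (.nd (nat_lit 46091743296) (.lf (nat_lit 0xc2200abb483040)) (.lf (nat_lit 0xc2200abb4c2040))) (.nd (nat_lit 46107467840) (.lf (nat_lit 0x400abc382040)) (.nd (nat_lit 46107729984) (.lf (nat_lit 0x400abc3c2040)) (.lf (nat_lit 0xc2200abc402040))))) (.nd (nat_lit 46108254272) (.nd (nat_lit 46107996224) (.lf (nat_lit 0xc2200abc403040)) (.lf (nat_lit 0xc2200abc442040))) (.nd (nat_lit 46124245056) (.lf (nat_lit 0x400abd382040)) (.nd (nat_lit 46124249152) (.lf (nat_lit 0x400abd383040)) (.lf (nat_lit 0x400abd3c2040))))))))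
noncomputable def jt27 : BT := (.nd (nat_lit 46058709056) jt27_0 jt27_1)
def jg27 : Cfg := ⟨106, 97, 46, 21, 68⟩
noncomputable def jX27 : F3 := XRc 20 99 99 99 0
noncomputable def jt28_0 : BT := (.nd (nat_lit 47866454080) (.nd (nat_lit 47799345216) (.nd (nat_lit 47749017664) (.nd (nat_lit 47731974208) (.nd (nat_lit 47715196992) (.nd (nat_lit 47698419776) (.lf (nat_lit 0x400b1b0c2040)) (.lf (nat_lit 0x400b1c0c2040))) (.nd (nat_lit 47715459136) (.lf (nat_lit 0x400b1c102040)) (.lf (nat_lit 0x400b1d0c2040)))) (.nd (nat_lit 47748751424) (.nd (nat_lit 47732236352) (.lf (nat_lit 0x400b1d102040)) (.lf (nat_lit 0x400b1e0c2040))) (.nd (nat_lit 47749013568) (.lf (nat_lit 0x400b1e102040)) (.lf (nat_lit 0x400b1e103040))))) (.nd (nat_lit 47782305856) (.nd (nat_lit 47765790784) (.nd (nat_lit 47765528640) (.lf (nat_lit 0x400b1f0c2040)) (.lf (nat_lit 0x400b1f102040))) (.nd (nat_lit 47765794880) (.lf (nat_lit 0x400b1f103040)) (.lf (nat_lit 0x400b200c2040))))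 (.nd (nat_lit 47782572096) (.nd (nat_lit 47782568000) (.lf (nat_lit 0x400b20102040)) (.lf (nat_lit 0x400b20103040))) (.nd (nat_lit 47799083072) (.lf (nat_lit 0x400b210c2040)) (.lf (nat_lit 0x400b21102040)))))) (.nd (nat_lit 47832899648) (.nd (nat_lit 47816122432) (.nd (nat_lit 47799349376) (.nd (nat_lit 47799349312) (.lf (nat_lit 0x400b21103040)) (.lf (nat_lit 0x400b21103080))) (.nd (nat_lit 47815860288) (.lf (nat_lit 0x400b220c2040)) (.lf (nat_lit 0x400b22102040)))) (.nd (nat_lit 47816126592) (.nd (nat_lit 47816126528) (.lf (nat_lit 0x400b22103040)) (.lf (nat_lit 0x400b22103080))) (.nd (nat_lit 47832637504) (.lf (nat_lit 0x400b230c2040)) (.lf (nat_lit 0x400b23102040))))) (.nd (nat_lit 47849676864) (.nd (nat_lit 47832903808) (.nd (nat_lit 47832903744) (.lf (nat_lit 0x400b23103040)) (.lf (nat_lit 0x400b23103080))) (.nd (nat_lit 47849414720) (.lf (nat_lit 0x400b240c2040)) (.lf (nat_lit 0x400b24102040)))) (.nd (nat_lit 47849681024) (.nd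 (nat_lit 47849680960) (.lf (nat_lit 0x400b24103040)) (.lf (nat_lit 0x400b24103080))) (.nd (nat_lit 47866191936) (.lf (nat_lit 0x400b250c2040)) (.lf (nat_lit 0x400b25102040))))))) (.nd (nat_lit 47916789824) (.nd (nat_lit 47883235457) (.nd (nat_lit 47882969152) (.nd (nat_lit 47866458240) (.nd (nat_lit 47866458176) (.lf (nat_lit 0x400b25103040)) (.lf (nat_lit 0x400b25103080))) (.nd (nat_lit 47866458241) (.lf (nat_lit 0x400b25103081)) (.lf (nat_lit 0x400b260c2040)))) (.nd (nat_lit 47883235392) (.nd (nat_lit 47883231296) (.lf (nat_lit 0x400b26102040)) (.lf (nat_lit 0x400b26103040))) (.nd (nat_lit 47883235456) (.lf (nat_lit 0x400b26103080)) (.lf (nat_lit 0x400b26103081))))) (.nd (nat_lit 47900012672) (.nd (nat_lit 47900008512) (.nd (nat_lit 47899746368) (.lf (nat_lit 0x400b270c2040)) (.lf (nat_lit 0x400b27102040))) (.nd (nat_lit 47900012608) (.lf (nat_lit 0x400b27103040)) (.lf (nat_lit 0x400b27103080)))) (.nd (nat_lit 47916523584) (.nd (nat_lit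 47900012673) (.lf (nat_lit 0x400b27103081)) (.lf (nat_lit 0x400b280c2040))) (.nd (nat_lit 47916785728) (.lf (nat_lit 0x400b28102040)) (.lf (nat_lit 0x400b28103040)))))) (.nd (nat_lit 47950078016) (.nd (nat_lit 47933562944) (.nd (nat_lit 47916789889) (.nd (nat_lit 47916789888) (.lf (nat_lit 0x400b28103080)) (.lf (nat_lit 0x400b28103081))) (.nd (nat_lit 47933300800) (.lf (nat_lit 0x400b290c2040)) (.lf (nat_lit 0x400b29102040)))) (.nd (nat_lit 47933567104) (.nd (nat_lit 47933567040) (.lf (nat_lit 0x400b29103040)) (.lf (nat_lit 0x400b29103080))) (.nd (nat_lit 47933567105) (.lf (nat_lit 0x400b29103081)) (.lf (nat_lit 0x400b2a0c2040))))) (.nd (nat_lit 47950344321) (.nd (nat_lit 47950344256) (.nd (nat_lit 47950340160) (.lf (nat_lit 0x400b2a102040)) (.lf (nat_lit 0x400b2a103040))) (.nd (nat_lit 47950344320) (.lf (nat_lit 0x400b2a103080)) (.lf (nat_lit 0x400b2a103081)))) (.nd (nat_lit 47967117376) (.nd (nat_lit 47966855232) (.lf (nat_lit 0x400b2b0c2040))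 (.lf (nat_lit 0x400b2b102040))) (.nd (nat_lit 47967121472) (.lf (nat_lit 0x400b2b103040)) (.lf (nat_lit 0x400b2b103080))))))))
noncomputable def jt28_1 : BT := (.nd (nat_lit 48051265600) (.nd (nat_lit 48017449024) (.nd (nat_lit 47984156736) (.nd (nat_lit 47983894592) (.nd (nat_lit 47967379520) (.nd (nat_lit 47967121537) (.lf (nat_lit 0x400b2b103081)) (.lf (nat_lit 0x400b2b142040))) (.nd (nat_lit 47983632448) (.lf (nat_lit 0x400b2c0c2040)) (.lf (nat_lit 0x400b2c102040)))) (.nd (nat_lit 47983898752) (.nd (nat_lit 47983898688) (.lf (nat_lit 0x400b2c103040)) (.lf (nat_lit 0x400b2c103080))) (.nd (nat_lit 47983898753) (.lf (nat_lit 0x400b2c103081)) (.lf (nat_lit 0x400b2c142040))))) (.nd (nat_lit 48000675968) (.nd (nat_lit 48000671808) (.nd (nat_lit 48000409664) (.lf (nat_lit 0x400b2d0c2040)) (.lf (nat_lit 0x400b2d102040))) (.nd (nat_lit 48000675904) (.lf (nat_lit 0x400b2d103040)) (.lf (nat_lit 0x400b2d103080)))) (.nd (nat_lit 48000933952)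 (.nd (nat_lit 48000675969) (.lf (nat_lit 0x400b2d103081)) (.lf (nat_lit 0x400b2d142040))) (.nd (nat_lit 48017186880) (.lf (nat_lit 0x400b2e0c2040)) (.lf (nat_lit 0x400b2e102040)))))) (.nd (nat_lit 48034230400) (.nd (nat_lit 48017711168) (.nd (nat_lit 48017453184) (.nd (nat_lit 48017453120) (.lf (nat_lit 0x400b2e103040)) (.lf (nat_lit 0x400b2e103080))) (.nd (nat_lit 48017453185) (.lf (nat_lit 0x400b2e103081)) (.lf (nat_lit 0x400b2e142040)))) (.nd (nat_lit 48034226240) (.nd (nat_lit 48033964096) (.lf (nat_lit 0x400b2f0c2040)) (.lf (nat_lit 0x400b2f102040))) (.nd (nat_lit 48034230336) (.lf (nat_lit 0x400b2f103040)) (.lf (nat_lit 0x400b2f103080))))) (.nd (nat_lit 48051003456) (.nd (nat_lit 48034488384) (.nd (nat_lit 48034230401) (.lf (nat_lit 0x400b2f103081)) (.lf (nat_lit 0x400b2f142040))) (.nd (nat_lit 48050741312) (.lf (nat_lit 0x400b300c2040)) (.lf (nat_lit 0x400b30102040)))) (.nd (nat_lit 48051007616) (.nd (nat_lit 48051007552) (.lf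 (nat_lit 0x400b30103040)) (.lf (nat_lit 0x400b30103080))) (.nd (nat_lit 48051007617) (.lf (nat_lit 0x400b30103081)) (.lf (nat_lit 0x400b30142040))))))) (.nd (nat_lit 48085082176) (.nd (nat_lit 48068304960) (.nd (nat_lit 48067784832) (.nd (nat_lit 48067780672) (.nd (nat_lit 48067518528) (.lf (nat_lit 0x400b310c2040)) (.lf (nat_lit 0x400b31102040))) (.nd (nat_lit 48067784768) (.lf (nat_lit 0x400b31103040)) (.lf (nat_lit 0x400b31103080)))) (.nd (nat_lit 48068042816) (.nd (nat_lit 48067784833) (.lf (nat_lit 0x400b31103081)) (.lf (nat_lit 0x400b31142040))) (.nd (nat_lit 48068046912) (.lf (nat_lit 0x400b31143040)) (.lf (nat_lit 0x400b31182040))))) (.nd (nat_lit 48084562048) (.nd (nat_lit 48084557888) (.nd (nat_lit 48084295744) (.lf (nat_lit 0x400b320c2040)) (.lf (nat_lit 0x400b32102040))) (.nd (nat_lit 48084561984) (.lf (nat_lit 0x400b32103040)) (.lf (nat_lit 0x400b32103080)))) (.nd (nat_lit 48084820032) (.nd (nat_lit 48084562049) (.lf (nat_lit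 0x400b32103081)) (.lf (nat_lit 0x400b32142040))) (.nd (nat_lit 48084824128) (.lf (nat_lit 0x400b32143040)) (.lf (nat_lit 0x400b32182040)))))) (.nd (nat_lit 48101859392) (.nd (nat_lit 48101339264) (.nd (nat_lit 48101335104) (.nd (nat_lit 48101072960) (.lf (nat_lit 0x400b330c2040)) (.lf (nat_lit 0x400b33102040))) (.nd (nat_lit 48101339200) (.lf (nat_lit 0x400b33103040)) (.lf (nat_lit 0x400b33103080)))) (.nd (nat_lit 48101597248) (.nd (nat_lit 48101339265) (.lf (nat_lit 0x400b33103081)) (.lf (nat_lit 0x400b33142040))) (.nd (nat_lit 48101601344) (.lf (nat_lit 0x400b33143040)) (.lf (nat_lit 0x400b33182040))))) (.nd (nat_lit 48118116480) (.nd (nat_lit 48118112320) (.nd (nat_lit 48117850176) (.lf (nat_lit 0x400b340c2040)) (.lf (nat_lit 0x400b34102040))) (.nd (nat_lit 48118116416) (.lf (nat_lit 0x400b34103040)) (.lf (nat_lit 0x400b34103080)))) (.nd (nat_lit 48118374464) (.nd (nat_lit 48118116481) (.lf (nat_lit 0x400b34103081)) (.lf (nat_lit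 0x400b34142040))) (.nd (nat_lit 48118378560) (.lf (nat_lit 0x400b34143040)) (.lf (nat_lit 0x400b34182040))))))))
noncomputable def jt28_2 : BT := (.nd (nat_lit 48184959040) (.nd (nat_lit 48151932992) (.nd (nat_lit 48135413824) (.nd (nat_lit 48134893696) (.nd (nat_lit 48134889536) (.nd (nat_lit 48134627392) (.lf (nat_lit 0x400b350c2040)) (.lf (nat_lit 0x400b35102040))) (.nd (nat_lit 48134893632) (.lf (nat_lit 0x400b35103040)) (.lf (nat_lit 0x400b35103080)))) (.nd (nat_lit 48135151680) (.nd (nat_lit 48134893697) (.lf (nat_lit 0x400b35103081)) (.lf (nat_lit 0x400b35142040))) (.nd (nat_lit 48135155776) (.lf (nat_lit 0x400b35143040)) (.lf (nat_lit 0x400b35182040))))) (.nd (nat_lit 48151670848) (.nd (nat_lit 48151404608) (.nd (nat_lit 48135675968) (.lf (nat_lit 0x400b351c2040)) (.lf (nat_lit 0x400b360c2040))) (.nd (nat_lit 48151666752) (.lf (nat_lit 0x400b36102040)) (.lf (nat_lit 0x400b36103040)))) (.nd (nat_lit 48151670913) (.nd (nat_lit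 48151670912) (.lf (nat_lit 0x400b36103080)) (.lf (nat_lit 0x400b36103081))) (.nd (nat_lit 48151928896) (.lf (nat_lit 0x400b36142040)) (.lf (nat_lit 0x400b36143040)))))) (.nd (nat_lit 48168448128) (.nd (nat_lit 48152453184) (.nd (nat_lit 48152191040) (.nd (nat_lit 48151933056) (.lf (nat_lit 0x400b36143080)) (.lf (nat_lit 0x400b36182040))) (.nd (nat_lit 48152195136) (.lf (nat_lit 0x400b36183040)) (.lf (nat_lit 0x400b361c2040)))) (.nd (nat_lit 48168443968) (.nd (nat_lit 48168181824) (.lf (nat_lit 0x400b370c2040)) (.lf (nat_lit 0x400b37102040))) (.nd (nat_lit 48168448064) (.lf (nat_lit 0x400b37103040)) (.lf (nat_lit 0x400b37103080))))) (.nd (nat_lit 48168710272) (.nd (nat_lit 48168706112) (.nd (nat_lit 48168448129) (.lf (nat_lit 0x400b37103081)) (.lf (nat_lit 0x400b37142040))) (.nd (nat_lit 48168710208) (.lf (nat_lit 0x400b37143040)) (.lf (nat_lit 0x400b37143080)))) (.nd (nat_lit 48168972352) (.nd (nat_lit 48168968256) (.lf (nat_lit 0x400b37182040))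 (.lf (nat_lit 0x400b37183040))) (.nd (nat_lit 48169230400) (.lf (nat_lit 0x400b371c2040)) (.lf (nat_lit 0x400b380c2040))))))) (.nd (nat_lit 48202002561) (.nd (nat_lit 48185491520) (.nd (nat_lit 48185225345) (.nd (nat_lit 48185225280) (.nd (nat_lit 48185221184) (.lf (nat_lit 0x400b38102040)) (.lf (nat_lit 0x400b38103040))) (.nd (nat_lit 48185225344) (.lf (nat_lit 0x400b38103080)) (.lf (nat_lit 0x400b38103081)))) (.nd (nat_lit 48185487424) (.nd (nat_lit 48185483328) (.lf (nat_lit 0x400b38142040)) (.lf (nat_lit 0x400b38143040))) (.nd (nat_lit 48185487488) (.lf (nat_lit 0x400b38143080)) (.lf (nat_lit 0x400b38144040))))) (.nd (nat_lit 48201736256) (.nd (nat_lit 48185749568) (.nd (nat_lit 48185745472) (.lf (nat_lit 0x400b38182040)) (.lf (nat_lit 0x400b38183040))) (.nd (nat_lit 48186007616) (.lf (nat_lit 0x400b381c2040)) (.lf (nat_lit 0x400b390c2040)))) (.nd (nat_lit 48202002496) (.nd (nat_lit 48201998400) (.lf (nat_lit 0x400b39102040)) (.lf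 (nat_lit 0x400b39103040))) (.nd (nat_lit 48202002560) (.lf (nat_lit 0x400b39103080)) (.lf (nat_lit 0x400b39103081)))))) (.nd (nat_lit 48203046976) (.nd (nat_lit 48202268736) (.nd (nat_lit 48202264640) (.nd (nat_lit 48202260544) (.lf (nat_lit 0x400b39142040)) (.lf (nat_lit 0x400b39143040))) (.nd (nat_lit 48202264704) (.lf (nat_lit 0x400b39143080)) (.lf (nat_lit 0x400b39144040)))) (.nd (nat_lit 48202526784) (.nd (nat_lit 48202522688) (.lf (nat_lit 0x400b39182040)) (.lf (nat_lit 0x400b39183040))) (.nd (nat_lit 48202784832) (.lf (nat_lit 0x400b391c2040)) (.lf (nat_lit 0x400b39202040))))) (.nd (nat_lit 48218779776) (.nd (nat_lit 48218775616) (.nd (nat_lit 48218513472) (.lf (nat_lit 0x400b3a0c2040)) (.lf (nat_lit 0x400b3a102040))) (.nd (nat_lit 48218779712) (.lf (nat_lit 0x400b3a103040)) (.lf (nat_lit 0x400b3a103080)))) (.nd (nat_lit 48219037760) (.nd (nat_lit 48218779777) (.lf (nat_lit 0x400b3a103081)) (.lf (nat_lit 0x400b3a142040))) (.nd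 (nat_lit 48219041856) (.lf (nat_lit 0x400b3a143040)) (.lf (nat_lit 0x400b3a143080))))))))
noncomputable def jt28_3 : BT := (.nd (nat_lit 48252596353) (.nd (nat_lit 48236077120) (.nd (nat_lit 48235552832) (.nd (nat_lit 48219562048) (.nd (nat_lit 48219299904) (.nd (nat_lit 48219045952) (.lf (nat_lit 0x400b3a144040)) (.lf (nat_lit 0x400b3a182040))) (.nd (nat_lit 48219304000) (.lf (nat_lit 0x400b3a183040)) (.lf (nat_lit 0x400b3a1c2040)))) (.nd (nat_lit 48219824192) (.nd (nat_lit 48219566144) (.lf (nat_lit 0x400b3a1c3040)) (.lf (nat_lit 0x400b3a202040))) (.nd (nat_lit 48235290688) (.lf (nat_lit 0x400b3b0c2040)) (.lf (nat_lit 0x400b3b102040))))) (.nd (nat_lit 48235814976) (.nd (nat_lit 48235556992) (.nd (nat_lit 48235556928) (.lf (nat_lit 0x400b3b103040)) (.lf (nat_lit 0x400b3b103080))) (.nd (nat_lit 48235556993) (.lf (nat_lit 0x400b3b103081)) (.lf (nat_lit 0x400b3b142040)))) (.nd (nat_lit 48235819136) (.nd (nat_lit 48235819072) (.lf (nat_lit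 0x400b3b143040)) (.lf (nat_lit 0x400b3b143080))) (.nd (nat_lit 48235823168) (.lf (nat_lit 0x400b3b144040)) (.lf (nat_lit 0x400b3b182040)))))) (.nd (nat_lit 48252067904) (.nd (nat_lit 48236339264) (.nd (nat_lit 48236081280) (.nd (nat_lit 48236081216) (.lf (nat_lit 0x400b3b183040)) (.lf (nat_lit 0x400b3b183080))) (.nd (nat_lit 48236085312) (.lf (nat_lit 0x400b3b184040)) (.lf (nat_lit 0x400b3b1c2040)))) (.nd (nat_lit 48236601408) (.nd (nat_lit 48236343360) (.lf (nat_lit 0x400b3b1c3040)) (.lf (nat_lit 0x400b3b202040))) (.nd (nat_lit 48236863552) (.lf (nat_lit 0x400b3b242040)) (.lf (nat_lit 0x400b3c0c2040))))) (.nd (nat_lit 48252334209) (.nd (nat_lit 48252334144) (.nd (nat_lit 48252330048) (.lf (nat_lit 0x400b3c102040)) (.lf (nat_lit 0x400b3c103040))) (.nd (nat_lit 48252334208) (.lf (nat_lit 0x400b3c103080)) (.lf (nat_lit 0x400b3c103081)))) (.nd (nat_lit 48252596288) (.nd (nat_lit 48252592192) (.lf (nat_lit 0x400b3c142040)) (.lf (nat_lit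 0x400b3c143040))) (.nd (nat_lit 48252596352) (.lf (nat_lit 0x400b3c143080)) (.lf (nat_lit 0x400b3c143081))))))) (.nd (nat_lit 48269111425) (.nd (nat_lit 48253378624) (.nd (nat_lit 48252858496) (.nd (nat_lit 48252854336) (.nd (nat_lit 48252600384) (.lf (nat_lit 0x400b3c144040)) (.lf (nat_lit 0x400b3c182040))) (.nd (nat_lit 48252858432) (.lf (nat_lit 0x400b3c183040)) (.lf (nat_lit 0x400b3c183080)))) (.nd (nat_lit 48253116480) (.nd (nat_lit 48252862528) (.lf (nat_lit 0x400b3c184040)) (.lf (nat_lit 0x400b3c1c2040))) (.nd (nat_lit 48253120576) (.lf (nat_lit 0x400b3c1c3040)) (.lf (nat_lit 0x400b3c202040))))) (.nd (nat_lit 48268845120) (.nd (nat_lit 48253640768) (.nd (nat_lit 48253382720) (.lf (nat_lit 0x400b3c203040)) (.lf (nat_lit 0x400b3c242040))) (.nd (nat_lit 48253902912) (.lf (nat_lit 0x400b3c282040)) (.lf (nat_lit 0x400b3d0c2040)))) (.nd (nat_lit 48269111360) (.nd (nat_lit 48269107264) (.lf (nat_lit 0x400b3d102040)) (.lf (nat_lit 0x400b3d103040)))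 (.nd (nat_lit 48269111424) (.lf (nat_lit 0x400b3d103080)) (.lf (nat_lit 0x400b3d103081)))))) (.nd (nat_lit 48269635648) (.nd (nat_lit 48269373569) (.nd (nat_lit 48269373504) (.nd (nat_lit 48269369408) (.lf (nat_lit 0x400b3d142040)) (.lf (nat_lit 0x400b3d143040))) (.nd (nat_lit 48269373568) (.lf (nat_lit 0x400b3d143080)) (.lf (nat_lit 0x400b3d143081)))) (.nd (nat_lit 48269377664) (.nd (nat_lit 48269377600) (.lf (nat_lit 0x400b3d144040)) (.lf (nat_lit 0x400b3d144080))) (.nd (nat_lit 48269631552) (.lf (nat_lit 0x400b3d182040)) (.lf (nat_lit 0x400b3d183040))))) (.nd (nat_lit 48269897792) (.nd (nat_lit 48269639744) (.nd (nat_lit 48269635712) (.lf (nat_lit 0x400b3d183080)) (.lf (nat_lit 0x400b3d184040))) (.nd (nat_lit 48269893696) (.lf (nat_lit 0x400b3d1c2040)) (.lf (nat_lit 0x400b3d1c3040)))) (.nd (nat_lit 48270159936) (.nd (nat_lit 48270155840) (.lf (nat_lit 0x400b3d202040)) (.lf (nat_lit 0x400b3d203040))) (.nd (nat_lit 48270417984) (.lf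 (nat_lit 0x400b3d242040)) (.lf (nat_lit 0x400b3d282040))))))))
noncomputable def jt28_4 : BT := (.nd (nat_lit 48287719488) (.nd (nat_lit 48286412928) (.nd (nat_lit 48286146624) (.nd (nat_lit 48285884480) (.nd (nat_lit 48271241280) (.nd (nat_lit 48270975168) (.lf (nat_lit 0x209a4800b3d2ca0c0)) (.lf (nat_lit 0x410a2200b3d30b040))) (.nd (nat_lit 48285622336) (.lf (nat_lit 0x400b3e0c2040)) (.lf (nat_lit 0x400b3e102040)))) (.nd (nat_lit 48285888640) (.nd (nat_lit 48285888576) (.lf (nat_lit 0x400b3e103040)) (.lf (nat_lit 0x400b3e103080))) (.nd (nat_lit 48285888641) (.lf (nat_lit 0x400b3e103081)) (.lf (nat_lit 0x400b3e142040))))) (.nd (nat_lit 48286154816) (.nd (nat_lit 48286150784) (.nd (nat_lit 48286150720) (.lf (nat_lit 0x400b3e143040)) (.lf (nat_lit 0x400b3e143080))) (.nd (nat_lit 48286150785) (.lf (nat_lit 0x400b3e143081)) (.lf (nat_lit 0x400b3e144040)))) (.nd (nat_lit 48286408768) (.nd (nat_lit 48286154880) (.lf (nat_lit 0x400b3e144080))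 (.lf (nat_lit 0x400b3e182040))) (.nd (nat_lit 48286412864) (.lf (nat_lit 0x400b3e183040)) (.lf (nat_lit 0x400b3e183080)))))) (.nd (nat_lit 48286937152) (.nd (nat_lit 48286675008) (.nd (nat_lit 48286421056) (.nd (nat_lit 48286416960) (.lf (nat_lit 0x400b3e184040)) (.lf (nat_lit 0x400b3e185040))) (.nd (nat_lit 48286670912) (.lf (nat_lit 0x400b3e1c2040)) (.lf (nat_lit 0x400b3e1c3040)))) (.nd (nat_lit 48286679104) (.nd (nat_lit 48286675072) (.lf (nat_lit 0x400b3e1c3080)) (.lf (nat_lit 0x400b3e1c4040))) (.nd (nat_lit 48286933056) (.lf (nat_lit 0x400b3e202040)) (.lf (nat_lit 0x400b3e203040))))) (.nd (nat_lit 48287457344) (.nd (nat_lit 48287199296) (.nd (nat_lit 48287195200) (.lf (nat_lit 0x400b3e242040)) (.lf (nat_lit 0x400b3e243040))) (.nd (nat_lit 48287220032) (.lf (nat_lit 0x1e5000b3e248140)) (.lf (nat_lit 0x400b3e282040)))) (.nd (nat_lit 48287482112) (.nd (nat_lit 48287478080) (.lf (nat_lit 0x1e5000b3e287140)) (.lf (nat_lit 0x410a2200b3e288100)))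 (.nd (nat_lit 48287486144) (.lf (nat_lit 0x410a2200b3e2890c0)) (.lf (nat_lit 0x400b3e2c2040))))))) (.nd (nat_lit 48303190144) (.nd (nat_lit 48302923840) (.nd (nat_lit 48302661696) (.nd (nat_lit 48287981632) (.nd (nat_lit 48287736128) (.lf (nat_lit 0x8210d2a00b3e2c6140)) (.lf (nat_lit 0x400b3e302040))) (.nd (nat_lit 48302399552) (.lf (nat_lit 0x400b3f0c2040)) (.lf (nat_lit 0x400b3f102040)))) (.nd (nat_lit 48302665856) (.nd (nat_lit 48302665792) (.lf (nat_lit 0x400b3f103040)) (.lf (nat_lit 0x400b3f103080))) (.nd (nat_lit 48302665857) (.lf (nat_lit 0x400b3f103081)) (.lf (nat_lit 0x400b3f142040))))) (.nd (nat_lit 48302932032) (.nd (nat_lit 48302928000) (.nd (nat_lit 48302927936) (.lf (nat_lit 0x400b3f143040)) (.lf (nat_lit 0x400b3f143080))) (.nd (nat_lit 48302928001) (.lf (nat_lit 0x400b3f143081)) (.lf (nat_lit 0x400b3f144040)))) (.nd (nat_lit 48303185984) (.nd (nat_lit 48302932096) (.lf (nat_lit 0x400b3f144080)) (.lf (nat_lit 0x400b3f182040)))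 (.nd (nat_lit 48303190080) (.lf (nat_lit 0x400b3f183040)) (.lf (nat_lit 0x400b3f183080)))))) (.nd (nat_lit 48303464768) (.nd (nat_lit 48303448128) (.nd (nat_lit 48303194240) (.nd (nat_lit 48303194176) (.lf (nat_lit 0x400b3f184040)) (.lf (nat_lit 0x400b3f184080))) (.nd (nat_lit 48303198272) (.lf (nat_lit 0x400b3f185040)) (.lf (nat_lit 0x400b3f1c2040)))) (.nd (nat_lit 48303452288) (.nd (nat_lit 48303452224) (.lf (nat_lit 0x400b3f1c3040)) (.lf (nat_lit 0x400b3f1c3080))) (.nd (nat_lit 48303456320) (.lf (nat_lit 0x400b3f1c4040)) (.lf (nat_lit 0x1e5000b3f1c6140))))) (.nd (nat_lit 48303718464) (.nd (nat_lit 48303714368) (.nd (nat_lit 48303710272) (.lf (nat_lit 0x400b3f202040)) (.lf (nat_lit 0x400b3f203040))) (.nd (nat_lit 48303714432) (.lf (nat_lit 0x400b3f203080)) (.lf (nat_lit 0x400b3f204040)))) (.nd (nat_lit 48303731008) (.nd (nat_lit 48303726912) (.lf (nat_lit 0x1e5000b3f206140)) (.lf (nat_lit 0x1e5000b3f207140))) (.nd (nat_lit 48303972416)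 (.lf (nat_lit 0x400b3f242040)) (.lf (nat_lit 0x400b3f243040))))))))
noncomputable def jt28_5 : BT := (.nd (nat_lit 48320487488) (.nd (nat_lit 48319709248) (.nd (nat_lit 48319438912) (.nd (nat_lit 48304496704) (.nd (nat_lit 48304234560) (.nd (nat_lit 48303989056) (.lf (nat_lit 0x1e5000b3f246140)) (.lf (nat_lit 0x400b3f282040))) (.nd (nat_lit 48304238656) (.lf (nat_lit 0x400b3f283040)) (.lf (nat_lit 0x400b3f2c2040)))) (.nd (nat_lit 48305020992) (.nd (nat_lit 48304758848) (.lf (nat_lit 0x400b3f302040)) (.lf (nat_lit 0x400b3f342040))) (.nd (nat_lit 48319176768) (.lf (nat_lit 0x400b400c2040)) (.lf (nat_lit 0x400b40102040))))) (.nd (nat_lit 48319701056) (.nd (nat_lit 48319443072) (.nd (nat_lit 48319443008) (.lf (nat_lit 0x400b40103040)) (.lf (nat_lit 0x400b40103080))) (.nd (nat_lit 48319443073) (.lf (nat_lit 0x400b40103081)) (.lf (nat_lit 0x400b40142040)))) (.nd (nat_lit 48319705216) (.nd (nat_lit 48319705152) (.lf (nat_lit 0x400b40143040))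 (.lf (nat_lit 0x400b40143080))) (.nd (nat_lit 48319705217) (.lf (nat_lit 0x400b40143081)) (.lf (nat_lit 0x400b40144040)))))) (.nd (nat_lit 48319975488) (.nd (nat_lit 48319967360) (.nd (nat_lit 48319963200) (.nd (nat_lit 48319709312) (.lf (nat_lit 0x400b40144080)) (.lf (nat_lit 0x400b40182040))) (.nd (nat_lit 48319967296) (.lf (nat_lit 0x400b40183040)) (.lf (nat_lit 0x400b40183080)))) (.nd (nat_lit 48319971392) (.nd (nat_lit 48319967361) (.lf (nat_lit 0x400b40183081)) (.lf (nat_lit 0x400b40184040))) (.nd (nat_lit 48319971456) (.lf (nat_lit 0x400b40184080)) (.lf (nat_lit 0x400b40185040))))) (.nd (nat_lit 48320233536) (.nd (nat_lit 48320229440) (.nd (nat_lit 48320225344) (.lf (nat_lit 0x400b401c2040)) (.lf (nat_lit 0x400b401c3040))) (.nd (nat_lit 48320229504) (.lf (nat_lit 0x400b401c3080)) (.lf (nat_lit 0x400b401c4040)))) (.nd (nat_lit 48320241921) (.nd (nat_lit 48320237632) (.lf (nat_lit 0x400b401c5040)) (.lf (nat_lit 0x1e5000b401c6101)))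 (.nd (nat_lit 48320241984) (.lf (nat_lit 0x1e5000b401c6140)) (.lf (nat_lit 0x400b40202040))))))) (.nd (nat_lit 48321273920) (.nd (nat_lit 48320753792) (.nd (nat_lit 48320499776) (.nd (nat_lit 48320491648) (.nd (nat_lit 48320491584) (.lf (nat_lit 0x400b40203040)) (.lf (nat_lit 0x400b40203080))) (.nd (nat_lit 48320495680) (.lf (nat_lit 0x400b40204040)) (.lf (nat_lit 0x400b40205040)))) (.nd (nat_lit 48320749632) (.nd (nat_lit 48320507968) (.lf (nat_lit 0xc2200b40207040)) (.lf (nat_lit 0x400b40242040))) (.nd (nat_lit 48320753728) (.lf (nat_lit 0x400b40243040)) (.lf (nat_lit 0x400b40243080))))) (.nd (nat_lit 48321011776) (.nd (nat_lit 48320770112) (.nd (nat_lit 48320757824) (.lf (nat_lit 0x400b40244040)) (.lf (nat_lit 0xc2200b40247040))) (.nd (nat_lit 48320774208) (.lf (nat_lit 0xc2200b40248040)) (.lf (nat_lit 0x400b40282040)))) (.nd (nat_lit 48321019968) (.nd (nat_lit 48321015872) (.lf (nat_lit 0x400b40283040)) (.lf (nat_lit 0x400b40284040)))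 (.nd (nat_lit 48321032256) (.lf (nat_lit 0xc2200b40287040)) (.lf (nat_lit 0x400b402c2040)))))) (.nd (nat_lit 48321802368) (.nd (nat_lit 48321544256) (.nd (nat_lit 48321536064) (.nd (nat_lit 48321278016) (.lf (nat_lit 0x400b402c3040)) (.lf (nat_lit 0x400b40302040))) (.nd (nat_lit 48321540160) (.lf (nat_lit 0x400b40303040)) (.lf (nat_lit 0x400b40304040)))) (.nd (nat_lit 48321798208) (.nd (nat_lit 48321548352) (.lf (nat_lit 0x400b40305040)) (.lf (nat_lit 0x400b40342040))) (.nd (nat_lit 48321802304) (.lf (nat_lit 0x400b40343040)) (.lf (nat_lit 0x400b40343080))))) (.nd (nat_lit 48336220224) (.nd (nat_lit 48335953984) (.nd (nat_lit 48321806400) (.lf (nat_lit 0x400b40344040)) (.lf (nat_lit 0x400b410c2040))) (.nd (nat_lit 48336216128) (.lf (nat_lit 0x400b41102040)) (.lf (nat_lit 0x400b41103040)))) (.nd (nat_lit 48336220289) (.nd (nat_lit 48336220288) (.lf (nat_lit 0x400b41103080)) (.lf (nat_lit 0x400b41103081))) (.nd (nat_lit 48336478272) (.lf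 (nat_lit 0x400b41142040)) (.lf (nat_lit 0x400b41143040))))))))
noncomputable def jt28_6 : BT := (.nd (nat_lit 48337268800) (.nd (nat_lit 48336752832) (.nd (nat_lit 48336744512) (.nd (nat_lit 48336486528) (.nd (nat_lit 48336482433) (.nd (nat_lit 48336482432) (.lf (nat_lit 0x400b41143080)) (.lf (nat_lit 0x400b41143081))) (.nd (nat_lit 48336486464) (.lf (nat_lit 0x400b41144040)) (.lf (nat_lit 0x400b41144080)))) (.nd (nat_lit 48336486592) (.nd (nat_lit 48336486529) (.lf (nat_lit 0x400b41144081)) (.lf (nat_lit 0x400b411440c0))) (.nd (nat_lit 48336740416) (.lf (nat_lit 0x400b41182040)) (.lf (nat_lit 0x400b41183040))))) (.nd (nat_lit 48336748672) (.nd (nat_lit 48336744577) (.nd (nat_lit 48336744576) (.lf (nat_lit 0x400b41183080)) (.lf (nat_lit 0x400b41183081))) (.nd (nat_lit 48336748608) (.lf (nat_lit 0x400b41184040)) (.lf (nat_lit 0x400b41184080)))) (.nd (nat_lit 48336752704) (.nd (nat_lit 48336748736) (.lf (nat_lit 0x400b411840c0)) (.lf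 (nat_lit 0x400b41185040))) (.nd (nat_lit 48336752768) (.lf (nat_lit 0x400b41185080)) (.lf (nat_lit 0xc2200b411850c0)))))) (.nd (nat_lit 48337014848) (.nd (nat_lit 48337006720) (.nd (nat_lit 48337002560) (.nd (nat_lit 48336752896) (.lf (nat_lit 0xc2200b41185100)) (.lf (nat_lit 0x400b411c2040))) (.nd (nat_lit 48337006656) (.lf (nat_lit 0x400b411c3040)) (.lf (nat_lit 0x400b411c3080)))) (.nd (nat_lit 48337010752) (.nd (nat_lit 48337006721) (.lf (nat_lit 0x400b411c3081)) (.lf (nat_lit 0x400b411c4040))) (.nd (nat_lit 48337010816) (.lf (nat_lit 0x400b411c4080)) (.lf (nat_lit 0x400b411c5040))))) (.nd (nat_lit 48337018944) (.nd (nat_lit 48337014976) (.nd (nat_lit 48337014912) (.lf (nat_lit 0x400b411c5080)) (.lf (nat_lit 0xc2200b411c50c0))) (.nd (nat_lit 48337015040) (.lf (nat_lit 0xc2200b411c5100)) (.lf (nat_lit 0x400b411c6040)))) (.nd (nat_lit 48337019072) (.nd (nat_lit 48337019008) (.lf (nat_lit 0xc2200b411c6080)) (.lf (nat_lit 0xc2200b411c60c0)))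 (.nd (nat_lit 48337264704) (.lf (nat_lit 0x400b41202040)) (.lf (nat_lit 0x400b41203040))))))) (.nd (nat_lit 48337543232) (.nd (nat_lit 48337285184) (.nd (nat_lit 48337276992) (.nd (nat_lit 48337272896) (.nd (nat_lit 48337268864) (.lf (nat_lit 0x400b41203080)) (.lf (nat_lit 0x400b41204040))) (.nd (nat_lit 48337272960) (.lf (nat_lit 0x400b41204080)) (.lf (nat_lit 0x400b41205040)))) (.nd (nat_lit 48337281088) (.nd (nat_lit 48337277120) (.lf (nat_lit 0xc2200b412050c0)) (.lf (nat_lit 0x400b41206040))) (.nd (nat_lit 48337281152) (.lf (nat_lit 0xc2200b41206080)) (.lf (nat_lit 0xc2200b41207040))))) (.nd (nat_lit 48337535040) (.nd (nat_lit 48337530944) (.nd (nat_lit 48337526848) (.lf (nat_lit 0x400b41242040)) (.lf (nat_lit 0x400b41243040))) (.nd (nat_lit 48337531008) (.lf (nat_lit 0x400b41243080)) (.lf (nat_lit 0x400b41244040)))) (.nd (nat_lit 48337539136) (.nd (nat_lit 48337535104) (.lf (nat_lit 0x400b41244080)) (.lf (nat_lit 0x400b41245040)))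 (.nd (nat_lit 48337539200) (.lf (nat_lit 0x400b41245080)) (.lf (nat_lit 0x400b41246040)))))) (.nd (nat_lit 48338055232) (.nd (nat_lit 48337797184) (.nd (nat_lit 48337793088) (.nd (nat_lit 48337788992) (.lf (nat_lit 0x400b41282040)) (.lf (nat_lit 0x400b41283040))) (.nd (nat_lit 48337793152) (.lf (nat_lit 0x400b41283080)) (.lf (nat_lit 0x400b41284040)))) (.nd (nat_lit 48337801280) (.nd (nat_lit 48337797248) (.lf (nat_lit 0x400b41284080)) (.lf (nat_lit 0x400b41285040))) (.nd (nat_lit 48338051136) (.lf (nat_lit 0x400b412c2040)) (.lf (nat_lit 0x400b412c3040))))) (.nd (nat_lit 48338317376) (.nd (nat_lit 48338059328) (.nd (nat_lit 48338055296) (.lf (nat_lit 0x400b412c3080)) (.lf (nat_lit 0x400b412c4040))) (.nd (nat_lit 48338313280) (.lf (nat_lit 0x400b41302040)) (.lf (nat_lit 0x400b41303040)))) (.nd (nat_lit 48352731200) (.nd (nat_lit 48338575424) (.lf (nat_lit 0x400b41342040)) (.lf (nat_lit 0x400b420c2040))) (.nd (nat_lit 48352993344) (.lf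 (nat_lit 0x400b42102040)) (.lf (nat_lit 0x400b42103040))))))))
noncomputable def jt28_7 : BT := (.nd (nat_lit 48353788096) (.nd (nat_lit 48353525824) (.nd (nat_lit 48353263744) (.nd (nat_lit 48353259584) (.nd (nat_lit 48352997505) (.nd (nat_lit 48352997504) (.lf (nat_lit 0x400b42103080)) (.lf (nat_lit 0x400b42103081))) (.nd (nat_lit 48353255488) (.lf (nat_lit 0x400b42142040)) (.lf (nat_lit 0x400b42143040)))) (.nd (nat_lit 48353259649) (.nd (nat_lit 48353259648) (.lf (nat_lit 0x400b42143080)) (.lf (nat_lit 0x400b42143081))) (.nd (nat_lit 48353263680) (.lf (nat_lit 0x400b42144040)) (.lf (nat_lit 0x400b42144080))))) (.nd (nat_lit 48353517632) (.nd (nat_lit 48353263808) (.nd (nat_lit 48353263745) (.lf (nat_lit 0x400b42144081)) (.lf (nat_lit 0x400b421440c0))) (.nd (nat_lit 48353263809) (.lf (nat_lit 0xc2200b421440c1)) (.lf (nat_lit 0x400b42182040)))) (.nd (nat_lit 48353521792) (.nd (nat_lit 48353521728) (.lf (nat_lit 0x400b42183040)) (.lf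 (nat_lit 0x400b42183080))) (.nd (nat_lit 48353521793) (.lf (nat_lit 0x400b42183081)) (.lf (nat_lit 0x400b42184040)))))) (.nd (nat_lit 48353530048) (.nd (nat_lit 48353525953) (.nd (nat_lit 48353525889) (.nd (nat_lit 48353525888) (.lf (nat_lit 0x400b42184080)) (.lf (nat_lit 0x400b42184081))) (.nd (nat_lit 48353525952) (.lf (nat_lit 0x400b421840c0)) (.lf (nat_lit 0xc2200b421840c1)))) (.nd (nat_lit 48353529984) (.nd (nat_lit 48353529920) (.lf (nat_lit 0x400b42185040)) (.lf (nat_lit 0x400b42185080))) (.nd (nat_lit 48353529985) (.lf (nat_lit 0xc2200b42185081)) (.lf (nat_lit 0xc2200b421850c0))))) (.nd (nat_lit 48353783937) (.nd (nat_lit 48353783872) (.nd (nat_lit 48353779776) (.lf (nat_lit 0x400b421c2040)) (.lf (nat_lit 0x400b421c3040))) (.nd (nat_lit 48353783936) (.lf (nat_lit 0x400b421c3080)) (.lf (nat_lit 0x400b421c3081)))) (.nd (nat_lit 48353788032) (.nd (nat_lit 48353787968) (.lf (nat_lit 0x400b421c4040)) (.lf (nat_lit 0x400b421c4080)))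 (.nd (nat_lit 48353788033) (.lf (nat_lit 0x400b421c4081)) (.lf (nat_lit 0x400b421c40c0))))))) (.nd (nat_lit 48354570304) (.nd (nat_lit 48354050112) (.nd (nat_lit 48354041920) (.nd (nat_lit 48353792128) (.nd (nat_lit 48353792064) (.lf (nat_lit 0x400b421c5040)) (.lf (nat_lit 0x400b421c5080))) (.nd (nat_lit 48353796160) (.lf (nat_lit 0x400b421c6040)) (.lf (nat_lit 0x400b42202040)))) (.nd (nat_lit 48354046080) (.nd (nat_lit 48354046016) (.lf (nat_lit 0x400b42203040)) (.lf (nat_lit 0x400b42203080))) (.nd (nat_lit 48354046081) (.lf (nat_lit 0x400b42203081)) (.lf (nat_lit 0x400b42204040))))) (.nd (nat_lit 48354308160) (.nd (nat_lit 48354054208) (.nd (nat_lit 48354050176) (.lf (nat_lit 0x400b42204080)) (.lf (nat_lit 0x400b42205040))) (.nd (nat_lit 48354304064) (.lf (nat_lit 0x400b42242040)) (.lf (nat_lit 0x400b42243040)))) (.nd (nat_lit 48354312256) (.nd (nat_lit 48354308224) (.lf (nat_lit 0x400b42243080)) (.lf (nat_lit 0x400b42244040))) (.nd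 (nat_lit 48354566208) (.lf (nat_lit 0x400b42282040)) (.lf (nat_lit 0x400b42283040)))))) (.nd (nat_lit 48370036800) (.nd (nat_lit 48369774656) (.nd (nat_lit 48369508416) (.nd (nat_lit 48354828352) (.lf (nat_lit 0x400b422c2040)) (.lf (nat_lit 0x400b430c2040))) (.nd (nat_lit 48369770560) (.lf (nat_lit 0x400b43102040)) (.lf (nat_lit 0x400b43103040)))) (.nd (nat_lit 48369774721) (.nd (nat_lit 48369774720) (.lf (nat_lit 0x400b43103080)) (.lf (nat_lit 0x400b43103081))) (.nd (nat_lit 48370032704) (.lf (nat_lit 0x400b43142040)) (.lf (nat_lit 0x400b43143040))))) (.nd (nat_lit 48370040960) (.nd (nat_lit 48370036865) (.nd (nat_lit 48370036864) (.lf (nat_lit 0x400b43143080)) (.lf (nat_lit 0x400b43143081))) (.nd (nat_lit 48370040896) (.lf (nat_lit 0x400b43144040)) (.lf (nat_lit 0x400b43144080)))) (.nd (nat_lit 48370041024) (.nd (nat_lit 48370040961) (.lf (nat_lit 0x400b43144081)) (.lf (nat_lit 0x400b431440c0))) (.nd (nat_lit 48370294848) (.lf (nat_lit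 0x400b43182040)) (.lf (nat_lit 0x400b43183040))))))))
noncomputable def jt28_8 : BT := (.nd (nat_lit 48386551936) (.nd (nat_lit 48370561152) (.nd (nat_lit 48370303104) (.nd (nat_lit 48370299009) (.nd (nat_lit 48370299008) (.lf (nat_lit 0x400b43183080)) (.lf (nat_lit 0x400b43183081))) (.nd (nat_lit 48370303040) (.lf (nat_lit 0x400b43184040)) (.lf (nat_lit 0x400b43184080)))) (.nd (nat_lit 48370556992) (.nd (nat_lit 48370307136) (.lf (nat_lit 0x400b43185040)) (.lf (nat_lit 0x400b431c2040))) (.nd (nat_lit 48370561088) (.lf (nat_lit 0x400b431c3040)) (.lf (nat_lit 0x400b431c3080))))) (.nd (nat_lit 48371081280) (.nd (nat_lit 48370819136) (.nd (nat_lit 48370565184) (.lf (nat_lit 0x400b431c4040)) (.lf (nat_lit 0x400b43202040))) (.nd (nat_lit 48370823232) (.lf (nat_lit 0x400b43203040)) (.lf (nat_lit 0x400b43242040)))) (.nd (nat_lit 48386547776) (.nd (nat_lit 48386285632) (.lf (nat_lit 0x400b440c2040)) (.lf (nat_lit 0x400b44102040))) (.nd (nat_lit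 48386551872) (.lf (nat_lit 0x400b44103040)) (.lf (nat_lit 0x400b44103080)))))) (.nd (nat_lit 48387334208) (.nd (nat_lit 48386814080) (.nd (nat_lit 48386809920) (.nd (nat_lit 48386551937) (.lf (nat_lit 0x400b44103081)) (.lf (nat_lit 0x400b44142040))) (.nd (nat_lit 48386814016) (.lf (nat_lit 0x400b44143040)) (.lf (nat_lit 0x400b44143080)))) (.nd (nat_lit 48387072064) (.nd (nat_lit 48386818112) (.lf (nat_lit 0x400b44144040)) (.lf (nat_lit 0x400b44182040))) (.nd (nat_lit 48387076160) (.lf (nat_lit 0x400b44183040)) (.lf (nat_lit 0x400b441c2040))))) (.nd (nat_lit 48403587136) (.nd (nat_lit 48403324992) (.nd (nat_lit 48403062848) (.lf (nat_lit 0x400b450c2040)) (.lf (nat_lit 0x400b45102040))) (.nd (nat_lit 48403329088) (.lf (nat_lit 0x400b45103040)) (.lf (nat_lit 0x400b45142040)))) (.nd (nat_lit 52715868418) (.nd (nat_lit 48419840064) (.lf (nat_lit 0x400b460c2040)) (.lf (nat_lit 0x246000c461c5102))) (.nd (nat_lit 52715872450) (.lf (nat_lit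 0x20913200c461c60c2)) (.lf (nat_lit 0x123200c481440c2)))))))
noncomputable def jt28 : BT := (.nd (nat_lit 48270680128) (.nd (nat_lit 48118636608) (.nd (nat_lit 47967121536) jt28_0 jt28_1) (.nd (nat_lit 48219041920) jt28_2 jt28_3)) (.nd (nat_lit 48336482368) (.nd (nat_lit 48303976512) jt28_4 jt28_5) (.nd (nat_lit 48352997440) jt28_6 (.nd (nat_lit 48370298944) jt28_7 jt28_8))))
def jg28 : Cfg := ⟨107, 98, 14, 22, 74⟩
noncomputable def jX28 : F3 := XRc 22 99 99 99 0
noncomputable def jt29_0 : BT := (.nd (nat_lit 48110772288) (.nd (nat_lit 48062275648) (.nd (nat_lit 48061489216) (.nd (nat_lit 48045240384) (.nd (nat_lit 48044974144) (.nd (nat_lit 48044712000) (.lf (nat_lit 0x4082200b2fb02040)) (.lf (nat_lit 0x4082200b2fb42040))) (.nd (nat_lit 48045236288) (.lf (nat_lit 0x4082200b2fb82040)) (.lf (nat_lit 0x4082200b2fb83040)))) (.nd (nat_lit 48045244480) (.nd (nat_lit 48045240448) (.lf (nat_lit 0x4082200b2fb83080)) (.lf (nat_lit 0x4082200b2fb84040)))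 (.nd (nat_lit 48061227072) (.lf (nat_lit 0x4082200b30ac2040)) (.lf (nat_lit 0x4082200b30b02040))))) (.nd (nat_lit 48061755520) (.nd (nat_lit 48061751360) (.nd (nat_lit 48061493312) (.lf (nat_lit 0x4082200b30b03040)) (.lf (nat_lit 0x4082200b30b42040))) (.nd (nat_lit 48061755456) (.lf (nat_lit 0x4082200b30b43040)) (.lf (nat_lit 0x4082200b30b43080)))) (.nd (nat_lit 48062013504) (.nd (nat_lit 48061759552) (.lf (nat_lit 0x4082200b30b44040)) (.lf (nat_lit 0x4082200b30b82040))) (.nd (nat_lit 48062017600) (.lf (nat_lit 0x4082200b30b83040)) (.lf (nat_lit 0x4082200b30bc2040)))))) (.nd (nat_lit 48093995072) (.nd (nat_lit 48078012480) (.nd (nat_lit 48078004288) (.nd (nat_lit 48077742144) (.lf (nat_lit 0x4082200b31a82040)) (.lf (nat_lit 0x4082200b31ac2040))) (.nd (nat_lit 48078008384) (.lf (nat_lit 0x4082200b31ac3040)) (.lf (nat_lit 0x4082200b31ac4040)))) (.nd (nat_lit 48078270528) (.nd (nat_lit 48078266432) (.lf (nat_lit 0x4082200b31b02040)) (.lf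 (nat_lit 0x4082200b31b03040))) (.nd (nat_lit 48078528576) (.lf (nat_lit 0x4082200b31b42040)) (.lf (nat_lit 0x4082200b32a02040))))) (.nd (nat_lit 48094523456) (.nd (nat_lit 48094261312) (.nd (nat_lit 48094257216) (.lf (nat_lit 0x4082200b32a42040)) (.lf (nat_lit 0x4082200b32a43040))) (.nd (nat_lit 48094519360) (.lf (nat_lit 0x4082200b32a82040)) (.lf (nat_lit 0x4082200b32a83040)))) (.nd (nat_lit 48110248000) (.nd (nat_lit 48094781504) (.lf (nat_lit 0x4082200b32ac2040)) (.lf (nat_lit 0x4082200b33982040))) (.nd (nat_lit 48110510144) (.lf (nat_lit 0x4082200b339c2040)) (.lf (nat_lit 0x4082200b33a02040))))))) (.nd (nat_lit 48159535168) (.nd (nat_lit 48142753856) (.nd (nat_lit 48126763072) (.nd (nat_lit 48111034432) (.nd (nat_lit 48110776384) (.lf (nat_lit 0x4082200b33a03040)) (.lf (nat_lit 0x4082200b33a42040))) (.nd (nat_lit 48126500928) (.lf (nat_lit 0x4082200b34902040)) (.lf (nat_lit 0x4082200b34942040)))) (.nd (nat_lit 48127029312) (.nd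 (nat_lit 48127025216) (.lf (nat_lit 0x4082200b34982040)) (.lf (nat_lit 0x4082200b34983040))) (.nd (nat_lit 48127287360) (.lf (nat_lit 0x4082200b349c2040)) (.lf (nat_lit 0x4082200b35882040))))) (.nd (nat_lit 48143540288) (.nd (nat_lit 48143278144) (.nd (nat_lit 48143016000) (.lf (nat_lit 0x4082200b358c2040)) (.lf (nat_lit 0x4082200b35902040))) (.nd (nat_lit 48143282240) (.lf (nat_lit 0x4082200b35903040)) (.lf (nat_lit 0x4082200b35942040)))) (.nd (nat_lit 48159268928) (.nd (nat_lit 48159006784) (.lf (nat_lit 0x20a2200b36802040)) (.lf (nat_lit 0x20a2200b36842040))) (.nd (nat_lit 48159531072) (.lf (nat_lit 0x4082200b36882040)) (.lf (nat_lit 0x4082200b36883040)))))) (.nd (nat_lit 48191774784) (.nd (nat_lit 48175784000) (.nd (nat_lit 48175259712) (.nd (nat_lit 48159793216) (.lf (nat_lit 0x4082200b368c2040)) (.lf (nat_lit 0x20a2200b37782040))) (.nd (nat_lit 48175521856) (.lf (nat_lit 0x20a2200b377c2040)) (.lf (nat_lit 0x20a2200b37802040))))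 (.nd (nat_lit 48176046144) (.nd (nat_lit 48175788096) (.lf (nat_lit 0x20a2200b37803040)) (.lf (nat_lit 0x20a2200b37842040))) (.nd (nat_lit 48191512640) (.lf (nat_lit 0xc2200b38702040)) (.lf (nat_lit 0xc2200b38742040))))) (.nd (nat_lit 48207765568) (.nd (nat_lit 48192041024) (.nd (nat_lit 48192036928) (.lf (nat_lit 0x20a2200b38782040)) (.lf (nat_lit 0x20a2200b38783040))) (.nd (nat_lit 48192299072) (.lf (nat_lit 0x20a2200b387c2040)) (.lf (nat_lit 0xc2200b39682040)))) (.nd (nat_lit 48208289856) (.nd (nat_lit 48208027712) (.lf (nat_lit 0xc2200b396c2040)) (.lf (nat_lit 0xc2200b39702040))) (.nd (nat_lit 48208293952) (.lf (nat_lit 0xc2200b39703040)) (.lf (nat_lit 0xc2200b39742040))))))))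
noncomputable def jt29_1 : BT := (.nd (nat_lit 48272781376) (.nd (nat_lit 48255737920) (.nd (nat_lit 48240271424) (.nd (nat_lit 48224542784) (.nd (nat_lit 48224018496) (.lf (nat_lit 0xc2200b3a602040)) (.nd (nat_lit 48224280640) (.lf (nat_lit 0xc2200b3a642040)) (.lf (nat_lit 0xc2200b3a682040)))) (.nd (nat_lit 48224546880) (.lf (nat_lit 0xc2200b3a683040)) (.nd (nat_lit 48224804928) (.lf (nat_lit 0xc2200b3a6c2040)) (.lf (nat_lit 0xc2200b3b582040))))) (.nd (nat_lit 48240799808) (.nd (nat_lit 48240533568) (.lf (nat_lit 0xc2200b3b5c2040)) (.nd (nat_lit 48240795712) (.lf (nat_lit 0xc2200b3b602040)) (.lf (nat_lit 0xc2200b3b603040)))) (.nd (nat_lit 48241057856) (.lf (nat_lit 0xc2200b3b642040)) (.nd (nat_lit 48255475776) (.lf (nat_lit 0xc2200b3c402040)) (.lf (nat_lit 0xc2200b3c442040)))))) (.nd (nat_lit 48257048640) (.nd (nat_lit 48256524352) (.nd (nat_lit 48256000064) (.lf (nat_lit 0xc2200b3c482040)) (.nd (nat_lit 48256262208) (.lf (nat_lit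 0xc2200b3c4c2040)) (.lf (nat_lit 0xc2200b3c502040)))) (.nd (nat_lit 48256786496) (.lf (nat_lit 0xc2200b3c542040)) (.nd (nat_lit 48256790592) (.lf (nat_lit 0xc2200b3c543040)) (.lf (nat_lit 0xc2200b3c582040))))) (.nd (nat_lit 48272252992) (.nd (nat_lit 48257052736) (.lf (nat_lit 0xc2200b3c583040)) (.nd (nat_lit 48257310784) (.lf (nat_lit 0xc2200b3c5c2040)) (.lf (nat_lit 0xc2200b3d402040)))) (.nd (nat_lit 48272515136) (.lf (nat_lit 0xc2200b3d442040)) (.nd (nat_lit 48272777280) (.lf (nat_lit 0xc2200b3d482040)) (.lf (nat_lit 0xc2200b3d483040))))))) (.nd (nat_lit 48289296448) (.nd (nat_lit 48273563712) (.nd (nat_lit 48273047616) (.nd (nat_lit 48273039424) (.lf (nat_lit 0xc2200b3d4c2040)) (.nd (nat_lit 48273043520) (.lf (nat_lit 0xc2200b3d4c3040)) (.lf (nat_lit 0xc2200b3d4c4040)))) (.nd (nat_lit 48273301568) (.lf (nat_lit 0xc2200b3d502040)) (.nd (nat_lit 48273305664) (.lf (nat_lit 0xc2200b3d503040)) (.lf (nat_lit 0xc2200b3d542040))))) (.nd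 (nat_lit 48289038400) (.nd (nat_lit 48289030208) (.lf (nat_lit 0xc2200b3e402040)) (.nd (nat_lit 48289034304) (.lf (nat_lit 0xc2200b3e403040)) (.lf (nat_lit 0xc2200b3e404040)))) (.nd (nat_lit 48289042496) (.lf (nat_lit 0xc2200b3e405040)) (.nd (nat_lit 48289292352) (.lf (nat_lit 0xc2200b3e442040)) (.lf (nat_lit 0xc2200b3e443040)))))) (.nd (nat_lit 48305283136) (.nd (nat_lit 48289554496) (.nd (nat_lit 48289296512) (.lf (nat_lit 0xc2200b3e443080)) (.nd (nat_lit 48289300544) (.lf (nat_lit 0xc2200b3e444040)) (.lf (nat_lit 0xc2200b3e482040)))) (.nd (nat_lit 48289558592) (.lf (nat_lit 0xc2200b3e483040)) (.nd (nat_lit 48289816640) (.lf (nat_lit 0xc2200b3e4c2040)) (.lf (nat_lit 0x400b3f382040))))) (.nd (nat_lit 48305811520) (.nd (nat_lit 48305545280) (.lf (nat_lit 0x400b3f3c2040)) (.nd (nat_lit 48305807424) (.lf (nat_lit 0xc2200b3f402040)) (.lf (nat_lit 0xc2200b3f403040)))) (.nd (nat_lit 48322060352) (.nd (nat_lit 48306069568) (.lf (nat_lit 0xc2200b3f442040))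 (.lf (nat_lit 0x400b40382040))) (.nd (nat_lit 48322064448) (.lf (nat_lit 0x400b40383040)) (.lf (nat_lit 0x400b403c2040))))))))
noncomputable def jt29 : BT := (.nd (nat_lit 48208552000) jt29_0 jt29_1)
def jg29 : Cfg := ⟨107, 98, 48, 22, 71⟩
noncomputable def jX29 : F3 := XRc 21 99 99 99 0
noncomputable def jt30_0 : BT := (.nd (nat_lit 50030714944) (.nd (nat_lit 49963606080) (.nd (nat_lit 49913278528) (.nd (nat_lit 49896235072) (.nd (nat_lit 49879457856) (.nd (nat_lit 49862680640) (.lf (nat_lit 0x400b9c0c2040)) (.lf (nat_lit 0x400b9d0c2040))) (.nd (nat_lit 49879720000) (.lf (nat_lit 0x400b9d102040)) (.lf (nat_lit 0x400b9e0c2040)))) (.nd (nat_lit 49913012288) (.nd (nat_lit 49896497216) (.lf (nat_lit 0x400b9e102040)) (.lf (nat_lit 0x400b9f0c2040))) (.nd (nat_lit 49913274432) (.lf (nat_lit 0x400b9f102040)) (.lf (nat_lit 0x400b9f103040))))) (.nd (nat_lit 49946566720) (.nd (nat_lit 49930051648) (.nd (nat_lit 49929789504) (.lf (nat_lit 0x400ba00c2040))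 (.lf (nat_lit 0x400ba0102040))) (.nd (nat_lit 49930055744) (.lf (nat_lit 0x400ba0103040)) (.lf (nat_lit 0x400ba10c2040)))) (.nd (nat_lit 49946832960) (.nd (nat_lit 49946828864) (.lf (nat_lit 0x400ba1102040)) (.lf (nat_lit 0x400ba1103040))) (.nd (nat_lit 49963343936) (.lf (nat_lit 0x400ba20c2040)) (.lf (nat_lit 0x400ba2102040)))))) (.nd (nat_lit 49997160512) (.nd (nat_lit 49980383296) (.nd (nat_lit 49963610240) (.nd (nat_lit 49963610176) (.lf (nat_lit 0x400ba2103040)) (.lf (nat_lit 0x400ba2103080))) (.nd (nat_lit 49980121152) (.lf (nat_lit 0x400ba30c2040)) (.lf (nat_lit 0x400ba3102040)))) (.nd (nat_lit 49980387456) (.nd (nat_lit 49980387392) (.lf (nat_lit 0x400ba3103040)) (.lf (nat_lit 0x400ba3103080))) (.nd (nat_lit 49996898368) (.lf (nat_lit 0x400ba40c2040)) (.lf (nat_lit 0x400ba4102040))))) (.nd (nat_lit 50013937728) (.nd (nat_lit 49997164672) (.nd (nat_lit 49997164608) (.lf (nat_lit 0x400ba4103040)) (.lf (nat_lit 0x400ba4103080)))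 (.nd (nat_lit 50013675584) (.lf (nat_lit 0x400ba50c2040)) (.lf (nat_lit 0x400ba5102040)))) (.nd (nat_lit 50013941888) (.nd (nat_lit 50013941824) (.lf (nat_lit 0x400ba5103040)) (.lf (nat_lit 0x400ba5103080))) (.nd (nat_lit 50030452800) (.lf (nat_lit 0x400ba60c2040)) (.lf (nat_lit 0x400ba6102040))))))) (.nd (nat_lit 50081050688) (.nd (nat_lit 50047496321) (.nd (nat_lit 50047230016) (.nd (nat_lit 50030719104) (.nd (nat_lit 50030719040) (.lf (nat_lit 0x400ba6103040)) (.lf (nat_lit 0x400ba6103080))) (.nd (nat_lit 50030719105) (.lf (nat_lit 0x400ba6103081)) (.lf (nat_lit 0x400ba70c2040)))) (.nd (nat_lit 50047496256) (.nd (nat_lit 50047492160) (.lf (nat_lit 0x400ba7102040)) (.lf (nat_lit 0x400ba7103040))) (.nd (nat_lit 50047496320) (.lf (nat_lit 0x400ba7103080)) (.lf (nat_lit 0x400ba7103081))))) (.nd (nat_lit 50064273536) (.nd (nat_lit 50064269376) (.nd (nat_lit 50064007232) (.lf (nat_lit 0x400ba80c2040)) (.lf (nat_lit 0x400ba8102040))) (.nd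 (nat_lit 50064273472) (.lf (nat_lit 0x400ba8103040)) (.lf (nat_lit 0x400ba8103080)))) (.nd (nat_lit 50080784448) (.nd (nat_lit 50064273537) (.lf (nat_lit 0x400ba8103081)) (.lf (nat_lit 0x400ba90c2040))) (.nd (nat_lit 50081046592) (.lf (nat_lit 0x400ba9102040)) (.lf (nat_lit 0x400ba9103040)))))) (.nd (nat_lit 50114338880) (.nd (nat_lit 50097823808) (.nd (nat_lit 50081050753) (.nd (nat_lit 50081050752) (.lf (nat_lit 0x400ba9103080)) (.lf (nat_lit 0x400ba9103081))) (.nd (nat_lit 50097561664) (.lf (nat_lit 0x400baa0c2040)) (.lf (nat_lit 0x400baa102040)))) (.nd (nat_lit 50097827968) (.nd (nat_lit 50097827904) (.lf (nat_lit 0x400baa103040)) (.lf (nat_lit 0x400baa103080))) (.nd (nat_lit 50097827969) (.lf (nat_lit 0x400baa103081)) (.lf (nat_lit 0x400bab0c2040))))) (.nd (nat_lit 50114605185) (.nd (nat_lit 50114605120) (.nd (nat_lit 50114601024) (.lf (nat_lit 0x400bab102040)) (.lf (nat_lit 0x400bab103040))) (.nd (nat_lit 50114605184) (.lf (nat_lit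 0x400bab103080)) (.lf (nat_lit 0x400bab103081)))) (.nd (nat_lit 50131378240) (.nd (nat_lit 50131116096) (.lf (nat_lit 0x400bac0c2040)) (.lf (nat_lit 0x400bac102040))) (.nd (nat_lit 50131382336) (.lf (nat_lit 0x400bac103040)) (.lf (nat_lit 0x400bac103080))))))))
noncomputable def jt30_1 : BT := (.nd (nat_lit 50231779392) (.nd (nat_lit 50181713984) (.nd (nat_lit 50164670528) (.nd (nat_lit 50148159552) (.nd (nat_lit 50147893312) (.nd (nat_lit 50131382401) (.lf (nat_lit 0x400bac103081)) (.lf (nat_lit 0x400bad0c2040))) (.nd (nat_lit 50148155456) (.lf (nat_lit 0x400bad102040)) (.lf (nat_lit 0x400bad103040)))) (.nd (nat_lit 50148159617) (.nd (nat_lit 50148159616) (.lf (nat_lit 0x400bad103080)) (.lf (nat_lit 0x400bad103081))) (.nd (nat_lit 50148417600) (.lf (nat_lit 0x400bad142040)) (.lf (nat_lit 0x400bae0c2040))))) (.nd (nat_lit 50164936833) (.nd (nat_lit 50164936768) (.nd (nat_lit 50164932672) (.lf (nat_lit 0x400bae102040)) (.lf (nat_lit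 0x400bae103040))) (.nd (nat_lit 50164936832) (.lf (nat_lit 0x400bae103080)) (.lf (nat_lit 0x400bae103081)))) (.nd (nat_lit 50181447744) (.nd (nat_lit 50165194816) (.lf (nat_lit 0x400bae142040)) (.lf (nat_lit 0x400baf0c2040))) (.nd (nat_lit 50181709888) (.lf (nat_lit 0x400baf102040)) (.lf (nat_lit 0x400baf103040)))))) (.nd (nat_lit 50198491265) (.nd (nat_lit 50198224960) (.nd (nat_lit 50181714049) (.nd (nat_lit 50181714048) (.lf (nat_lit 0x400baf103080)) (.lf (nat_lit 0x400baf103081))) (.nd (nat_lit 50181972032) (.lf (nat_lit 0x400baf142040)) (.lf (nat_lit 0x400bb00c2040)))) (.nd (nat_lit 50198491200) (.nd (nat_lit 50198487104) (.lf (nat_lit 0x400bb0102040)) (.lf (nat_lit 0x400bb0103040))) (.nd (nat_lit 50198491264) (.lf (nat_lit 0x400bb0103080)) (.lf (nat_lit 0x400bb0103081))))) (.nd (nat_lit 50215268416) (.nd (nat_lit 50215002176) (.nd (nat_lit 50198749248) (.lf (nat_lit 0x400bb0142040)) (.lf (nat_lit 0x400bb10c2040))) (.nd (nat_lit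 50215264320) (.lf (nat_lit 0x400bb1102040)) (.lf (nat_lit 0x400bb1103040)))) (.nd (nat_lit 50215268481) (.nd (nat_lit 50215268480) (.lf (nat_lit 0x400bb1103080)) (.lf (nat_lit 0x400bb1103081))) (.nd (nat_lit 50215526464) (.lf (nat_lit 0x400bb1142040)) (.lf (nat_lit 0x400bb20c2040))))))) (.nd (nat_lit 50265600064) (.nd (nat_lit 50248822848) (.nd (nat_lit 50232045697) (.nd (nat_lit 50232045632) (.nd (nat_lit 50232041536) (.lf (nat_lit 0x400bb2102040)) (.lf (nat_lit 0x400bb2103040))) (.nd (nat_lit 50232045696) (.lf (nat_lit 0x400bb2103080)) (.lf (nat_lit 0x400bb2103081)))) (.nd (nat_lit 50248556608) (.nd (nat_lit 50232303680) (.lf (nat_lit 0x400bb2142040)) (.lf (nat_lit 0x400bb30c2040))) (.nd (nat_lit 50248818752) (.lf (nat_lit 0x400bb3102040)) (.lf (nat_lit 0x400bb3103040))))) (.nd (nat_lit 50249084992) (.nd (nat_lit 50248822913) (.nd (nat_lit 50248822912) (.lf (nat_lit 0x400bb3103080)) (.lf (nat_lit 0x400bb3103081))) (.nd (nat_lit 50249080896)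 (.lf (nat_lit 0x400bb3142040)) (.lf (nat_lit 0x400bb3143040)))) (.nd (nat_lit 50265333824) (.nd (nat_lit 50249343040) (.lf (nat_lit 0x400bb3182040)) (.lf (nat_lit 0x400bb40c2040))) (.nd (nat_lit 50265595968) (.lf (nat_lit 0x400bb4102040)) (.lf (nat_lit 0x400bb4103040)))))) (.nd (nat_lit 50282377280) (.nd (nat_lit 50265862208) (.nd (nat_lit 50265600129) (.nd (nat_lit 50265600128) (.lf (nat_lit 0x400bb4103080)) (.lf (nat_lit 0x400bb4103081))) (.nd (nat_lit 50265858112) (.lf (nat_lit 0x400bb4142040)) (.lf (nat_lit 0x400bb4143040)))) (.nd (nat_lit 50282111040) (.nd (nat_lit 50266120256) (.lf (nat_lit 0x400bb4182040)) (.lf (nat_lit 0x400bb50c2040))) (.nd (nat_lit 50282373184) (.lf (nat_lit 0x400bb5102040)) (.lf (nat_lit 0x400bb5103040))))) (.nd (nat_lit 50282639424) (.nd (nat_lit 50282377345) (.nd (nat_lit 50282377344) (.lf (nat_lit 0x400bb5103080)) (.lf (nat_lit 0x400bb5103081))) (.nd (nat_lit 50282635328) (.lf (nat_lit 0x400bb5142040))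 (.lf (nat_lit 0x400bb5143040)))) (.nd (nat_lit 50298888256) (.nd (nat_lit 50282897472) (.lf (nat_lit 0x400bb5182040)) (.lf (nat_lit 0x400bb60c2040))) (.nd (nat_lit 50299150400) (.lf (nat_lit 0x400bb6102040)) (.lf (nat_lit 0x400bb6103040))))))))
noncomputable def jt30_2 : BT := (.nd (nat_lit 50350010432) (.nd (nat_lit 50332708928) (.nd (nat_lit 50315931712) (.nd (nat_lit 50299416640) (.nd (nat_lit 50299154561) (.nd (nat_lit 50299154560) (.lf (nat_lit 0x400bb6103080)) (.lf (nat_lit 0x400bb6103081))) (.nd (nat_lit 50299412544) (.lf (nat_lit 0x400bb6142040)) (.lf (nat_lit 0x400bb6143040)))) (.nd (nat_lit 50315665472) (.nd (nat_lit 50299674688) (.lf (nat_lit 0x400bb6182040)) (.lf (nat_lit 0x400bb70c2040))) (.nd (nat_lit 50315927616) (.lf (nat_lit 0x400bb7102040)) (.lf (nat_lit 0x400bb7103040))))) (.nd (nat_lit 50316193856) (.nd (nat_lit 50315931777) (.nd (nat_lit 50315931776) (.lf (nat_lit 0x400bb7103080)) (.lf (nat_lit 0x400bb7103081)))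 (.nd (nat_lit 50316189760) (.lf (nat_lit 0x400bb7142040)) (.lf (nat_lit 0x400bb7143040)))) (.nd (nat_lit 50332442688) (.nd (nat_lit 50316451904) (.lf (nat_lit 0x400bb7182040)) (.lf (nat_lit 0x400bb80c2040))) (.nd (nat_lit 50332704832) (.lf (nat_lit 0x400bb8102040)) (.lf (nat_lit 0x400bb8103040)))))) (.nd (nat_lit 50349482048) (.nd (nat_lit 50332971072) (.nd (nat_lit 50332708993) (.nd (nat_lit 50332708992) (.lf (nat_lit 0x400bb8103080)) (.lf (nat_lit 0x400bb8103081))) (.nd (nat_lit 50332966976) (.lf (nat_lit 0x400bb8142040)) (.lf (nat_lit 0x400bb8143040)))) (.nd (nat_lit 50333491264) (.nd (nat_lit 50333229120) (.lf (nat_lit 0x400bb8182040)) (.lf (nat_lit 0x400bb81c2040))) (.nd (nat_lit 50349219904) (.lf (nat_lit 0x400bb90c2040)) (.lf (nat_lit 0x400bb9102040))))) (.nd (nat_lit 50349744192) (.nd (nat_lit 50349486208) (.nd (nat_lit 50349486144) (.lf (nat_lit 0x400bb9103040)) (.lf (nat_lit 0x400bb9103080))) (.nd (nat_lit 50349486209) (.lf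 (nat_lit 0x400bb9103081)) (.lf (nat_lit 0x400bb9142040)))) (.nd (nat_lit 50349748352) (.nd (nat_lit 50349748288) (.lf (nat_lit 0x400bb9143040)) (.lf (nat_lit 0x400bb9143080))) (.nd (nat_lit 50350006336) (.lf (nat_lit 0x400bb9182040)) (.lf (nat_lit 0x400bb9183040))))))) (.nd (nat_lit 50383040640) (.nd (nat_lit 50366525504) (.nd (nat_lit 50366263360) (.nd (nat_lit 50365997120) (.nd (nat_lit 50350268480) (.lf (nat_lit 0x400bb91c2040)) (.lf (nat_lit 0x400bba0c2040))) (.nd (nat_lit 50366259264) (.lf (nat_lit 0x400bba102040)) (.lf (nat_lit 0x400bba103040)))) (.nd (nat_lit 50366263425) (.nd (nat_lit 50366263424) (.lf (nat_lit 0x400bba103080)) (.lf (nat_lit 0x400bba103081))) (.nd (nat_lit 50366521408) (.lf (nat_lit 0x400bba142040)) (.lf (nat_lit 0x400bba143040))))) (.nd (nat_lit 50367045696) (.nd (nat_lit 50366783552) (.nd (nat_lit 50366525568) (.lf (nat_lit 0x400bba143080)) (.lf (nat_lit 0x400bba182040))) (.nd (nat_lit 50366787648) (.lf (nat_lit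 0x400bba183040)) (.lf (nat_lit 0x400bba1c2040)))) (.nd (nat_lit 50383036480) (.nd (nat_lit 50382774336) (.lf (nat_lit 0x400bbb0c2040)) (.lf (nat_lit 0x400bbb102040))) (.nd (nat_lit 50383040576) (.lf (nat_lit 0x400bbb103040)) (.lf (nat_lit 0x400bbb103080)))))) (.nd (nat_lit 50383822912) (.nd (nat_lit 50383302784) (.nd (nat_lit 50383298624) (.nd (nat_lit 50383040641) (.lf (nat_lit 0x400bbb103081)) (.lf (nat_lit 0x400bbb142040))) (.nd (nat_lit 50383302720) (.lf (nat_lit 0x400bbb143040)) (.lf (nat_lit 0x400bbb143080)))) (.nd (nat_lit 50383560768) (.nd (nat_lit 50383306816) (.lf (nat_lit 0x400bbb144040)) (.lf (nat_lit 0x400bbb182040))) (.nd (nat_lit 50383564864) (.lf (nat_lit 0x400bbb183040)) (.lf (nat_lit 0x400bbb1c2040))))) (.nd (nat_lit 50399817792) (.nd (nat_lit 50399551552) (.nd (nat_lit 50384085056) (.lf (nat_lit 0x400bbb202040)) (.lf (nat_lit 0x400bbc0c2040))) (.nd (nat_lit 50399813696) (.lf (nat_lit 0x400bbc102040)) (.lf (nat_lit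 0x400bbc103040)))) (.nd (nat_lit 50399817857) (.nd (nat_lit 50399817856) (.lf (nat_lit 0x400bbc103080)) (.lf (nat_lit 0x400bbc103081))) (.nd (nat_lit 50400075840) (.lf (nat_lit 0x400bbc142040)) (.lf (nat_lit 0x400bbc143040))))))))
noncomputable def jt30_3 : BT := (.nd (nat_lit 50433896576) (.nd (nat_lit 50417115200) (.nd (nat_lit 50416590912) (.nd (nat_lit 50400342080) (.nd (nat_lit 50400084032) (.nd (nat_lit 50400080000) (.lf (nat_lit 0x400bbc143080)) (.lf (nat_lit 0x400bbc144040))) (.nd (nat_lit 50400337984) (.lf (nat_lit 0x400bbc182040)) (.lf (nat_lit 0x400bbc183040)))) (.nd (nat_lit 50400862272) (.nd (nat_lit 50400600128) (.lf (nat_lit 0x400bbc1c2040)) (.lf (nat_lit 0x400bbc202040))) (.nd (nat_lit 50416328768) (.lf (nat_lit 0x400bbd0c2040)) (.lf (nat_lit 0x400bbd102040))))) (.nd (nat_lit 50416853056) (.nd (nat_lit 50416595072) (.nd (nat_lit 50416595008) (.lf (nat_lit 0x400bbd103040)) (.lf (nat_lit 0x400bbd103080))) (.nd (nat_lit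 50416595073) (.lf (nat_lit 0x400bbd103081)) (.lf (nat_lit 0x400bbd142040)))) (.nd (nat_lit 50416857216) (.nd (nat_lit 50416857152) (.lf (nat_lit 0x400bbd143040)) (.lf (nat_lit 0x400bbd143080))) (.nd (nat_lit 50416861248) (.lf (nat_lit 0x400bbd144040)) (.lf (nat_lit 0x400bbd182040)))))) (.nd (nat_lit 50433372288) (.nd (nat_lit 50417639488) (.nd (nat_lit 50417377344) (.nd (nat_lit 50417119296) (.lf (nat_lit 0x400bbd183040)) (.lf (nat_lit 0x400bbd1c2040))) (.nd (nat_lit 50417381440) (.lf (nat_lit 0x400bbd1c3040)) (.lf (nat_lit 0x400bbd202040)))) (.nd (nat_lit 50433368128) (.nd (nat_lit 50433105984) (.lf (nat_lit 0x400bbe0c2040)) (.lf (nat_lit 0x400bbe102040))) (.nd (nat_lit 50433372224) (.lf (nat_lit 0x400bbe103040)) (.lf (nat_lit 0x400bbe103080))))) (.nd (nat_lit 50433634432) (.nd (nat_lit 50433630272) (.nd (nat_lit 50433372289) (.lf (nat_lit 0x400bbe103081)) (.lf (nat_lit 0x400bbe142040))) (.nd (nat_lit 50433634368) (.lf (nat_lit 0x400bbe143040))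 (.lf (nat_lit 0x400bbe143080)))) (.nd (nat_lit 50433892416) (.nd (nat_lit 50433638464) (.lf (nat_lit 0x400bbe144040)) (.lf (nat_lit 0x400bbe182040))) (.nd (nat_lit 50433896512) (.lf (nat_lit 0x400bbe183040)) (.lf (nat_lit 0x400bbe183080))))))) (.nd (nat_lit 50450669632) (.nd (nat_lit 50450149440) (.nd (nat_lit 50434416704) (.nd (nat_lit 50434154560) (.nd (nat_lit 50433900608) (.lf (nat_lit 0x400bbe184040)) (.lf (nat_lit 0x400bbe1c2040))) (.nd (nat_lit 50434158656) (.lf (nat_lit 0x400bbe1c3040)) (.lf (nat_lit 0x400bbe202040)))) (.nd (nat_lit 50449883200) (.nd (nat_lit 50434678848) (.lf (nat_lit 0x400bbe242040)) (.lf (nat_lit 0x400bbf0c2040))) (.nd (nat_lit 50450145344) (.lf (nat_lit 0x400bbf102040)) (.lf (nat_lit 0x400bbf103040))))) (.nd (nat_lit 50450411584) (.nd (nat_lit 50450149505) (.nd (nat_lit 50450149504) (.lf (nat_lit 0x400bbf103080)) (.lf (nat_lit 0x400bbf103081))) (.nd (nat_lit 50450407488) (.lf (nat_lit 0x400bbf142040)) (.lf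 (nat_lit 0x400bbf143040)))) (.nd (nat_lit 50450411649) (.nd (nat_lit 50450411648) (.lf (nat_lit 0x400bbf143080)) (.lf (nat_lit 0x400bbf143081))) (.nd (nat_lit 50450415680) (.lf (nat_lit 0x400bbf144040)) (.lf (nat_lit 0x400bbf182040)))))) (.nd (nat_lit 50451456064) (.nd (nat_lit 50450931776) (.nd (nat_lit 50450673792) (.nd (nat_lit 50450673728) (.lf (nat_lit 0x400bbf183040)) (.lf (nat_lit 0x400bbf183080))) (.nd (nat_lit 50450677824) (.lf (nat_lit 0x400bbf184040)) (.lf (nat_lit 0x400bbf1c2040)))) (.nd (nat_lit 50451193920) (.nd (nat_lit 50450935872) (.lf (nat_lit 0x400bbf1c3040)) (.lf (nat_lit 0x400bbf202040))) (.nd (nat_lit 50451198016) (.lf (nat_lit 0x400bbf203040)) (.lf (nat_lit 0x400bbf242040))))) (.nd (nat_lit 50466926656) (.nd (nat_lit 50466660416) (.nd (nat_lit 50451718208) (.lf (nat_lit 0x400bbf282040)) (.lf (nat_lit 0x400bc00c2040))) (.nd (nat_lit 50466922560) (.lf (nat_lit 0x400bc0102040)) (.lf (nat_lit 0x400bc0103040)))) (.nd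 (nat_lit 50466926721) (.nd (nat_lit 50466926720) (.lf (nat_lit 0x400bc0103080)) (.lf (nat_lit 0x400bc0103081))) (.nd (nat_lit 50467184704) (.lf (nat_lit 0x400bc0142040)) (.lf (nat_lit 0x400bc0143040))))))))
noncomputable def jt30_4 : BT := (.nd (nat_lit 50484236352) (.nd (nat_lit 50468757568) (.nd (nat_lit 50467455040) (.nd (nat_lit 50467192960) (.nd (nat_lit 50467188865) (.nd (nat_lit 50467188864) (.lf (nat_lit 0x400bc0143080)) (.lf (nat_lit 0x400bc0143081))) (.nd (nat_lit 50467192896) (.lf (nat_lit 0x400bc0144040)) (.lf (nat_lit 0x400bc0144080)))) (.nd (nat_lit 50467450944) (.nd (nat_lit 50467446848) (.lf (nat_lit 0x400bc0182040)) (.lf (nat_lit 0x400bc0183040))) (.nd (nat_lit 50467451008) (.lf (nat_lit 0x400bc0183080)) (.lf (nat_lit 0x400bc0184040))))) (.nd (nat_lit 50467971136) (.nd (nat_lit 50467713088) (.nd (nat_lit 50467708992) (.lf (nat_lit 0x400bc01c2040)) (.lf (nat_lit 0x400bc01c3040))) (.nd (nat_lit 50467717184) (.lf (nat_lit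 0x400bc01c4040)) (.lf (nat_lit 0x400bc0202040)))) (.nd (nat_lit 50468233280) (.nd (nat_lit 50467975232) (.lf (nat_lit 0x400bc0203040)) (.lf (nat_lit 0x400bc0242040))) (.nd (nat_lit 50468495424) (.lf (nat_lit 0x400bc0282040)) (.lf (nat_lit 0x400bc02c2040)))))) (.nd (nat_lit 50483966080) (.nd (nat_lit 50483703936) (.nd (nat_lit 50483699776) (.nd (nat_lit 50483437632) (.lf (nat_lit 0x400bc10c2040)) (.lf (nat_lit 0x400bc1102040))) (.nd (nat_lit 50483703872) (.lf (nat_lit 0x400bc1103040)) (.lf (nat_lit 0x400bc1103080)))) (.nd (nat_lit 50483961920) (.nd (nat_lit 50483703937) (.lf (nat_lit 0x400bc1103081)) (.lf (nat_lit 0x400bc1142040))) (.nd (nat_lit 50483966016) (.lf (nat_lit 0x400bc1143040)) (.lf (nat_lit 0x400bc1143080))))) (.nd (nat_lit 50484224064) (.nd (nat_lit 50483970112) (.nd (nat_lit 50483966081) (.lf (nat_lit 0x400bc1143081)) (.lf (nat_lit 0x400bc1144040))) (.nd (nat_lit 50483970176) (.lf (nat_lit 0x400bc1144080)) (.lf (nat_lit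 0x400bc1182040)))) (.nd (nat_lit 50484228224) (.nd (nat_lit 50484228160) (.lf (nat_lit 0x400bc1183040)) (.lf (nat_lit 0x400bc1183080))) (.nd (nat_lit 50484232256) (.lf (nat_lit 0x400bc1184040)) (.lf (nat_lit 0x400bc1185040))))))) (.nd (nat_lit 50500481088) (.nd (nat_lit 50485014592) (.nd (nat_lit 50484494400) (.nd (nat_lit 50484490304) (.nd (nat_lit 50484486208) (.lf (nat_lit 0x400bc11c2040)) (.lf (nat_lit 0x400bc11c3040))) (.nd (nat_lit 50484490368) (.lf (nat_lit 0x400bc11c3080)) (.lf (nat_lit 0x400bc11c4040)))) (.nd (nat_lit 50484752448) (.nd (nat_lit 50484748352) (.lf (nat_lit 0x400bc1202040)) (.lf (nat_lit 0x400bc1203040))) (.nd (nat_lit 50485010496) (.lf (nat_lit 0x400bc1242040)) (.lf (nat_lit 0x400bc1243040))))) (.nd (nat_lit 50485567552) (.nd (nat_lit 50485301440) (.nd (nat_lit 50485272640) (.lf (nat_lit 0x400bc1282040)) (.lf (nat_lit 0x1e5000bc12890c0))) (.nd (nat_lit 50485534784) (.lf (nat_lit 0x400bc12c2040)) (.lf (nat_lit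 0x184000bc12ca040)))) (.nd (nat_lit 50500214848) (.nd (nat_lit 50485796928) (.lf (nat_lit 0x400bc1302040)) (.lf (nat_lit 0x400bc20c2040))) (.nd (nat_lit 50500476992) (.lf (nat_lit 0x400bc2102040)) (.lf (nat_lit 0x400bc2103040)))))) (.nd (nat_lit 50500747392) (.nd (nat_lit 50500743232) (.nd (nat_lit 50500481153) (.nd (nat_lit 50500481152) (.lf (nat_lit 0x400bc2103080)) (.lf (nat_lit 0x400bc2103081))) (.nd (nat_lit 50500739136) (.lf (nat_lit 0x400bc2142040)) (.lf (nat_lit 0x400bc2143040)))) (.nd (nat_lit 50500743297) (.nd (nat_lit 50500743296) (.lf (nat_lit 0x400bc2143080)) (.lf (nat_lit 0x400bc2143081))) (.nd (nat_lit 50500747328) (.lf (nat_lit 0x400bc2144040)) (.lf (nat_lit 0x400bc2144080))))) (.nd (nat_lit 50501009472) (.nd (nat_lit 50501005376) (.nd (nat_lit 50501001280) (.lf (nat_lit 0x400bc2182040)) (.lf (nat_lit 0x400bc2183040))) (.nd (nat_lit 50501005440) (.lf (nat_lit 0x400bc2183080)) (.lf (nat_lit 0x400bc2184040)))) (.nd (nat_lit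 50501013568) (.nd (nat_lit 50501009536) (.lf (nat_lit 0x400bc2184080)) (.lf (nat_lit 0x400bc2185040))) (.nd (nat_lit 50501263424) (.lf (nat_lit 0x400bc21c2040)) (.lf (nat_lit 0x400bc21c3040))))))))
noncomputable def jt30_5 : BT := (.nd (nat_lit 50517520448) (.nd (nat_lit 50502049856) (.nd (nat_lit 50501546240) (.nd (nat_lit 50501529664) (.nd (nat_lit 50501271616) (.nd (nat_lit 50501267584) (.lf (nat_lit 0x400bc21c3080)) (.lf (nat_lit 0x400bc21c4040))) (.nd (nat_lit 50501525568) (.lf (nat_lit 0x400bc2202040)) (.lf (nat_lit 0x400bc2203040)))) (.nd (nat_lit 50501533760) (.nd (nat_lit 50501529728) (.lf (nat_lit 0x400bc2203080)) (.lf (nat_lit 0x400bc2204040))) (.nd (nat_lit 50501546048) (.lf (nat_lit 0x123200bc2207040)) (.lf (nat_lit 0x1e5000bc2207100))))) (.nd (nat_lit 50501804352) (.nd (nat_lit 50501787712) (.nd (nat_lit 50501546304) (.lf (nat_lit 0x1e5000bc2207140)) (.lf (nat_lit 0x400bc2242040))) (.nd (nat_lit 50501791808) (.lf (nat_lit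 0x400bc2243040)) (.lf (nat_lit 0x1e5000bc2246140)))) (.nd (nat_lit 50501808384) (.nd (nat_lit 50501808192) (.lf (nat_lit 0x123200bc2247040)) (.lf (nat_lit 0x20913200bc2247100))) (.nd (nat_lit 50501812416) (.lf (nat_lit 0x20913200bc22480c0)) (.lf (nat_lit 0x400bc2282040)))))) (.nd (nat_lit 50502594624) (.nd (nat_lit 50502316096) (.nd (nat_lit 50502078528) (.nd (nat_lit 50502053952) (.lf (nat_lit 0x400bc2283040)) (.lf (nat_lit 0x123200bc2289040))) (.nd (nat_lit 50502312000) (.lf (nat_lit 0x400bc22c2040)) (.lf (nat_lit 0x400bc22c3040)))) (.nd (nat_lit 50502336576) (.nd (nat_lit 50502332480) (.lf (nat_lit 0x123200bc22c7040)) (.lf (nat_lit 0x123200bc22c8040))) (.nd (nat_lit 50502574144) (.lf (nat_lit 0x400bc2302040)) (.lf (nat_lit 0x123200bc2307040))))) (.nd (nat_lit 50517258304) (.nd (nat_lit 50516992064) (.nd (nat_lit 50502836288) (.lf (nat_lit 0x400bc2342040)) (.lf (nat_lit 0x400bc30c2040))) (.nd (nat_lit 50517254208) (.lf (nat_lit 0x400bc3102040))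 (.lf (nat_lit 0x400bc3103040)))) (.nd (nat_lit 50517258369) (.nd (nat_lit 50517258368) (.lf (nat_lit 0x400bc3103080)) (.lf (nat_lit 0x400bc3103081))) (.nd (nat_lit 50517516352) (.lf (nat_lit 0x400bc3142040)) (.lf (nat_lit 0x400bc3143040))))))) (.nd (nat_lit 50518048832) (.nd (nat_lit 50517782657) (.nd (nat_lit 50517524608) (.nd (nat_lit 50517520513) (.nd (nat_lit 50517520512) (.lf (nat_lit 0x400bc3143080)) (.lf (nat_lit 0x400bc3143081))) (.nd (nat_lit 50517524544) (.lf (nat_lit 0x400bc3144040)) (.lf (nat_lit 0x400bc3144080)))) (.nd (nat_lit 50517782592) (.nd (nat_lit 50517778496) (.lf (nat_lit 0x400bc3182040)) (.lf (nat_lit 0x400bc3183040))) (.nd (nat_lit 50517782656) (.lf (nat_lit 0x400bc3183080)) (.lf (nat_lit 0x400bc3183081))))) (.nd (nat_lit 50517790912) (.nd (nat_lit 50517786752) (.nd (nat_lit 50517786688) (.lf (nat_lit 0x400bc3184040)) (.lf (nat_lit 0x400bc3184080))) (.nd (nat_lit 50517790784) (.lf (nat_lit 0x400bc3185040)) (.lf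 (nat_lit 0x123200bc31850c0)))) (.nd (nat_lit 50518044736) (.nd (nat_lit 50518040640) (.lf (nat_lit 0x400bc31c2040)) (.lf (nat_lit 0x400bc31c3040))) (.nd (nat_lit 50518044800) (.lf (nat_lit 0x400bc31c3080)) (.lf (nat_lit 0x400bc31c4040)))))) (.nd (nat_lit 50518306880) (.nd (nat_lit 50518057088) (.nd (nat_lit 50518052928) (.nd (nat_lit 50518048896) (.lf (nat_lit 0x400bc31c4080)) (.lf (nat_lit 0x400bc31c5040))) (.nd (nat_lit 50518053056) (.lf (nat_lit 0x123200bc31c50c0)) (.lf (nat_lit 0x123200bc31c6080)))) (.nd (nat_lit 50518057280) (.nd (nat_lit 50518057217) (.lf (nat_lit 0x1e5000bc31c6101)) (.lf (nat_lit 0x1e5000bc31c6140))) (.nd (nat_lit 50518302784) (.lf (nat_lit 0x400bc3202040)) (.lf (nat_lit 0x400bc3203040))))) (.nd (nat_lit 50518319232) (.nd (nat_lit 50518310976) (.nd (nat_lit 50518306944) (.lf (nat_lit 0x400bc3203080)) (.lf (nat_lit 0x400bc3204040))) (.nd (nat_lit 50518315072) (.lf (nat_lit 0x400bc3205040)) (.lf (nat_lit 0x123200bc3206080))))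 (.nd (nat_lit 50518323328) (.nd (nat_lit 50518323264) (.lf (nat_lit 0x123200bc3207040)) (.lf (nat_lit 0x123200bc3207080))) (.nd (nat_lit 50518564928) (.lf (nat_lit 0x400bc3242040)) (.lf (nat_lit 0x400bc3243040))))))))
noncomputable def jt30_6 : BT := (.nd (nat_lit 50534297729) (.nd (nat_lit 50519351360) (.nd (nat_lit 50518831168) (.nd (nat_lit 50518585408) (.nd (nat_lit 50518573120) (.nd (nat_lit 50518569088) (.lf (nat_lit 0x400bc3243080)) (.lf (nat_lit 0x400bc3244040))) (.nd (nat_lit 50518581376) (.lf (nat_lit 0x123200bc3246080)) (.lf (nat_lit 0x123200bc3247040)))) (.nd (nat_lit 50518589504) (.nd (nat_lit 50518585472) (.lf (nat_lit 0x123200bc3247080)) (.lf (nat_lit 0x123200bc3248040))) (.nd (nat_lit 50518827072) (.lf (nat_lit 0x400bc3282040)) (.lf (nat_lit 0x400bc3283040))))) (.nd (nat_lit 50518847552) (.nd (nat_lit 50518839488) (.nd (nat_lit 50518835264) (.lf (nat_lit 0x400bc3284040)) (.lf (nat_lit 0x123200bc32850c0))) (.nd (nat_lit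 50518843520) (.lf (nat_lit 0x123200bc3286080)) (.lf (nat_lit 0x123200bc3287040)))) (.nd (nat_lit 50519093312) (.nd (nat_lit 50519089216) (.lf (nat_lit 0x400bc32c2040)) (.lf (nat_lit 0x400bc32c3040))) (.nd (nat_lit 50519097408) (.lf (nat_lit 0x400bc32c4040)) (.lf (nat_lit 0x400bc3302040)))))) (.nd (nat_lit 50533769280) (.nd (nat_lit 50519613504) (.nd (nat_lit 50519359552) (.nd (nat_lit 50519355456) (.lf (nat_lit 0x400bc3303040)) (.lf (nat_lit 0x400bc3304040))) (.nd (nat_lit 50519363648) (.lf (nat_lit 0x400bc3305040)) (.lf (nat_lit 0x400bc3342040)))) (.nd (nat_lit 50519617664) (.nd (nat_lit 50519617600) (.lf (nat_lit 0x400bc3343040)) (.lf (nat_lit 0x400bc3343080))) (.nd (nat_lit 50519621696) (.lf (nat_lit 0x400bc3344040)) (.lf (nat_lit 0x400bc40c2040))))) (.nd (nat_lit 50534035585) (.nd (nat_lit 50534035520) (.nd (nat_lit 50534031424) (.lf (nat_lit 0x400bc4102040)) (.lf (nat_lit 0x400bc4103040))) (.nd (nat_lit 50534035584) (.lf (nat_lit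 0x400bc4103080)) (.lf (nat_lit 0x400bc4103081)))) (.nd (nat_lit 50534297664) (.nd (nat_lit 50534293568) (.lf (nat_lit 0x400bc4142040)) (.lf (nat_lit 0x400bc4143040))) (.nd (nat_lit 50534297728) (.lf (nat_lit 0x400bc4143080)) (.lf (nat_lit 0x400bc4143081))))))) (.nd (nat_lit 50534568065) (.nd (nat_lit 50534559872) (.nd (nat_lit 50534301888) (.nd (nat_lit 50534301824) (.nd (nat_lit 50534301760) (.lf (nat_lit 0x400bc4144040)) (.lf (nat_lit 0x400bc4144080))) (.nd (nat_lit 50534301825) (.lf (nat_lit 0x400bc4144081)) (.lf (nat_lit 0x400bc41440c0)))) (.nd (nat_lit 50534555712) (.nd (nat_lit 50534301889) (.lf (nat_lit 0x123200bc41440c1)) (.lf (nat_lit 0x400bc4182040))) (.nd (nat_lit 50534559808) (.lf (nat_lit 0x400bc4183040)) (.lf (nat_lit 0x400bc4183080))))) (.nd (nat_lit 50534564032) (.nd (nat_lit 50534563904) (.nd (nat_lit 50534559873) (.lf (nat_lit 0x400bc4183081)) (.lf (nat_lit 0x400bc4184040))) (.nd (nat_lit 50534563968) (.lf (nat_lit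 0x400bc4184080)) (.lf (nat_lit 0x400bc41840c0)))) (.nd (nat_lit 50534568000) (.nd (nat_lit 50534564033) (.lf (nat_lit 0x123200bc41840c1)) (.lf (nat_lit 0x400bc4185040))) (.nd (nat_lit 50534568064) (.lf (nat_lit 0x400bc4185080)) (.lf (nat_lit 0x123200bc4185081)))))) (.nd (nat_lit 50534826112) (.nd (nat_lit 50534821952) (.nd (nat_lit 50534568192) (.nd (nat_lit 50534568128) (.lf (nat_lit 0x123200bc41850c0)) (.lf (nat_lit 0x123200bc4185100))) (.nd (nat_lit 50534817856) (.lf (nat_lit 0x400bc41c2040)) (.lf (nat_lit 0x400bc41c3040)))) (.nd (nat_lit 50534822017) (.nd (nat_lit 50534822016) (.lf (nat_lit 0x400bc41c3080)) (.lf (nat_lit 0x400bc41c3081))) (.nd (nat_lit 50534826048) (.lf (nat_lit 0x400bc41c4040)) (.lf (nat_lit 0x400bc41c4080))))) (.nd (nat_lit 50534830272) (.nd (nat_lit 50534830208) (.nd (nat_lit 50534830144) (.lf (nat_lit 0x400bc41c5040)) (.lf (nat_lit 0x400bc41c5080))) (.nd (nat_lit 50534830209) (.lf (nat_lit 0x123200bc41c5081))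 (.lf (nat_lit 0x123200bc41c50c0)))) (.nd (nat_lit 50534834240) (.nd (nat_lit 50534830336) (.lf (nat_lit 0x123200bc41c5100)) (.lf (nat_lit 0x400bc41c6040))) (.nd (nat_lit 50534834304) (.lf (nat_lit 0x123200bc41c6080)) (.lf (nat_lit 0x123200bc41c6081))))))))
noncomputable def jt30_7 : BT := (.nd (nat_lit 50536128576) (.nd (nat_lit 50535346304) (.nd (nat_lit 50535092288) (.nd (nat_lit 50535084160) (.nd (nat_lit 50535080000) (.nd (nat_lit 50534834368) (.lf (nat_lit 0x123200bc41c60c0)) (.lf (nat_lit 0x400bc4202040))) (.nd (nat_lit 50535084096) (.lf (nat_lit 0x400bc4203040)) (.lf (nat_lit 0x400bc4203080)))) (.nd (nat_lit 50535088256) (.nd (nat_lit 50535088192) (.lf (nat_lit 0x400bc4204040)) (.lf (nat_lit 0x400bc4204080))) (.nd (nat_lit 50535088321) (.lf (nat_lit 0x123200bc42040c1)) (.lf (nat_lit 0x400bc4205040))))) (.nd (nat_lit 50535096448) (.nd (nat_lit 50535092416) (.nd (nat_lit 50535092353) (.lf (nat_lit 0x123200bc4205081)) (.lf (nat_lit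 0x123200bc42050c0))) (.nd (nat_lit 50535096384) (.lf (nat_lit 0x400bc4206040)) (.lf (nat_lit 0x123200bc4206080)))) (.nd (nat_lit 50535342144) (.nd (nat_lit 50535100480) (.lf (nat_lit 0x123200bc4207040)) (.lf (nat_lit 0x400bc4242040))) (.nd (nat_lit 50535346240) (.lf (nat_lit 0x400bc4243040)) (.lf (nat_lit 0x400bc4243080)))))) (.nd (nat_lit 50535608448) (.nd (nat_lit 50535354496) (.nd (nat_lit 50535350400) (.nd (nat_lit 50535350336) (.lf (nat_lit 0x400bc4244040)) (.lf (nat_lit 0x400bc4244080))) (.nd (nat_lit 50535354432) (.lf (nat_lit 0x400bc4245040)) (.lf (nat_lit 0x400bc4245080)))) (.nd (nat_lit 50535604288) (.nd (nat_lit 50535358528) (.lf (nat_lit 0x400bc4246040)) (.lf (nat_lit 0x400bc4282040))) (.nd (nat_lit 50535608384) (.lf (nat_lit 0x400bc4283040)) (.lf (nat_lit 0x400bc4283080))))) (.nd (nat_lit 50535866432) (.nd (nat_lit 50535612544) (.nd (nat_lit 50535612480) (.lf (nat_lit 0x400bc4284040)) (.lf (nat_lit 0x400bc4284080))) (.nd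 (nat_lit 50535616576) (.lf (nat_lit 0x400bc4285040)) (.lf (nat_lit 0x400bc42c2040)))) (.nd (nat_lit 50535870592) (.nd (nat_lit 50535870528) (.lf (nat_lit 0x400bc42c3040)) (.lf (nat_lit 0x400bc42c3080))) (.nd (nat_lit 50535874624) (.lf (nat_lit 0x400bc42c4040)) (.lf (nat_lit 0x400bc4302040))))))) (.nd (nat_lit 50551079105) (.nd (nat_lit 50551070784) (.nd (nat_lit 50550808640) (.nd (nat_lit 50536390720) (.nd (nat_lit 50536132672) (.lf (nat_lit 0x400bc4303040)) (.lf (nat_lit 0x400bc4342040))) (.nd (nat_lit 50550546496) (.lf (nat_lit 0x400bc50c2040)) (.lf (nat_lit 0x400bc5102040)))) (.nd (nat_lit 50550812800) (.nd (nat_lit 50550812736) (.lf (nat_lit 0x400bc5103040)) (.lf (nat_lit 0x400bc5103080))) (.nd (nat_lit 50550812801) (.lf (nat_lit 0x400bc5103081)) (.lf (nat_lit 0x400bc5142040))))) (.nd (nat_lit 50551078976) (.nd (nat_lit 50551074944) (.nd (nat_lit 50551074880) (.lf (nat_lit 0x400bc5143040)) (.lf (nat_lit 0x400bc5143080))) (.nd (nat_lit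 50551074945) (.lf (nat_lit 0x400bc5143081)) (.lf (nat_lit 0x400bc5144040)))) (.nd (nat_lit 50551079041) (.nd (nat_lit 50551079040) (.lf (nat_lit 0x400bc5144080)) (.lf (nat_lit 0x400bc5144081))) (.nd (nat_lit 50551079104) (.lf (nat_lit 0x400bc51440c0)) (.lf (nat_lit 0x123200bc51440c1)))))) (.nd (nat_lit 50551341248) (.nd (nat_lit 50551337089) (.nd (nat_lit 50551337024) (.nd (nat_lit 50551332928) (.lf (nat_lit 0x400bc5182040)) (.lf (nat_lit 0x400bc5183040))) (.nd (nat_lit 50551337088) (.lf (nat_lit 0x400bc5183080)) (.lf (nat_lit 0x400bc5183081)))) (.nd (nat_lit 50551341184) (.nd (nat_lit 50551341120) (.lf (nat_lit 0x400bc5184040)) (.lf (nat_lit 0x400bc5184080))) (.nd (nat_lit 50551341185) (.lf (nat_lit 0x400bc5184081)) (.lf (nat_lit 0x400bc51840c0))))) (.nd (nat_lit 50551345281) (.nd (nat_lit 50551345216) (.nd (nat_lit 50551341249) (.lf (nat_lit 0x123200bc51840c1)) (.lf (nat_lit 0x400bc5185040))) (.nd (nat_lit 50551345280) (.lf (nat_lit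 0x400bc5185080)) (.lf (nat_lit 0x123200bc5185081)))) (.nd (nat_lit 50551595072) (.nd (nat_lit 50551345344) (.lf (nat_lit 0x123200bc51850c0)) (.lf (nat_lit 0x400bc51c2040))) (.nd (nat_lit 50551599168) (.lf (nat_lit 0x400bc51c3040)) (.lf (nat_lit 0x400bc51c3080))))))))
noncomputable def jt30_8 : BT := (.nd (nat_lit 50567856192) (.nd (nat_lit 50552119360) (.nd (nat_lit 50551611456) (.nd (nat_lit 50551603329) (.nd (nat_lit 50551603264) (.nd (nat_lit 50551599233) (.lf (nat_lit 0x400bc51c3081)) (.lf (nat_lit 0x400bc51c4040))) (.nd (nat_lit 50551603328) (.lf (nat_lit 0x400bc51c4080)) (.lf (nat_lit 0x400bc51c4081)))) (.nd (nat_lit 50551607360) (.nd (nat_lit 50551603392) (.lf (nat_lit 0x400bc51c40c0)) (.lf (nat_lit 0x400bc51c5040))) (.nd (nat_lit 50551607424) (.lf (nat_lit 0x400bc51c5080)) (.lf (nat_lit 0x400bc51c6040))))) (.nd (nat_lit 50551861377) (.nd (nat_lit 50551861312) (.nd (nat_lit 50551857216) (.lf (nat_lit 0x400bc5202040)) (.lf (nat_lit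 0x400bc5203040))) (.nd (nat_lit 50551861376) (.lf (nat_lit 0x400bc5203080)) (.lf (nat_lit 0x400bc5203081)))) (.nd (nat_lit 50551865472) (.nd (nat_lit 50551865408) (.lf (nat_lit 0x400bc5204040)) (.lf (nat_lit 0x400bc5204080))) (.nd (nat_lit 50551869504) (.lf (nat_lit 0x400bc5205040)) (.lf (nat_lit 0x400bc5242040)))))) (.nd (nat_lit 50567585856) (.nd (nat_lit 50552381504) (.nd (nat_lit 50552123520) (.nd (nat_lit 50552123456) (.lf (nat_lit 0x400bc5243040)) (.lf (nat_lit 0x400bc5243080))) (.nd (nat_lit 50552127552) (.lf (nat_lit 0x400bc5244040)) (.lf (nat_lit 0x400bc5282040)))) (.nd (nat_lit 50552643648) (.nd (nat_lit 50552385600) (.lf (nat_lit 0x400bc5283040)) (.lf (nat_lit 0x400bc52c2040))) (.nd (nat_lit 50567323712) (.lf (nat_lit 0x400bc60c2040)) (.lf (nat_lit 0x400bc6102040))))) (.nd (nat_lit 50567848000) (.nd (nat_lit 50567590016) (.nd (nat_lit 50567589952) (.lf (nat_lit 0x400bc6103040)) (.lf (nat_lit 0x400bc6103080))) (.nd (nat_lit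 50567590017) (.lf (nat_lit 0x400bc6103081)) (.lf (nat_lit 0x400bc6142040)))) (.nd (nat_lit 50567852160) (.nd (nat_lit 50567852096) (.lf (nat_lit 0x400bc6143040)) (.lf (nat_lit 0x400bc6143080))) (.nd (nat_lit 50567852161) (.lf (nat_lit 0x400bc6143081)) (.lf (nat_lit 0x400bc6144040))))))) (.nd (nat_lit 50568638528) (.nd (nat_lit 50568118336) (.nd (nat_lit 50568110144) (.nd (nat_lit 50567856257) (.nd (nat_lit 50567856256) (.lf (nat_lit 0x400bc6144080)) (.lf (nat_lit 0x400bc6144081))) (.nd (nat_lit 50567856320) (.lf (nat_lit 0x400bc61440c0)) (.lf (nat_lit 0x400bc6182040)))) (.nd (nat_lit 50568114304) (.nd (nat_lit 50568114240) (.lf (nat_lit 0x400bc6183040)) (.lf (nat_lit 0x400bc6183080))) (.nd (nat_lit 50568114305) (.lf (nat_lit 0x400bc6183081)) (.lf (nat_lit 0x400bc6184040))))) (.nd (nat_lit 50568376384) (.nd (nat_lit 50568122432) (.nd (nat_lit 50568118400) (.lf (nat_lit 0x400bc6184080)) (.lf (nat_lit 0x400bc6185040))) (.nd (nat_lit 50568372288)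 (.lf (nat_lit 0x400bc61c2040)) (.lf (nat_lit 0x400bc61c3040)))) (.nd (nat_lit 50568380480) (.nd (nat_lit 50568376448) (.lf (nat_lit 0x400bc61c3080)) (.lf (nat_lit 0x400bc61c4040))) (.nd (nat_lit 50568634432) (.lf (nat_lit 0x400bc6202040)) (.lf (nat_lit 0x400bc6203040)))))) (.nd (nat_lit 50584629312) (.nd (nat_lit 50584367168) (.nd (nat_lit 50584100928) (.nd (nat_lit 50568896576) (.lf (nat_lit 0x400bc6242040)) (.lf (nat_lit 0x400bc70c2040))) (.nd (nat_lit 50584363072) (.lf (nat_lit 0x400bc7102040)) (.lf (nat_lit 0x400bc7103040)))) (.nd (nat_lit 50584367233) (.nd (nat_lit 50584367232) (.lf (nat_lit 0x400bc7103080)) (.lf (nat_lit 0x400bc7103081))) (.nd (nat_lit 50584625216) (.lf (nat_lit 0x400bc7142040)) (.lf (nat_lit 0x400bc7143040))))) (.nd (nat_lit 50584891456) (.nd (nat_lit 50584633408) (.nd (nat_lit 50584629376) (.lf (nat_lit 0x400bc7143080)) (.lf (nat_lit 0x400bc7144040))) (.nd (nat_lit 50584887360) (.lf (nat_lit 0x400bc7182040))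 (.lf (nat_lit 0x400bc7183040)))) (.nd (nat_lit 50600878144) (.nd (nat_lit 50585149504) (.lf (nat_lit 0x400bc71c2040)) (.lf (nat_lit 0x400bc80c2040))) (.nd (nat_lit 50601140288) (.lf (nat_lit 0x400bc8102040)) (.lf (nat_lit 0x400bc8103040))))))))
noncomputable def jt30_9 : BT := (.nd (nat_lit 50601402432) (.lf (nat_lit 0x400bc8142040)) (.lf (nat_lit 0x400bc90c2040)))
noncomputable def jt30 : BT := (.nd (nat_lit 50501267520) (.nd (nat_lit 50299154496) (.nd (nat_lit 50131382400) jt30_0 jt30_1) (.nd (nat_lit 50400079936) jt30_2 (.nd (nat_lit 50467188800) jt30_3 jt30_4))) (.nd (nat_lit 50534834305) (.nd (nat_lit 50518569024) jt30_5 jt30_6) (.nd (nat_lit 50551599232) jt30_7 (.nd (nat_lit 50601144384) jt30_8 jt30_9))))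
def jg30 : Cfg := ⟨109, 100, 14, 23, 77⟩
noncomputable def jX30 : F3 := XRc 23 99 99 99 0
noncomputable def jt31_0 : BT := (.nd (nat_lit 50275557440) (.nd (nat_lit 50243317824) (.nd (nat_lit 50226806848) (.nd (nat_lit 50226540608) (.nd (nat_lit 50226274368) (.nd (nat_lit 50209759296) (.lf (nat_lit 0x50a2a00bb0bc2040)) (.lf (nat_lit 0x50a2a00bb1b82040))) (.nd (nat_lit 50226536512) (.lf (nat_lit 0x50a2a00bb1bc2040)) (.lf (nat_lit 0x50a2a00bb1bc3040)))) (.nd (nat_lit 50226802752) (.nd (nat_lit 50226798656) (.lf (nat_lit 0x50a2a00bb1c02040)) (.lf (nat_lit 0x50a2a00bb1c03040))) (.nd (nat_lit 50226802816) (.lf (nat_lit 0x50a2a00bb1c03080)) (.lf (nat_lit 0x50a2a00bb1c04040))))) (.nd (nat_lit 50243051584) (.nd (nat_lit 50242527296) (.nd (nat_lit 50226810944) (.lf (nat_lit 0x50a2a00bb1c05040)) (.lf (nat_lit 0x50a2a00bb2b02040))) (.nd (nat_lit 50242789440) (.lf (nat_lit 0x50a2a00bb2b42040)) (.lf (nat_lit 0x50a2a00bb2b82040)))) (.nd (nat_lit 50243063872)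 (.nd (nat_lit 50243055680) (.lf (nat_lit 0x50a2a00bb2b83040)) (.lf (nat_lit 0x50a2a00bb2b85040))) (.nd (nat_lit 50243313728) (.lf (nat_lit 0x50a2a00bb2bc2040)) (.lf (nat_lit 0x50a2a00bb2bc3040)))))) (.nd (nat_lit 50259566656) (.nd (nat_lit 50243579968) (.nd (nat_lit 50243321920) (.nd (nat_lit 50243317888) (.lf (nat_lit 0x50a2a00bb2bc3080)) (.lf (nat_lit 0x50a2a00bb2bc4040))) (.nd (nat_lit 50243575872) (.lf (nat_lit 0x50a2a00bb2c02040)) (.lf (nat_lit 0x50a2a00bb2c03040)))) (.nd (nat_lit 50259042368) (.nd (nat_lit 50243838016) (.lf (nat_lit 0x50a2a00bb2c42040)) (.lf (nat_lit 0x50a2a00bb3ac2040))) (.nd (nat_lit 50259304512) (.lf (nat_lit 0x50a2a00bb3b02040)) (.lf (nat_lit 0x50a2a00bb3b42040))))) (.nd (nat_lit 50259828800) (.nd (nat_lit 50259570816) (.nd (nat_lit 50259570752) (.lf (nat_lit 0x50a2a00bb3b43040)) (.lf (nat_lit 0x50a2a00bb3b43080))) (.nd (nat_lit 50259574848) (.lf (nat_lit 0x50a2a00bb3b44040)) (.lf (nat_lit 0x50a2a00bb3b82040))))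 (.nd (nat_lit 50260090944) (.nd (nat_lit 50259832896) (.lf (nat_lit 0x50a2a00bb3b83040)) (.lf (nat_lit 0x50a2a00bb3bc2040))) (.nd (nat_lit 50275295296) (.lf (nat_lit 0x50a2a00bb4a42040)) (.lf (nat_lit 0x50a2a00bb4a82040))))))) (.nd (nat_lit 50308063296) (.nd (nat_lit 50291810368) (.nd (nat_lit 50276081728) (.nd (nat_lit 50275823680) (.nd (nat_lit 50275819584) (.lf (nat_lit 0x50a2a00bb4ac2040)) (.lf (nat_lit 0x50a2a00bb4ac3040))) (.nd (nat_lit 50275827776) (.lf (nat_lit 0x50a2a00bb4ac4040)) (.lf (nat_lit 0x50a2a00bb4b02040)))) (.nd (nat_lit 50276343872) (.nd (nat_lit 50276085824) (.lf (nat_lit 0x50a2a00bb4b03040)) (.lf (nat_lit 0x50a2a00bb4b42040))) (.nd (nat_lit 50291548224) (.lf (nat_lit 0x50a2a00bb59c2040)) (.lf (nat_lit 0x50a2a00bb5a02040))))) (.nd (nat_lit 50292334656) (.nd (nat_lit 50292076608) (.nd (nat_lit 50292072512) (.lf (nat_lit 0x50a2a00bb5a42040)) (.lf (nat_lit 0x50a2a00bb5a43040))) (.nd (nat_lit 50292080704) (.lf (nat_lit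 0x50a2a00bb5a44040)) (.lf (nat_lit 0x50a2a00bb5a82040)))) (.nd (nat_lit 50292596800) (.nd (nat_lit 50292338752) (.lf (nat_lit 0x50a2a00bb5a83040)) (.lf (nat_lit 0x50a2a00bb5ac2040))) (.nd (nat_lit 50307801152) (.lf (nat_lit 0x50a2a00bb6942040)) (.lf (nat_lit 0x50a2a00bb6982040)))))) (.nd (nat_lit 50324316224) (.nd (nat_lit 50308587584) (.nd (nat_lit 50308329536) (.nd (nat_lit 50308325440) (.lf (nat_lit 0x50a2a00bb69c2040)) (.lf (nat_lit 0x50a2a00bb69c3040))) (.nd (nat_lit 50308333632) (.lf (nat_lit 0x50a2a00bb69c4040)) (.lf (nat_lit 0x50a2a00bb6a02040)))) (.nd (nat_lit 50308849728) (.nd (nat_lit 50308591680) (.lf (nat_lit 0x50a2a00bb6a03040)) (.lf (nat_lit 0x50a2a00bb6a42040))) (.nd (nat_lit 50324054080) (.lf (nat_lit 0x30c2a00bb78c2040)) (.lf (nat_lit 0x50a2a00bb7902040))))) (.nd (nat_lit 50324840512) (.nd (nat_lit 50324582464) (.nd (nat_lit 50324578368) (.lf (nat_lit 0x50a2a00bb7942040)) (.lf (nat_lit 0x50a2a00bb7943040))) (.nd (nat_lit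 50324586560) (.lf (nat_lit 0x50a2a00bb7944040)) (.lf (nat_lit 0x50a2a00bb7982040)))) (.nd (nat_lit 50325102656) (.nd (nat_lit 50324844608) (.lf (nat_lit 0x50a2a00bb7983040)) (.lf (nat_lit 0x50a2a00bb79c2040))) (.nd (nat_lit 50340307008) (.lf (nat_lit 0x30c2a00bb8842040)) (.lf (nat_lit 0x30c2a00bb8882040))))))))
noncomputable def jt31_1 : BT := (.nd (nat_lit 50405318720) (.nd (nat_lit 50373075008) (.nd (nat_lit 50356822080) (.nd (nat_lit 50341093440) (.nd (nat_lit 50340835392) (.nd (nat_lit 50340831296) (.lf (nat_lit 0x30c2a00bb88c2040)) (.lf (nat_lit 0x30c2a00bb88c3040))) (.nd (nat_lit 50340839488) (.lf (nat_lit 0x30c2a00bb88c4040)) (.lf (nat_lit 0x50a2a00bb8902040)))) (.nd (nat_lit 50341355584) (.nd (nat_lit 50341097536) (.lf (nat_lit 0x50a2a00bb8903040)) (.lf (nat_lit 0x50a2a00bb8942040))) (.nd (nat_lit 50356559936) (.lf (nat_lit 0x20d2a00bb97c2040)) (.lf (nat_lit 0x20d2a00bb9802040))))) (.nd (nat_lit 50357346368) (.nd (nat_lit 50357088320)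 (.nd (nat_lit 50357084224) (.lf (nat_lit 0x30c2a00bb9842040)) (.lf (nat_lit 0x30c2a00bb9843040))) (.nd (nat_lit 50357092416) (.lf (nat_lit 0x30c2a00bb9844040)) (.lf (nat_lit 0x30c2a00bb9882040)))) (.nd (nat_lit 50357608512) (.nd (nat_lit 50357350464) (.lf (nat_lit 0x30c2a00bb9883040)) (.lf (nat_lit 0x30c2a00bb98c2040))) (.nd (nat_lit 50372812864) (.lf (nat_lit 0x10e2a00bba742040)) (.lf (nat_lit 0x10e2a00bba782040)))))) (.nd (nat_lit 50389327936) (.nd (nat_lit 50373599296) (.nd (nat_lit 50373341248) (.nd (nat_lit 50373337152) (.lf (nat_lit 0x20d2a00bba7c2040)) (.lf (nat_lit 0x20d2a00bba7c3040))) (.nd (nat_lit 50373345344) (.lf (nat_lit 0x20d2a00bba7c4040)) (.lf (nat_lit 0x20d2a00bba802040)))) (.nd (nat_lit 50373861440) (.nd (nat_lit 50373603392) (.lf (nat_lit 0x20d2a00bba803040)) (.lf (nat_lit 0x30c2a00bba842040))) (.nd (nat_lit 50389065792) (.lf (nat_lit 0x10e2a00bbb6c2040)) (.lf (nat_lit 0x10e2a00bbb702040))))) (.nd (nat_lit 50389852224)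 (.nd (nat_lit 50389594176) (.nd (nat_lit 50389590080) (.lf (nat_lit 0x10e2a00bbb742040)) (.lf (nat_lit 0x10e2a00bbb743040))) (.nd (nat_lit 50389598272) (.lf (nat_lit 0x10e2a00bbb744040)) (.lf (nat_lit 0x10e2a00bbb782040)))) (.nd (nat_lit 50390114368) (.nd (nat_lit 50389856320) (.lf (nat_lit 0x10e2a00bbb783040)) (.lf (nat_lit 0x20d2a00bbb7c2040))) (.nd (nat_lit 50405056576) (.lf (nat_lit 0x10e2a00bbc602040)) (.lf (nat_lit 0x10e2a00bbc642040))))))) (.nd (nat_lit 50422358080) (.nd (nat_lit 50420785216) (.nd (nat_lit 50405851200) (.nd (nat_lit 50405843008) (.nd (nat_lit 50405580864) (.lf (nat_lit 0x10e2a00bbc682040)) (.lf (nat_lit 0x10e2a00bbc6c2040))) (.nd (nat_lit 50405847104) (.lf (nat_lit 0x10e2a00bbc6c3040)) (.lf (nat_lit 0x10e2a00bbc6c4040)))) (.nd (nat_lit 50406109248) (.nd (nat_lit 50406105152) (.lf (nat_lit 0x10e2a00bbc702040)) (.lf (nat_lit 0x10e2a00bbc703040))) (.nd (nat_lit 50406367296) (.lf (nat_lit 0x10e2a00bbc742040)) (.lf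 (nat_lit 0xe2a00bbd502040))))) (.nd (nat_lit 50421833792) (.nd (nat_lit 50421309504) (.nd (nat_lit 50421047360) (.lf (nat_lit 0xe2a00bbd542040)) (.lf (nat_lit 0x8e2a00bbd582040))) (.nd (nat_lit 50421571648) (.lf (nat_lit 0x10e2a00bbd5c2040)) (.lf (nat_lit 0x10e2a00bbd602040)))) (.nd (nat_lit 50422100032) (.nd (nat_lit 50422095936) (.lf (nat_lit 0x10e2a00bbd642040)) (.lf (nat_lit 0x10e2a00bbd643040))) (.nd (nat_lit 50422104128) (.lf (nat_lit 0x10e2a00bbd644040)) (.lf (nat_lit 0x10e2a00bbd682040)))))) (.nd (nat_lit 50437824576) (.nd (nat_lit 50436776000) (.nd (nat_lit 50422620224) (.nd (nat_lit 50422362176) (.lf (nat_lit 0x10e2a00bbd683040)) (.lf (nat_lit 0x10e2a00bbd6c2040))) (.nd (nat_lit 50436513856) (.lf (nat_lit 0x871c00bbe402040)) (.lf (nat_lit 0x1081c00bbe442040)))) (.nd (nat_lit 50437300288) (.nd (nat_lit 50437038144) (.lf (nat_lit 0xe2a00bbe482040)) (.lf (nat_lit 0xe2a00bbe4c2040))) (.nd (nat_lit 50437562432) (.lf (nat_lit 0x8e2a00bbe502040))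 (.lf (nat_lit 0x10e2a00bbe542040))))) (.nd (nat_lit 50438348864) (.nd (nat_lit 50438086720) (.nd (nat_lit 50437828672) (.lf (nat_lit 0x10e2a00bbe543040)) (.lf (nat_lit 0x10e2a00bbe582040))) (.nd (nat_lit 50438090816) (.lf (nat_lit 0x10e2a00bbe583040)) (.lf (nat_lit 0x10e2a00bbe5c2040)))) (.nd (nat_lit 50438353024) (.nd (nat_lit 50438352960) (.lf (nat_lit 0x10e2a00bbe5c3040)) (.lf (nat_lit 0x10e2a00bbe5c3080))) (.nd (nat_lit 50438357056) (.lf (nat_lit 0x10e2a00bbe5c4040)) (.lf (nat_lit 0x10e2a00bbe602040))))))))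
noncomputable def jt31_2 : BT := (.nd (nat_lit 50470604864) (.nd (nat_lit 50454601792) (.nd (nat_lit 50453819456) (.nd (nat_lit 50453291072) (.nd (nat_lit 50438615104) (.lf (nat_lit 0x10e2a00bbe603040)) (.nd (nat_lit 50438873152) (.lf (nat_lit 0x10e2a00bbe642040)) (.lf (nat_lit 0x1081c00bbf402040)))) (.nd (nat_lit 50453553216) (.lf (nat_lit 0x1081c00bbf442040)) (.nd (nat_lit 50453815360) (.lf (nat_lit 0xe2a00bbf482040)) (.lf (nat_lit 0x123200bbf483040))))) (.nd (nat_lit 50454339648) (.nd (nat_lit 50454077504) (.lf (nat_lit 0x123200bbf4c2040)) (.nd (nat_lit 50454081600) (.lf (nat_lit 0x123200bbf4c3040)) (.lf (nat_lit 0x123200bbf502040)))) (.nd (nat_lit 50454347840) (.nd (nat_lit 50454343744) (.lf (nat_lit 0x123200bbf503040)) (.lf (nat_lit 0x123200bbf504040))) (.nd (nat_lit 50454351936) (.lf (nat_lit 0x123200bbf505040)) (.lf (nat_lit 0x10e2a00bbf542040)))))) (.nd (nat_lit 50470068288) (.nd (nat_lit 50454609984) (.nd (nat_lit 50454605888)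 (.lf (nat_lit 0x10e2a00bbf543040)) (.nd (nat_lit 50454605952) (.lf (nat_lit 0x10e2a00bbf543080)) (.lf (nat_lit 0x10e2a00bbf544040)))) (.nd (nat_lit 50454868032) (.nd (nat_lit 50454863936) (.lf (nat_lit 0x10e2a00bbf582040)) (.lf (nat_lit 0x10e2a00bbf583040))) (.nd (nat_lit 50455126080) (.lf (nat_lit 0x10e2a00bbf5c2040)) (.lf (nat_lit 0x1081c00bc0402040))))) (.nd (nat_lit 50470334528) (.nd (nat_lit 50470072384) (.lf (nat_lit 0x1081c00bc0403040)) (.nd (nat_lit 50470330432) (.lf (nat_lit 0x1081c00bc0442040)) (.lf (nat_lit 0x1081c00bc0443040)))) (.nd (nat_lit 50470596672) (.nd (nat_lit 50470592576) (.lf (nat_lit 0x123200bc0482040)) (.lf (nat_lit 0x123200bc0483040))) (.nd (nat_lit 50470600768) (.lf (nat_lit 0x123200bc0484040)) (.lf (nat_lit 0x123200bc0485040))))))) (.nd (nat_lit 50487107648) (.nd (nat_lit 50471120960) (.nd (nat_lit 50470858880) (.nd (nat_lit 50470854720) (.lf (nat_lit 0x123200bc04c2040)) (.nd (nat_lit 50470858816) (.lf (nat_lit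 0x123200bc04c3040)) (.lf (nat_lit 0x123200bc04c3080)))) (.nd (nat_lit 50470862912) (.lf (nat_lit 0x123200bc04c4040)) (.nd (nat_lit 50471116864) (.lf (nat_lit 0x123200bc0502040)) (.lf (nat_lit 0x123200bc0503040))))) (.nd (nat_lit 50486849600) (.nd (nat_lit 50471379008) (.lf (nat_lit 0x10e2a00bc0542040)) (.nd (nat_lit 50486845504) (.lf (nat_lit 0x1081c00bc1402040)) (.lf (nat_lit 0x1081c00bc1403040)))) (.nd (nat_lit 50486853696) (.nd (nat_lit 50486849664) (.lf (nat_lit 0x1081c00bc1403080)) (.lf (nat_lit 0x1081c00bc1404040))) (.nd (nat_lit 50486857792) (.lf (nat_lit 0x1081c00bc1405040)) (.lf (nat_lit 0x1081c00bc1442040)))))) (.nd (nat_lit 50503098432) (.nd (nat_lit 50487115840) (.nd (nat_lit 50487111744) (.lf (nat_lit 0x1081c00bc1443040)) (.nd (nat_lit 50487111808) (.lf (nat_lit 0x1081c00bc1443080)) (.lf (nat_lit 0x1081c00bc1444040)))) (.nd (nat_lit 50487373888) (.nd (nat_lit 50487369792) (.lf (nat_lit 0x123200bc1482040)) (.lf (nat_lit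 0x123200bc1483040))) (.nd (nat_lit 50487631936) (.lf (nat_lit 0x123200bc14c2040)) (.lf (nat_lit 0x400bc2382040))))) (.nd (nat_lit 50503626816) (.nd (nat_lit 50503360576) (.lf (nat_lit 0x400bc23c2040)) (.nd (nat_lit 50503622720) (.lf (nat_lit 0x1081c00bc2402040)) (.lf (nat_lit 0x1081c00bc2403040)))) (.nd (nat_lit 50519875648) (.nd (nat_lit 50503884864) (.lf (nat_lit 0x1081c00bc2442040)) (.lf (nat_lit 0x400bc3382040))) (.nd (nat_lit 50519879744) (.lf (nat_lit 0x400bc3383040)) (.lf (nat_lit 0x400bc33c2040))))))))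
noncomputable def jt31 : BT := (.nd (nat_lit 50340569152) jt31_0 (.nd (nat_lit 50438611008) jt31_1 jt31_2))
def jg31 : Cfg := ⟨109, 100, 50, 23, 74⟩
noncomputable def jX31 : F3 := XRc 22 99 99 99 0
noncomputable def jt32_0 : BT := (.nd (nat_lit 52194975808) (.nd (nat_lit 52127866944) (.nd (nat_lit 52077539392) (.nd (nat_lit 52060495936) (.nd (nat_lit 52043718720) (.nd (nat_lit 52026941504) (.lf (nat_lit 0x400c1d0c2040)) (.lf (nat_lit 0x400c1e0c2040))) (.nd (nat_lit 52043980864) (.lf (nat_lit 0x400c1e102040)) (.lf (nat_lit 0x400c1f0c2040)))) (.nd (nat_lit 52077273152) (.nd (nat_lit 52060758080) (.lf (nat_lit 0x400c1f102040)) (.lf (nat_lit 0x400c200c2040))) (.nd (nat_lit 52077535296) (.lf (nat_lit 0x400c20102040)) (.lf (nat_lit 0x400c20103040))))) (.nd (nat_lit 52110827584) (.nd (nat_lit 52094312512) (.nd (nat_lit 52094050368) (.lf (nat_lit 0x400c210c2040)) (.lf (nat_lit 0x400c21102040))) (.nd (nat_lit 52094316608) (.lf (nat_lit 0x400c21103040))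 (.lf (nat_lit 0x400c220c2040)))) (.nd (nat_lit 52111093824) (.nd (nat_lit 52111089728) (.lf (nat_lit 0x400c22102040)) (.lf (nat_lit 0x400c22103040))) (.nd (nat_lit 52127604800) (.lf (nat_lit 0x400c230c2040)) (.lf (nat_lit 0x400c23102040)))))) (.nd (nat_lit 52161421376) (.nd (nat_lit 52144644160) (.nd (nat_lit 52127871104) (.nd (nat_lit 52127871040) (.lf (nat_lit 0x400c23103040)) (.lf (nat_lit 0x400c23103080))) (.nd (nat_lit 52144382016) (.lf (nat_lit 0x400c240c2040)) (.lf (nat_lit 0x400c24102040)))) (.nd (nat_lit 52144648320) (.nd (nat_lit 52144648256) (.lf (nat_lit 0x400c24103040)) (.lf (nat_lit 0x400c24103080))) (.nd (nat_lit 52161159232) (.lf (nat_lit 0x400c250c2040)) (.lf (nat_lit 0x400c25102040))))) (.nd (nat_lit 52178198592) (.nd (nat_lit 52161425536) (.nd (nat_lit 52161425472) (.lf (nat_lit 0x400c25103040)) (.lf (nat_lit 0x400c25103080))) (.nd (nat_lit 52177936448) (.lf (nat_lit 0x400c260c2040)) (.lf (nat_lit 0x400c26102040))))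 (.nd (nat_lit 52178202752) (.nd (nat_lit 52178202688) (.lf (nat_lit 0x400c26103040)) (.lf (nat_lit 0x400c26103080))) (.nd (nat_lit 52194713664) (.lf (nat_lit 0x400c270c2040)) (.lf (nat_lit 0x400c27102040))))))) (.nd (nat_lit 52245311552) (.nd (nat_lit 52211757185) (.nd (nat_lit 52211490880) (.nd (nat_lit 52194979968) (.nd (nat_lit 52194979904) (.lf (nat_lit 0x400c27103040)) (.lf (nat_lit 0x400c27103080))) (.nd (nat_lit 52194979969) (.lf (nat_lit 0x400c27103081)) (.lf (nat_lit 0x400c280c2040)))) (.nd (nat_lit 52211757120) (.nd (nat_lit 52211753024) (.lf (nat_lit 0x400c28102040)) (.lf (nat_lit 0x400c28103040))) (.nd (nat_lit 52211757184) (.lf (nat_lit 0x400c28103080)) (.lf (nat_lit 0x400c28103081))))) (.nd (nat_lit 52228534400) (.nd (nat_lit 52228530240) (.nd (nat_lit 52228268096) (.lf (nat_lit 0x400c290c2040)) (.lf (nat_lit 0x400c29102040))) (.nd (nat_lit 52228534336) (.lf (nat_lit 0x400c29103040)) (.lf (nat_lit 0x400c29103080)))) (.nd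 (nat_lit 52245045312) (.nd (nat_lit 52228534401) (.lf (nat_lit 0x400c29103081)) (.lf (nat_lit 0x400c2a0c2040))) (.nd (nat_lit 52245307456) (.lf (nat_lit 0x400c2a102040)) (.lf (nat_lit 0x400c2a103040)))))) (.nd (nat_lit 52278599744) (.nd (nat_lit 52262084672) (.nd (nat_lit 52245311617) (.nd (nat_lit 52245311616) (.lf (nat_lit 0x400c2a103080)) (.lf (nat_lit 0x400c2a103081))) (.nd (nat_lit 52261822528) (.lf (nat_lit 0x400c2b0c2040)) (.lf (nat_lit 0x400c2b102040)))) (.nd (nat_lit 52262088832) (.nd (nat_lit 52262088768) (.lf (nat_lit 0x400c2b103040)) (.lf (nat_lit 0x400c2b103080))) (.nd (nat_lit 52262088833) (.lf (nat_lit 0x400c2b103081)) (.lf (nat_lit 0x400c2c0c2040))))) (.nd (nat_lit 52278866049) (.nd (nat_lit 52278865984) (.nd (nat_lit 52278861888) (.lf (nat_lit 0x400c2c102040)) (.lf (nat_lit 0x400c2c103040))) (.nd (nat_lit 52278866048) (.lf (nat_lit 0x400c2c103080)) (.lf (nat_lit 0x400c2c103081)))) (.nd (nat_lit 52295639104) (.nd (nat_lit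 52295376960) (.lf (nat_lit 0x400c2d0c2040)) (.lf (nat_lit 0x400c2d102040))) (.nd (nat_lit 52295643200) (.lf (nat_lit 0x400c2d103040)) (.lf (nat_lit 0x400c2d103080))))))))
noncomputable def jt32_1 : BT := (.nd (nat_lit 52396302400) (.nd (nat_lit 52345974912) (.nd (nat_lit 52329193536) (.nd (nat_lit 52312420416) (.nd (nat_lit 52312154176) (.nd (nat_lit 52295643265) (.lf (nat_lit 0x400c2d103081)) (.lf (nat_lit 0x400c2e0c2040))) (.nd (nat_lit 52312416320) (.lf (nat_lit 0x400c2e102040)) (.lf (nat_lit 0x400c2e103040)))) (.nd (nat_lit 52312420481) (.nd (nat_lit 52312420480) (.lf (nat_lit 0x400c2e103080)) (.lf (nat_lit 0x400c2e103081))) (.nd (nat_lit 52328931392) (.lf (nat_lit 0x400c2f0c2040)) (.lf (nat_lit 0x400c2f102040))))) (.nd (nat_lit 52329455680) (.nd (nat_lit 52329197696) (.nd (nat_lit 52329197632) (.lf (nat_lit 0x400c2f103040)) (.lf (nat_lit 0x400c2f103080))) (.nd (nat_lit 52329197697) (.lf (nat_lit 0x400c2f103081)) (.lf (nat_lit 0x400c2f142040))))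 (.nd (nat_lit 52345970752) (.nd (nat_lit 52345708608) (.lf (nat_lit 0x400c300c2040)) (.lf (nat_lit 0x400c30102040))) (.nd (nat_lit 52345974848) (.lf (nat_lit 0x400c30103040)) (.lf (nat_lit 0x400c30103080)))))) (.nd (nat_lit 52363010112) (.nd (nat_lit 52362747968) (.nd (nat_lit 52346232896) (.nd (nat_lit 52345974913) (.lf (nat_lit 0x400c30103081)) (.lf (nat_lit 0x400c30142040))) (.nd (nat_lit 52362485824) (.lf (nat_lit 0x400c310c2040)) (.lf (nat_lit 0x400c31102040)))) (.nd (nat_lit 52362752128) (.nd (nat_lit 52362752064) (.lf (nat_lit 0x400c31103040)) (.lf (nat_lit 0x400c31103080))) (.nd (nat_lit 52362752129) (.lf (nat_lit 0x400c31103081)) (.lf (nat_lit 0x400c31142040))))) (.nd (nat_lit 52379529344) (.nd (nat_lit 52379525184) (.nd (nat_lit 52379263040) (.lf (nat_lit 0x400c320c2040)) (.lf (nat_lit 0x400c32102040))) (.nd (nat_lit 52379529280) (.lf (nat_lit 0x400c32103040)) (.lf (nat_lit 0x400c32103080)))) (.nd (nat_lit 52379787328) (.nd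 (nat_lit 52379529345) (.lf (nat_lit 0x400c32103081)) (.lf (nat_lit 0x400c32142040))) (.nd (nat_lit 52396040256) (.lf (nat_lit 0x400c330c2040)) (.lf (nat_lit 0x400c33102040))))))) (.nd (nat_lit 52430118976) (.nd (nat_lit 52413083776) (.nd (nat_lit 52396564544) (.nd (nat_lit 52396306560) (.nd (nat_lit 52396306496) (.lf (nat_lit 0x400c33103040)) (.lf (nat_lit 0x400c33103080))) (.nd (nat_lit 52396306561) (.lf (nat_lit 0x400c33103081)) (.lf (nat_lit 0x400c33142040)))) (.nd (nat_lit 52413079616) (.nd (nat_lit 52412817472) (.lf (nat_lit 0x400c340c2040)) (.lf (nat_lit 0x400c34102040))) (.nd (nat_lit 52413083712) (.lf (nat_lit 0x400c34103040)) (.lf (nat_lit 0x400c34103080))))) (.nd (nat_lit 52429856832) (.nd (nat_lit 52413341760) (.nd (nat_lit 52413083777) (.lf (nat_lit 0x400c34103081)) (.lf (nat_lit 0x400c34142040))) (.nd (nat_lit 52429594688) (.lf (nat_lit 0x400c350c2040)) (.lf (nat_lit 0x400c35102040)))) (.nd (nat_lit 52429860992) (.nd (nat_lit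 52429860928) (.lf (nat_lit 0x400c35103040)) (.lf (nat_lit 0x400c35103080))) (.nd (nat_lit 52429860993) (.lf (nat_lit 0x400c35103081)) (.lf (nat_lit 0x400c35142040)))))) (.nd (nat_lit 52446900288) (.nd (nat_lit 52446638144) (.nd (nat_lit 52446371904) (.nd (nat_lit 52430123072) (.lf (nat_lit 0x400c35143040)) (.lf (nat_lit 0x400c360c2040))) (.nd (nat_lit 52446634048) (.lf (nat_lit 0x400c36102040)) (.lf (nat_lit 0x400c36103040)))) (.nd (nat_lit 52446638209) (.nd (nat_lit 52446638208) (.lf (nat_lit 0x400c36103080)) (.lf (nat_lit 0x400c36103081))) (.nd (nat_lit 52446896192) (.lf (nat_lit 0x400c36142040)) (.lf (nat_lit 0x400c36143040))))) (.nd (nat_lit 52463415360) (.nd (nat_lit 52463149120) (.nd (nat_lit 52447158336) (.lf (nat_lit 0x400c36182040)) (.lf (nat_lit 0x400c370c2040))) (.nd (nat_lit 52463411264) (.lf (nat_lit 0x400c37102040)) (.lf (nat_lit 0x400c37103040)))) (.nd (nat_lit 52463415425) (.nd (nat_lit 52463415424) (.lf (nat_lit 0x400c37103080))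 (.lf (nat_lit 0x400c37103081))) (.nd (nat_lit 52463673408) (.lf (nat_lit 0x400c37142040)) (.lf (nat_lit 0x400c37143040))))))))
noncomputable def jt32_2 : BT := (.nd (nat_lit 52530782272) (.nd (nat_lit 52497231936) (.nd (nat_lit 52480454720) (.nd (nat_lit 52480192576) (.nd (nat_lit 52479926336) (.nd (nat_lit 52463935552) (.lf (nat_lit 0x400c37182040)) (.lf (nat_lit 0x400c380c2040))) (.nd (nat_lit 52480188480) (.lf (nat_lit 0x400c38102040)) (.lf (nat_lit 0x400c38103040)))) (.nd (nat_lit 52480192641) (.nd (nat_lit 52480192640) (.lf (nat_lit 0x400c38103080)) (.lf (nat_lit 0x400c38103081))) (.nd (nat_lit 52480450624) (.lf (nat_lit 0x400c38142040)) (.lf (nat_lit 0x400c38143040))))) (.nd (nat_lit 52496969792) (.nd (nat_lit 52496703552) (.nd (nat_lit 52480712768) (.lf (nat_lit 0x400c38182040)) (.lf (nat_lit 0x400c390c2040))) (.nd (nat_lit 52496965696) (.lf (nat_lit 0x400c39102040)) (.lf (nat_lit 0x400c39103040)))) (.nd (nat_lit 52496969857)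 (.nd (nat_lit 52496969856) (.lf (nat_lit 0x400c39103080)) (.lf (nat_lit 0x400c39103081))) (.nd (nat_lit 52497227840) (.lf (nat_lit 0x400c39142040)) (.lf (nat_lit 0x400c39143040)))))) (.nd (nat_lit 52514009152) (.nd (nat_lit 52513747008) (.nd (nat_lit 52513480768) (.nd (nat_lit 52497489984) (.lf (nat_lit 0x400c39182040)) (.lf (nat_lit 0x400c3a0c2040))) (.nd (nat_lit 52513742912) (.lf (nat_lit 0x400c3a102040)) (.lf (nat_lit 0x400c3a103040)))) (.nd (nat_lit 52513747073) (.nd (nat_lit 52513747072) (.lf (nat_lit 0x400c3a103080)) (.lf (nat_lit 0x400c3a103081))) (.nd (nat_lit 52514005056) (.lf (nat_lit 0x400c3a142040)) (.lf (nat_lit 0x400c3a143040))))) (.nd (nat_lit 52530520128) (.nd (nat_lit 52514529344) (.nd (nat_lit 52514267200) (.lf (nat_lit 0x400c3a182040)) (.lf (nat_lit 0x400c3a1c2040))) (.nd (nat_lit 52530257984) (.lf (nat_lit 0x400c3b0c2040)) (.lf (nat_lit 0x400c3b102040)))) (.nd (nat_lit 52530524288) (.nd (nat_lit 52530524224) (.lf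 (nat_lit 0x400c3b103040)) (.lf (nat_lit 0x400c3b103080))) (.nd (nat_lit 52530524289) (.lf (nat_lit 0x400c3b103081)) (.lf (nat_lit 0x400c3b142040))))))) (.nd (nat_lit 52548083776) (.nd (nat_lit 52547301440) (.nd (nat_lit 52531048512) (.nd (nat_lit 52530786432) (.nd (nat_lit 52530786368) (.lf (nat_lit 0x400c3b143040)) (.lf (nat_lit 0x400c3b143080))) (.nd (nat_lit 52531044416) (.lf (nat_lit 0x400c3b182040)) (.lf (nat_lit 0x400c3b183040)))) (.nd (nat_lit 52547035200) (.nd (nat_lit 52531306560) (.lf (nat_lit 0x400c3b1c2040)) (.lf (nat_lit 0x400c3c0c2040))) (.nd (nat_lit 52547297344) (.lf (nat_lit 0x400c3c102040)) (.lf (nat_lit 0x400c3c103040))))) (.nd (nat_lit 52547563584) (.nd (nat_lit 52547301505) (.nd (nat_lit 52547301504) (.lf (nat_lit 0x400c3c103080)) (.lf (nat_lit 0x400c3c103081))) (.nd (nat_lit 52547559488) (.lf (nat_lit 0x400c3c142040)) (.lf (nat_lit 0x400c3c143040)))) (.nd (nat_lit 52547821632) (.nd (nat_lit 52547563648) (.lf (nat_lit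 0x400c3c143080)) (.lf (nat_lit 0x400c3c182040))) (.nd (nat_lit 52547825728) (.lf (nat_lit 0x400c3c183040)) (.lf (nat_lit 0x400c3c1c2040)))))) (.nd (nat_lit 52564340864) (.nd (nat_lit 52564078720) (.nd (nat_lit 52564074560) (.nd (nat_lit 52563812416) (.lf (nat_lit 0x400c3d0c2040)) (.lf (nat_lit 0x400c3d102040))) (.nd (nat_lit 52564078656) (.lf (nat_lit 0x400c3d103040)) (.lf (nat_lit 0x400c3d103080)))) (.nd (nat_lit 52564336704) (.nd (nat_lit 52564078721) (.lf (nat_lit 0x400c3d103081)) (.lf (nat_lit 0x400c3d142040))) (.nd (nat_lit 52564340800) (.lf (nat_lit 0x400c3d143040)) (.lf (nat_lit 0x400c3d143080))))) (.nd (nat_lit 52564860992) (.nd (nat_lit 52564598848) (.nd (nat_lit 52564344896) (.lf (nat_lit 0x400c3d144040)) (.lf (nat_lit 0x400c3d182040))) (.nd (nat_lit 52564602944) (.lf (nat_lit 0x400c3d183040)) (.lf (nat_lit 0x400c3d1c2040)))) (.nd (nat_lit 52580851776) (.nd (nat_lit 52580589632) (.lf (nat_lit 0x400c3e0c2040)) (.lf (nat_lit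 0x400c3e102040))) (.nd (nat_lit 52580855872) (.lf (nat_lit 0x400c3e103040)) (.lf (nat_lit 0x400c3e103080))))))))
noncomputable def jt32_3 : BT := (.nd (nat_lit 52614676544) (.nd (nat_lit 52597895232) (.nd (nat_lit 52581638208) (.nd (nat_lit 52581118080) (.nd (nat_lit 52581113920) (.nd (nat_lit 52580855937) (.lf (nat_lit 0x400c3e103081)) (.lf (nat_lit 0x400c3e142040))) (.nd (nat_lit 52581118016) (.lf (nat_lit 0x400c3e143040)) (.lf (nat_lit 0x400c3e143080)))) (.nd (nat_lit 52581376064) (.nd (nat_lit 52581122112) (.lf (nat_lit 0x400c3e144040)) (.lf (nat_lit 0x400c3e182040))) (.nd (nat_lit 52581380160) (.lf (nat_lit 0x400c3e183040)) (.lf (nat_lit 0x400c3e1c2040))))) (.nd (nat_lit 52597633088) (.nd (nat_lit 52597366848) (.nd (nat_lit 52581900352) (.lf (nat_lit 0x400c3e202040)) (.lf (nat_lit 0x400c3f0c2040))) (.nd (nat_lit 52597628992) (.lf (nat_lit 0x400c3f102040)) (.lf (nat_lit 0x400c3f103040)))) (.nd (nat_lit 52597633153) (.nd (nat_lit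 52597633152) (.lf (nat_lit 0x400c3f103080)) (.lf (nat_lit 0x400c3f103081))) (.nd (nat_lit 52597891136) (.lf (nat_lit 0x400c3f142040)) (.lf (nat_lit 0x400c3f143040)))))) (.nd (nat_lit 52614144064) (.nd (nat_lit 52598157376) (.nd (nat_lit 52597899328) (.nd (nat_lit 52597895296) (.lf (nat_lit 0x400c3f143080)) (.lf (nat_lit 0x400c3f144040))) (.nd (nat_lit 52598153280) (.lf (nat_lit 0x400c3f182040)) (.lf (nat_lit 0x400c3f183040)))) (.nd (nat_lit 52598419520) (.nd (nat_lit 52598415424) (.lf (nat_lit 0x400c3f1c2040)) (.lf (nat_lit 0x400c3f1c3040))) (.nd (nat_lit 52598677568) (.lf (nat_lit 0x400c3f202040)) (.lf (nat_lit 0x400c400c2040))))) (.nd (nat_lit 52614410369) (.nd (nat_lit 52614410304) (.nd (nat_lit 52614406208) (.lf (nat_lit 0x400c40102040)) (.lf (nat_lit 0x400c40103040))) (.nd (nat_lit 52614410368) (.lf (nat_lit 0x400c40103080)) (.lf (nat_lit 0x400c40103081)))) (.nd (nat_lit 52614672448) (.nd (nat_lit 52614668352) (.lf (nat_lit 0x400c40142040))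 (.lf (nat_lit 0x400c40143040))) (.nd (nat_lit 52614672512) (.lf (nat_lit 0x400c40143080)) (.lf (nat_lit 0x400c40144040))))))) (.nd (nat_lit 52631449729) (.nd (nat_lit 52630921280) (.nd (nat_lit 52615192640) (.nd (nat_lit 52614934592) (.nd (nat_lit 52614930496) (.lf (nat_lit 0x400c40182040)) (.lf (nat_lit 0x400c40183040))) (.nd (nat_lit 52614934656) (.lf (nat_lit 0x400c40183080)) (.lf (nat_lit 0x400c401c2040)))) (.nd (nat_lit 52615454784) (.nd (nat_lit 52615196736) (.lf (nat_lit 0x400c401c3040)) (.lf (nat_lit 0x400c40202040))) (.nd (nat_lit 52615716928) (.lf (nat_lit 0x400c40242040)) (.lf (nat_lit 0x400c410c2040))))) (.nd (nat_lit 52631187585) (.nd (nat_lit 52631187520) (.nd (nat_lit 52631183424) (.lf (nat_lit 0x400c41102040)) (.lf (nat_lit 0x400c41103040))) (.nd (nat_lit 52631187584) (.lf (nat_lit 0x400c41103080)) (.lf (nat_lit 0x400c41103081)))) (.nd (nat_lit 52631449664) (.nd (nat_lit 52631445568) (.lf (nat_lit 0x400c41142040)) (.lf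 (nat_lit 0x400c41143040))) (.nd (nat_lit 52631449728) (.lf (nat_lit 0x400c41143080)) (.lf (nat_lit 0x400c41143081)))))) (.nd (nat_lit 52632232000) (.nd (nat_lit 52631711872) (.nd (nat_lit 52631707712) (.nd (nat_lit 52631453760) (.lf (nat_lit 0x400c41144040)) (.lf (nat_lit 0x400c41182040))) (.nd (nat_lit 52631711808) (.lf (nat_lit 0x400c41183040)) (.lf (nat_lit 0x400c41183080)))) (.nd (nat_lit 52631969856) (.nd (nat_lit 52631715904) (.lf (nat_lit 0x400c41184040)) (.lf (nat_lit 0x400c411c2040))) (.nd (nat_lit 52631973952) (.lf (nat_lit 0x400c411c3040)) (.lf (nat_lit 0x400c41202040))))) (.nd (nat_lit 52647964736) (.nd (nat_lit 52647698496) (.nd (nat_lit 52632494144) (.lf (nat_lit 0x400c41242040)) (.lf (nat_lit 0x400c420c2040))) (.nd (nat_lit 52647960640) (.lf (nat_lit 0x400c42102040)) (.lf (nat_lit 0x400c42103040)))) (.nd (nat_lit 52647964801) (.nd (nat_lit 52647964800) (.lf (nat_lit 0x400c42103080)) (.lf (nat_lit 0x400c42103081))) (.nd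 (nat_lit 52648222784) (.lf (nat_lit 0x400c42142040)) (.lf (nat_lit 0x400c42143040))))))))
noncomputable def jt32_4 : BT := (.nd (nat_lit 52665524288) (.nd (nat_lit 52650360896) (.nd (nat_lit 52648493120) (.nd (nat_lit 52648231040) (.nd (nat_lit 52648226945) (.nd (nat_lit 52648226944) (.lf (nat_lit 0x400c42143080)) (.lf (nat_lit 0x400c42143081))) (.nd (nat_lit 52648230976) (.lf (nat_lit 0x400c42144040)) (.lf (nat_lit 0x400c42144080)))) (.nd (nat_lit 52648489024) (.nd (nat_lit 52648484928) (.lf (nat_lit 0x400c42182040)) (.lf (nat_lit 0x400c42183040))) (.nd (nat_lit 52648489088) (.lf (nat_lit 0x400c42183080)) (.lf (nat_lit 0x400c42184040))))) (.nd (nat_lit 52649013312) (.nd (nat_lit 52648751168) (.nd (nat_lit 52648747072) (.lf (nat_lit 0x400c421c2040)) (.lf (nat_lit 0x400c421c3040))) (.nd (nat_lit 52649009216) (.lf (nat_lit 0x400c42202040)) (.lf (nat_lit 0x400c42203040)))) (.nd (nat_lit 52649533504) (.nd (nat_lit 52649271360) (.lf (nat_lit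 0x400c42242040)) (.lf (nat_lit 0x400c42282040))) (.nd (nat_lit 52650094784) (.lf (nat_lit 0x20a05800c4230b0c0)) (.lf (nat_lit 0x209a4800c4234c040)))))) (.nd (nat_lit 52665004160) (.nd (nat_lit 52664742016) (.nd (nat_lit 52664737856) (.nd (nat_lit 52664475712) (.lf (nat_lit 0x400c430c2040)) (.lf (nat_lit 0x400c43102040))) (.nd (nat_lit 52664741952) (.lf (nat_lit 0x400c43103040)) (.lf (nat_lit 0x400c43103080)))) (.nd (nat_lit 52665000000) (.nd (nat_lit 52664742017) (.lf (nat_lit 0x400c43103081)) (.lf (nat_lit 0x400c43142040))) (.nd (nat_lit 52665004096) (.lf (nat_lit 0x400c43143040)) (.lf (nat_lit 0x400c43143080))))) (.nd (nat_lit 52665262144) (.nd (nat_lit 52665008192) (.nd (nat_lit 52665004161) (.lf (nat_lit 0x400c43143081)) (.lf (nat_lit 0x400c43144040))) (.nd (nat_lit 52665008256) (.lf (nat_lit 0x400c43144080)) (.lf (nat_lit 0x400c43182040)))) (.nd (nat_lit 52665266304) (.nd (nat_lit 52665266240) (.lf (nat_lit 0x400c43183040)) (.lf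 (nat_lit 0x400c43183080))) (.nd (nat_lit 52665270336) (.lf (nat_lit 0x400c43184040)) (.lf (nat_lit 0x400c431c2040))))))) (.nd (nat_lit 52681519233) (.nd (nat_lit 52666597696) (.nd (nat_lit 52665790528) (.nd (nat_lit 52665532480) (.nd (nat_lit 52665528384) (.lf (nat_lit 0x400c431c3040)) (.lf (nat_lit 0x400c431c4040))) (.nd (nat_lit 52665786432) (.lf (nat_lit 0x400c43202040)) (.lf (nat_lit 0x400c43203040)))) (.nd (nat_lit 52666310720) (.nd (nat_lit 52666048576) (.lf (nat_lit 0x400c43242040)) (.lf (nat_lit 0x400c43282040))) (.nd (nat_lit 52666572864) (.lf (nat_lit 0x400c432c2040)) (.lf (nat_lit 0x246000c432c8140))))) (.nd (nat_lit 52681252928) (.nd (nat_lit 52666605760) (.nd (nat_lit 52666601728) (.lf (nat_lit 0x246000c432c9100)) (.lf (nat_lit 0x20a05800c432ca0c0))) (.nd (nat_lit 52666871872) (.lf (nat_lit 0x41103200c4330b040)) (.lf (nat_lit 0x400c440c2040)))) (.nd (nat_lit 52681519168) (.nd (nat_lit 52681515072) (.lf (nat_lit 0x400c44102040))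 (.lf (nat_lit 0x400c44103040))) (.nd (nat_lit 52681519232) (.lf (nat_lit 0x400c44103080)) (.lf (nat_lit 0x400c44103081)))))) (.nd (nat_lit 52682043456) (.nd (nat_lit 52681781377) (.nd (nat_lit 52681781312) (.nd (nat_lit 52681777216) (.lf (nat_lit 0x400c44142040)) (.lf (nat_lit 0x400c44143040))) (.nd (nat_lit 52681781376) (.lf (nat_lit 0x400c44143080)) (.lf (nat_lit 0x400c44143081)))) (.nd (nat_lit 52681785472) (.nd (nat_lit 52681785408) (.lf (nat_lit 0x400c44144040)) (.lf (nat_lit 0x400c44144080))) (.nd (nat_lit 52682039360) (.lf (nat_lit 0x400c44182040)) (.lf (nat_lit 0x400c44183040))))) (.nd (nat_lit 52682301504) (.nd (nat_lit 52682047552) (.nd (nat_lit 52682043520) (.lf (nat_lit 0x400c44183080)) (.lf (nat_lit 0x400c44184040))) (.nd (nat_lit 52682051648) (.lf (nat_lit 0x400c44185040)) (.lf (nat_lit 0x400c441c2040)))) (.nd (nat_lit 52682305664) (.nd (nat_lit 52682305600) (.lf (nat_lit 0x400c441c3040)) (.lf (nat_lit 0x400c441c3080)))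 (.nd (nat_lit 52682309696) (.lf (nat_lit 0x400c441c4040)) (.lf (nat_lit 0x205800c441c6140))))))))
noncomputable def jt32_5 : BT := (.nd (nat_lit 52698820736) (.nd (nat_lit 52683366720) (.nd (nat_lit 52682850560) (.nd (nat_lit 52682825792) (.nd (nat_lit 52682567744) (.nd (nat_lit 52682563648) (.lf (nat_lit 0x400c44202040)) (.lf (nat_lit 0x400c44203040))) (.nd (nat_lit 52682580288) (.lf (nat_lit 0x205800c44206140)) (.lf (nat_lit 0x400c44242040)))) (.nd (nat_lit 52682842432) (.nd (nat_lit 52682829888) (.lf (nat_lit 0x400c44243040)) (.lf (nat_lit 0x820933a00c44246140))) (.nd (nat_lit 52682846592) (.lf (nat_lit 0x246000c44247180)) (.lf (nat_lit 0x246000c44248100))))) (.nd (nat_lit 52683108672) (.nd (nat_lit 52683087936) (.nd (nat_lit 52682850624) (.lf (nat_lit 0x246000c44248140)) (.lf (nat_lit 0x400c44282040))) (.nd (nat_lit 52683104576) (.lf (nat_lit 0x820933a00c44286140)) (.lf (nat_lit 0x821103200c44287140)))) (.nd (nat_lit 52683116736)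 (.nd (nat_lit 52683112704) (.lf (nat_lit 0x41103200c44288100)) (.lf (nat_lit 0x41103200c442890c0))) (.nd (nat_lit 52683350080) (.lf (nat_lit 0x400c442c2040)) (.lf (nat_lit 0x821103200c442c6140)))))) (.nd (nat_lit 52698554432) (.nd (nat_lit 52698292288) (.nd (nat_lit 52683612224) (.nd (nat_lit 52683382848) (.lf (nat_lit 0x20913200c442ca040)) (.lf (nat_lit 0x400c44302040))) (.nd (nat_lit 52698030144) (.lf (nat_lit 0x400c450c2040)) (.lf (nat_lit 0x400c45102040)))) (.nd (nat_lit 52698296448) (.nd (nat_lit 52698296384) (.lf (nat_lit 0x400c45103040)) (.lf (nat_lit 0x400c45103080))) (.nd (nat_lit 52698296449) (.lf (nat_lit 0x400c45103081)) (.lf (nat_lit 0x400c45142040))))) (.nd (nat_lit 52698562624) (.nd (nat_lit 52698558592) (.nd (nat_lit 52698558528) (.lf (nat_lit 0x400c45143040)) (.lf (nat_lit 0x400c45143080))) (.nd (nat_lit 52698558593) (.lf (nat_lit 0x400c45143081)) (.lf (nat_lit 0x400c45144040)))) (.nd (nat_lit 52698816576) (.nd (nat_lit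 52698562688) (.lf (nat_lit 0x400c45144080)) (.lf (nat_lit 0x400c45182040))) (.nd (nat_lit 52698820672) (.lf (nat_lit 0x400c45183040)) (.lf (nat_lit 0x400c45183080))))))) (.nd (nat_lit 52699361536) (.nd (nat_lit 52699091008) (.nd (nat_lit 52699078720) (.nd (nat_lit 52698824832) (.nd (nat_lit 52698824768) (.lf (nat_lit 0x400c45184040)) (.lf (nat_lit 0x400c45184080))) (.nd (nat_lit 52698828864) (.lf (nat_lit 0x400c45185040)) (.lf (nat_lit 0x400c451c2040)))) (.nd (nat_lit 52699082880) (.nd (nat_lit 52699082816) (.lf (nat_lit 0x400c451c3040)) (.lf (nat_lit 0x400c451c3080))) (.nd (nat_lit 52699086912) (.lf (nat_lit 0x400c451c4040)) (.lf (nat_lit 0x400c451c5040))))) (.nd (nat_lit 52699345024) (.nd (nat_lit 52699340864) (.nd (nat_lit 52699095360) (.lf (nat_lit 0x246000c451c6140)) (.lf (nat_lit 0x400c45202040))) (.nd (nat_lit 52699344960) (.lf (nat_lit 0x400c45203040)) (.lf (nat_lit 0x400c45203080)))) (.nd (nat_lit 52699357504) (.nd (nat_lit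 52699349056) (.lf (nat_lit 0x400c45204040)) (.lf (nat_lit 0x246000c45206140))) (.nd (nat_lit 52699361344) (.lf (nat_lit 0x123200c45207040)) (.lf (nat_lit 0x20913200c45207100)))))) (.nd (nat_lit 52699865152) (.nd (nat_lit 52699607104) (.nd (nat_lit 52699361600) (.nd (nat_lit 52699361537) (.lf (nat_lit 0x246000c45207101)) (.lf (nat_lit 0x246000c45207140))) (.nd (nat_lit 52699603008) (.lf (nat_lit 0x400c45242040)) (.lf (nat_lit 0x400c45243040)))) (.nd (nat_lit 52699623680) (.nd (nat_lit 52699619648) (.lf (nat_lit 0x246000c45246140)) (.lf (nat_lit 0x20913200c45247100))) (.nd (nat_lit 52699627712) (.lf (nat_lit 0x20913200c452480c0)) (.lf (nat_lit 0x400c45282040))))) (.nd (nat_lit 52700151872) (.nd (nat_lit 52700127296) (.nd (nat_lit 52699869248) (.lf (nat_lit 0x400c45283040)) (.lf (nat_lit 0x400c452c2040))) (.nd (nat_lit 52700131392) (.lf (nat_lit 0x400c452c3040)) (.lf (nat_lit 0x123200c452c8040)))) (.nd (nat_lit 52700409920) (.nd (nat_lit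 52700389440) (.lf (nat_lit 0x400c45302040)) (.lf (nat_lit 0x123200c45307040))) (.nd (nat_lit 52700651584) (.lf (nat_lit 0x400c45342040)) (.lf (nat_lit 0x400c460c2040))))))))
noncomputable def jt32_6 : BT := (.nd (nat_lit 52716130368) (.nd (nat_lit 52715602048) (.nd (nat_lit 52715335809) (.nd (nat_lit 52715073665) (.nd (nat_lit 52715073600) (.nd (nat_lit 52715069504) (.lf (nat_lit 0x400c46102040)) (.lf (nat_lit 0x400c46103040))) (.nd (nat_lit 52715073664) (.lf (nat_lit 0x400c46103080)) (.lf (nat_lit 0x400c46103081)))) (.nd (nat_lit 52715335744) (.nd (nat_lit 52715331648) (.lf (nat_lit 0x400c46142040)) (.lf (nat_lit 0x400c46143040))) (.nd (nat_lit 52715335808) (.lf (nat_lit 0x400c46143080)) (.lf (nat_lit 0x400c46143081))))) (.nd (nat_lit 52715597888) (.nd (nat_lit 52715339904) (.nd (nat_lit 52715339840) (.lf (nat_lit 0x400c46144040)) (.lf (nat_lit 0x400c46144080))) (.nd (nat_lit 52715593792) (.lf (nat_lit 0x400c46182040)) (.lf (nat_lit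 0x400c46183040)))) (.nd (nat_lit 52715597953) (.nd (nat_lit 52715597952) (.lf (nat_lit 0x400c46183080)) (.lf (nat_lit 0x400c46183081))) (.nd (nat_lit 52715601984) (.lf (nat_lit 0x400c46184040)) (.lf (nat_lit 0x400c46184080)))))) (.nd (nat_lit 52715868224) (.nd (nat_lit 52715860032) (.nd (nat_lit 52715606208) (.nd (nat_lit 52715606080) (.lf (nat_lit 0x400c46185040)) (.lf (nat_lit 0x123200c461850c0))) (.nd (nat_lit 52715855936) (.lf (nat_lit 0x400c461c2040)) (.lf (nat_lit 0x400c461c3040)))) (.nd (nat_lit 52715864128) (.nd (nat_lit 52715860096) (.lf (nat_lit 0x400c461c3080)) (.lf (nat_lit 0x400c461c4040))) (.nd (nat_lit 52715864192) (.lf (nat_lit 0x400c461c4080)) (.lf (nat_lit 0x400c461c5040))))) (.nd (nat_lit 52716118080) (.nd (nat_lit 52715872513) (.nd (nat_lit 52715872384) (.lf (nat_lit 0x123200c461c6080)) (.lf (nat_lit 0x246000c461c6101))) (.nd (nat_lit 52715872576) (.lf (nat_lit 0x246000c461c6140)) (.lf (nat_lit 0x400c46202040))))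 (.nd (nat_lit 52716122240) (.nd (nat_lit 52716122176) (.lf (nat_lit 0x400c46203040)) (.lf (nat_lit 0x400c46203080))) (.nd (nat_lit 52716126272) (.lf (nat_lit 0x400c46204040)) (.lf (nat_lit 0x400c46205040))))))) (.nd (nat_lit 52716904512) (.nd (nat_lit 52716400704) (.nd (nat_lit 52716384320) (.nd (nat_lit 52716138560) (.nd (nat_lit 52716134528) (.lf (nat_lit 0x123200c46206080)) (.lf (nat_lit 0x123200c46207040))) (.nd (nat_lit 52716380224) (.lf (nat_lit 0x400c46242040)) (.lf (nat_lit 0x400c46243040)))) (.nd (nat_lit 52716388416) (.nd (nat_lit 52716384384) (.lf (nat_lit 0x400c46243080)) (.lf (nat_lit 0x400c46244040))) (.nd (nat_lit 52716396672) (.lf (nat_lit 0x123200c46246080)) (.lf (nat_lit 0x123200c46247040))))) (.nd (nat_lit 52716646464) (.nd (nat_lit 52716404800) (.nd (nat_lit 52716400768) (.lf (nat_lit 0x123200c46247080)) (.lf (nat_lit 0x123200c46248040))) (.nd (nat_lit 52716642368) (.lf (nat_lit 0x400c46282040)) (.lf (nat_lit 0x400c46283040))))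 (.nd (nat_lit 52716658816) (.nd (nat_lit 52716650560) (.lf (nat_lit 0x400c46284040)) (.lf (nat_lit 0x123200c46286080))) (.nd (nat_lit 52716662848) (.lf (nat_lit 0x123200c46287040)) (.lf (nat_lit 0x400c462c2040)))))) (.nd (nat_lit 52717432896) (.nd (nat_lit 52717170752) (.nd (nat_lit 52716912704) (.nd (nat_lit 52716908608) (.lf (nat_lit 0x400c462c3040)) (.lf (nat_lit 0x400c462c4040))) (.nd (nat_lit 52717166656) (.lf (nat_lit 0x400c46302040)) (.lf (nat_lit 0x400c46303040)))) (.nd (nat_lit 52717178944) (.nd (nat_lit 52717174848) (.lf (nat_lit 0x400c46304040)) (.lf (nat_lit 0x400c46305040))) (.nd (nat_lit 52717428800) (.lf (nat_lit 0x400c46342040)) (.lf (nat_lit 0x400c46343040))))) (.nd (nat_lit 52731846720) (.nd (nat_lit 52717436992) (.nd (nat_lit 52717432960) (.lf (nat_lit 0x400c46343080)) (.lf (nat_lit 0x400c46344040))) (.nd (nat_lit 52731584576) (.lf (nat_lit 0x400c470c2040)) (.lf (nat_lit 0x400c47102040)))) (.nd (nat_lit 52731850880)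 (.nd (nat_lit 52731850816) (.lf (nat_lit 0x400c47103040)) (.lf (nat_lit 0x400c47103080))) (.nd (nat_lit 52731850881) (.lf (nat_lit 0x400c47103081)) (.lf (nat_lit 0x400c47142040))))))))
noncomputable def jt32_7 : BT := (.nd (nat_lit 52732649536) (.nd (nat_lit 52732383296) (.nd (nat_lit 52732117185) (.nd (nat_lit 52732117056) (.nd (nat_lit 52732113024) (.nd (nat_lit 52732112960) (.lf (nat_lit 0x400c47143040)) (.lf (nat_lit 0x400c47143080))) (.nd (nat_lit 52732113025) (.lf (nat_lit 0x400c47143081)) (.lf (nat_lit 0x400c47144040)))) (.nd (nat_lit 52732117121) (.nd (nat_lit 52732117120) (.lf (nat_lit 0x400c47144080)) (.lf (nat_lit 0x400c47144081))) (.nd (nat_lit 52732117184) (.lf (nat_lit 0x400c471440c0)) (.lf (nat_lit 0x123200c471440c1))))) (.nd (nat_lit 52732375169) (.nd (nat_lit 52732375104) (.nd (nat_lit 52732371008) (.lf (nat_lit 0x400c47182040)) (.lf (nat_lit 0x400c47183040))) (.nd (nat_lit 52732375168) (.lf (nat_lit 0x400c47183080))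 (.lf (nat_lit 0x400c47183081)))) (.nd (nat_lit 52732379264) (.nd (nat_lit 52732379200) (.lf (nat_lit 0x400c47184040)) (.lf (nat_lit 0x400c47184080))) (.nd (nat_lit 52732379328) (.lf (nat_lit 0x400c471840c0)) (.lf (nat_lit 0x400c47185040)))))) (.nd (nat_lit 52732637313) (.nd (nat_lit 52732383488) (.nd (nat_lit 52732383361) (.nd (nat_lit 52732383360) (.lf (nat_lit 0x400c47185080)) (.lf (nat_lit 0x123200c47185081))) (.nd (nat_lit 52732383424) (.lf (nat_lit 0x123200c471850c0)) (.lf (nat_lit 0x123200c47185100)))) (.nd (nat_lit 52732637248) (.nd (nat_lit 52732633152) (.lf (nat_lit 0x400c471c2040)) (.lf (nat_lit 0x400c471c3040))) (.nd (nat_lit 52732637312) (.lf (nat_lit 0x400c471c3080)) (.lf (nat_lit 0x400c471c3081))))) (.nd (nat_lit 52732645504) (.nd (nat_lit 52732641408) (.nd (nat_lit 52732641344) (.lf (nat_lit 0x400c471c4040)) (.lf (nat_lit 0x400c471c4080))) (.nd (nat_lit 52732645440) (.lf (nat_lit 0x400c471c5040)) (.lf (nat_lit 0x400c471c5080))))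 (.nd (nat_lit 52732645568) (.nd (nat_lit 52732645505) (.lf (nat_lit 0x123200c471c5081)) (.lf (nat_lit 0x123200c471c50c0))) (.nd (nat_lit 52732645632) (.lf (nat_lit 0x123200c471c5100)) (.lf (nat_lit 0x400c471c6040))))))) (.nd (nat_lit 52733161536) (.nd (nat_lit 52732903552) (.nd (nat_lit 52732895296) (.nd (nat_lit 52732649601) (.nd (nat_lit 52732649600) (.lf (nat_lit 0x123200c471c6080)) (.lf (nat_lit 0x123200c471c6081))) (.nd (nat_lit 52732649664) (.lf (nat_lit 0x123200c471c60c0)) (.lf (nat_lit 0x400c47202040)))) (.nd (nat_lit 52732899456) (.nd (nat_lit 52732899392) (.lf (nat_lit 0x400c47203040)) (.lf (nat_lit 0x400c47203080))) (.nd (nat_lit 52732903488) (.lf (nat_lit 0x400c47204040)) (.lf (nat_lit 0x400c47204080))))) (.nd (nat_lit 52732911680) (.nd (nat_lit 52732907649) (.nd (nat_lit 52732907584) (.lf (nat_lit 0x400c47205040)) (.lf (nat_lit 0x123200c47205081))) (.nd (nat_lit 52732907712) (.lf (nat_lit 0x123200c472050c0)) (.lf (nat_lit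 0x400c47206040)))) (.nd (nat_lit 52732915776) (.nd (nat_lit 52732911744) (.lf (nat_lit 0x123200c47206080)) (.lf (nat_lit 0x123200c47207040))) (.nd (nat_lit 52733157440) (.lf (nat_lit 0x400c47242040)) (.lf (nat_lit 0x400c47243040)))))) (.nd (nat_lit 52733423680) (.nd (nat_lit 52733169728) (.nd (nat_lit 52733165632) (.nd (nat_lit 52733161600) (.lf (nat_lit 0x400c47243080)) (.lf (nat_lit 0x400c47244040))) (.nd (nat_lit 52733165696) (.lf (nat_lit 0x400c47244080)) (.lf (nat_lit 0x400c47245040)))) (.nd (nat_lit 52733173824) (.nd (nat_lit 52733169792) (.lf (nat_lit 0x400c47245080)) (.lf (nat_lit 0x400c47246040))) (.nd (nat_lit 52733419584) (.lf (nat_lit 0x400c47282040)) (.lf (nat_lit 0x400c47283040))))) (.nd (nat_lit 52733431872) (.nd (nat_lit 52733427776) (.nd (nat_lit 52733423744) (.lf (nat_lit 0x400c47283080)) (.lf (nat_lit 0x400c47284040))) (.nd (nat_lit 52733427840) (.lf (nat_lit 0x400c47284080)) (.lf (nat_lit 0x400c47285040)))) (.nd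 (nat_lit 52733685824) (.nd (nat_lit 52733681728) (.lf (nat_lit 0x400c472c2040)) (.lf (nat_lit 0x400c472c3040))) (.nd (nat_lit 52733685888) (.lf (nat_lit 0x400c472c3080)) (.lf (nat_lit 0x400c472c4040))))))))
noncomputable def jt32_8 : BT := (.nd (nat_lit 52749414464) (.nd (nat_lit 52748894400) (.nd (nat_lit 52748628097) (.nd (nat_lit 52748361792) (.nd (nat_lit 52733947968) (.nd (nat_lit 52733943872) (.lf (nat_lit 0x400c47302040)) (.lf (nat_lit 0x400c47303040))) (.nd (nat_lit 52734206016) (.lf (nat_lit 0x400c47342040)) (.lf (nat_lit 0x400c480c2040)))) (.nd (nat_lit 52748628032) (.nd (nat_lit 52748623936) (.lf (nat_lit 0x400c48102040)) (.lf (nat_lit 0x400c48103040))) (.nd (nat_lit 52748628096) (.lf (nat_lit 0x400c48103080)) (.lf (nat_lit 0x400c48103081))))) (.nd (nat_lit 52748890241) (.nd (nat_lit 52748890176) (.nd (nat_lit 52748886080) (.lf (nat_lit 0x400c48142040)) (.lf (nat_lit 0x400c48143040))) (.nd (nat_lit 52748890240) (.lf (nat_lit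 0x400c48143080)) (.lf (nat_lit 0x400c48143081)))) (.nd (nat_lit 52748894336) (.nd (nat_lit 52748894272) (.lf (nat_lit 0x400c48144040)) (.lf (nat_lit 0x400c48144080))) (.nd (nat_lit 52748894337) (.lf (nat_lit 0x400c48144081)) (.lf (nat_lit 0x400c481440c0)))))) (.nd (nat_lit 52749156481) (.nd (nat_lit 52749152384) (.nd (nat_lit 52749148224) (.nd (nat_lit 52748894401) (.lf (nat_lit 0x123200c481440c1)) (.lf (nat_lit 0x400c48182040))) (.nd (nat_lit 52749152320) (.lf (nat_lit 0x400c48183040)) (.lf (nat_lit 0x400c48183080)))) (.nd (nat_lit 52749156416) (.nd (nat_lit 52749152385) (.lf (nat_lit 0x400c48183081)) (.lf (nat_lit 0x400c48184040))) (.nd (nat_lit 52749156480) (.lf (nat_lit 0x400c48184080)) (.lf (nat_lit 0x400c48184081))))) (.nd (nat_lit 52749160576) (.nd (nat_lit 52749156545) (.nd (nat_lit 52749156544) (.lf (nat_lit 0x400c481840c0)) (.lf (nat_lit 0x123200c481840c1))) (.nd (nat_lit 52749160512) (.lf (nat_lit 0x400c48185040)) (.lf (nat_lit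 0x400c48185080)))) (.nd (nat_lit 52749160640) (.nd (nat_lit 52749160577) (.lf (nat_lit 0x123200c48185081)) (.lf (nat_lit 0x123200c481850c0))) (.nd (nat_lit 52749410368) (.lf (nat_lit 0x400c481c2040)) (.lf (nat_lit 0x400c481c3040))))))) (.nd (nat_lit 52749684800) (.nd (nat_lit 52749422720) (.nd (nat_lit 52749418624) (.nd (nat_lit 52749414529) (.nd (nat_lit 52749414528) (.lf (nat_lit 0x400c481c3080)) (.lf (nat_lit 0x400c481c3081))) (.nd (nat_lit 52749418560) (.lf (nat_lit 0x400c481c4040)) (.lf (nat_lit 0x400c481c4080)))) (.nd (nat_lit 52749418688) (.nd (nat_lit 52749418625) (.lf (nat_lit 0x400c481c4081)) (.lf (nat_lit 0x400c481c40c0))) (.nd (nat_lit 52749422656) (.lf (nat_lit 0x400c481c5040)) (.lf (nat_lit 0x400c481c5080))))) (.nd (nat_lit 52749676672) (.nd (nat_lit 52749672512) (.nd (nat_lit 52749426752) (.lf (nat_lit 0x400c481c6040)) (.lf (nat_lit 0x400c48202040))) (.nd (nat_lit 52749676608) (.lf (nat_lit 0x400c48203040)) (.lf (nat_lit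 0x400c48203080)))) (.nd (nat_lit 52749680704) (.nd (nat_lit 52749676673) (.lf (nat_lit 0x400c48203081)) (.lf (nat_lit 0x400c48204040))) (.nd (nat_lit 52749680768) (.lf (nat_lit 0x400c48204080)) (.lf (nat_lit 0x400c48205040)))))) (.nd (nat_lit 52765139008) (.nd (nat_lit 52749942848) (.nd (nat_lit 52749938752) (.nd (nat_lit 52749934656) (.lf (nat_lit 0x400c48242040)) (.lf (nat_lit 0x400c48243040))) (.nd (nat_lit 52749938816) (.lf (nat_lit 0x400c48243080)) (.lf (nat_lit 0x400c48244040)))) (.nd (nat_lit 52750200896) (.nd (nat_lit 52750196800) (.lf (nat_lit 0x400c48282040)) (.lf (nat_lit 0x400c48283040))) (.nd (nat_lit 52750458944) (.lf (nat_lit 0x400c482c2040)) (.lf (nat_lit 0x400c490c2040))))) (.nd (nat_lit 52765405313) (.nd (nat_lit 52765405248) (.nd (nat_lit 52765401152) (.lf (nat_lit 0x400c49102040)) (.lf (nat_lit 0x400c49103040))) (.nd (nat_lit 52765405312) (.lf (nat_lit 0x400c49103080)) (.lf (nat_lit 0x400c49103081)))) (.nd (nat_lit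 52765667392) (.nd (nat_lit 52765663296) (.lf (nat_lit 0x400c49142040)) (.lf (nat_lit 0x400c49143040))) (.nd (nat_lit 52765667456) (.lf (nat_lit 0x400c49143080)) (.lf (nat_lit 0x400c49143081))))))))
noncomputable def jt32_9 : BT := (.nd (nat_lit 52766453824) (.nd (nat_lit 52765929601) (.nd (nat_lit 52765671616) (.nd (nat_lit 52765671552) (.nd (nat_lit 52765671488) (.lf (nat_lit 0x400c49144040)) (.lf (nat_lit 0x400c49144080))) (.nd (nat_lit 52765671553) (.lf (nat_lit 0x400c49144081)) (.lf (nat_lit 0x400c491440c0)))) (.nd (nat_lit 52765929536) (.nd (nat_lit 52765925440) (.lf (nat_lit 0x400c49182040)) (.lf (nat_lit 0x400c49183040))) (.nd (nat_lit 52765929600) (.lf (nat_lit 0x400c49183080)) (.lf (nat_lit 0x400c49183081))))) (.nd (nat_lit 52766187584) (.nd (nat_lit 52765933696) (.nd (nat_lit 52765933632) (.lf (nat_lit 0x400c49184040)) (.lf (nat_lit 0x400c49184080))) (.nd (nat_lit 52765937728) (.lf (nat_lit 0x400c49185040)) (.lf (nat_lit 0x400c491c2040))))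 (.nd (nat_lit 52766191744) (.nd (nat_lit 52766191680) (.lf (nat_lit 0x400c491c3040)) (.lf (nat_lit 0x400c491c3080))) (.nd (nat_lit 52766195776) (.lf (nat_lit 0x400c491c4040)) (.nd (nat_lit 52766449728) (.lf (nat_lit 0x400c49202040)) (.lf (nat_lit 0x400c49203040))))))) (.nd (nat_lit 52782444672) (.nd (nat_lit 52782182464) (.nd (nat_lit 52781916224) (.nd (nat_lit 52766711872) (.lf (nat_lit 0x400c49242040)) (.lf (nat_lit 0x400c4a0c2040))) (.nd (nat_lit 52782178368) (.lf (nat_lit 0x400c4a102040)) (.lf (nat_lit 0x400c4a103040)))) (.nd (nat_lit 52782182529) (.nd (nat_lit 52782182528) (.lf (nat_lit 0x400c4a103080)) (.lf (nat_lit 0x400c4a103081))) (.nd (nat_lit 52782440512) (.lf (nat_lit 0x400c4a142040)) (.nd (nat_lit 52782444608) (.lf (nat_lit 0x400c4a143040)) (.lf (nat_lit 0x400c4a143080)))))) (.nd (nat_lit 52782964800) (.nd (nat_lit 52782702656) (.nd (nat_lit 52782448704) (.lf (nat_lit 0x400c4a144040)) (.lf (nat_lit 0x400c4a182040))) (.nd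 (nat_lit 52782706752) (.lf (nat_lit 0x400c4a183040)) (.lf (nat_lit 0x400c4a1c2040)))) (.nd (nat_lit 52798955584) (.nd (nat_lit 52798693440) (.lf (nat_lit 0x400c4b0c2040)) (.lf (nat_lit 0x400c4b102040))) (.nd (nat_lit 52798959680) (.lf (nat_lit 0x400c4b103040)) (.nd (nat_lit 52799217728) (.lf (nat_lit 0x400c4b142040)) (.lf (nat_lit 0x400c4c0c2040))))))))
noncomputable def jt32 : BT := (.nd (nat_lit 52682318144) (.nd (nat_lit 52463677504) (.nd (nat_lit 52295643264) jt32_0 jt32_1) (.nd (nat_lit 52580855936) jt32_2 (.nd (nat_lit 52648226880) jt32_3 jt32_4))) (.nd (nat_lit 52732108864) (.nd (nat_lit 52714807360) jt32_5 jt32_6) (.nd (nat_lit 52733689920) jt32_7 (.nd (nat_lit 52765667457) jt32_8 jt32_9))))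
def jg32 : Cfg := ⟨111, 102, 14, 24, 80⟩
noncomputable def jX32 : F3 := XRc 24 99 99 99 0
noncomputable def jt33_0 : BT := (.nd (nat_lit 52441137216) (.nd (nat_lit 52424622144) (.nd (nat_lit 52408365120) (.nd (nat_lit 52407836736) (.nd (nat_lit 52391321664) (.nd (nat_lit 52391059520) (.lf (nat_lit 0x60c3200c32c02040)) (.lf (nat_lit 0x60c3200c32c42040))) (.nd (nat_lit 52407574592) (.lf (nat_lit 0x60c3200c33bc2040)) (.lf (nat_lit 0x60c3200c33c02040)))) (.nd (nat_lit 52408102976) (.nd (nat_lit 52408098880) (.lf (nat_lit 0x60c3200c33c42040)) (.lf (nat_lit 0x60c3200c33c43040))) (.nd (nat_lit 52408361024) (.lf (nat_lit 0x60c3200c33c82040)) (.lf (nat_lit 0x60c3200c33c83040))))) (.nd (nat_lit 52424089664) (.nd (nat_lit 52408369216) (.nd (nat_lit 52408365184) (.lf (nat_lit 0x60c3200c33c83080)) (.lf (nat_lit 0x60c3200c33c84040))) (.nd (nat_lit 52408373312) (.lf (nat_lit 0x60c3200c33c85040)) (.lf (nat_lit 0x60c3200c34b82040)))) (.nd (nat_lit 52424613952)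 (.nd (nat_lit 52424351808) (.lf (nat_lit 0x60c3200c34bc2040)) (.lf (nat_lit 0x60c3200c34c02040))) (.nd (nat_lit 52424618048) (.lf (nat_lit 0x60c3200c34c03040)) (.lf (nat_lit 0x60c3200c34c04040)))))) (.nd (nat_lit 52425400384) (.nd (nat_lit 52424880256) (.nd (nat_lit 52424876096) (.nd (nat_lit 52424626240) (.lf (nat_lit 0x60c3200c34c05040)) (.lf (nat_lit 0x60c3200c34c42040))) (.nd (nat_lit 52424880192) (.lf (nat_lit 0x60c3200c34c43040)) (.lf (nat_lit 0x60c3200c34c43080)))) (.nd (nat_lit 52425138240) (.nd (nat_lit 52424884288) (.lf (nat_lit 0x60c3200c34c44040)) (.lf (nat_lit 0x60c3200c34c82040))) (.nd (nat_lit 52425142336) (.lf (nat_lit 0x60c3200c34c83040)) (.lf (nat_lit 0x60c3200c34cc2040))))) (.nd (nat_lit 52440870976) (.nd (nat_lit 52440604736) (.nd (nat_lit 52440342592) (.lf (nat_lit 0x60c3200c35b02040)) (.lf (nat_lit 0x60c3200c35b42040))) (.nd (nat_lit 52440866880) (.lf (nat_lit 0x60c3200c35b82040)) (.lf (nat_lit 0x60c3200c35b83040))))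 (.nd (nat_lit 52441133120) (.nd (nat_lit 52441129024) (.lf (nat_lit 0x60c3200c35bc2040)) (.lf (nat_lit 0x60c3200c35bc3040))) (.nd (nat_lit 52441133184) (.lf (nat_lit 0x60c3200c35bc3080)) (.lf (nat_lit 0x60c3200c35bc4040))))))) (.nd (nat_lit 52473110592) (.nd (nat_lit 52457381952) (.nd (nat_lit 52456595520) (.nd (nat_lit 52441395264) (.nd (nat_lit 52441391168) (.lf (nat_lit 0x60c3200c35c02040)) (.lf (nat_lit 0x60c3200c35c03040))) (.nd (nat_lit 52441653312) (.lf (nat_lit 0x60c3200c35c42040)) (.lf (nat_lit 0x60c3200c36a82040)))) (.nd (nat_lit 52457119808) (.nd (nat_lit 52456857664) (.lf (nat_lit 0x60c3200c36ac2040)) (.lf (nat_lit 0x60c3200c36b02040))) (.nd (nat_lit 52457123904) (.lf (nat_lit 0x60c3200c36b03040)) (.lf (nat_lit 0x60c3200c36b42040))))) (.nd (nat_lit 52457644096) (.nd (nat_lit 52457386112) (.nd (nat_lit 52457386048) (.lf (nat_lit 0x60c3200c36b43040)) (.lf (nat_lit 0x60c3200c36b43080))) (.nd (nat_lit 52457390144) (.lf (nat_lit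 0x60c3200c36b44040)) (.lf (nat_lit 0x60c3200c36b82040)))) (.nd (nat_lit 52457906240) (.nd (nat_lit 52457648192) (.lf (nat_lit 0x60c3200c36b83040)) (.lf (nat_lit 0x60c3200c36bc2040))) (.nd (nat_lit 52472848448) (.lf (nat_lit 0x60c3200c37a02040)) (.lf (nat_lit 0x60c3200c37a42040)))))) (.nd (nat_lit 52488839232) (.nd (nat_lit 52473643072) (.nd (nat_lit 52473634880) (.nd (nat_lit 52473372736) (.lf (nat_lit 0x60c3200c37a82040)) (.lf (nat_lit 0x60c3200c37ac2040))) (.nd (nat_lit 52473638976) (.lf (nat_lit 0x60c3200c37ac3040)) (.lf (nat_lit 0x60c3200c37ac4040)))) (.nd (nat_lit 52473901120) (.nd (nat_lit 52473897024) (.lf (nat_lit 0x60c3200c37b02040)) (.lf (nat_lit 0x60c3200c37b03040))) (.nd (nat_lit 52474159168) (.lf (nat_lit 0x60c3200c37b42040)) (.lf (nat_lit 0x50d3200c38942040))))) (.nd (nat_lit 52489887808) (.nd (nat_lit 52489363520) (.nd (nat_lit 52489101376) (.lf (nat_lit 0x50d3200c38982040)) (.lf (nat_lit 0x60c3200c389c2040))) (.nd (nat_lit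 52489625664) (.lf (nat_lit 0x60c3200c38a02040)) (.lf (nat_lit 0x60c3200c38a42040)))) (.nd (nat_lit 52489896000) (.nd (nat_lit 52489891904) (.lf (nat_lit 0x60c3200c38a43040)) (.lf (nat_lit 0x60c3200c38a44040))) (.nd (nat_lit 52490149952) (.lf (nat_lit 0x60c3200c38a82040)) (.lf (nat_lit 0x60c3200c38a83040))))))))
noncomputable def jt33_1 : BT := (.nd (nat_lit 52538650752) (.nd (nat_lit 52522131520) (.nd (nat_lit 52506144832) (.nd (nat_lit 52505616448) (.nd (nat_lit 52505092160) (.nd (nat_lit 52490412096) (.lf (nat_lit 0x60c3200c38ac2040)) (.lf (nat_lit 0x40e3200c398c2040))) (.nd (nat_lit 52505354304) (.lf (nat_lit 0x40e3200c39902040)) (.lf (nat_lit 0x50d3200c39942040)))) (.nd (nat_lit 52505882688) (.nd (nat_lit 52505878592) (.lf (nat_lit 0x50d3200c39982040)) (.lf (nat_lit 0x50d3200c39983040))) (.nd (nat_lit 52506140736) (.lf (nat_lit 0x60c3200c399c2040)) (.lf (nat_lit 0x60c3200c399c3040))))) (.nd (nat_lit 52506665024) (.nd (nat_lit 52506402880)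 (.nd (nat_lit 52506148928) (.lf (nat_lit 0x60c3200c399c4040)) (.lf (nat_lit 0x60c3200c39a02040))) (.nd (nat_lit 52506406976) (.lf (nat_lit 0x60c3200c39a03040)) (.lf (nat_lit 0x60c3200c39a42040)))) (.nd (nat_lit 52521607232) (.nd (nat_lit 52521345088) (.lf (nat_lit 0x30f3200c3a842040)) (.lf (nat_lit 0x30f3200c3a882040))) (.nd (nat_lit 52521869376) (.lf (nat_lit 0x40e3200c3a8c2040)) (.lf (nat_lit 0x40e3200c3a902040)))))) (.nd (nat_lit 52522917952) (.nd (nat_lit 52522397824) (.nd (nat_lit 52522393664) (.nd (nat_lit 52522135616) (.lf (nat_lit 0x40e3200c3a903040)) (.lf (nat_lit 0x50d3200c3a942040))) (.nd (nat_lit 52522397760) (.lf (nat_lit 0x50d3200c3a943040)) (.lf (nat_lit 0x50d3200c3a943080)))) (.nd (nat_lit 52522655808) (.nd (nat_lit 52522401856) (.lf (nat_lit 0x50d3200c3a944040)) (.lf (nat_lit 0x50d3200c3a982040))) (.nd (nat_lit 52522659904) (.lf (nat_lit 0x50d3200c3a983040)) (.lf (nat_lit 0x60c3200c3a9c2040))))) (.nd (nat_lit 52538384448)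 (.nd (nat_lit 52537860160) (.nd (nat_lit 52537598016) (.lf (nat_lit 0x2103200c3b7c2040)) (.lf (nat_lit 0x2103200c3b802040))) (.nd (nat_lit 52538122304) (.lf (nat_lit 0x30f3200c3b842040)) (.lf (nat_lit 0x30f3200c3b882040)))) (.nd (nat_lit 52538646592) (.nd (nat_lit 52538388544) (.lf (nat_lit 0x30f3200c3b883040)) (.lf (nat_lit 0x40e3200c3b8c2040))) (.nd (nat_lit 52538650688) (.lf (nat_lit 0x40e3200c3b8c3040)) (.lf (nat_lit 0x40e3200c3b8c3080))))))) (.nd (nat_lit 52570366016) (.nd (nat_lit 52554641472) (.nd (nat_lit 52539170880) (.nd (nat_lit 52538908736) (.nd (nat_lit 52538654784) (.lf (nat_lit 0x40e3200c3b8c4040)) (.lf (nat_lit 0x40e3200c3b902040))) (.nd (nat_lit 52538912832) (.lf (nat_lit 0x40e3200c3b903040)) (.lf (nat_lit 0x50d3200c3b942040)))) (.nd (nat_lit 52554375232) (.nd (nat_lit 52554113088) (.lf (nat_lit 0x1113200c3c782040)) (.lf (nat_lit 0x2103200c3c7c2040))) (.nd (nat_lit 52554637376) (.lf (nat_lit 0x2103200c3c802040)) (.lf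 (nat_lit 0x2103200c3c803040))))) (.nd (nat_lit 52554907712) (.nd (nat_lit 52554903616) (.nd (nat_lit 52554899520) (.lf (nat_lit 0x30f3200c3c842040)) (.lf (nat_lit 0x30f3200c3c843040))) (.nd (nat_lit 52554903680) (.lf (nat_lit 0x30f3200c3c843080)) (.lf (nat_lit 0x30f3200c3c844040)))) (.nd (nat_lit 52555165760) (.nd (nat_lit 52555161664) (.lf (nat_lit 0x30f3200c3c882040)) (.lf (nat_lit 0x30f3200c3c883040))) (.nd (nat_lit 52555423808) (.lf (nat_lit 0x40e3200c3c8c2040)) (.lf (nat_lit 0x123200c3d702040)))))) (.nd (nat_lit 52571418688) (.nd (nat_lit 52571152448) (.nd (nat_lit 52570890304) (.nd (nat_lit 52570628160) (.lf (nat_lit 0x1113200c3d742040)) (.lf (nat_lit 0x1113200c3d782040))) (.nd (nat_lit 52570894400) (.lf (nat_lit 0x1113200c3d783040)) (.lf (nat_lit 0x2103200c3d7c2040)))) (.nd (nat_lit 52571160640) (.nd (nat_lit 52571156544) (.lf (nat_lit 0x2103200c3d7c3040)) (.lf (nat_lit 0x2103200c3d7c4040))) (.nd (nat_lit 52571414592) (.lf (nat_lit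 0x2103200c3d802040)) (.lf (nat_lit 0x2103200c3d803040))))) (.nd (nat_lit 52587143232) (.nd (nat_lit 52586618944) (.nd (nat_lit 52571676736) (.lf (nat_lit 0x30f3200c3d842040)) (.lf (nat_lit 0x123200c3e682040))) (.nd (nat_lit 52586881088) (.lf (nat_lit 0x123200c3e6c2040)) (.lf (nat_lit 0x123200c3e702040)))) (.nd (nat_lit 52587409472) (.nd (nat_lit 52587405376) (.lf (nat_lit 0x1113200c3e742040)) (.lf (nat_lit 0x1113200c3e743040))) (.nd (nat_lit 52587413568) (.lf (nat_lit 0x1113200c3e744040)) (.lf (nat_lit 0x1113200c3e782040))))))))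
noncomputable def jt33_2 : BT := (.nd (nat_lit 52636168256) (.nd (nat_lit 52619649088) (.nd (nat_lit 52603666496) (.nd (nat_lit 52603134016) (.nd (nat_lit 52587929664) (.nd (nat_lit 52587671616) (.lf (nat_lit 0x1113200c3e783040)) (.lf (nat_lit 0x2103200c3e7c2040))) (.nd (nat_lit 52602871872) (.lf (nat_lit 0x123200c3f602040)) (.lf (nat_lit 0x123200c3f642040)))) (.nd (nat_lit 52603658304) (.nd (nat_lit 52603396160) (.lf (nat_lit 0x123200c3f682040)) (.lf (nat_lit 0x123200c3f6c2040))) (.nd (nat_lit 52603662400) (.lf (nat_lit 0x123200c3f6c3040)) (.lf (nat_lit 0x123200c3f6c4040))))) (.nd (nat_lit 52618600512) (.nd (nat_lit 52603924544) (.nd (nat_lit 52603920448) (.lf (nat_lit 0x123200c3f702040)) (.lf (nat_lit 0x123200c3f703040))) (.nd (nat_lit 52604182592) (.lf (nat_lit 0x1113200c3f742040)) (.lf (nat_lit 0x123200c40502040)))) (.nd (nat_lit 52619124800) (.nd (nat_lit 52618862656) (.lf (nat_lit 0x123200c40542040)) (.lf (nat_lit 0x123200c40582040)))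 (.nd (nat_lit 52619386944) (.lf (nat_lit 0x123200c405c2040)) (.lf (nat_lit 0x123200c40602040)))))) (.nd (nat_lit 52634591296) (.nd (nat_lit 52620173376) (.nd (nat_lit 52619915328) (.nd (nat_lit 52619911232) (.lf (nat_lit 0x123200c40642040)) (.lf (nat_lit 0x123200c40643040))) (.nd (nat_lit 52619919424) (.lf (nat_lit 0x123200c40644040)) (.lf (nat_lit 0x123200c40682040)))) (.nd (nat_lit 52620435520) (.nd (nat_lit 52620177472) (.lf (nat_lit 0x123200c40683040)) (.lf (nat_lit 0x123200c406c2040))) (.nd (nat_lit 52634329152) (.lf (nat_lit 0x871c00c41402040)) (.lf (nat_lit 0x1081c00c41442040))))) (.nd (nat_lit 52635639872) (.nd (nat_lit 52635115584) (.nd (nat_lit 52634853440) (.lf (nat_lit 0x123200c41482040)) (.lf (nat_lit 0x123200c414c2040))) (.nd (nat_lit 52635377728) (.lf (nat_lit 0x123200c41502040)) (.lf (nat_lit 0x123200c41542040)))) (.nd (nat_lit 52635906112) (.nd (nat_lit 52635902016) (.lf (nat_lit 0x123200c41582040)) (.lf (nat_lit 0x123200c41583040)))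 (.nd (nat_lit 52636164160) (.lf (nat_lit 0x123200c415c2040)) (.lf (nat_lit 0x123200c415c3040))))))) (.nd (nat_lit 52652679232) (.nd (nat_lit 52651892800) (.nd (nat_lit 52636688448) (.nd (nat_lit 52636426304) (.nd (nat_lit 52636172352) (.lf (nat_lit 0x123200c415c4040)) (.lf (nat_lit 0x123200c41602040))) (.nd (nat_lit 52636430400) (.lf (nat_lit 0x123200c41603040)) (.lf (nat_lit 0x123200c41642040)))) (.nd (nat_lit 52651368512) (.nd (nat_lit 52651106368) (.lf (nat_lit 0x1081c00c42402040)) (.lf (nat_lit 0x1081c00c42442040))) (.nd (nat_lit 52651630656) (.lf (nat_lit 0x123200c42482040)) (.lf (nat_lit 0x123200c424c2040))))) (.nd (nat_lit 52652417088) (.nd (nat_lit 52652154944) (.nd (nat_lit 52651896896) (.lf (nat_lit 0x123200c424c3040)) (.lf (nat_lit 0x123200c42502040))) (.nd (nat_lit 52652159040) (.lf (nat_lit 0x123200c42503040)) (.lf (nat_lit 0x123200c42542040)))) (.nd (nat_lit 52652421248) (.nd (nat_lit 52652421184) (.lf (nat_lit 0x123200c42543040))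 (.lf (nat_lit 0x123200c42543080))) (.nd (nat_lit 52652425280) (.lf (nat_lit 0x123200c42544040)) (.lf (nat_lit 0x123200c42582040)))))) (.nd (nat_lit 52668411968) (.nd (nat_lit 52667887680) (.nd (nat_lit 52652941376) (.nd (nat_lit 52652683328) (.lf (nat_lit 0x123200c42583040)) (.lf (nat_lit 0x123200c425c2040))) (.nd (nat_lit 52667883584) (.lf (nat_lit 0x1081c00c43402040)) (.lf (nat_lit 0x1081c00c43403040)))) (.nd (nat_lit 52668149824) (.nd (nat_lit 52668145728) (.lf (nat_lit 0x1081c00c43442040)) (.lf (nat_lit 0x1081c00c43443040))) (.nd (nat_lit 52668407872) (.lf (nat_lit 0x123200c43482040)) (.lf (nat_lit 0x123200c43483040))))) (.nd (nat_lit 52668674112) (.nd (nat_lit 52668420160) (.nd (nat_lit 52668416064) (.lf (nat_lit 0x123200c43484040)) (.lf (nat_lit 0x123200c43485040))) (.nd (nat_lit 52668670016) (.lf (nat_lit 0x123200c434c2040)) (.lf (nat_lit 0x123200c434c3040)))) (.nd (nat_lit 52668678208) (.nd (nat_lit 52668674176) (.lf (nat_lit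 0x123200c434c3080)) (.lf (nat_lit 0x123200c434c4040))) (.nd (nat_lit 52668932160) (.lf (nat_lit 0x123200c43502040)) (.lf (nat_lit 0x123200c43503040))))))))
noncomputable def jt33_3 : BT := (.nd (nat_lit 52684931136) (.nd (nat_lit 52684668992) (.nd (nat_lit 52684660800) (.nd (nat_lit 52669194304) (.lf (nat_lit 0x123200c43542040)) (.lf (nat_lit 0x1081c00c44402040))) (.nd (nat_lit 52684664896) (.lf (nat_lit 0x1081c00c44403040)) (.nd (nat_lit 52684664960) (.lf (nat_lit 0x1081c00c44403080)) (.lf (nat_lit 0x1081c00c44404040))))) (.nd (nat_lit 52684922944) (.nd (nat_lit 52684673088) (.lf (nat_lit 0x1081c00c44405040)) (.lf (nat_lit 0x1081c00c44442040))) (.nd (nat_lit 52684927040) (.lf (nat_lit 0x1081c00c44443040)) (.nd (nat_lit 52684927104) (.lf (nat_lit 0x1081c00c44443080)) (.lf (nat_lit 0x1081c00c44444040)))))) (.nd (nat_lit 52701175872) (.nd (nat_lit 52685189184) (.nd (nat_lit 52685185088) (.lf (nat_lit 0x123200c44482040)) (.lf (nat_lit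 0x123200c44483040))) (.nd (nat_lit 52685447232) (.lf (nat_lit 0x123200c444c2040)) (.nd (nat_lit 52700913728) (.lf (nat_lit 0x400c45382040)) (.lf (nat_lit 0x400c453c2040))))) (.nd (nat_lit 52701700160) (.nd (nat_lit 52701438016) (.lf (nat_lit 0x1081c00c45402040)) (.nd (nat_lit 52701442112) (.lf (nat_lit 0x1081c00c45403040)) (.lf (nat_lit 0x1081c00c45442040)))) (.nd (nat_lit 52717690944) (.lf (nat_lit 0x400c46382040)) (.nd (nat_lit 52717695040) (.lf (nat_lit 0x400c46383040)) (.lf (nat_lit 0x400c463c2040)))))))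
noncomputable def jt33 : BT := (.nd (nat_lit 52587667520) (.nd (nat_lit 52490154048) jt33_0 jt33_1) (.nd (nat_lit 52668936256) jt33_2 jt33_3))
def jg33 : Cfg := ⟨111, 102, 52, 24, 77⟩
noncomputable def jX33 : F3 := XRc 23 99 99 99 0
noncomputable def jdir_0 : BT := (.nd (nat_lit 15270436928) (.nd (nat_lit 15253680257) (.nd (nat_lit 15253414464) (.nd (nat_lit 15252881862) (.nd (nat_lit 15236637250) (.nd (nat_lit 15234506816) (.lf (nat_lit 0x4)) (.lf (nat_lit 0x0))) (.nd (nat_lit 15252070464) (.lf (nat_lit 0x4)) (.lf (nat_lit 0x0)))) (.nd (nat_lit 15253410306) (.nd (nat_lit 15253381184) (.lf (nat_lit 0x4)) (.lf (nat_lit 0x0))) (.nd (nat_lit 15253413952) (.lf (nat_lit 0x4)) (.lf (nat_lit 0x0))))) (.nd (nat_lit 15253672000) (.nd (nat_lit 15253668164) (.nd (nat_lit 15253643328) (.lf (nat_lit 0x4)) (.lf (nat_lit 0x1))) (.nd (nat_lit 15253668291) (.lf (nat_lit 0x0)) (.lf (nat_lit 0x4)))) (.nd (nat_lit 15253676224) (.nd (nat_lit 15253672449)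 (.lf (nat_lit 0x0)) (.lf (nat_lit 0x4))) (.nd (nat_lit 15253676544) (.lf (nat_lit 0x0)) (.lf (nat_lit 0x4)))))) (.nd (nat_lit 15270183362) (.nd (nat_lit 15269925188) (.nd (nat_lit 15269896256) (.nd (nat_lit 15253680576) (.lf (nat_lit 0x0)) (.lf (nat_lit 0x4))) (.nd (nat_lit 15269921219) (.lf (nat_lit 0x0)) (.lf (nat_lit 0x1)))) (.nd (nat_lit 15270158400) (.nd (nat_lit 15269925377) (.lf (nat_lit 0x0)) (.lf (nat_lit 0x4))) (.nd (nat_lit 15270183236) (.lf (nat_lit 0x1)) (.lf (nat_lit 0x0))))) (.nd (nat_lit 15270191298) (.nd (nat_lit 15270187520) (.nd (nat_lit 15270187072) (.lf (nat_lit 0x4)) (.lf (nat_lit 0x0))) (.nd (nat_lit 15270191297) (.lf (nat_lit 0x4)) (.lf (nat_lit 0x2)))) (.nd (nat_lit 15270191363) (.nd (nat_lit 15270191362) (.lf (nat_lit 0x0)) (.lf (nat_lit 0x2))) (.nd (nat_lit 15270191552) (.lf (nat_lit 0x0)) (.lf (nat_lit 0x4))))))) (.nd (nat_lit 15270457473) (.nd (nat_lit 15270449345) (.nd (nat_lit 15270441347) (.nd (nat_lit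 15270441024) (.nd (nat_lit 15270437188) (.lf (nat_lit 0x1)) (.lf (nat_lit 0x4))) (.nd (nat_lit 15270441284) (.lf (nat_lit 0x1)) (.lf (nat_lit 0x0)))) (.nd (nat_lit 15270445315) (.nd (nat_lit 15270445312) (.lf (nat_lit 0x4)) (.lf (nat_lit 0x2))) (.nd (nat_lit 15270445505) (.lf (nat_lit 0x0)) (.lf (nat_lit 0x4))))) (.nd (nat_lit 15270449600) (.nd (nat_lit 15270449410) (.nd (nat_lit 15270449346) (.lf (nat_lit 0x2)) (.lf (nat_lit 0x0))) (.nd (nat_lit 15270449411) (.lf (nat_lit 0x2)) (.lf (nat_lit 0x0)))) (.nd (nat_lit 15270453442) (.nd (nat_lit 15270453441) (.lf (nat_lit 0x4)) (.lf (nat_lit 0x2))) (.nd (nat_lit 15270453632) (.lf (nat_lit 0x0)) (.lf (nat_lit 0x4)))))) (.nd (nat_lit 15270703363) (.nd (nat_lit 15270699329) (.nd (nat_lit 15270457538) (.nd (nat_lit 15270457537) (.lf (nat_lit 0x0)) (.lf (nat_lit 0x2))) (.nd (nat_lit 15270457664) (.lf (nat_lit 0x0)) (.lf (nat_lit 0x4)))) (.nd (nat_lit 15270699332) (.nd (nat_lit 15270699331) (.lf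 (nat_lit 0x2)) (.lf (nat_lit 0x1))) (.nd (nat_lit 15270703361) (.lf (nat_lit 0x4)) (.lf (nat_lit 0x2))))) (.nd (nat_lit 15270707393) (.nd (nat_lit 15270703427) (.nd (nat_lit 15270703426) (.lf (nat_lit 0x0)) (.lf (nat_lit 0x2))) (.nd (nat_lit 15270703490) (.lf (nat_lit 0x0)) (.lf (nat_lit 0x4)))) (.nd (nat_lit 15270707457) (.nd (nat_lit 15270707394) (.lf (nat_lit 0x2)) (.lf (nat_lit 0x4))) (.nd (nat_lit 15270707459) (.lf (nat_lit 0x2)) (.lf (nat_lit 0x0))))))))
noncomputable def jdir_1 : BT := (.nd (nat_lit 15286968513) (.nd (nat_lit 15286698048) (.nd (nat_lit 15270715648) (.nd (nat_lit 15270711554) (.nd (nat_lit 15270711490) (.nd (nat_lit 15270711489) (.lf (nat_lit 0x4)) (.lf (nat_lit 0x2))) (.nd (nat_lit 15270711553) (.lf (nat_lit 0x0)) (.lf (nat_lit 0x2)))) (.nd (nat_lit 15270715585) (.nd (nat_lit 15270711680) (.lf (nat_lit 0x0)) (.lf (nat_lit 0x4))) (.nd (nat_lit 15270715586) (.lf (nat_lit 0x2)) (.lf (nat_lit 0x0))))) (.nd (nat_lit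 15270719744) (.nd (nat_lit 15270715712) (.nd (nat_lit 15270715649) (.lf (nat_lit 0x4)) (.lf (nat_lit 0x0))) (.nd (nat_lit 15270719681) (.lf (nat_lit 0x4)) (.lf (nat_lit 0x0)))) (.nd (nat_lit 15286436164) (.nd (nat_lit 15286415424) (.lf (nat_lit 0x4)) (.lf (nat_lit 0x1))) (.nd (nat_lit 15286436290) (.lf (nat_lit 0x0)) (.lf (nat_lit 0x4)))))) (.nd (nat_lit 15286956355) (.nd (nat_lit 15286702528) (.nd (nat_lit 15286702336) (.nd (nat_lit 15286698433) (.lf (nat_lit 0x0)) (.lf (nat_lit 0x4))) (.nd (nat_lit 15286702339) (.lf (nat_lit 0x2)) (.lf (nat_lit 0x0)))) (.nd (nat_lit 15286952260) (.nd (nat_lit 15286952000) (.lf (nat_lit 0x4)) (.lf (nat_lit 0x1))) (.nd (nat_lit 15286956352) (.lf (nat_lit 0x4)) (.lf (nat_lit 0x2))))) (.nd (nat_lit 15286960576) (.nd (nat_lit 15286960384) (.nd (nat_lit 15286956418) (.lf (nat_lit 0x0)) (.lf (nat_lit 0x4))) (.nd (nat_lit 15286960387) (.lf (nat_lit 0x2)) (.lf (nat_lit 0x0)))) (.nd (nat_lit 15286964418) (.nd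 (nat_lit 15286964417) (.lf (nat_lit 0x4)) (.lf (nat_lit 0x2))) (.nd (nat_lit 15286964608) (.lf (nat_lit 0x0)) (.lf (nat_lit 0x4))))))) (.nd (nat_lit 15287230656) (.nd (nat_lit 15287218561) (.nd (nat_lit 15287214402) (.nd (nat_lit 15286968640) (.nd (nat_lit 15286968514) (.lf (nat_lit 0x2)) (.lf (nat_lit 0x0))) (.nd (nat_lit 15287214400) (.lf (nat_lit 0x4)) (.lf (nat_lit 0x0)))) (.nd (nat_lit 15287218433) (.nd (nat_lit 15287214403) (.lf (nat_lit 0x2)) (.lf (nat_lit 0x4))) (.nd (nat_lit 15287218435) (.lf (nat_lit 0x2)) (.lf (nat_lit 0x0))))) (.nd (nat_lit 15287222656) (.nd (nat_lit 15287222466) (.nd (nat_lit 15287222465) (.lf (nat_lit 0x4)) (.lf (nat_lit 0x2))) (.nd (nat_lit 15287222528) (.lf (nat_lit 0x4)) (.lf (nat_lit 0x0)))) (.nd (nat_lit 15287226562) (.nd (nat_lit 15287226561) (.lf (nat_lit 0x4)) (.lf (nat_lit 0x2))) (.nd (nat_lit 15287226688) (.lf (nat_lit 0x0)) (.lf (nat_lit 0x4)))))) (.nd (nat_lit 15287476481) (.nd (nat_lit 15287472384)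 (.nd (nat_lit 15287234689) (.nd (nat_lit 15287230720) (.lf (nat_lit 0x0)) (.lf (nat_lit 0x4))) (.nd (nat_lit 15287234752) (.lf (nat_lit 0x0)) (.lf (nat_lit 0x4)))) (.nd (nat_lit 15287476417) (.nd (nat_lit 15287472387) (.lf (nat_lit 0x2)) (.lf (nat_lit 0x4))) (.nd (nat_lit 15287476418) (.lf (nat_lit 0x2)) (.lf (nat_lit 0x4))))) (.nd (nat_lit 15287480513) (.nd (nat_lit 15287476544) (.nd (nat_lit 15287476483) (.lf (nat_lit 0x2)) (.lf (nat_lit 0x4))) (.nd (nat_lit 15287476546) (.lf (nat_lit 0x0)) (.lf (nat_lit 0x4)))) (.nd (nat_lit 15287480577) (.nd (nat_lit 15287480514) (.lf (nat_lit 0x2)) (.lf (nat_lit 0x4))) (.nd (nat_lit 15287480578) (.lf (nat_lit 0x2)) (.lf (nat_lit 0x0))))))))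
noncomputable def jdir_2 : BT := (.nd (nat_lit 15303213504) (.nd (nat_lit 15287738689) (.nd (nat_lit 15287734465) (.nd (nat_lit 15287488704) (.nd (nat_lit 15287484610) (.nd (nat_lit 15287484609) (.lf (nat_lit 0x4)) (.lf (nat_lit 0x2))) (.nd (nat_lit 15287484736) (.lf (nat_lit 0x0)) (.lf (nat_lit 0x4)))) (.nd (nat_lit 15287730369) (.nd (nat_lit 15287488768) (.lf (nat_lit 0x0)) (.lf (nat_lit 0x4))) (.nd (nat_lit 15287730370) (.lf (nat_lit 0x2)) (.lf (nat_lit 0x4))))) (.nd (nat_lit 15287738561) (.nd (nat_lit 15287734529) (.nd (nat_lit 15287734466) (.lf (nat_lit 0x2)) (.lf (nat_lit 0x4))) (.nd (nat_lit 15287734531) (.lf (nat_lit 0x2)) (.lf (nat_lit 0x4)))) (.nd (nat_lit 15287738625) (.nd (nat_lit 15287738562) (.lf (nat_lit 0x2)) (.lf (nat_lit 0x4))) (.nd (nat_lit 15287738626) (.lf (nat_lit 0x2)) (.lf (nat_lit 0x0)))))) (.nd (nat_lit 15303204928) (.nd (nat_lit 15287746752) (.nd (nat_lit 15287742658) (.nd (nat_lit 15287742657) (.lf (nat_lit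 0x4)) (.lf (nat_lit 0x2))) (.nd (nat_lit 15287742784) (.lf (nat_lit 0x0)) (.lf (nat_lit 0x4)))) (.nd (nat_lit 15287750785) (.nd (nat_lit 15287746816) (.lf (nat_lit 0x0)) (.lf (nat_lit 0x4))) (.nd (nat_lit 15287750848) (.lf (nat_lit 0x0)) (.lf (nat_lit 0x4))))) (.nd (nat_lit 15303209346) (.nd (nat_lit 15303209024) (.nd (nat_lit 15303205188) (.lf (nat_lit 0x1)) (.lf (nat_lit 0x4))) (.nd (nat_lit 15303209283) (.lf (nat_lit 0x2)) (.lf (nat_lit 0x0)))) (.nd (nat_lit 15303213315) (.nd (nat_lit 15303213312) (.lf (nat_lit 0x4)) (.lf (nat_lit 0x2))) (.nd (nat_lit 15303213376) (.lf (nat_lit 0x4)) (.lf (nat_lit 0x0))))))) (.nd (nat_lit 15303729408) (.nd (nat_lit 15303475394) (.nd (nat_lit 15303471363) (.nd (nat_lit 15303467331) (.nd (nat_lit 15303467328) (.lf (nat_lit 0x4)) (.lf (nat_lit 0x2))) (.nd (nat_lit 15303471360) (.lf (nat_lit 0x4)) (.lf (nat_lit 0x2)))) (.nd (nat_lit 15303471489) (.nd (nat_lit 15303471424) (.lf (nat_lit 0x4)) (.lf (nat_lit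 0x0))) (.nd (nat_lit 15303475393) (.lf (nat_lit 0x4)) (.lf (nat_lit 0x2))))) (.nd (nat_lit 15303479489) (.nd (nat_lit 15303475458) (.nd (nat_lit 15303475457) (.lf (nat_lit 0x4)) (.lf (nat_lit 0x2))) (.nd (nat_lit 15303475584) (.lf (nat_lit 0x0)) (.lf (nat_lit 0x4)))) (.nd (nat_lit 15303479552) (.nd (nat_lit 15303479490) (.lf (nat_lit 0x2)) (.lf (nat_lit 0x4))) (.nd (nat_lit 15303479616) (.lf (nat_lit 0x0)) (.lf (nat_lit 0x4)))))) (.nd (nat_lit 15303733632) (.nd (nat_lit 15303733441) (.nd (nat_lit 15303729473) (.nd (nat_lit 15303729411) (.lf (nat_lit 0x2)) (.lf (nat_lit 0x4))) (.nd (nat_lit 15303729474) (.lf (nat_lit 0x2)) (.lf (nat_lit 0x4)))) (.nd (nat_lit 15303733505) (.nd (nat_lit 15303733442) (.lf (nat_lit 0x2)) (.lf (nat_lit 0x4))) (.nd (nat_lit 15303733506) (.lf (nat_lit 0x2)) (.lf (nat_lit 0x0))))) (.nd (nat_lit 15303737664) (.nd (nat_lit 15303737538) (.nd (nat_lit 15303737537) (.lf (nat_lit 0x4)) (.lf (nat_lit 0x2))) (.nd (nat_lit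 15303737601) (.lf (nat_lit 0x4)) (.lf (nat_lit 0x0)))) (.nd (nat_lit 15303741696) (.nd (nat_lit 15303741633) (.lf (nat_lit 0x4)) (.lf (nat_lit 0x0))) (.nd (nat_lit 15303987393) (.lf (nat_lit 0x4)) (.lf (nat_lit 0x2))))))))
noncomputable def jdir_3 : BT := (.nd (nat_lit 15319724291) (.nd (nat_lit 15304249538) (.nd (nat_lit 15303991617) (.nd (nat_lit 15303991490) (.nd (nat_lit 15303987459) (.nd (nat_lit 15303987457) (.lf (nat_lit 0x4)) (.lf (nat_lit 0x2))) (.nd (nat_lit 15303991489) (.lf (nat_lit 0x4)) (.lf (nat_lit 0x2)))) (.nd (nat_lit 15303991554) (.nd (nat_lit 15303991553) (.lf (nat_lit 0x4)) (.lf (nat_lit 0x2))) (.nd (nat_lit 15303991616) (.lf (nat_lit 0x4)) (.lf (nat_lit 0x0))))) (.nd (nat_lit 15303995712) (.nd (nat_lit 15303995586) (.nd (nat_lit 15303995585) (.lf (nat_lit 0x4)) (.lf (nat_lit 0x2))) (.nd (nat_lit 15303995649) (.lf (nat_lit 0x4)) (.lf (nat_lit 0x0)))) (.nd (nat_lit 15304245442) (.nd (nat_lit 15304245441) (.lf (nat_lit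 0x4)) (.lf (nat_lit 0x2))) (.nd (nat_lit 15304249537) (.lf (nat_lit 0x4)) (.lf (nat_lit 0x2)))))) (.nd (nat_lit 15304511682) (.nd (nat_lit 15304253634) (.nd (nat_lit 15304249602) (.nd (nat_lit 15304249601) (.lf (nat_lit 0x4)) (.lf (nat_lit 0x2))) (.nd (nat_lit 15304253633) (.lf (nat_lit 0x4)) (.lf (nat_lit 0x2)))) (.nd (nat_lit 15304507586) (.nd (nat_lit 15304507585) (.lf (nat_lit 0x4)) (.lf (nat_lit 0x2))) (.nd (nat_lit 15304511681) (.lf (nat_lit 0x4)) (.lf (nat_lit 0x2))))) (.nd (nat_lit 15319458116) (.nd (nat_lit 15304769730) (.nd (nat_lit 15304769729) (.lf (nat_lit 0x4)) (.lf (nat_lit 0x2))) (.nd (nat_lit 15319458112) (.lf (nat_lit 0x4)) (.lf (nat_lit 0x1)))) (.nd (nat_lit 15319720259) (.nd (nat_lit 15319720256) (.lf (nat_lit 0x4)) (.lf (nat_lit 0x2))) (.nd (nat_lit 15319724288) (.lf (nat_lit 0x4)) (.lf (nat_lit 0x2))))))) (.nd (nat_lit 15320240387) (.nd (nat_lit 15319986370) (.nd (nat_lit 15319982339) (.nd (nat_lit 15319724354)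 (.nd (nat_lit 15319724352) (.lf (nat_lit 0x4)) (.lf (nat_lit 0x2))) (.nd (nat_lit 15319982336) (.lf (nat_lit 0x4)) (.lf (nat_lit 0x2)))) (.nd (nat_lit 15319982402) (.nd (nat_lit 15319982401) (.lf (nat_lit 0x4)) (.lf (nat_lit 0x2))) (.nd (nat_lit 15319986368) (.lf (nat_lit 0x4)) (.lf (nat_lit 0x2))))) (.nd (nat_lit 15319986560) (.nd (nat_lit 15319986434) (.nd (nat_lit 15319986433) (.lf (nat_lit 0x4)) (.lf (nat_lit 0x2))) (.nd (nat_lit 15319986497) (.lf (nat_lit 0x4)) (.lf (nat_lit 0x0)))) (.nd (nat_lit 15319990466) (.nd (nat_lit 15319990465) (.lf (nat_lit 0x4)) (.lf (nat_lit 0x2))) (.nd (nat_lit 15320240384) (.lf (nat_lit 0x4)) (.lf (nat_lit 0x2)))))) (.nd (nat_lit 15320498370) (.nd (nat_lit 15320244482) (.nd (nat_lit 15320244418) (.nd (nat_lit 15320244417) (.lf (nat_lit 0x4)) (.lf (nat_lit 0x2))) (.nd (nat_lit 15320244481) (.lf (nat_lit 0x4)) (.lf (nat_lit 0x2)))) (.nd (nat_lit 15320248514) (.nd (nat_lit 15320248513) (.lf (nat_lit 0x4))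 (.lf (nat_lit 0x2))) (.nd (nat_lit 15320498369) (.lf (nat_lit 0x4)) (.lf (nat_lit 0x2))))) (.nd (nat_lit 15320502530) (.nd (nat_lit 15320502466) (.nd (nat_lit 15320502465) (.lf (nat_lit 0x4)) (.lf (nat_lit 0x2))) (.nd (nat_lit 15320502529) (.lf (nat_lit 0x4)) (.lf (nat_lit 0x2)))) (.nd (nat_lit 15320506562) (.nd (nat_lit 15320506561) (.lf (nat_lit 0x4)) (.lf (nat_lit 0x2))) (.nd (nat_lit 15320760513) (.lf (nat_lit 0x4)) (.lf (nat_lit 0x2))))))))
noncomputable def jdir_4 : BT := (.nd (nat_lit 15352742082) (.nd (nat_lit 15336751298) (.nd (nat_lit 15336235330) (.nd (nat_lit 15321022658) (.nd (nat_lit 15320764610) (.nd (nat_lit 15320764609) (.lf (nat_lit 0x4)) (.lf (nat_lit 0x2))) (.nd (nat_lit 15321022657) (.lf (nat_lit 0x4)) (.lf (nat_lit 0x2)))) (.nd (nat_lit 15336235267) (.nd (nat_lit 15336235265) (.lf (nat_lit 0x4)) (.lf (nat_lit 0x2))) (.nd (nat_lit 15336235329) (.lf (nat_lit 0x4)) (.lf (nat_lit 0x2))))) (.nd (nat_lit 15336497410)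 (.nd (nat_lit 15336497346) (.nd (nat_lit 15336497345) (.lf (nat_lit 0x4)) (.lf (nat_lit 0x2))) (.nd (nat_lit 15336497409) (.lf (nat_lit 0x4)) (.lf (nat_lit 0x2)))) (.nd (nat_lit 15336501442) (.nd (nat_lit 15336501441) (.lf (nat_lit 0x4)) (.lf (nat_lit 0x2))) (.nd (nat_lit 15336751297) (.lf (nat_lit 0x4)) (.lf (nat_lit 0x2)))))) (.nd (nat_lit 15337013442) (.nd (nat_lit 15336755458) (.nd (nat_lit 15336755394) (.nd (nat_lit 15336755393) (.lf (nat_lit 0x4)) (.lf (nat_lit 0x2))) (.nd (nat_lit 15336755457) (.lf (nat_lit 0x4)) (.lf (nat_lit 0x2)))) (.nd (nat_lit 15336759490) (.nd (nat_lit 15336759489) (.lf (nat_lit 0x4)) (.lf (nat_lit 0x2))) (.nd (nat_lit 15337013441) (.lf (nat_lit 0x4)) (.lf (nat_lit 0x2))))) (.nd (nat_lit 15337275586) (.nd (nat_lit 15337017538) (.nd (nat_lit 15337017537) (.lf (nat_lit 0x4)) (.lf (nat_lit 0x2))) (.nd (nat_lit 15337275585) (.lf (nat_lit 0x4)) (.lf (nat_lit 0x2)))) (.nd (nat_lit 15352479938) (.nd (nat_lit 15352479937)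 (.lf (nat_lit 0x4)) (.lf (nat_lit 0x2))) (.nd (nat_lit 15352742081) (.lf (nat_lit 0x4)) (.lf (nat_lit 0x2))))))) (.nd (nat_lit 15369257154) (.nd (nat_lit 15353012418) (.nd (nat_lit 15353008322) (.nd (nat_lit 15353004226) (.nd (nat_lit 15353004225) (.lf (nat_lit 0x4)) (.lf (nat_lit 0x2))) (.nd (nat_lit 15353008321) (.lf (nat_lit 0x4)) (.lf (nat_lit 0x2)))) (.nd (nat_lit 15353008386) (.nd (nat_lit 15353008385) (.lf (nat_lit 0x4)) (.lf (nat_lit 0x2))) (.nd (nat_lit 15353012417) (.lf (nat_lit 0x4)) (.lf (nat_lit 0x2))))) (.nd (nat_lit 15353270466) (.nd (nat_lit 15353266370) (.nd (nat_lit 15353266369) (.lf (nat_lit 0x4)) (.lf (nat_lit 0x2))) (.nd (nat_lit 15353270465) (.lf (nat_lit 0x4)) (.lf (nat_lit 0x2)))) (.nd (nat_lit 15353528514) (.nd (nat_lit 15353528513) (.lf (nat_lit 0x4)) (.lf (nat_lit 0x2))) (.nd (nat_lit 15369257153) (.lf (nat_lit 0x4)) (.lf (nat_lit 0x2)))))) (.nd (nat_lit 15386034370) (.nd (nat_lit 15369523394) (.nd (nat_lit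 15369519298) (.nd (nat_lit 15369519297) (.lf (nat_lit 0x4)) (.lf (nat_lit 0x2))) (.nd (nat_lit 15369523393) (.lf (nat_lit 0x4)) (.lf (nat_lit 0x2)))) (.nd (nat_lit 15369781442) (.nd (nat_lit 15369781441) (.lf (nat_lit 0x4)) (.lf (nat_lit 0x2))) (.nd (nat_lit 15386034369) (.lf (nat_lit 0x4)) (.lf (nat_lit 0x2))))) (.nd (nat_lit 17415807040) (.nd (nat_lit 17398767680) (.nd (nat_lit 15452610624) (.lf (nat_lit 0x4)) (.lf (nat_lit 0x5))) (.nd (nat_lit 17400898118) (.lf (nat_lit 0x0)) (.lf (nat_lit 0x5)))) (.nd (nat_lit 17432846400) (.nd (nat_lit 17418207808) (.lf (nat_lit 0x0)) (.lf (nat_lit 0x5))) (.nd (nat_lit 17434984896) (.lf (nat_lit 0x0)) (.lf (nat_lit 0x5))))))))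
noncomputable def jdir_5 : BT := (.nd (nat_lit 17468235840) (.nd (nat_lit 17452027968) (.nd (nat_lit 17451761728) (.nd (nat_lit 17435250752) (.nd (nat_lit 17435246656) (.nd (nat_lit 17435242944) (.lf (nat_lit 0x0)) (.lf (nat_lit 0x5))) (.nd (nat_lit 17435246976) (.lf (nat_lit 0x0)) (.lf (nat_lit 0x5)))) (.nd (nat_lit 17449885760) (.nd (nat_lit 17435251008) (.lf (nat_lit 0x0)) (.lf (nat_lit 0x5))) (.nd (nat_lit 17451757952) (.lf (nat_lit 0x0)) (.lf (nat_lit 0x5))))) (.nd (nat_lit 17452019776) (.nd (nat_lit 17451982912) (.nd (nat_lit 17451761984) (.lf (nat_lit 0x0)) (.lf (nat_lit 0x5))) (.nd (nat_lit 17452016000) (.lf (nat_lit 0x0)) (.lf (nat_lit 0x5)))) (.nd (nat_lit 17452023872) (.nd (nat_lit 17452020032) (.lf (nat_lit 0x0)) (.lf (nat_lit 0x5))) (.nd (nat_lit 17452024064) (.lf (nat_lit 0x0)) (.lf (nat_lit 0x5)))))) (.nd (nat_lit 17452281920) (.nd (nat_lit 17452273728) (.nd (nat_lit 17452249152) (.nd (nat_lit 17452028096) (.lf (nat_lit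 0x0)) (.lf (nat_lit 0x5))) (.nd (nat_lit 17452270016) (.lf (nat_lit 0x0)) (.lf (nat_lit 0x5)))) (.nd (nat_lit 17452277888) (.nd (nat_lit 17452274048) (.lf (nat_lit 0x0)) (.lf (nat_lit 0x5))) (.nd (nat_lit 17452278080) (.lf (nat_lit 0x0)) (.lf (nat_lit 0x5))))) (.nd (nat_lit 17452286081) (.nd (nat_lit 17452286016) (.nd (nat_lit 17452282112) (.lf (nat_lit 0x0)) (.lf (nat_lit 0x5))) (.nd (nat_lit 17452286080) (.lf (nat_lit 0x0)) (.lf (nat_lit 0x5)))) (.nd (nat_lit 17467973696) (.nd (nat_lit 17452286144) (.lf (nat_lit 0x0)) (.lf (nat_lit 0x5))) (.nd (nat_lit 17468006848) (.lf (nat_lit 0x0)) (.lf (nat_lit 0x5))))))) (.nd (nat_lit 17468796992) (.nd (nat_lit 17468538944) (.nd (nat_lit 17468530752) (.nd (nat_lit 17468497984) (.nd (nat_lit 17468272960) (.lf (nat_lit 0x0)) (.lf (nat_lit 0x5))) (.nd (nat_lit 17468526976) (.lf (nat_lit 0x0)) (.lf (nat_lit 0x5)))) (.nd (nat_lit 17468534848) (.nd (nat_lit 17468531008) (.lf (nat_lit 0x0)) (.lf (nat_lit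 0x5))) (.nd (nat_lit 17468535040) (.lf (nat_lit 0x0)) (.lf (nat_lit 0x5))))) (.nd (nat_lit 17468788800) (.nd (nat_lit 17468764224) (.nd (nat_lit 17468539072) (.lf (nat_lit 0x0)) (.lf (nat_lit 0x5))) (.nd (nat_lit 17468785024) (.lf (nat_lit 0x0)) (.lf (nat_lit 0x5)))) (.nd (nat_lit 17468792896) (.nd (nat_lit 17468789056) (.lf (nat_lit 0x0)) (.lf (nat_lit 0x5))) (.nd (nat_lit 17468793088) (.lf (nat_lit 0x0)) (.lf (nat_lit 0x5)))))) (.nd (nat_lit 17469051008) (.nd (nat_lit 17469042752) (.nd (nat_lit 17468801088) (.nd (nat_lit 17468797120) (.lf (nat_lit 0x0)) (.lf (nat_lit 0x5))) (.nd (nat_lit 17468801152) (.lf (nat_lit 0x0)) (.lf (nat_lit 0x5)))) (.nd (nat_lit 17469046912) (.nd (nat_lit 17469043072) (.lf (nat_lit 0x0)) (.lf (nat_lit 0x5))) (.nd (nat_lit 17469047104) (.lf (nat_lit 0x0)) (.lf (nat_lit 0x5))))) (.nd (nat_lit 17469059136) (.nd (nat_lit 17469055040) (.nd (nat_lit 17469051136) (.lf (nat_lit 0x0)) (.lf (nat_lit 0x5))) (.nd (nat_lit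 17469055168) (.lf (nat_lit 0x0)) (.lf (nat_lit 0x5)))) (.nd (nat_lit 17469296768) (.nd (nat_lit 17469059200) (.lf (nat_lit 0x0)) (.lf (nat_lit 0x5))) (.nd (nat_lit 17469296899) (.lf (nat_lit 0x3)) (.lf (nat_lit 0x5))))))))
noncomputable def jdir_6 : BT := (.nd (nat_lit 17485561984) (.nd (nat_lit 17485049984) (.nd (nat_lit 17469317184) (.nd (nat_lit 17469309057) (.nd (nat_lit 17469304960) (.nd (nat_lit 17469301057) (.lf (nat_lit 0x0)) (.lf (nat_lit 0x5))) (.nd (nat_lit 17469305152) (.lf (nat_lit 0x0)) (.lf (nat_lit 0x5)))) (.nd (nat_lit 17469313088) (.nd (nat_lit 17469309184) (.lf (nat_lit 0x0)) (.lf (nat_lit 0x5))) (.nd (nat_lit 17469313216) (.lf (nat_lit 0x0)) (.lf (nat_lit 0x5))))) (.nd (nat_lit 17485013056) (.nd (nat_lit 17484750912) (.nd (nat_lit 17469317248) (.lf (nat_lit 0x0)) (.lf (nat_lit 0x5))) (.nd (nat_lit 17484783936) (.lf (nat_lit 0x0)) (.lf (nat_lit 0x5)))) (.nd (nat_lit 17485045888) (.nd (nat_lit 17485041984) (.lf (nat_lit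 0x0)) (.lf (nat_lit 0x5))) (.nd (nat_lit 17485046016) (.lf (nat_lit 0x0)) (.lf (nat_lit 0x5)))))) (.nd (nat_lit 17485308033) (.nd (nat_lit 17485299776) (.nd (nat_lit 17485279296) (.nd (nat_lit 17485050048) (.lf (nat_lit 0x0)) (.lf (nat_lit 0x5))) (.nd (nat_lit 17485296000) (.lf (nat_lit 0x0)) (.lf (nat_lit 0x5)))) (.nd (nat_lit 17485303936) (.nd (nat_lit 17485300032) (.lf (nat_lit 0x0)) (.lf (nat_lit 0x5))) (.nd (nat_lit 17485304064) (.lf (nat_lit 0x0)) (.lf (nat_lit 0x5))))) (.nd (nat_lit 17485553728) (.nd (nat_lit 17485312064) (.nd (nat_lit 17485308096) (.lf (nat_lit 0x0)) (.lf (nat_lit 0x5))) (.nd (nat_lit 17485312128) (.lf (nat_lit 0x0)) (.lf (nat_lit 0x5)))) (.nd (nat_lit 17485557824) (.nd (nat_lit 17485553984) (.lf (nat_lit 0x0)) (.lf (nat_lit 0x5))) (.nd (nat_lit 17485558080) (.lf (nat_lit 0x0)) (.lf (nat_lit 0x5))))))) (.nd (nat_lit 17486078144) (.nd (nat_lit 17485820160) (.nd (nat_lit 17485816000) (.nd (nat_lit 17485566081)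 (.nd (nat_lit 17485562112) (.lf (nat_lit 0x0)) (.lf (nat_lit 0x5))) (.nd (nat_lit 17485566144) (.lf (nat_lit 0x0)) (.lf (nat_lit 0x5)))) (.nd (nat_lit 17485816128) (.nd (nat_lit 17485816002) (.lf (nat_lit 0x3)) (.lf (nat_lit 0x0))) (.nd (nat_lit 17485820033) (.lf (nat_lit 0x5)) (.lf (nat_lit 0x0))))) (.nd (nat_lit 17486069954) (.nd (nat_lit 17485824192) (.nd (nat_lit 17485824129) (.lf (nat_lit 0x5)) (.lf (nat_lit 0x0))) (.nd (nat_lit 17486069952) (.lf (nat_lit 0x5)) (.lf (nat_lit 0x3)))) (.nd (nat_lit 17486074050) (.nd (nat_lit 17486074049) (.lf (nat_lit 0x5)) (.lf (nat_lit 0x3))) (.nd (nat_lit 17486074113) (.lf (nat_lit 0x0)) (.lf (nat_lit 0x5)))))) (.nd (nat_lit 17501270080) (.nd (nat_lit 17486332097) (.nd (nat_lit 17486082177) (.nd (nat_lit 17486078208) (.lf (nat_lit 0x0)) (.lf (nat_lit 0x5))) (.nd (nat_lit 17486082240) (.lf (nat_lit 0x0)) (.lf (nat_lit 0x5)))) (.nd (nat_lit 17501007936) (.nd (nat_lit 17486332098) (.lf (nat_lit 0x3))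 (.lf (nat_lit 0x5))) (.nd (nat_lit 17501028800) (.lf (nat_lit 0x0)) (.lf (nat_lit 0x5))))) (.nd (nat_lit 17501552704) (.nd (nat_lit 17501532224) (.nd (nat_lit 17501294912) (.lf (nat_lit 0x0)) (.lf (nat_lit 0x5))) (.nd (nat_lit 17501548928) (.lf (nat_lit 0x0)) (.lf (nat_lit 0x5)))) (.nd (nat_lit 17501556800) (.nd (nat_lit 17501552960) (.lf (nat_lit 0x0)) (.lf (nat_lit 0x5))) (.nd (nat_lit 17501556992) (.lf (nat_lit 0x0)) (.lf (nat_lit 0x5))))))))
noncomputable def jdir_7 : BT := (.nd (nat_lit 17518071937) (.nd (nat_lit 17502327040) (.nd (nat_lit 17502068864) (.nd (nat_lit 17501814912) (.nd (nat_lit 17501810752) (.nd (nat_lit 17501561024) (.lf (nat_lit 0x0)) (.lf (nat_lit 0x5))) (.nd (nat_lit 17501811008) (.lf (nat_lit 0x0)) (.lf (nat_lit 0x5)))) (.nd (nat_lit 17501819009) (.nd (nat_lit 17501815040) (.lf (nat_lit 0x0)) (.lf (nat_lit 0x5))) (.nd (nat_lit 17501819072) (.lf (nat_lit 0x0)) (.lf (nat_lit 0x5))))) (.nd (nat_lit 17502077057)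 (.nd (nat_lit 17502073024) (.nd (nat_lit 17502069056) (.lf (nat_lit 0x0)) (.lf (nat_lit 0x5))) (.nd (nat_lit 17502073088) (.lf (nat_lit 0x0)) (.lf (nat_lit 0x5)))) (.nd (nat_lit 17502326976) (.nd (nat_lit 17502077120) (.lf (nat_lit 0x0)) (.lf (nat_lit 0x5))) (.nd (nat_lit 17502326978) (.lf (nat_lit 0x3)) (.lf (nat_lit 0x5)))))) (.nd (nat_lit 17517789248) (.nd (nat_lit 17502335105) (.nd (nat_lit 17502331072) (.nd (nat_lit 17502327041) (.lf (nat_lit 0x0)) (.lf (nat_lit 0x5))) (.nd (nat_lit 17502331136) (.lf (nat_lit 0x0)) (.lf (nat_lit 0x5)))) (.nd (nat_lit 17502585025) (.nd (nat_lit 17502335168) (.lf (nat_lit 0x0)) (.lf (nat_lit 0x5))) (.nd (nat_lit 17502585026) (.lf (nat_lit 0x3)) (.lf (nat_lit 0x5))))) (.nd (nat_lit 17518063680) (.nd (nat_lit 17517805632) (.nd (nat_lit 17517801856) (.lf (nat_lit 0x0)) (.lf (nat_lit 0x5))) (.nd (nat_lit 17517805888) (.lf (nat_lit 0x0)) (.lf (nat_lit 0x5)))) (.nd (nat_lit 17518067904) (.nd (nat_lit 17518063936)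 (.lf (nat_lit 0x0)) (.lf (nat_lit 0x5))) (.nd (nat_lit 17518067968) (.lf (nat_lit 0x0)) (.lf (nat_lit 0x5))))))) (.nd (nat_lit 17567596737) (.nd (nat_lit 17518837952) (.nd (nat_lit 17518325952) (.nd (nat_lit 17518321728) (.nd (nat_lit 17518072000) (.lf (nat_lit 0x0)) (.lf (nat_lit 0x5))) (.nd (nat_lit 17518321984) (.lf (nat_lit 0x0)) (.lf (nat_lit 0x5)))) (.nd (nat_lit 17518584001) (.nd (nat_lit 17518326016) (.lf (nat_lit 0x0)) (.lf (nat_lit 0x5))) (.nd (nat_lit 17518584064) (.lf (nat_lit 0x0)) (.lf (nat_lit 0x5))))) (.nd (nat_lit 17535090880) (.nd (nat_lit 17534316608) (.nd (nat_lit 17518837954) (.lf (nat_lit 0x3)) (.lf (nat_lit 0x5))) (.nd (nat_lit 17534316864) (.lf (nat_lit 0x0)) (.lf (nat_lit 0x5)))) (.nd (nat_lit 17551343808) (.nd (nat_lit 17535090882) (.lf (nat_lit 0x3)) (.lf (nat_lit 0x5))) (.nd (nat_lit 17551343810) (.lf (nat_lit 0x3)) (.lf (nat_lit 0x5)))))) (.nd (nat_lit 19616821440) (.nd (nat_lit 17650425920) (.nd (nat_lit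 17583849665) (.nd (nat_lit 17567596738) (.lf (nat_lit 0x3)) (.lf (nat_lit 0x5))) (.nd (nat_lit 17583849666) (.lf (nat_lit 0x3)) (.lf (nat_lit 0x5)))) (.nd (nat_lit 19599778240) (.nd (nat_lit 19596845120) (.lf (nat_lit 0x6)) (.lf (nat_lit 0x0))) (.nd (nat_lit 19613884480) (.lf (nat_lit 0x6)) (.lf (nat_lit 0x0))))) (.nd (nat_lit 19633586432) (.nd (nat_lit 19633328384) (.nd (nat_lit 19630661696) (.lf (nat_lit 0x6)) (.lf (nat_lit 0x0))) (.nd (nat_lit 19633332288) (.lf (nat_lit 0x6)) (.lf (nat_lit 0x0)))) (.nd (nat_lit 19633598528) (.nd (nat_lit 19633590336) (.lf (nat_lit 0x6)) (.lf (nat_lit 0x0))) (.nd (nat_lit 19633807424) (.lf (nat_lit 0x6)) (.lf (nat_lit 0x0))))))))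
noncomputable def jdir_8 : BT := (.nd (nat_lit 19666616448) (.nd (nat_lit 19650367552) (.nd (nat_lit 19649843392) (.nd (nat_lit 19633848512) (.nd (nat_lit 19633844480) (.nd (nat_lit 19633844288) (.lf (nat_lit 0x6)) (.lf (nat_lit 0x0))) (.nd (nat_lit 19633848384) (.lf (nat_lit 0x6)) (.lf (nat_lit 0x0)))) (.nd (nat_lit 19633852544) (.nd (nat_lit 19633852480) (.lf (nat_lit 0x6)) (.lf (nat_lit 0x0))) (.nd (nat_lit 19647701056) (.lf (nat_lit 0x6)) (.lf (nat_lit 0x0))))) (.nd (nat_lit 19650105472) (.nd (nat_lit 19650101440) (.nd (nat_lit 19650101312) (.lf (nat_lit 0x6)) (.lf (nat_lit 0x0))) (.nd (nat_lit 19650105408) (.lf (nat_lit 0x6)) (.lf (nat_lit 0x0)))) (.nd (nat_lit 19650359488) (.nd (nat_lit 19650359360) (.lf (nat_lit 0x6)) (.lf (nat_lit 0x0))) (.nd (nat_lit 19650363456) (.lf (nat_lit 0x6)) (.lf (nat_lit 0x0)))))) (.nd (nat_lit 19650867520) (.nd (nat_lit 19650617536) (.nd (nat_lit 19650613504) (.nd (nat_lit 19650584640) (.lf (nat_lit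 0x6)) (.lf (nat_lit 0x0))) (.nd (nat_lit 19650617408) (.lf (nat_lit 0x6)) (.lf (nat_lit 0x0)))) (.nd (nat_lit 19650621568) (.nd (nat_lit 19650621504) (.lf (nat_lit 0x6)) (.lf (nat_lit 0x0))) (.nd (nat_lit 19650867264) (.lf (nat_lit 0x6)) (.lf (nat_lit 0x0))))) (.nd (nat_lit 19650875584) (.nd (nat_lit 19650871552) (.nd (nat_lit 19650871360) (.lf (nat_lit 0x6)) (.lf (nat_lit 0x0))) (.nd (nat_lit 19650875456) (.lf (nat_lit 0x6)) (.lf (nat_lit 0x0)))) (.nd (nat_lit 19650883648) (.nd (nat_lit 19650879552) (.lf (nat_lit 0x6)) (.lf (nat_lit 0x0))) (.nd (nat_lit 19666616384) (.lf (nat_lit 0x6)) (.lf (nat_lit 0x0))))))) (.nd (nat_lit 19667390592) (.nd (nat_lit 19667132544) (.nd (nat_lit 19666874496) (.nd (nat_lit 19666870464) (.nd (nat_lit 19666837568) (.lf (nat_lit 0x6)) (.lf (nat_lit 0x0))) (.nd (nat_lit 19666874432) (.lf (nat_lit 0x6)) (.lf (nat_lit 0x0)))) (.nd (nat_lit 19667128512) (.nd (nat_lit 19667128384) (.lf (nat_lit 0x6)) (.lf (nat_lit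 0x0))) (.nd (nat_lit 19667132480) (.lf (nat_lit 0x6)) (.lf (nat_lit 0x0))))) (.nd (nat_lit 19667382528) (.nd (nat_lit 19667378496) (.nd (nat_lit 19667378240) (.lf (nat_lit 0x6)) (.lf (nat_lit 0x0))) (.nd (nat_lit 19667382336) (.lf (nat_lit 0x6)) (.lf (nat_lit 0x0)))) (.nd (nat_lit 19667386560) (.nd (nat_lit 19667386432) (.lf (nat_lit 0x6)) (.lf (nat_lit 0x0))) (.nd (nat_lit 19667390528) (.lf (nat_lit 0x6)) (.lf (nat_lit 0x0)))))) (.nd (nat_lit 19667648640) (.nd (nat_lit 19667640576) (.nd (nat_lit 19667636480) (.nd (nat_lit 19667636352) (.lf (nat_lit 0x6)) (.lf (nat_lit 0x0))) (.nd (nat_lit 19667640448) (.lf (nat_lit 0x6)) (.lf (nat_lit 0x0)))) (.nd (nat_lit 19667644608) (.nd (nat_lit 19667644480) (.lf (nat_lit 0x6)) (.lf (nat_lit 0x0))) (.nd (nat_lit 19667648576) (.lf (nat_lit 0x6)) (.lf (nat_lit 0x0))))) (.nd (nat_lit 19667898624) (.nd (nat_lit 19667894466) (.nd (nat_lit 19667894465) (.lf (nat_lit 0x6)) (.lf (nat_lit 0x4))) (.nd (nat_lit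 19667898497) (.lf (nat_lit 0x6)) (.lf (nat_lit 0x0)))) (.nd (nat_lit 19667902656) (.nd (nat_lit 19667902593) (.lf (nat_lit 0x6)) (.lf (nat_lit 0x0))) (.nd (nat_lit 19683127360) (.lf (nat_lit 0x6)) (.lf (nat_lit 0x0))))))))
noncomputable def jdir_9 : BT := (.nd (nat_lit 19700404480) (.nd (nat_lit 19684155584) (.nd (nat_lit 19683893504) (.nd (nat_lit 19683639488) (.nd (nat_lit 19683385472) (.nd (nat_lit 19683385408) (.lf (nat_lit 0x6)) (.lf (nat_lit 0x0))) (.nd (nat_lit 19683639360) (.lf (nat_lit 0x6)) (.lf (nat_lit 0x0)))) (.nd (nat_lit 19683643520) (.nd (nat_lit 19683643456) (.lf (nat_lit 0x6)) (.lf (nat_lit 0x0))) (.nd (nat_lit 19683893312) (.lf (nat_lit 0x6)) (.lf (nat_lit 0x0))))) (.nd (nat_lit 19683901568) (.nd (nat_lit 19683897536) (.nd (nat_lit 19683897472) (.lf (nat_lit 0x6)) (.lf (nat_lit 0x0))) (.nd (nat_lit 19683901504) (.lf (nat_lit 0x6)) (.lf (nat_lit 0x0)))) (.nd (nat_lit 19684151552) (.nd (nat_lit 19684151424) (.lf (nat_lit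 0x6)) (.lf (nat_lit 0x0))) (.nd (nat_lit 19684155521) (.lf (nat_lit 0x6)) (.lf (nat_lit 0x0)))))) (.nd (nat_lit 19699638400) (.nd (nat_lit 19684409537) (.nd (nat_lit 19684159616) (.nd (nat_lit 19684159552) (.lf (nat_lit 0x6)) (.lf (nat_lit 0x0))) (.nd (nat_lit 19684409536) (.lf (nat_lit 0x6)) (.lf (nat_lit 0x0)))) (.nd (nat_lit 19684413632) (.nd (nat_lit 19684413569) (.lf (nat_lit 0x6)) (.lf (nat_lit 0x0))) (.nd (nat_lit 19699638336) (.lf (nat_lit 0x6)) (.lf (nat_lit 0x0))))) (.nd (nat_lit 19700150464) (.nd (nat_lit 19699896448) (.nd (nat_lit 19699896384) (.lf (nat_lit 0x6)) (.lf (nat_lit 0x0))) (.nd (nat_lit 19700150336) (.lf (nat_lit 0x6)) (.lf (nat_lit 0x0)))) (.nd (nat_lit 19700154496) (.nd (nat_lit 19700154432) (.lf (nat_lit 0x6)) (.lf (nat_lit 0x0))) (.nd (nat_lit 19700404288) (.lf (nat_lit 0x6)) (.lf (nat_lit 0x0))))))) (.nd (nat_lit 21832147008) (.nd (nat_lit 19781664962) (.nd (nat_lit 19716657408) (.nd (nat_lit 19700408512)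 (.nd (nat_lit 19700408448) (.lf (nat_lit 0x6)) (.lf (nat_lit 0x0))) (.nd (nat_lit 19716657216) (.lf (nat_lit 0x6)) (.lf (nat_lit 0x0)))) (.nd (nat_lit 19716661440) (.nd (nat_lit 19716661376) (.lf (nat_lit 0x6)) (.lf (nat_lit 0x0))) (.nd (nat_lit 19781664961) (.lf (nat_lit 0x6)) (.lf (nat_lit 0x4))))) (.nd (nat_lit 21811699776) (.nd (nat_lit 21794922560) (.nd (nat_lit 19848241216) (.lf (nat_lit 0x6)) (.lf (nat_lit 0x7))) (.nd (nat_lit 21798391872) (.lf (nat_lit 0x0)) (.lf (nat_lit 0x7)))) (.nd (nat_lit 21828739136) (.nd (nat_lit 21815418944) (.lf (nat_lit 0x0)) (.lf (nat_lit 0x7))) (.nd (nat_lit 21831929920) (.lf (nat_lit 0x0)) (.lf (nat_lit 0x7)))))) (.nd (nat_lit 21848952896) (.nd (nat_lit 21845516352) (.nd (nat_lit 21832437824) (.nd (nat_lit 21832187968) (.lf (nat_lit 0x0)) (.lf (nat_lit 0x7))) (.nd (nat_lit 21832446016) (.lf (nat_lit 0x0)) (.lf (nat_lit 0x7)))) (.nd (nat_lit 21848662080) (.nd (nat_lit 21848440896) (.lf (nat_lit 0x0))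 (.lf (nat_lit 0x7))) (.nd (nat_lit 21848698944) (.lf (nat_lit 0x0)) (.lf (nat_lit 0x7))))) (.nd (nat_lit 21849210944) (.nd (nat_lit 21849206848) (.nd (nat_lit 21848956992) (.lf (nat_lit 0x0)) (.lf (nat_lit 0x7))) (.nd (nat_lit 21849206976) (.lf (nat_lit 0x0)) (.lf (nat_lit 0x7)))) (.nd (nat_lit 21849460864) (.nd (nat_lit 21849211008) (.lf (nat_lit 0x0)) (.lf (nat_lit 0x7))) (.nd (nat_lit 21849460992) (.lf (nat_lit 0x0)) (.lf (nat_lit 0x7))))))))
noncomputable def jdir_10 : BT := (.nd (nat_lit 23979954240) (.nd (nat_lit 21865971840) (.nd (nat_lit 21865177152) (.nd (nat_lit 21862555712) (.nd (nat_lit 21849468992) (.nd (nat_lit 21849465024) (.lf (nat_lit 0x0)) (.lf (nat_lit 0x7))) (.nd (nat_lit 21849469056) (.lf (nat_lit 0x0)) (.lf (nat_lit 0x7)))) (.nd (nat_lit 21864915008) (.nd (nat_lit 21864693824) (.lf (nat_lit 0x0)) (.lf (nat_lit 0x7))) (.nd (nat_lit 21864951872) (.lf (nat_lit 0x0)) (.lf (nat_lit 0x7))))) (.nd (nat_lit 21865717824)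 (.nd (nat_lit 21865463872) (.nd (nat_lit 21865209920) (.lf (nat_lit 0x0)) (.lf (nat_lit 0x7))) (.nd (nat_lit 21865463936) (.lf (nat_lit 0x0)) (.lf (nat_lit 0x7)))) (.nd (nat_lit 21865721920) (.nd (nat_lit 21865717952) (.lf (nat_lit 0x0)) (.lf (nat_lit 0x7))) (.nd (nat_lit 21865721984) (.lf (nat_lit 0x0)) (.lf (nat_lit 0x7)))))) (.nd (nat_lit 21881974848) (.nd (nat_lit 21865979968) (.nd (nat_lit 21865975936) (.nd (nat_lit 21865971904) (.lf (nat_lit 0x0)) (.lf (nat_lit 0x7))) (.nd (nat_lit 21865976000) (.lf (nat_lit 0x0)) (.lf (nat_lit 0x7)))) (.nd (nat_lit 21866233985) (.nd (nat_lit 21865980032) (.lf (nat_lit 0x0)) (.lf (nat_lit 0x7))) (.nd (nat_lit 21866234048) (.lf (nat_lit 0x0)) (.lf (nat_lit 0x7))))) (.nd (nat_lit 21882232896) (.nd (nat_lit 21882228800) (.nd (nat_lit 21881974912) (.lf (nat_lit 0x0)) (.lf (nat_lit 0x7))) (.nd (nat_lit 21882228928) (.lf (nat_lit 0x0)) (.lf (nat_lit 0x7)))) (.nd (nat_lit 22046056512) (.nd (nat_lit 21882232960)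 (.lf (nat_lit 0x0)) (.lf (nat_lit 0x7))) (.nd (nat_lit 23975960640) (.lf (nat_lit 0x8)) (.lf (nat_lit 0x0))))))) (.nd (nat_lit 24031035456) (.nd (nat_lit 24030519360) (.nd (nat_lit 24013750336) (.nd (nat_lit 23996981312) (.nd (nat_lit 23992737856) (.lf (nat_lit 0x8)) (.lf (nat_lit 0x0))) (.nd (nat_lit 24009515072) (.lf (nat_lit 0x8)) (.lf (nat_lit 0x0)))) (.nd (nat_lit 24014008384) (.nd (nat_lit 24013971520) (.lf (nat_lit 0x8)) (.lf (nat_lit 0x0))) (.nd (nat_lit 24030486592) (.lf (nat_lit 0x8)) (.lf (nat_lit 0x0))))) (.nd (nat_lit 24031023360) (.nd (nat_lit 24030777408) (.nd (nat_lit 24030748736) (.lf (nat_lit 0x8)) (.lf (nat_lit 0x0))) (.nd (nat_lit 24031023168) (.lf (nat_lit 0x8)) (.lf (nat_lit 0x0)))) (.nd (nat_lit 24031027392) (.nd (nat_lit 24031027264) (.lf (nat_lit 0x8)) (.lf (nat_lit 0x0))) (.nd (nat_lit 24031031360) (.lf (nat_lit 0x8)) (.lf (nat_lit 0x0)))))) (.nd (nat_lit 24047796416) (.nd (nat_lit 24047288384) (.nd (nat_lit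 24047030336) (.nd (nat_lit 24047001664) (.lf (nat_lit 0x8)) (.lf (nat_lit 0x0))) (.nd (nat_lit 24047267904) (.lf (nat_lit 0x8)) (.lf (nat_lit 0x0)))) (.nd (nat_lit 24047542400) (.nd (nat_lit 24047542336) (.lf (nat_lit 0x8)) (.lf (nat_lit 0x0))) (.nd (nat_lit 24047796353) (.lf (nat_lit 0x8)) (.lf (nat_lit 0x0))))) (.nd (nat_lit 24064049344) (.nd (nat_lit 24047800448) (.nd (nat_lit 24047800384) (.lf (nat_lit 0x8)) (.lf (nat_lit 0x0))) (.nd (nat_lit 24064049280) (.lf (nat_lit 0x8)) (.lf (nat_lit 0x0)))) (.nd (nat_lit 24064053376) (.nd (nat_lit 24064053312) (.lf (nat_lit 0x8)) (.lf (nat_lit 0x0))) (.nd (nat_lit 24243871808) (.lf (nat_lit 0x8)) (.lf (nat_lit 0x9))))))))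
noncomputable def jdir_11 : BT := (.nd (nat_lit 28473303104) (.nd (nat_lit 28394135616) (.nd (nat_lit 26229092416) (.nd (nat_lit 26212311104) (.nd (nat_lit 26190553152) (.nd (nat_lit 26144489536) (.lf (nat_lit 0x0)) (.lf (nat_lit 0x9))) (.nd (nat_lit 26195570752) (.lf (nat_lit 0x0)) (.lf (nat_lit 0x9)))) (.nd (nat_lit 26212577344) (.nd (nat_lit 26212339776) (.lf (nat_lit 0x0)) (.lf (nat_lit 0x9))) (.nd (nat_lit 26212597824) (.lf (nat_lit 0x0)) (.lf (nat_lit 0x9))))) (.nd (nat_lit 26229362752) (.nd (nat_lit 26229358720) (.nd (nat_lit 26229108800) (.lf (nat_lit 0x0)) (.lf (nat_lit 0x9))) (.nd (nat_lit 26229358784) (.lf (nat_lit 0x0)) (.lf (nat_lit 0x9)))) (.nd (nat_lit 26441687104) (.nd (nat_lit 26229362816) (.lf (nat_lit 0x0)) (.lf (nat_lit 0x9))) (.nd (nat_lit 28388630592) (.lf (nat_lit 0xa)) (.lf (nat_lit 0xb)))))) (.nd (nat_lit 28422185024) (.nd (nat_lit 28410929216) (.nd (nat_lit 28405407808) (.nd (nat_lit 28394160192) (.lf (nat_lit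 0x0)) (.lf (nat_lit 0xa))) (.nd (nat_lit 28410925120) (.lf (nat_lit 0xb)) (.lf (nat_lit 0x0)))) (.nd (nat_lit 28411183232) (.nd (nat_lit 28411183168) (.lf (nat_lit 0xb)) (.lf (nat_lit 0x0))) (.nd (nat_lit 28411187264) (.lf (nat_lit 0xb)) (.lf (nat_lit 0xa))))) (.nd (nat_lit 28439224384) (.nd (nat_lit 28427436160) (.nd (nat_lit 28427436096) (.lf (nat_lit 0xb)) (.lf (nat_lit 0x0))) (.nd (nat_lit 28428214336) (.lf (nat_lit 0xb)) (.lf (nat_lit 0xa)))) (.nd (nat_lit 28456263744) (.nd (nat_lit 28444467264) (.lf (nat_lit 0xb)) (.lf (nat_lit 0xa))) (.nd (nat_lit 28460720192) (.lf (nat_lit 0xb)) (.lf (nat_lit 0xa))))))) (.nd (nat_lit 30439457600) (.nd (nat_lit 28541468736) (.nd (nat_lit 28507906112) (.nd (nat_lit 28490342464) (.nd (nat_lit 28476973120) (.lf (nat_lit 0xb)) (.lf (nat_lit 0xa))) (.nd (nat_lit 28493226048) (.lf (nat_lit 0xb)) (.lf (nat_lit 0xa)))) (.nd (nat_lit 28524687424) (.nd (nat_lit 28509478976) (.lf (nat_lit 0xb)) (.lf (nat_lit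 0xa))) (.nd (nat_lit 28525731904) (.lf (nat_lit 0xb)) (.lf (nat_lit 0xa))))) (.nd (nat_lit 30405370948) (.nd (nat_lit 28639502400) (.nd (nat_lit 28541984832) (.lf (nat_lit 0xb)) (.lf (nat_lit 0xa))) (.nd (nat_lit 30401372224) (.lf (nat_lit 0xc)) (.lf (nat_lit 0x0)))) (.nd (nat_lit 30422414400) (.nd (nat_lit 30418149440) (.lf (nat_lit 0xc)) (.lf (nat_lit 0x0))) (.nd (nat_lit 30434930752) (.lf (nat_lit 0xc)) (.lf (nat_lit 0x0)))))) (.nd (nat_lit 30507606208) (.nd (nat_lit 30473544000) (.nd (nat_lit 30456500800) (.nd (nat_lit 30451707968) (.lf (nat_lit 0xc)) (.lf (nat_lit 0x0))) (.nd (nat_lit 30468485184) (.lf (nat_lit 0xc)) (.lf (nat_lit 0x0)))) (.nd (nat_lit 30490579136) (.nd (nat_lit 30485262464) (.lf (nat_lit 0xc)) (.lf (nat_lit 0x0))) (.nd (nat_lit 30502039680) (.lf (nat_lit 0xc)) (.lf (nat_lit 0x0))))) (.nd (nat_lit 30541660352) (.nd (nat_lit 30524633280) (.nd (nat_lit 30519074880) (.lf (nat_lit 0xc)) (.lf (nat_lit 0x0))) (.nd (nat_lit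 30535852096) (.lf (nat_lit 0xc)) (.lf (nat_lit 0x0)))) (.nd (nat_lit 30558687424) (.nd (nat_lit 30552629312) (.lf (nat_lit 0xc)) (.lf (nat_lit 0x0))) (.nd (nat_lit 30569406528) (.lf (nat_lit 0xc)) (.lf (nat_lit 0x0))))))))
noncomputable def jdir_12 : BT := (.nd (nat_lit 32621028032) (.nd (nat_lit 30671118400) (.nd (nat_lit 30603223104) (.nd (nat_lit 30592491584) (.nd (nat_lit 30591451328) (.nd (nat_lit 30586445888) (.lf (nat_lit 0xc)) (.lf (nat_lit 0x0))) (.nd (nat_lit 30592475200) (.lf (nat_lit 0xd)) (.lf (nat_lit 0x0)))) (.nd (nat_lit 30592745600) (.nd (nat_lit 30592745536) (.lf (nat_lit 0xd)) (.lf (nat_lit 0x0))) (.nd (nat_lit 30592749632) (.lf (nat_lit 0xd)) (.lf (nat_lit 0xc))))) (.nd (nat_lit 30637039680) (.nd (nat_lit 30620262464) (.nd (nat_lit 30609776704) (.lf (nat_lit 0xd)) (.lf (nat_lit 0xc))) (.nd (nat_lit 30626029632) (.lf (nat_lit 0xd)) (.lf (nat_lit 0xc)))) (.nd (nat_lit 30654079040) (.nd (nat_lit 30642282560) (.lf (nat_lit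 0xd)) (.lf (nat_lit 0xc))) (.nd (nat_lit 30658535488) (.lf (nat_lit 0xd)) (.lf (nat_lit 0xc)))))) (.nd (nat_lit 30739284032) (.nd (nat_lit 30705721408) (.nd (nat_lit 30688157760) (.nd (nat_lit 30674788416) (.lf (nat_lit 0xd)) (.lf (nat_lit 0xc))) (.nd (nat_lit 30691041344) (.lf (nat_lit 0xd)) (.lf (nat_lit 0xc)))) (.nd (nat_lit 30722502720) (.nd (nat_lit 30707294272) (.lf (nat_lit 0xd)) (.lf (nat_lit 0xc))) (.nd (nat_lit 30723547200) (.lf (nat_lit 0xd)) (.lf (nat_lit 0xc))))) (.nd (nat_lit 32586941632) (.nd (nat_lit 30837317696) (.nd (nat_lit 30739800128) (.lf (nat_lit 0xd)) (.lf (nat_lit 0xc))) (.nd (nat_lit 32582410304) (.lf (nat_lit 0xe)) (.lf (nat_lit 0x0)))) (.nd (nat_lit 32603984832) (.nd (nat_lit 32599191616) (.lf (nat_lit 0xe)) (.lf (nat_lit 0x0))) (.nd (nat_lit 32615968832) (.lf (nat_lit 0xe)) (.lf (nat_lit 0x0))))))) (.nd (nat_lit 32790818944) (.nd (nat_lit 32689168576) (.nd (nat_lit 32655114432) (.nd (nat_lit 32638051072)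 (.nd (nat_lit 32632746048) (.lf (nat_lit 0xe)) (.lf (nat_lit 0x0))) (.nd (nat_lit 32649523328) (.lf (nat_lit 0xe)) (.lf (nat_lit 0x0)))) (.nd (nat_lit 32672141504) (.nd (nat_lit 32666300544) (.lf (nat_lit 0xe)) (.lf (nat_lit 0x0))) (.nd (nat_lit 32683077760) (.lf (nat_lit 0xe)) (.lf (nat_lit 0x0))))) (.nd (nat_lit 32774307904) (.nd (nat_lit 32740257856) (.nd (nat_lit 32733667392) (.lf (nat_lit 0xe)) (.lf (nat_lit 0x0))) (.nd (nat_lit 32767483968) (.lf (nat_lit 0xe)) (.lf (nat_lit 0xf)))) (.nd (nat_lit 32784261184) (.nd (nat_lit 32774312000) (.lf (nat_lit 0x0)) (.lf (nat_lit 0xe))) (.nd (nat_lit 32790818880) (.lf (nat_lit 0xf)) (.lf (nat_lit 0x0)))))) (.nd (nat_lit 32851894336) (.nd (nat_lit 32818077760) (.nd (nat_lit 32801038400) (.nd (nat_lit 32791339072) (.lf (nat_lit 0xf)) (.lf (nat_lit 0xe))) (.nd (nat_lit 32807592000) (.lf (nat_lit 0xf)) (.lf (nat_lit 0xe)))) (.nd (nat_lit 32834854976) (.nd (nat_lit 32823844928) (.lf (nat_lit 0xf))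 (.lf (nat_lit 0xe))) (.nd (nat_lit 32840097856) (.lf (nat_lit 0xf)) (.lf (nat_lit 0xe))))) (.nd (nat_lit 32885973056) (.nd (nat_lit 32868933696) (.nd (nat_lit 32856350784) (.lf (nat_lit 0xf)) (.lf (nat_lit 0xe))) (.nd (nat_lit 32872603712) (.lf (nat_lit 0xf)) (.lf (nat_lit 0xe)))) (.nd (nat_lit 32903536704) (.nd (nat_lit 32888856640) (.lf (nat_lit 0xf)) (.lf (nat_lit 0xe))) (.nd (nat_lit 32905109568) (.lf (nat_lit 0xf)) (.lf (nat_lit 0xe))))))))
noncomputable def jdir_13 : BT := (.nd (nat_lit 35049709632) (.nd (nat_lit 34921820224) (.nd (nat_lit 34853711936) (.nd (nat_lit 33035132992) (.nd (nat_lit 32937099328) (.nd (nat_lit 32921362496) (.lf (nat_lit 0xf)) (.lf (nat_lit 0xe))) (.nd (nat_lit 32937615424) (.lf (nat_lit 0xf)) (.lf (nat_lit 0xe)))) (.nd (nat_lit 34836684864) (.nd (nat_lit 34830561408) (.lf (nat_lit 0x10)) (.lf (nat_lit 0x0))) (.nd (nat_lit 34847338624) (.lf (nat_lit 0x10)) (.lf (nat_lit 0x0))))) (.nd (nat_lit 34887766080)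 (.nd (nat_lit 34870739008) (.nd (nat_lit 34864115840) (.lf (nat_lit 0x10)) (.lf (nat_lit 0x0))) (.nd (nat_lit 34881151040) (.lf (nat_lit 0x10)) (.lf (nat_lit 0x0)))) (.nd (nat_lit 34904793152) (.nd (nat_lit 34897928256) (.lf (nat_lit 0x10)) (.lf (nat_lit 0x0))) (.nd (nat_lit 34914705472) (.lf (nat_lit 0x10)) (.lf (nat_lit 0x0)))))) (.nd (nat_lit 34982076480) (.nd (nat_lit 34955866176) (.nd (nat_lit 34938331200) (.nd (nat_lit 34931482688) (.lf (nat_lit 0x10)) (.lf (nat_lit 0x0))) (.nd (nat_lit 34948522048) (.lf (nat_lit 0x10)) (.lf (nat_lit 0x11)))) (.nd (nat_lit 34965299264) (.nd (nat_lit 34955874368) (.lf (nat_lit 0x0)) (.lf (nat_lit 0x10))) (.nd (nat_lit 34972901440) (.lf (nat_lit 0x11)) (.lf (nat_lit 0x10))))) (.nd (nat_lit 35015893056) (.nd (nat_lit 34998853696) (.nd (nat_lit 34989154368) (.lf (nat_lit 0x11)) (.lf (nat_lit 0x10))) (.nd (nat_lit 35005407296) (.lf (nat_lit 0x11)) (.lf (nat_lit 0x10)))) (.nd (nat_lit 35032670272) (.nd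 (nat_lit 35021660224) (.lf (nat_lit 0x11)) (.lf (nat_lit 0x10))) (.nd (nat_lit 35037913152) (.lf (nat_lit 0x11)) (.lf (nat_lit 0x10))))))) (.nd (nat_lit 37035274304) (.nd (nat_lit 35118129216) (.nd (nat_lit 35083788352) (.nd (nat_lit 35066748992) (.nd (nat_lit 35054166080) (.lf (nat_lit 0x11)) (.lf (nat_lit 0x10))) (.nd (nat_lit 35070419008) (.lf (nat_lit 0x11)) (.lf (nat_lit 0x10)))) (.nd (nat_lit 35101352000) (.nd (nat_lit 35086671936) (.lf (nat_lit 0x11)) (.lf (nat_lit 0x10))) (.nd (nat_lit 35102924864) (.lf (nat_lit 0x11)) (.lf (nat_lit 0x10))))) (.nd (nat_lit 35232948288) (.nd (nat_lit 35134914624) (.nd (nat_lit 35119177792) (.lf (nat_lit 0x11)) (.lf (nat_lit 0x10))) (.nd (nat_lit 35135430720) (.lf (nat_lit 0x11)) (.lf (nat_lit 0x10)))) (.nd (nat_lit 37018247232) (.nd (nat_lit 37011599488) (.lf (nat_lit 0x12)) (.lf (nat_lit 0x0))) (.nd (nat_lit 37028376704) (.lf (nat_lit 0x12)) (.lf (nat_lit 0x0)))))) (.nd (nat_lit 37154463808)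 (.nd (nat_lit 37103382592) (.nd (nat_lit 37052301376) (.nd (nat_lit 37045153921) (.lf (nat_lit 0x12)) (.lf (nat_lit 0x0))) (.nd (nat_lit 37095743552) (.lf (nat_lit 0x12)) (.lf (nat_lit 0x0)))) (.nd (nat_lit 37137424448) (.nd (nat_lit 37129297984) (.lf (nat_lit 0x12)) (.lf (nat_lit 0x13))) (.nd (nat_lit 37146337344) (.lf (nat_lit 0x12)) (.lf (nat_lit 0x13))))) (.nd (nat_lit 37186969664) (.nd (nat_lit 37170716736) (.nd (nat_lit 37163114560) (.lf (nat_lit 0x12)) (.lf (nat_lit 0x13))) (.nd (nat_lit 37179891776) (.lf (nat_lit 0x12)) (.lf (nat_lit 0x13)))) (.nd (nat_lit 37203222592) (.nd (nat_lit 37196931136) (.lf (nat_lit 0x12)) (.lf (nat_lit 0x13))) (.nd (nat_lit 37213708352) (.lf (nat_lit 0x12)) (.lf (nat_lit 0x13))))))))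
noncomputable def jdir_14 : BT := (.nd (nat_lit 39377707072) (.nd (nat_lit 39159083136) (.nd (nat_lit 37284487232) (.nd (nat_lit 37251981376) (.nd (nat_lit 37235728448) (.nd (nat_lit 37230747712) (.lf (nat_lit 0x12)) (.lf (nat_lit 0x13))) (.nd (nat_lit 37247524928) (.lf (nat_lit 0x12)) (.lf (nat_lit 0x13)))) (.nd (nat_lit 37268234304) (.nd (nat_lit 37264564288) (.lf (nat_lit 0x12)) (.lf (nat_lit 0x13))) (.nd (nat_lit 37281603648) (.lf (nat_lit 0x12)) (.lf (nat_lit 0x13))))) (.nd (nat_lit 37316993088) (.nd (nat_lit 37300740160) (.nd (nat_lit 37298905152) (.lf (nat_lit 0x12)) (.lf (nat_lit 0x13))) (.nd (nat_lit 37315944512) (.lf (nat_lit 0x12)) (.lf (nat_lit 0x13)))) (.nd (nat_lit 37333246016) (.nd (nat_lit 37332729920) (.lf (nat_lit 0x12)) (.lf (nat_lit 0x13))) (.nd (nat_lit 37430763584) (.lf (nat_lit 0x12)) (.lf (nat_lit 0x14)))))) (.nd (nat_lit 39276781632) (.nd (nat_lit 39192637568) (.nd (nat_lit 39175860352) (.nd (nat_lit 39165739328)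 (.lf (nat_lit 0x0)) (.lf (nat_lit 0x14))) (.nd (nat_lit 39182774464) (.lf (nat_lit 0x0)) (.lf (nat_lit 0x14)))) (.nd (nat_lit 39209414785) (.nd (nat_lit 39199027392) (.lf (nat_lit 0x0)) (.lf (nat_lit 0x14))) (.nd (nat_lit 39215538368) (.lf (nat_lit 0x0)) (.lf (nat_lit 0x14))))) (.nd (nat_lit 39344152640) (.nd (nat_lit 39327375424) (.nd (nat_lit 39284944960) (.lf (nat_lit 0x0)) (.lf (nat_lit 0x14))) (.nd (nat_lit 39336026176) (.lf (nat_lit 0x15)) (.lf (nat_lit 0x14)))) (.nd (nat_lit 39360929856) (.nd (nat_lit 39352279104) (.lf (nat_lit 0x15)) (.lf (nat_lit 0x14))) (.nd (nat_lit 39368532032) (.lf (nat_lit 0x15)) (.lf (nat_lit 0x14))))))) (.nd (nat_lit 39513759808) (.nd (nat_lit 39445340224) (.nd (nat_lit 39411523648) (.nd (nat_lit 39394746432) (.nd (nat_lit 39384784960) (.lf (nat_lit 0x15)) (.lf (nat_lit 0x14))) (.nd (nat_lit 39401037888) (.lf (nat_lit 0x15)) (.lf (nat_lit 0x14)))) (.nd (nat_lit 39428563008) (.nd (nat_lit 39417290816)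 (.lf (nat_lit 0x15)) (.lf (nat_lit 0x14))) (.nd (nat_lit 39433543744) (.lf (nat_lit 0x15)) (.lf (nat_lit 0x14))))) (.nd (nat_lit 39479418944) (.nd (nat_lit 39462379584) (.nd (nat_lit 39449796672) (.lf (nat_lit 0x15)) (.lf (nat_lit 0x14))) (.nd (nat_lit 39466049600) (.lf (nat_lit 0x15)) (.lf (nat_lit 0x14)))) (.nd (nat_lit 39496720448) (.nd (nat_lit 39482302528) (.lf (nat_lit 0x15)) (.lf (nat_lit 0x14))) (.nd (nat_lit 39498555456) (.lf (nat_lit 0x15)) (.lf (nat_lit 0x14)))))) (.nd (nat_lit 41278866816) (.nd (nat_lit 39628578880) (.nd (nat_lit 39530545216) (.nd (nat_lit 39514808384) (.lf (nat_lit 0x15)) (.lf (nat_lit 0x14))) (.nd (nat_lit 39531061312) (.lf (nat_lit 0x15)) (.lf (nat_lit 0x14)))) (.nd (nat_lit 41262093760) (.nd (nat_lit 41256235072) (.lf (nat_lit 0x16)) (.lf (nat_lit 0x0))) (.nd (nat_lit 41273012288) (.lf (nat_lit 0x16)) (.lf (nat_lit 0x0))))) (.nd (nat_lit 41347309760) (.nd (nat_lit 41295377792) (.nd (nat_lit 41289789504)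 (.lf (nat_lit 0x16)) (.lf (nat_lit 0x0))) (.nd (nat_lit 41340121216) (.lf (nat_lit 0x16)) (.lf (nat_lit 0x0)))) (.nd (nat_lit 41364336832) (.nd (nat_lit 41356898432) (.lf (nat_lit 0x16)) (.lf (nat_lit 0x0))) (.nd (nat_lit 41457819712) (.lf (nat_lit 0x16)) (.lf (nat_lit 0x0))))))))
noncomputable def jdir_15 : BT := (.nd (nat_lit 41696370752) (.nd (nat_lit 41566347328) (.nd (nat_lit 41500561472) (.nd (nat_lit 41500295232) (.nd (nat_lit 41483509824) (.nd (nat_lit 41474596928) (.lf (nat_lit 0x16)) (.lf (nat_lit 0x17))) (.nd (nat_lit 41491374144) (.lf (nat_lit 0x16)) (.lf (nat_lit 0x17)))) (.nd (nat_lit 41500557376) (.nd (nat_lit 41500303424) (.lf (nat_lit 0x0)) (.lf (nat_lit 0x17))) (.nd (nat_lit 41500557440) (.lf (nat_lit 0x0)) (.lf (nat_lit 0x17))))) (.nd (nat_lit 41533841472) (.nd (nat_lit 41517588544) (.nd (nat_lit 41508413504) (.lf (nat_lit 0x16)) (.lf (nat_lit 0x17))) (.nd (nat_lit 41525190720) (.lf (nat_lit 0x16)) (.lf (nat_lit 0x17))))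 (.nd (nat_lit 41550094400) (.nd (nat_lit 41541967936) (.lf (nat_lit 0x16)) (.lf (nat_lit 0x17))) (.nd (nat_lit 41558745152) (.lf (nat_lit 0x16)) (.lf (nat_lit 0x17)))))) (.nd (nat_lit 41631359040) (.nd (nat_lit 41598853184) (.nd (nat_lit 41582600256) (.nd (nat_lit 41575784512) (.lf (nat_lit 0x16)) (.lf (nat_lit 0x17))) (.nd (nat_lit 41592561728) (.lf (nat_lit 0x16)) (.lf (nat_lit 0x17)))) (.nd (nat_lit 41615106112) (.nd (nat_lit 41609338944) (.lf (nat_lit 0x16)) (.lf (nat_lit 0x17))) (.nd (nat_lit 41626378304) (.lf (nat_lit 0x16)) (.lf (nat_lit 0x17))))) (.nd (nat_lit 41663864896) (.nd (nat_lit 41647611968) (.nd (nat_lit 41643155520) (.lf (nat_lit 0x16)) (.lf (nat_lit 0x17))) (.nd (nat_lit 41660194880) (.lf (nat_lit 0x16)) (.lf (nat_lit 0x17)))) (.nd (nat_lit 41680117824) (.nd (nat_lit 41677234240) (.lf (nat_lit 0x16)) (.lf (nat_lit 0x17))) (.nd (nat_lit 41694535744) (.lf (nat_lit 0x16)) (.lf (nat_lit 0x17))))))) (.nd (nat_lit 43554713729)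 (.nd (nat_lit 43437273152) (.nd (nat_lit 41728876608) (.nd (nat_lit 41712623680) (.nd (nat_lit 41711575104) (.lf (nat_lit 0x16)) (.lf (nat_lit 0x17))) (.nd (nat_lit 41728360512) (.lf (nat_lit 0x16)) (.lf (nat_lit 0x17)))) (.nd (nat_lit 43420495936) (.nd (nat_lit 41826394176) (.lf (nat_lit 0x16)) (.lf (nat_lit 0x18))) (.nd (nat_lit 43426620992) (.lf (nat_lit 0x0)) (.lf (nat_lit 0x18))))) (.nd (nat_lit 43521159296) (.nd (nat_lit 43504382080) (.nd (nat_lit 43443394048) (.lf (nat_lit 0x0)) (.lf (nat_lit 0x18))) (.nd (nat_lit 43511836992) (.lf (nat_lit 0x0)) (.lf (nat_lit 0x18)))) (.nd (nat_lit 43537936513) (.nd (nat_lit 43528880192) (.lf (nat_lit 0x0)) (.lf (nat_lit 0x18))) (.nd (nat_lit 43545649216) (.lf (nat_lit 0x0)) (.lf (nat_lit 0x18)))))) (.nd (nat_lit 43682123840) (.nd (nat_lit 43655635008) (.nd (nat_lit 43638857792) (.nd (nat_lit 43561902144) (.lf (nat_lit 0x0)) (.lf (nat_lit 0x18))) (.nd (nat_lit 43648069696) (.lf (nat_lit 0x0))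 (.lf (nat_lit 0x18)))) (.nd (nat_lit 43672412224) (.nd (nat_lit 43665072192) (.lf (nat_lit 0x19)) (.lf (nat_lit 0x18))) (.nd (nat_lit 43682119744) (.lf (nat_lit 0x19)) (.lf (nat_lit 0x0))))) (.nd (nat_lit 43715403840) (.nd (nat_lit 43699150912) (.nd (nat_lit 43689451584) (.lf (nat_lit 0x18)) (.lf (nat_lit 0x19))) (.nd (nat_lit 43706228800) (.lf (nat_lit 0x18)) (.lf (nat_lit 0x19)))) (.nd (nat_lit 43731656768) (.nd (nat_lit 43723006016) (.lf (nat_lit 0x18)) (.lf (nat_lit 0x19))) (.nd (nat_lit 43739783232) (.lf (nat_lit 0x18)) (.lf (nat_lit 0x19))))))))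
noncomputable def jdir_16 : BT := (.nd (nat_lit 45853450304) (.nd (nat_lit 43877933120) (.nd (nat_lit 43812921408) (.nd (nat_lit 43780415552) (.nd (nat_lit 43764162624) (.nd (nat_lit 43756560448) (.lf (nat_lit 0x18)) (.lf (nat_lit 0x19))) (.nd (nat_lit 43773599808) (.lf (nat_lit 0x18)) (.lf (nat_lit 0x19)))) (.nd (nat_lit 43796668480) (.nd (nat_lit 43790377024) (.lf (nat_lit 0x18)) (.lf (nat_lit 0x19))) (.nd (nat_lit 43807416384) (.lf (nat_lit 0x18)) (.lf (nat_lit 0x19))))) (.nd (nat_lit 43845427264) (.nd (nat_lit 43829174336) (.nd (nat_lit 43824193600) (.lf (nat_lit 0x18)) (.lf (nat_lit 0x19))) (.nd (nat_lit 43841232960) (.lf (nat_lit 0x18)) (.lf (nat_lit 0x19)))) (.nd (nat_lit 43861680192) (.nd (nat_lit 43858010176) (.lf (nat_lit 0x18)) (.lf (nat_lit 0x19))) (.nd (nat_lit 43875049536) (.lf (nat_lit 0x18)) (.lf (nat_lit 0x19)))))) (.nd (nat_lit 45685420160) (.nd (nat_lit 43910438976) (.nd (nat_lit 43894186048) (.nd (nat_lit 43892351040)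 (.lf (nat_lit 0x18)) (.lf (nat_lit 0x19))) (.nd (nat_lit 43909390400) (.lf (nat_lit 0x18)) (.lf (nat_lit 0x19)))) (.nd (nat_lit 43926691904) (.nd (nat_lit 43926175808) (.lf (nat_lit 0x18)) (.lf (nat_lit 0x19))) (.nd (nat_lit 44024209472) (.lf (nat_lit 0x18)) (.lf (nat_lit 0x1a))))) (.nd (nat_lit 45718974593) (.nd (nat_lit 45702197377) (.nd (nat_lit 45693407424) (.lf (nat_lit 0x0)) (.lf (nat_lit 0x1a))) (.nd (nat_lit 45710442560) (.lf (nat_lit 0x0)) (.lf (nat_lit 0x1a)))) (.nd (nat_lit 45819895872) (.nd (nat_lit 45727469632) (.lf (nat_lit 0x0)) (.lf (nat_lit 0x1a))) (.nd (nat_lit 45829632064) (.lf (nat_lit 0x0)) (.lf (nat_lit 0x1a))))))) (.nd (nat_lit 45961977920) (.nd (nat_lit 45896966208) (.nd (nat_lit 45880193088) (.nd (nat_lit 45863686208) (.nd (nat_lit 45863682112) (.lf (nat_lit 0x1b)) (.lf (nat_lit 0x0))) (.nd (nat_lit 45870227520) (.lf (nat_lit 0x1a)) (.lf (nat_lit 0x1b)))) (.nd (nat_lit 45880713280) (.nd (nat_lit 45880193152)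 (.lf (nat_lit 0x0)) (.lf (nat_lit 0x1b))) (.nd (nat_lit 45887266880) (.lf (nat_lit 0x1a)) (.lf (nat_lit 0x1b))))) (.nd (nat_lit 45929472064) (.nd (nat_lit 45913219136) (.nd (nat_lit 45904044096) (.lf (nat_lit 0x1a)) (.lf (nat_lit 0x1b))) (.nd (nat_lit 45920821312) (.lf (nat_lit 0x1a)) (.lf (nat_lit 0x1b)))) (.nd (nat_lit 45945724992) (.nd (nat_lit 45937598528) (.lf (nat_lit 0x1a)) (.lf (nat_lit 0x1b))) (.nd (nat_lit 45954637888) (.lf (nat_lit 0x1a)) (.lf (nat_lit 0x1b)))))) (.nd (nat_lit 46026989632) (.nd (nat_lit 45994483776) (.nd (nat_lit 45978230848) (.nd (nat_lit 45971415104) (.lf (nat_lit 0x1a)) (.lf (nat_lit 0x1b))) (.nd (nat_lit 45988192320) (.lf (nat_lit 0x1a)) (.lf (nat_lit 0x1b)))) (.nd (nat_lit 46010736704) (.nd (nat_lit 46005231680) (.lf (nat_lit 0x1a)) (.lf (nat_lit 0x1b))) (.nd (nat_lit 46022008896) (.lf (nat_lit 0x1a)) (.lf (nat_lit 0x1b))))) (.nd (nat_lit 46059495488) (.nd (nat_lit 46043242560) (.nd (nat_lit 46039048256)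 (.lf (nat_lit 0x1a)) (.lf (nat_lit 0x1b))) (.nd (nat_lit 46055825472) (.lf (nat_lit 0x1a)) (.lf (nat_lit 0x1b)))) (.nd (nat_lit 46075748416) (.nd (nat_lit 46072864832) (.lf (nat_lit 0x1a)) (.lf (nat_lit 0x1b))) (.nd (nat_lit 46090166336) (.lf (nat_lit 0x1a)) (.lf (nat_lit 0x1b))))))))
noncomputable def jdir_17 : BT := (.nd (nat_lit 48127287360) (.nd (nat_lit 48000933952) (.nd (nat_lit 47849681024) (.nd (nat_lit 46124507200) (.nd (nat_lit 46108254272) (.nd (nat_lit 46107205696) (.lf (nat_lit 0x1a)) (.lf (nat_lit 0x1b))) (.nd (nat_lit 46123991104) (.lf (nat_lit 0x1a)) (.lf (nat_lit 0x1b)))) (.nd (nat_lit 46155448514) (.nd (nat_lit 46155448513) (.lf (nat_lit 0x1a)) (.lf (nat_lit 0x16))) (.nd (nat_lit 46222024768) (.lf (nat_lit 0x1a)) (.lf (nat_lit 0x1c))))) (.nd (nat_lit 47883235457) (.nd (nat_lit 47866458241) (.nd (nat_lit 47857934656) (.lf (nat_lit 0x0)) (.lf (nat_lit 0x1c))) (.nd (nat_lit 47874977856) (.lf (nat_lit 0x0)) (.lf (nat_lit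 0x1c)))) (.nd (nat_lit 47967379520) (.nd (nat_lit 47892004928) (.lf (nat_lit 0x0)) (.lf (nat_lit 0x1c))) (.nd (nat_lit 47977140288) (.lf (nat_lit 0x0)) (.lf (nat_lit 0x1c)))))) (.nd (nat_lit 48062275648) (.nd (nat_lit 48034488384) (.nd (nat_lit 48017711168) (.nd (nat_lit 48011194432) (.lf (nat_lit 0x0)) (.lf (nat_lit 0x1c))) (.nd (nat_lit 48027689280) (.lf (nat_lit 0x0)) (.lf (nat_lit 0x1c)))) (.nd (nat_lit 48045248576) (.nd (nat_lit 48045244480) (.lf (nat_lit 0x1d)) (.lf (nat_lit 0x0))) (.nd (nat_lit 48051265600) (.lf (nat_lit 0x1c)) (.lf (nat_lit 0x1d))))) (.nd (nat_lit 48094781504) (.nd (nat_lit 48078528576) (.nd (nat_lit 48068304960) (.lf (nat_lit 0x1c)) (.lf (nat_lit 0x1d))) (.nd (nat_lit 48085082176) (.lf (nat_lit 0x1c)) (.lf (nat_lit 0x1d)))) (.nd (nat_lit 48111034432) (.nd (nat_lit 48101859392) (.lf (nat_lit 0x1c)) (.lf (nat_lit 0x1d))) (.nd (nat_lit 48118636608) (.lf (nat_lit 0x1c)) (.lf (nat_lit 0x1d))))))) (.nd (nat_lit 48257310784)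 (.nd (nat_lit 48192299072) (.nd (nat_lit 48159793216) (.nd (nat_lit 48143540288) (.nd (nat_lit 48135675968) (.lf (nat_lit 0x1c)) (.lf (nat_lit 0x1d))) (.nd (nat_lit 48152453184) (.lf (nat_lit 0x1c)) (.lf (nat_lit 0x1d)))) (.nd (nat_lit 48176046144) (.nd (nat_lit 48169230400) (.lf (nat_lit 0x1c)) (.lf (nat_lit 0x1d))) (.nd (nat_lit 48186007616) (.lf (nat_lit 0x1c)) (.lf (nat_lit 0x1d))))) (.nd (nat_lit 48224804928) (.nd (nat_lit 48208552000) (.nd (nat_lit 48203046976) (.lf (nat_lit 0x1c)) (.lf (nat_lit 0x1d))) (.nd (nat_lit 48219824192) (.lf (nat_lit 0x1c)) (.lf (nat_lit 0x1d)))) (.nd (nat_lit 48241057856) (.nd (nat_lit 48236863552) (.lf (nat_lit 0x1c)) (.lf (nat_lit 0x1d))) (.nd (nat_lit 48253902912) (.lf (nat_lit 0x1c)) (.lf (nat_lit 0x1d)))))) (.nd (nat_lit 48322322496) (.nd (nat_lit 48289816640) (.nd (nat_lit 48273563712) (.nd (nat_lit 48271241280) (.lf (nat_lit 0x1c)) (.lf (nat_lit 0x1d))) (.nd (nat_lit 48287981632) (.lf (nat_lit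 0x1c)) (.lf (nat_lit 0x1d)))) (.nd (nat_lit 48306069568) (.nd (nat_lit 48305020992) (.lf (nat_lit 0x1c)) (.lf (nat_lit 0x1d))) (.nd (nat_lit 48321806400) (.lf (nat_lit 0x1c)) (.lf (nat_lit 0x1d))))) (.nd (nat_lit 50114605185) (.nd (nat_lit 50030719105) (.nd (nat_lit 48419840064) (.lf (nat_lit 0x1c)) (.lf (nat_lit 0x1e))) (.nd (nat_lit 50039505088) (.lf (nat_lit 0x0)) (.lf (nat_lit 0x1e)))) (.nd (nat_lit 50131382401) (.nd (nat_lit 50124648512) (.lf (nat_lit 0x0)) (.lf (nat_lit 0x1e))) (.nd (nat_lit 50141675584) (.lf (nat_lit 0x0)) (.lf (nat_lit 0x1e))))))))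
noncomputable def jdir_18 : BT := (.nd (nat_lit 50417639488) (.nd (nat_lit 50282897472) (.nd (nat_lit 50226806912) (.nd (nat_lit 50198749248) (.nd (nat_lit 50181972032) (.nd (nat_lit 50158702656) (.lf (nat_lit 0x0)) (.lf (nat_lit 0x1e))) (.nd (nat_lit 50192756800) (.lf (nat_lit 0x0)) (.lf (nat_lit 0x1e)))) (.nd (nat_lit 50215526464) (.nd (nat_lit 50209759296) (.lf (nat_lit 0x1f)) (.lf (nat_lit 0x1e))) (.nd (nat_lit 50226806848) (.lf (nat_lit 0x1f)) (.lf (nat_lit 0x0))))) (.nd (nat_lit 50249343040) (.nd (nat_lit 50232303680) (.nd (nat_lit 50226810944) (.lf (nat_lit 0x1f)) (.lf (nat_lit 0x1e))) (.nd (nat_lit 50243838016) (.lf (nat_lit 0x1f)) (.lf (nat_lit 0x1e)))) (.nd (nat_lit 50266120256) (.nd (nat_lit 50260090944) (.lf (nat_lit 0x1f)) (.lf (nat_lit 0x1e))) (.nd (nat_lit 50276343872) (.lf (nat_lit 0x1f)) (.lf (nat_lit 0x1e)))))) (.nd (nat_lit 50350268480) (.nd (nat_lit 50316451904) (.nd (nat_lit 50299674688) (.nd (nat_lit 50292596800)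 (.lf (nat_lit 0x1f)) (.lf (nat_lit 0x1e))) (.nd (nat_lit 50308849728) (.lf (nat_lit 0x1f)) (.lf (nat_lit 0x1e)))) (.nd (nat_lit 50333491264) (.nd (nat_lit 50325102656) (.lf (nat_lit 0x1f)) (.lf (nat_lit 0x1e))) (.nd (nat_lit 50341355584) (.lf (nat_lit 0x1f)) (.lf (nat_lit 0x1e))))) (.nd (nat_lit 50384085056) (.nd (nat_lit 50367045696) (.nd (nat_lit 50357608512) (.lf (nat_lit 0x1f)) (.lf (nat_lit 0x1e))) (.nd (nat_lit 50373861440) (.lf (nat_lit 0x1f)) (.lf (nat_lit 0x1e)))) (.nd (nat_lit 50400862272) (.nd (nat_lit 50390114368) (.lf (nat_lit 0x1f)) (.lf (nat_lit 0x1e))) (.nd (nat_lit 50406367296) (.lf (nat_lit 0x1f)) (.lf (nat_lit 0x1e))))))) (.nd (nat_lit 50617655360) (.nd (nat_lit 50485796928) (.nd (nat_lit 50451718208) (.nd (nat_lit 50434678848) (.nd (nat_lit 50422620224) (.lf (nat_lit 0x1f)) (.lf (nat_lit 0x1e))) (.nd (nat_lit 50438873152) (.lf (nat_lit 0x1f)) (.lf (nat_lit 0x1e)))) (.nd (nat_lit 50468757568) (.nd (nat_lit 50455126080)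 (.lf (nat_lit 0x1f)) (.lf (nat_lit 0x1e))) (.nd (nat_lit 50471379008) (.lf (nat_lit 0x1f)) (.lf (nat_lit 0x1e))))) (.nd (nat_lit 50519621696) (.nd (nat_lit 50502836288) (.nd (nat_lit 50487631936) (.lf (nat_lit 0x1f)) (.lf (nat_lit 0x1e))) (.nd (nat_lit 50503884864) (.lf (nat_lit 0x1f)) (.lf (nat_lit 0x1e)))) (.nd (nat_lit 50551079105) (.nd (nat_lit 50520137792) (.lf (nat_lit 0x1f)) (.lf (nat_lit 0x1e))) (.nd (nat_lit 50551079106) (.lf (nat_lit 0x1a)) (.lf (nat_lit 0x1e)))))) (.nd (nat_lit 52238102592) (.nd (nat_lit 52204032320) (.nd (nat_lit 52101773120) (.nd (nat_lit 52094316608) (.lf (nat_lit 0x20)) (.lf (nat_lit 0x0))) (.nd (nat_lit 52194979969) (.lf (nat_lit 0x20)) (.lf (nat_lit 0x0)))) (.nd (nat_lit 52221075520) (.nd (nat_lit 52211757185) (.lf (nat_lit 0x20)) (.lf (nat_lit 0x0))) (.nd (nat_lit 52228534401) (.lf (nat_lit 0x20)) (.lf (nat_lit 0x0))))) (.nd (nat_lit 52306210880) (.nd (nat_lit 52289183808) (.nd (nat_lit 52278866049)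 (.lf (nat_lit 0x20)) (.lf (nat_lit 0x0))) (.nd (nat_lit 52295643265) (.lf (nat_lit 0x20)) (.lf (nat_lit 0x0)))) (.nd (nat_lit 52323237952) (.nd (nat_lit 52312420481) (.lf (nat_lit 0x20)) (.lf (nat_lit 0x0))) (.nd (nat_lit 52329455680) (.lf (nat_lit 0x20)) (.lf (nat_lit 0x0))))))))
noncomputable def jdir_19 : BT := (.nd (nat_lit 52555423808) (.nd (nat_lit 52447158336) (.nd (nat_lit 52408369216) (.nd (nat_lit 52396564544) (.nd (nat_lit 52379787328) (.lf (nat_lit 0x20)) (.nd (nat_lit 52391321664) (.lf (nat_lit 0x21)) (.lf (nat_lit 0x20)))) (.nd (nat_lit 52408102976) (.lf (nat_lit 0x21)) (.nd (nat_lit 52408115264) (.lf (nat_lit 0x0)) (.lf (nat_lit 0x21))))) (.nd (nat_lit 52413341760) (.nd (nat_lit 52408369280) (.lf (nat_lit 0x0)) (.nd (nat_lit 52408373312) (.lf (nat_lit 0x21)) (.lf (nat_lit 0x20)))) (.nd (nat_lit 52430123072) (.nd (nat_lit 52425400384) (.lf (nat_lit 0x21)) (.lf (nat_lit 0x20))) (.nd (nat_lit 52441653312) (.lf (nat_lit 0x21))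 (.lf (nat_lit 0x20)))))) (.nd (nat_lit 52497489984) (.nd (nat_lit 52474159168) (.nd (nat_lit 52457906240) (.lf (nat_lit 0x21)) (.nd (nat_lit 52463935552) (.lf (nat_lit 0x20)) (.lf (nat_lit 0x21)))) (.nd (nat_lit 52480712768) (.lf (nat_lit 0x20)) (.nd (nat_lit 52490412096) (.lf (nat_lit 0x21)) (.lf (nat_lit 0x20))))) (.nd (nat_lit 52522917952) (.nd (nat_lit 52506665024) (.lf (nat_lit 0x21)) (.nd (nat_lit 52514529344) (.lf (nat_lit 0x20)) (.lf (nat_lit 0x21)))) (.nd (nat_lit 52539170880) (.nd (nat_lit 52531306560) (.lf (nat_lit 0x20)) (.lf (nat_lit 0x21))) (.nd (nat_lit 52548083776) (.lf (nat_lit 0x20)) (.lf (nat_lit 0x21))))))) (.nd (nat_lit 52666871872) (.nd (nat_lit 52604182592) (.nd (nat_lit 52581900352) (.nd (nat_lit 52564860992) (.lf (nat_lit 0x20)) (.nd (nat_lit 52571676736) (.lf (nat_lit 0x21)) (.lf (nat_lit 0x20)))) (.nd (nat_lit 52587929664) (.lf (nat_lit 0x21)) (.nd (nat_lit 52598677568) (.lf (nat_lit 0x20)) (.lf (nat_lit 0x21)))))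 (.nd (nat_lit 52632494144) (.nd (nat_lit 52615716928) (.lf (nat_lit 0x20)) (.nd (nat_lit 52620435520) (.lf (nat_lit 0x21)) (.lf (nat_lit 0x20)))) (.nd (nat_lit 52650360896) (.nd (nat_lit 52636688448) (.lf (nat_lit 0x21)) (.lf (nat_lit 0x20))) (.nd (nat_lit 52652941376) (.lf (nat_lit 0x21)) (.lf (nat_lit 0x20)))))) (.nd (nat_lit 52715868418) (.nd (nat_lit 52685447232) (.nd (nat_lit 52669194304) (.lf (nat_lit 0x21)) (.nd (nat_lit 52683612224) (.lf (nat_lit 0x20)) (.lf (nat_lit 0x21)))) (.nd (nat_lit 52701700160) (.nd (nat_lit 52700651584) (.lf (nat_lit 0x20)) (.lf (nat_lit 0x21))) (.nd (nat_lit 52715868224) (.lf (nat_lit 0x20)) (.lf (nat_lit 0x1c))))) (.nd (nat_lit 52717436992) (.nd (nat_lit 52715872384) (.lf (nat_lit 0x20)) (.nd (nat_lit 52715872450) (.lf (nat_lit 0x1c)) (.lf (nat_lit 0x20)))) (.nd (nat_lit 52748894401) (.nd (nat_lit 52717953088) (.lf (nat_lit 0x21)) (.lf (nat_lit 0x20))) (.nd (nat_lit 52748894402) (.lf (nat_lit 0x1c))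 (.lf (nat_lit 0x20))))))))
noncomputable def jdir : BT := (.nd (nat_lit 21849464896) (.nd (nat_lit 17435205696) (.nd (nat_lit 15287480704) (.nd (nat_lit 15270707648) jdir_0 jdir_1) (.nd (nat_lit 15303987394) jdir_2 (.nd (nat_lit 15320760514) jdir_3 jdir_4))) (.nd (nat_lit 17501560961) (.nd (nat_lit 17469300928) jdir_5 jdir_6) (.nd (nat_lit 19633840448) jdir_7 (.nd (nat_lit 19683127424) jdir_8 jdir_9)))) (.nd (nat_lit 41466507328) (.nd (nat_lit 30575198400) (.nd (nat_lit 26139963456) jdir_10 jdir_11) (.nd (nat_lit 32920318016) jdir_12 (.nd (nat_lit 37219475520) jdir_13 jdir_14))) (.nd (nat_lit 46092001344) (.nd (nat_lit 43747909696) jdir_15 jdir_16) (.nd (nat_lit 50148417600) jdir_17 (.nd (nat_lit 52340265024) jdir_18 jdir_19)))))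
noncomputable def xdt : BT := (.nd (nat_lit 28801) (.nd (nat_lit 20673) (.nd (nat_lit 16513) (.nd (nat_lit 12416) (.nd (nat_lit 8256) (.lf (nat_lit 0x2f)) (.nd (nat_lit 12352) (.lf (nat_lit 0x2f)) (.lf (nat_lit 0x2f)))) (.nd (nat_lit 16448) (.nd (nat_lit 12417) (.lf (nat_lit 0x34)) (.lf (nat_lit 0x2e))) (.nd (nat_lit 16512) (.lf (nat_lit 0x20)) (.lf (nat_lit 0x35))))) (.nd (nat_lit 20544) (.nd (nat_lit 16576) (.lf (nat_lit 0x21)) (.nd (nat_lit 16577) (.lf (nat_lit 0x2b)) (.lf (nat_lit 0x20)))) (.nd (nat_lit 20609) (.nd (nat_lit 20608) (.lf (nat_lit 0x25)) (.lf (nat_lit 0x2b))) (.nd (nat_lit 20672) (.lf (nat_lit 0x25)) (.lf (nat_lit 0x27)))))) (.nd (nat_lit 24769) (.nd (nat_lit 24640) (.nd (nat_lit 20736) (.lf (nat_lit 0x15)) (.nd (nat_lit 20737) (.lf (nat_lit 0x1b)) (.lf (nat_lit 0x25)))) (.nd (nat_lit 24705) (.nd (nat_lit 24704) (.lf (nat_lit 0x1b)) (.lf (nat_lit 0x27))) (.nd (nat_lit 24768) (.lf (nat_lit 0x11)) (.lf (nat_lit 0x1b)))))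 (.nd (nat_lit 24896) (.nd (nat_lit 24832) (.lf (nat_lit 0xc)) (.nd (nat_lit 24833) (.lf (nat_lit 0x13)) (.lf (nat_lit 0xb)))) (.nd (nat_lit 28736) (.nd (nat_lit 24897) (.lf (nat_lit 0x21)) (.lf (nat_lit 0x21))) (.nd (nat_lit 28800) (.lf (nat_lit 0x1b)) (.lf (nat_lit 0x21))))))) (.nd (nat_lit 36992) (.nd (nat_lit 32896) (.nd (nat_lit 28929) (.nd (nat_lit 28864) (.lf (nat_lit 0xb)) (.nd (nat_lit 28865) (.lf (nat_lit 0x1b)) (.lf (nat_lit 0x21)))) (.nd (nat_lit 29057) (.nd (nat_lit 28993) (.lf (nat_lit 0x14)) (.lf (nat_lit 0x11))) (.nd (nat_lit 32832) (.lf (nat_lit 0x21)) (.lf (nat_lit 0x12))))) (.nd (nat_lit 33025) (.nd (nat_lit 32897) (.lf (nat_lit 0x21)) (.nd (nat_lit 32961) (.lf (nat_lit 0x15)) (.lf (nat_lit 0x14)))) (.nd (nat_lit 33153) (.nd (nat_lit 33089) (.lf (nat_lit 0x14)) (.lf (nat_lit 0xf))) (.nd (nat_lit 36928) (.lf (nat_lit 0x1b)) (.lf (nat_lit 0x13)))))) (.nd (nat_lit 41152) (.nd (nat_lit 37121) (.nd (nat_lit 36993) (.lf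 (nat_lit 0x1d)) (.nd (nat_lit 37057) (.lf (nat_lit 0x1d)) (.lf (nat_lit 0x14)))) (.nd (nat_lit 41088) (.nd (nat_lit 41024) (.lf (nat_lit 0x16)) (.lf (nat_lit 0x13))) (.nd (nat_lit 41089) (.lf (nat_lit 0x19)) (.lf (nat_lit 0xe))))) (.nd (nat_lit 45120) (.nd (nat_lit 41153) (.lf (nat_lit 0xf)) (.nd (nat_lit 41217) (.lf (nat_lit 0xd)) (.lf (nat_lit 0x16)))) (.nd (nat_lit 49216) (.nd (nat_lit 45185) (.lf (nat_lit 0x19)) (.lf (nat_lit 0x11))) (.nd (nat_lit 49281) (.lf (nat_lit 0x17)) (.lf (nat_lit 0x13))))))))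
def jg0 : Cfg := ⟨69, 0, 50, 0, 0⟩
noncomputable def jX0 (b c d : Nat) : Nat := xdt.get (pkey 0 0 0 b c d)
noncomputable def jts : List BT := [jt0, jt1, jt2, jt3, jt4, jt5, jt6, jt7, jt8, jt9, jt10, jt11, jt12, jt13, jt14, jt15, jt16, jt17, jt18, jt19, jt20, jt21, jt22, jt23, jt24, jt25, jt26, jt27, jt28, jt29, jt30, jt31, jt32, jt33]
noncomputable def jTT (i : Nat) : BT := jts.getD i (.lf 0)
noncomputable def cert : BT := (.nd (nat_lit 620814853) (.nd (nat_lit 503382272) cert0 cert1) (.nd (nat_lit 738293121) cert2 cert3))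
noncomputable def mc : MC := ⟨⟨86, 0, 52, 0, 0⟩, XRc 24 99 99 99 0, tabs, jdir, jTT, cert⟩

end Crest.Agent.R187
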